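import Claimed.Agent.R252.Remez.Free

/-!
# ROW 252, unit S6b, the square-root sheet kit, file 1: GENERIC REAL ANALYSIS      (architect helper112; prefix `k6b_`)

PAPER-FREE, no sheets in this file.  A "jet" is a sequence `g : ℕ → ℝ → ℝ` with `HasDerivAt (g j) (g (j+1) t) t` on the interval.

MAIN RESULT `k6b_gm`: if `g m = p * w` on `[a,b]` with a polynomial `p` of degree `≤ K` and a weight `wl ≤ w ≤ ρ wl`, and `|g 0| ≤ ε` on `E ⊆ [a,b]`,
`|E| ≥ θ (b - a)`, then `|g j| (b - a)^j ≤ c θ^(-c) ρ ε` on `[a,b]` for all `j ≤ m`.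

PROOF on `[0,1]` (`k6b_gm01`).  `M + 1 = (K+1)(m+1)` SORTED points `y_0 < y_1 < ..` of `E` with gaps `≥ σ = θ / (2 (M+1))` (`k6b_nodes_sorted`).
The group `i ≤ K` consists of `y_{i(m+1)}, .., y_{i(m+1)+m}`: Lagrange interpolant + iterated Rolle (`k6b_rolle_small`) give `ζ_i` in the hull of the group with
`|g m ζ_i| ≤ C σ^(-m) ε`.  The `ζ_i` are `σ`-separated, so `k6b_poly_weight` bounds `g m = p w` on `[0,1]`.  Downwards: `k6b_rolle_small` with the first `j + 1` nodes gives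
one point where `g j` is small, `k6b_mv_down` gives the bound of `g j` from the bound of `g (j+1)`.

LEAVES `L-252-SQ-*` = the `sorry`s.  Every statement of this file may be used in the later ones.
-/

set_option autoImplicit false

namespace Claimed.Agent.R252

open MeasureTheory Polynomial

/-! ### LEAF L-252-SQ-ROLLE -/

/-- consecutive gaps.  PLAN: induction on `j`. -/
theorem k6b_gap_le (x : ℕ → ℝ) (σ : ℝ) (hσ : 0 ≤ σ) (m : ℕ) (h : ∀ i < m, x i + σ ≤ x (i + 1)) :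
    ∀ i j, i < j → j ≤ m → x i + σ ≤ x j := by
  intro i j
  induction j with
  | zero => intro hij; exact absurd hij (Nat.not_lt_zero _)
  | succ j ih =>
    intro hij hj
    rcases Nat.lt_succ_iff_lt_or_eq.1 hij with h1 | h1
    · have h2 := ih h1 (by omega)
      have h3 := h j (by omega)
      linarith
    · rw [h1]
      exact h j (by omega)

/-- ITERATED ROLLE.  PLAN: induction on `m` generalizing `h x`.  `m = 0`: `ζ = x 0`.  Step: for `i ≤ m` Rolle (`exists_hasDerivAt_eq_zero`) on `[x i, x (i+1)]` gives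
`y i ∈ Ioo (x i) (x (i+1))` with `h 1 (y i) = 0` (`choose`, or `y i := if hi : i ≤ m then Classical.choose .. else 0`); induction hypothesis for `fun j => h (j+1)` and `y`;
`Icc (y 0) (y m) ⊆ Icc (x 0) (x (m+1))` (`k6b_gap_le` with `σ = 0`). -/
theorem k6b_rolle_iter (m : ℕ) : ∀ (h : ℕ → ℝ → ℝ) (x : ℕ → ℝ), (∀ i < m, x i < x (i + 1)) →
    (∀ j < m, ∀ t ∈ Set.Icc (x 0) (x m), HasDerivAt (h j) (h (j + 1) t) t) →
    (∀ i ≤ m, h 0 (x i) = 0) → ∃ ζ ∈ Set.Icc (x 0) (x m), h m ζ = 0 := by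
  induction m with
  | zero =>
    intro h x _ _ hz
    exact ⟨x 0, ⟨le_rfl, le_rfl⟩, hz 0 le_rfl⟩
  | succ m ih =>
    intro h x hx hd hz
    have hmono : ∀ i j, i ≤ j → j ≤ m + 1 → x i ≤ x j := by
      intro i j hij hj
      rcases Nat.eq_or_lt_of_le hij with h1 | h1
      · rw [h1]
      · have := k6b_gap_le x 0 le_rfl (m + 1) (fun i hi => by linarith [hx i hi]) i j h1 hj
        linarith
    have hy : ∀ i, ∃ y, i < m + 1 → y ∈ Set.Ioo (x i) (x (i + 1)) ∧ h 1 y = 0 := by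
      intro i
      by_cases hi : i < m + 1
      · have hsub : Set.Icc (x i) (x (i + 1)) ⊆ Set.Icc (x 0) (x (m + 1)) := fun t ht =>
          ⟨(hmono 0 i (Nat.zero_le _) hi.le).trans ht.1, ht.2.trans (hmono (i + 1) (m + 1) hi le_rfl)⟩
        obtain ⟨c, hc, hc0⟩ := exists_hasDerivAt_eq_zero (f := h 0) (f' := h 1) (hx i hi)
          (fun t ht => (hd 0 (Nat.succ_pos _) t (hsub ht)).continuousAt.continuousWithinAt)
          (by rw [hz i hi.le, hz (i + 1) hi])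
          (fun t ht => hd 0 (Nat.succ_pos _) t (hsub (Set.Ioo_subset_Icc_self ht)))
        exact ⟨c, fun _ => ⟨hc, hc0⟩⟩
      · exact ⟨0, fun h' => absurd h' hi⟩
    choose y hy using hy
    have h0 := (hy 0 (Nat.succ_pos _)).1
    have hm := (hy m (Nat.lt_succ_self _)).1
    obtain ⟨ζ, hζ, hζ0⟩ := ih (fun j => h (j + 1)) y
      (fun i hi => lt_trans (hy i (by omega)).1.2 (hy (i + 1) (by omega)).1.1)
      (fun j hj t ht => hd (j + 1) (by omega) t ⟨h0.1.le.trans ht.1, ht.2.trans hm.2.le⟩)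
      (fun i hi => (hy i (by omega)).2)
    exact ⟨ζ, ⟨h0.1.le.trans hζ.1, hζ.2.trans hm.2.le⟩, hζ0⟩

/-! ### LEAF L-252-SQ-NODES -/

/-- SORTED separated nodes.  PLAN: `rmz_nodes_int M E 0 1 θ` gives `x : Fin (M+1) → ℝ`, injective (`rmz_sep_inj`); `S = Finset.univ.image x`, `S.card = M + 1`
(`Finset.card_image_of_injective`); `e = S.orderEmbOfFin _`; `y i = if h : i < M + 1 then e ⟨i, h⟩ else 0`.  `e i ∈ S` (`Finset.orderEmbOfFin_mem`), so `e i = x (τ i)`;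
`e i < e (i+1)` (strictly monotone), hence `τ i ≠ τ (i+1)` and `e (i+1) - e i = |x (τ (i+1)) - x (τ i)| ≥ σ`. -/
theorem k6b_nodes_sorted (M : ℕ) (E : Set ℝ) (θ : ℝ) (hθ : 0 < θ) (hvol : ENNReal.ofReal θ ≤ volume E) :
    ∃ y : ℕ → ℝ, (∀ i ≤ M, y i ∈ E) ∧ ∀ i < M, y i + θ / (2 * ((M : ℝ) + 1)) ≤ y (i + 1) := by
  classical
  obtain ⟨x, hxE, hsep⟩ := rmz_nodes_int M E 0 1 θ zero_lt_one hθ (by simpa using hvol)
  have hsep' : ∀ i j, i ≠ j → θ / (2 * ((M : ℝ) + 1)) ≤ |x i - x j| := by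
    intro i j hij
    have := hsep i j hij
    simpa using this
  have hσ : 0 < θ / (2 * ((M : ℝ) + 1)) := by positivity
  have hinj := rmz_sep_inj hσ hsep'
  have hcard : (Finset.univ.image x).card = M + 1 := by
    rw [Finset.card_image_of_injective _ hinj, Finset.card_univ, Fintype.card_fin]
  have hmem : ∀ i : Fin (M + 1), ∃ k, x k = (Finset.univ.image x).orderEmbOfFin hcard i := by
    intro i
    have := Finset.orderEmbOfFin_mem (Finset.univ.image x) hcard i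
    obtain ⟨k, -, hk⟩ := Finset.mem_image.1 this
    exact ⟨k, hk⟩
  refine ⟨fun i => if h : i < M + 1 then (Finset.univ.image x).orderEmbOfFin hcard ⟨i, h⟩ else 0,
    fun i hi => ?_, fun i hi => ?_⟩
  · have h : i < M + 1 := by omega
    simp only [dif_pos h]
    obtain ⟨k, hk⟩ := hmem ⟨i, h⟩
    rw [← hk]
    exact hxE k
  · have h1 : i < M + 1 := by omega
    have h2 : i + 1 < M + 1 := by omega
    simp only [dif_pos h1, dif_pos h2]
    obtain ⟨a, ha⟩ := hmem ⟨i, h1⟩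
    obtain ⟨b, hb⟩ := hmem ⟨i + 1, h2⟩
    have hlt : (Finset.univ.image x).orderEmbOfFin hcard ⟨i, h1⟩
        < (Finset.univ.image x).orderEmbOfFin hcard ⟨i + 1, h2⟩ :=
      ((Finset.univ.image x).orderEmbOfFin hcard).strictMono (by simp [Fin.lt_def])
    rw [← ha, ← hb] at hlt ⊢
    have hne : b ≠ a := fun e => by rw [e] at hlt; exact lt_irrefl _ hlt
    have := hsep' b a hne
    rw [abs_of_pos (by linarith)] at this
    linarith

/-! ### LEAF L-252-SQ-SMALL -/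

/-- LAGRANGE + ROLLE: a point where the `m`-th derivative is small.
PLAN.  `v : Fin (m+1) → ℝ := fun i => x i`, `σ`-separated (`k6b_gap_le`), injective.  `L = Lagrange.interpolate Finset.univ v (fun i => g 0 (v i))`: `L.natDegree ≤ m`
(`Lagrange.degree_interpolate_lt`), `L.eval (x i) = g 0 (x i)` (`Lagrange.eval_interpolate_at_node`).  `rmz_nodes_coeff m L _ v σ 1 ε`: `rmzN L ≤ (m+1) ((1+1)/σ)^m ε`.
`h j t = g j t - (derivative^[j] L).eval t` is a jet (`Polynomial.hasDerivAt`, `Function.iterate_succ_apply'`) which vanishes at the nodes: `k6b_rolle_iter` gives `ζ` with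
`g m ζ = (derivative^[m] L).eval ζ`;  `rmz_eval_le _ m _ 1 ζ` (degree of the iterated derivative `≤ m`: `Polynomial.natDegree_iterate_derivative`), `rmz_N_iter_derivative L m _ m`. -/
theorem k6b_rolle_small (m : ℕ) (g : ℕ → ℝ → ℝ) (x : ℕ → ℝ) (σ ε : ℝ) (hσ : 0 < σ)
    (hx : ∀ i ≤ m, x i ∈ Set.Icc (0 : ℝ) 1) (hgap : ∀ i < m, x i + σ ≤ x (i + 1))
    (hg : ∀ j < m, ∀ t ∈ Set.Icc (0 : ℝ) 1, HasDerivAt (g j) (g (j + 1) t) t)
    (hε : ∀ i ≤ m, |g 0 (x i)| ≤ ε) :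
    ∃ ζ ∈ Set.Icc (x 0) (x m), |g m ζ| ≤ (m : ℝ) ^ m * (((m : ℝ) + 1) * (2 / σ) ^ m * ε) := by
  classical
  obtain ⟨v, hv⟩ : ∃ v : Fin (m + 1) → ℝ, ∀ i, v i = x i := ⟨fun i => x i, fun _ => rfl⟩
  have hsep : ∀ i j : Fin (m + 1), i ≠ j → σ ≤ |v i - v j| := by
    intro i j hij
    rcases lt_or_gt_of_ne (Fin.val_ne_of_ne hij) with h | h
    · have h1 := k6b_gap_le x σ hσ.le m hgap i j h (Nat.lt_succ_iff.1 j.2)
      rw [hv, hv, abs_sub_comm, le_abs]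
      left
      linarith
    · have h1 := k6b_gap_le x σ hσ.le m hgap j i h (Nat.lt_succ_iff.1 i.2)
      rw [hv, hv, le_abs]
      left
      linarith
  have hinj := rmz_sep_inj hσ hsep
  obtain ⟨L, hL⟩ : ∃ L : ℝ[X], L = Lagrange.interpolate Finset.univ v (fun i => g 0 (v i)) := ⟨_, rfl⟩
  have hLdeg : L.natDegree ≤ m := by
    have h1 := Lagrange.degree_interpolate_lt (s := Finset.univ) (v := v) (fun i => g 0 (v i)) hinj.injOn
    rw [Finset.card_univ, Fintype.card_fin, ← hL] at h1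
    by_cases h0 : L = 0
    · rw [h0]; simp
    · have h2 := (natDegree_lt_iff_degree_lt h0).2 h1
      omega
  have hLev : ∀ i : Fin (m + 1), L.eval (v i) = g 0 (v i) := by
    intro i
    rw [hL]
    exact Lagrange.eval_interpolate_at_node _ hinj.injOn (Finset.mem_univ i)
  have hN := rmz_nodes_coeff m L hLdeg v σ 1 ε hσ hsep
    (fun i => by
      have := hx i (Nat.lt_succ_iff.1 i.2)
      rw [hv, abs_le]
      constructor <;> linarith [this.1, this.2])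
    (fun i => by
      rw [hLev, hv]
      exact hε i (Nat.lt_succ_iff.1 i.2))
  have hmono : ∀ i ≤ m, x 0 ≤ x i := by
    intro i hi
    rcases Nat.eq_zero_or_pos i with h | h
    · rw [h]
    · have := k6b_gap_le x σ hσ.le m hgap 0 i h hi
      linarith
  have hsub : Set.Icc (x 0) (x m) ⊆ Set.Icc (0 : ℝ) 1 := fun t ht =>
    ⟨(hx 0 (Nat.zero_le _)).1.trans ht.1, ht.2.trans (hx m le_rfl).2⟩
  obtain ⟨ζ, hζ, hζ0⟩ := k6b_rolle_iter m (fun j t => g j t - (derivative^[j] L).eval t) x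
    (fun i hi => by linarith [hgap i hi])
    (fun j hj t ht => by
      have h1 := (hg j hj t (hsub ht)).sub ((derivative^[j] L).hasDerivAt t)
      rw [← Function.iterate_succ_apply' derivative j L] at h1
      exact h1)
    (fun i hi => by
      have h1 := hLev ⟨i, Nat.lt_succ_of_le hi⟩
      rw [hv] at h1
      simp only [Function.iterate_zero, id_eq]
      rw [h1]
      exact sub_self _)
  refine ⟨ζ, hζ, ?_⟩
  have h1 : g m ζ = (derivative^[m] L).eval ζ := by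
    have : g m ζ - (derivative^[m] L).eval ζ = 0 := hζ0
    linarith
  rw [h1]
  have hζ1 := hsub hζ
  have h2 := rmz_eval_le (derivative^[m] L) m ((natDegree_iterate_derivative L m).trans ((Nat.sub_le _ _).trans hLdeg)) 1 ζ le_rfl
    (by rw [abs_le]; constructor <;> linarith [hζ1.1, hζ1.2])
  rw [one_pow, mul_one] at h2
  have h3 := rmz_N_iter_derivative L m hLdeg m
  have h4 : (1 + 1 : ℝ) = 2 := by norm_num
  rw [h4] at hN
  exact h2.trans (h3.trans (mul_le_mul_of_nonneg_left hN (by positivity)))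

/-! ### LEAF L-252-SQ-PW -/

/-- polynomial times weight.  PLAN: `|p (ζ i)| ≤ η / wl`; `rmz_lagrange_eval K p hp ζ σ 1 (η / wl)` at `t`: `|p t| ≤ (K+1) ((|t| + 1)/σ)^K η / wl`, `|t| + 1 ≤ 2`; `|w t| ≤ ρ wl`. -/
theorem k6b_poly_weight (K : ℕ) (p : ℝ[X]) (hp : p.natDegree ≤ K) (w : ℝ → ℝ) (wl ρ σ η : ℝ) (hwl : 0 < wl) (hσ : 0 < σ)
    (hw : ∀ t ∈ Set.Icc (0 : ℝ) 1, wl ≤ w t ∧ w t ≤ ρ * wl)
    (ζ : Fin (K + 1) → ℝ) (hζ : ∀ i, ζ i ∈ Set.Icc (0 : ℝ) 1) (hsep : ∀ i j, i ≠ j → σ ≤ |ζ i - ζ j|)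
    (hη : ∀ i, |p.eval (ζ i) * w (ζ i)| ≤ η) :
    ∀ t ∈ Set.Icc (0 : ℝ) 1, |p.eval t * w t| ≤ ((K : ℝ) + 1) * (2 / σ) ^ K * (ρ * η) := by
  intro t ht
  have hη0 : 0 ≤ η := (abs_nonneg _).trans (hη 0)
  have h1 : ∀ i, |p.eval (ζ i)| ≤ η / wl := by
    intro i
    rw [le_div_iff₀ hwl]
    have h2 := hη i
    rw [abs_mul, abs_of_pos (lt_of_lt_of_le hwl (hw _ (hζ i)).1)] at h2
    exact (mul_le_mul_of_nonneg_left (hw _ (hζ i)).1 (abs_nonneg _)).trans h2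
  have h3 := rmz_lagrange_eval K p hp ζ σ 1 (η / wl) hσ hsep
    (fun i => by rw [abs_le]; constructor <;> linarith [(hζ i).1, (hζ i).2]) h1 t
  have ht1 : |t| + 1 ≤ 2 := by
    rw [abs_of_nonneg ht.1]
    linarith [ht.2]
  have h4 : ((|t| + 1) / σ) ^ K ≤ (2 / σ) ^ K :=
    pow_le_pow_left₀ (by positivity) (div_le_div_of_nonneg_right ht1 hσ.le) K
  have hwt := hw t ht
  have hwt0 : 0 < w t := lt_of_lt_of_le hwl hwt.1
  rw [abs_mul, abs_of_pos hwt0]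
  calc |p.eval t| * w t ≤ (((K : ℝ) + 1) * (2 / σ) ^ K * (η / wl)) * (ρ * wl) := by
        refine mul_le_mul (h3.trans ?_) hwt.2 hwt0.le (by positivity)
        gcongr
    _ = ((K : ℝ) + 1) * (2 / σ) ^ K * (ρ * η) := by
        field_simp

/-- mean value inequality.  PLAN: `Convex.norm_image_sub_le_of_norm_hasDerivWithin_le` on `Icc 0 1` (`convex_Icc`): `|f t - f ζ| ≤ M |t - ζ| ≤ M`. -/
theorem k6b_mv_down (f f' : ℝ → ℝ) (M M' ζ : ℝ) (hζ : ζ ∈ Set.Icc (0 : ℝ) 1)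
    (hf : ∀ t ∈ Set.Icc (0 : ℝ) 1, HasDerivAt f (f' t) t) (hM : ∀ t ∈ Set.Icc (0 : ℝ) 1, |f' t| ≤ M) (hζ' : |f ζ| ≤ M') :
    ∀ t ∈ Set.Icc (0 : ℝ) 1, |f t| ≤ M' + M := by
  intro t ht
  have hM0 : 0 ≤ M := (abs_nonneg _).trans (hM ζ hζ)
  have h1 := Convex.norm_image_sub_le_of_norm_hasDerivWithin_le (f := f) (f' := f') (C := M)
    (s := Set.Icc (0 : ℝ) 1) (fun x hx => (hf x hx).hasDerivWithinAt)
    (fun x hx => by rw [Real.norm_eq_abs]; exact hM x hx) (convex_Icc 0 1) hζ ht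
  rw [Real.norm_eq_abs, Real.norm_eq_abs] at h1
  have h2 : |t - ζ| ≤ 1 := by
    rw [abs_le]
    constructor <;> linarith [ht.1, ht.2, hζ.1, hζ.2]
  have h3 : |f t| ≤ |f ζ| + |f t - f ζ| := by
    have := abs_add_le (f ζ) (f t - f ζ)
    simpa using this
  nlinarith

/-! ### LEAF L-252-SQ-GM01 -/

theorem k6b_gm01_arith (m K M d : ℕ) (hd : d ≤ m) (S T ρ ε H : ℝ) (hT : 1 ≤ T) (hS : S = (4 * ((M:ℝ) + 1)) * T)
    (hρ : 1 ≤ ρ) (hε : 0 ≤ ε) (hH : H = ((m:ℝ) + 1) ^ (m + 1) * S ^ m * ε) :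
    ((K:ℝ)+1) * S ^ K * (ρ * H) + d * H ≤
      (((K + 1 + m) * (m + 1) ^ (m + 1) * (4 * (M + 1)) ^ (K + m) : ℕ) : ℝ)
        * T ^ ((K + 1 + m) * (m + 1) ^ (m + 1) * (4 * (M + 1)) ^ (K + m)) * ρ * ε := by
  have hQ : (1:ℝ) ≤ 4 * ((M:ℝ) + 1) := by
    have : (0:ℝ) ≤ M := Nat.cast_nonneg _
    linarith
  have hS1 : 1 ≤ S := by rw [hS]; nlinarith
  have hS0 : 0 ≤ S := by linarith
  have hH0 : 0 ≤ H := by rw [hH]; positivity
  have hSK : 1 ≤ S ^ K := one_le_pow₀ hS1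
  have hSKρ : 1 ≤ S ^ K * ρ := by nlinarith
  have hdm : (d:ℝ) ≤ m := by exact_mod_cast hd
  have h1 : (d:ℝ) * H ≤ m * (S ^ K * ρ) * H := by
    have : (d:ℝ) * H ≤ m * H := mul_le_mul_of_nonneg_right hdm hH0
    have h2 : (m:ℝ) * H ≤ m * (S ^ K * ρ) * H := by
      have : 0 ≤ (m:ℝ) * H := by positivity
      nlinarith
    linarith
  have hc : K + m ≤ (K + 1 + m) * (m + 1) ^ (m + 1) * (4 * (M + 1)) ^ (K + m) := by
    have h1 : 0 < (m + 1) ^ (m + 1) := by positivity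
    have h2 : 0 < (4 * (M + 1)) ^ (K + m) := by positivity
    calc K + m ≤ K + 1 + m := by omega
      _ ≤ (K + 1 + m) * (m + 1) ^ (m + 1) := Nat.le_mul_of_pos_right _ h1
      _ ≤ _ := Nat.le_mul_of_pos_right _ h2
  have hTc := pow_le_pow_right₀ hT hc
  calc ((K:ℝ)+1) * S ^ K * (ρ * H) + d * H
      ≤ ((K:ℝ)+1) * S ^ K * (ρ * H) + m * (S ^ K * ρ) * H := by linarith
    _ = (((K:ℝ) + 1 + m) * ((m:ℝ) + 1) ^ (m + 1) * (4 * ((M:ℝ) + 1)) ^ (K + m)) * T ^ (K + m) * ρ * ε := by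
        rw [hH, hS, mul_pow (4 * ((M:ℝ) + 1)) T K, mul_pow (4 * ((M:ℝ) + 1)) T m]
        ring
    _ ≤ (((K:ℝ) + 1 + m) * ((m:ℝ) + 1) ^ (m + 1) * (4 * ((M:ℝ) + 1)) ^ (K + m))
          * T ^ ((K + 1 + m) * (m + 1) ^ (m + 1) * (4 * (M + 1)) ^ (K + m)) * ρ * ε := by
        gcongr
    _ = _ := by push_cast; ring

/-- the main generic result on `[0,1]`.  PLAN: file header. -/
theorem k6b_gm01 (m K : ℕ) : ∃ c : ℕ, ∀ (g : ℕ → ℝ → ℝ) (p : ℝ[X]) (w : ℝ → ℝ) (wl ρ θ ε : ℝ) (E : Set ℝ),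
    (∀ j < m, ∀ t ∈ Set.Icc (0 : ℝ) 1, HasDerivAt (g j) (g (j + 1) t) t) → p.natDegree ≤ K → 0 < wl →
    (∀ t ∈ Set.Icc (0 : ℝ) 1, wl ≤ w t ∧ w t ≤ ρ * wl) → (∀ t ∈ Set.Icc (0 : ℝ) 1, g m t = p.eval t * w t) →
    0 < θ → θ ≤ 1 → E ⊆ Set.Icc (0 : ℝ) 1 → ENNReal.ofReal θ ≤ volume E → (∀ t ∈ E, |g 0 t| ≤ ε) →
    ∀ j ≤ m, ∀ t ∈ Set.Icc (0 : ℝ) 1, |g j t| ≤ c * (1 / θ) ^ c * ρ * ε := by
  obtain ⟨M, hM⟩ : ∃ M : ℕ, M = K * (m + 1) + m := ⟨_, rfl⟩
  refine ⟨(K + 1 + m) * (m + 1) ^ (m + 1) * (4 * (M + 1)) ^ (K + m), ?_⟩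
  intro g p w wl ρ θ ε E hg hp hwl hw hgm hθ hθ1 hE hvol hε
  obtain ⟨y, hyE, hygap⟩ := k6b_nodes_sorted M E θ hθ hvol
  obtain ⟨σ, hσdef⟩ : ∃ σ : ℝ, σ = θ / (2 * ((M : ℝ) + 1)) := ⟨_, rfl⟩
  rw [← hσdef] at hygap
  have hσ : 0 < σ := by rw [hσdef]; positivity
  have hgapall := k6b_gap_le y σ hσ.le M hygap
  have hε0 : 0 ≤ ε := (abs_nonneg _).trans (hε _ (hyE 0 (Nat.zero_le _)))
  have hρ1 : 1 ≤ ρ := by
    have := hw 0 ⟨le_rfl, zero_le_one⟩
    have h2 : wl ≤ ρ * wl := this.1.trans this.2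
    by_contra hlt
    push Not at hlt
    nlinarith
  have hT : 1 ≤ 1 / θ := by rw [le_div_iff₀ hθ]; linarith
  obtain ⟨S, hS⟩ : ∃ S : ℝ, S = 2 / σ := ⟨_, rfl⟩
  have hSeq : S = (4 * ((M:ℝ) + 1)) * (1 / θ) := by
    rw [hS, hσdef]
    field_simp
    ring
  have hS1 : 1 ≤ S := by
    have : (0:ℝ) ≤ M := Nat.cast_nonneg _
    rw [hSeq]
    nlinarith
  obtain ⟨H, hH⟩ : ∃ H : ℝ, H = ((m:ℝ) + 1) ^ (m + 1) * S ^ m * ε := ⟨_, rfl⟩
  have hsmall : ∀ j ≤ m, ∀ s : ℕ, s + j ≤ M → ∃ ζ ∈ Set.Icc (y s) (y (s + j)), |g j ζ| ≤ H := by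
    intro j hj s hs
    obtain ⟨ζ, hζ, hb⟩ := k6b_rolle_small j g (fun k => y (s + k)) σ ε hσ
      (fun i hi => hE (hyE _ (by omega))) (fun i hi => hygap (s + i) (by omega))
      (fun j' hj' t ht => hg j' (by omega) t ht) (fun i hi => hε _ (hyE _ (by omega)))
    refine ⟨ζ, hζ, hb.trans ?_⟩
    rw [← hS, hH]
    have hjm : (j:ℝ) ≤ m := by exact_mod_cast hj
    have h1 : (j:ℝ) ^ j ≤ ((m:ℝ) + 1) ^ m :=
      calc (j:ℝ) ^ j ≤ ((m:ℝ) + 1) ^ j := pow_le_pow_left₀ (Nat.cast_nonneg _) (by linarith) _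
        _ ≤ ((m:ℝ) + 1) ^ m := pow_le_pow_right₀ (by linarith [(Nat.cast_nonneg m : (0:ℝ) ≤ m)]) hj
    have h3 : S ^ j ≤ S ^ m := pow_le_pow_right₀ hS1 hj
    have hS0 : 0 ≤ S := by linarith
    calc (j:ℝ) ^ j * (((j:ℝ) + 1) * S ^ j * ε) ≤ ((m:ℝ) + 1) ^ m * (((m:ℝ) + 1) * S ^ m * ε) := by gcongr
      _ = ((m:ℝ) + 1) ^ (m + 1) * S ^ m * ε := by ring
  have hz : ∀ i : Fin (K + 1), ∃ ζ ∈ Set.Icc (y (i * (m+1))) (y (i * (m+1) + m)), |g m ζ| ≤ H := by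
    intro i
    apply hsmall m le_rfl
    have := Nat.mul_le_mul_right (m+1) (Nat.lt_succ_iff.1 i.2)
    omega
  choose ζ hζI hζb using hz
  have hyI : ∀ i ≤ M, y i ∈ Set.Icc (0:ℝ) 1 := fun i hi => hE (hyE i hi)
  have hζ01 : ∀ i, ζ i ∈ Set.Icc (0:ℝ) 1 := by
    intro i
    have hi := Nat.mul_le_mul_right (m+1) (Nat.lt_succ_iff.1 i.2)
    exact ⟨(hyI _ (by omega)).1.trans (hζI i).1, (hζI i).2.trans (hyI _ (by omega)).2⟩
  have hsep' : ∀ i j : Fin (K+1), i < j → ζ i + σ ≤ ζ j := by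
    intro i j hij
    have hj := Nat.mul_le_mul_right (m+1) (Nat.lt_succ_iff.1 j.2)
    have hij' : (i:ℕ) + 1 ≤ j := hij
    have h2 := Nat.mul_le_mul_right (m+1) hij'
    rw [Nat.succ_mul] at h2
    have h3 : (i:ℕ) * (m+1) + m < j * (m+1) := by omega
    have := hgapall _ _ h3 (by omega)
    linarith [(hζI i).2, (hζI j).1]
  have hsep : ∀ i j, i ≠ j → σ ≤ |ζ i - ζ j| := by
    intro i j hij
    rcases lt_or_gt_of_ne hij with h | h
    · have := hsep' i j h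
      rw [abs_sub_comm]
      exact le_trans (by linarith) (le_abs_self _)
    · have := hsep' j i h
      exact le_trans (by linarith) (le_abs_self _)
  have hB := k6b_poly_weight K p hp w wl ρ σ H hwl hσ hw ζ hζ01 hsep
    (fun i => by rw [← hgm _ (hζ01 i)]; exact hζb i)
  rw [← hS] at hB
  have hdown : ∀ d ≤ m, ∀ t ∈ Set.Icc (0:ℝ) 1,
      |g (m - d) t| ≤ ((K:ℝ)+1) * S ^ K * (ρ * H) + d * H := by
    intro d
    induction d with
    | zero =>
      intro _ t ht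
      simp only [Nat.sub_zero, Nat.cast_zero, zero_mul, add_zero]
      rw [hgm t ht]
      exact hB t ht
    | succ d ih =>
      intro hd t ht
      obtain ⟨ζ0, hζ0, hb0⟩ := hsmall (m - (d+1)) (by omega) 0 (by omega)
      have hζ0' : ζ0 ∈ Set.Icc (0:ℝ) 1 :=
        ⟨(hyI 0 (by omega)).1.trans hζ0.1, hζ0.2.trans (hyI _ (by omega)).2⟩
      have e : m - (d+1) + 1 = m - d := by omega
      have := k6b_mv_down (g (m - (d+1))) (g (m - d)) _ H ζ0 hζ0'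
        (fun t ht => by
          have := hg (m-(d+1)) (by omega) t ht
          rwa [e] at this) (ih (by omega)) hb0 t ht
      push_cast
      linarith
  intro j hj t ht
  have h1 := hdown (m - j) (by omega) t ht
  have e : m - (m - j) = j := by omega
  rw [e] at h1
  exact h1.trans (k6b_gm01_arith m K M (m - j) (by omega) S (1 / θ) ρ ε H hT hSeq hρ1 hε0 hH)

/-! ### node form of `k6b_gm01` (helper159, asked by helper78) -/

theorem k6b_gm_nodes_arith (m K d : ℕ) (hd : d ≤ m) (S T ρ ε H : ℝ) (hT : 1 ≤ T) (hS : S = 2 * T)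
    (hρ : 1 ≤ ρ) (hε : 0 ≤ ε) (hH : H = ((m:ℝ) + 1) ^ (m + 1) * S ^ m * ε) :
    ((K:ℝ)+1) * S ^ K * (ρ * H) + d * H ≤
      (((K + 1 + m) * (m + 1) ^ (m + 1) * 2 ^ (K + m) : ℕ) : ℝ)
        * T ^ ((K + 1 + m) * (m + 1) ^ (m + 1) * 2 ^ (K + m)) * ρ * ε := by
  have hS1 : 1 ≤ S := by rw [hS]; linarith
  have hS0 : 0 ≤ S := by linarith
  have hH0 : 0 ≤ H := by rw [hH]; positivity
  have hSK : 1 ≤ S ^ K := one_le_pow₀ hS1
  have hSKρ : 1 ≤ S ^ K * ρ := one_le_mul_of_one_le_of_one_le hSK hρ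
  have hdm : (d:ℝ) ≤ m := by exact_mod_cast hd
  have h1 : (d:ℝ) * H ≤ m * (S ^ K * ρ) * H := by
    have : (d:ℝ) * H ≤ m * H := mul_le_mul_of_nonneg_right hdm hH0
    have h2 : (m:ℝ) * H ≤ m * (S ^ K * ρ) * H := by
      have : 0 ≤ (m:ℝ) * H := by positivity
      nlinarith
    linarith
  have hc : K + m ≤ (K + 1 + m) * (m + 1) ^ (m + 1) * 2 ^ (K + m) := by
    have h1 : 0 < (m + 1) ^ (m + 1) := by positivity
    have h2 : 0 < 2 ^ (K + m) := by positivity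
    calc K + m ≤ K + 1 + m := by omega
      _ ≤ (K + 1 + m) * (m + 1) ^ (m + 1) := Nat.le_mul_of_pos_right _ h1
      _ ≤ _ := Nat.le_mul_of_pos_right _ h2
  have hTc := pow_le_pow_right₀ hT hc
  calc ((K:ℝ)+1) * S ^ K * (ρ * H) + d * H
      ≤ ((K:ℝ)+1) * S ^ K * (ρ * H) + m * (S ^ K * ρ) * H := by linarith
    _ = (((K:ℝ) + 1 + m) * ((m:ℝ) + 1) ^ (m + 1) * 2 ^ (K + m)) * T ^ (K + m) * ρ * ε := by
        rw [hH, hS, mul_pow 2 T K, mul_pow 2 T m]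
        ring
    _ ≤ (((K:ℝ) + 1 + m) * ((m:ℝ) + 1) ^ (m + 1) * 2 ^ (K + m))
          * T ^ ((K + 1 + m) * (m + 1) ^ (m + 1) * 2 ^ (K + m)) * ρ * ε := by
        gcongr
    _ = _ := by push_cast; ring

/-- NODE FORM of `k6b_gm01` (asked by helper78): `(K+1)(m+1)` sorted `σ`-separated nodes in `[0,1]` at which `g 0` is small. -/
theorem k6b_gm_nodes (m K : ℕ) : ∃ c : ℕ, ∀ (g : ℕ → ℝ → ℝ) (p : ℝ[X]) (w : ℝ → ℝ) (wl ρ σ ε : ℝ) (y : ℕ → ℝ),
    (∀ j < m, ∀ t ∈ Set.Icc (0 : ℝ) 1, HasDerivAt (g j) (g (j + 1) t) t) → p.natDegree ≤ K → 0 < wl →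
    (∀ t ∈ Set.Icc (0 : ℝ) 1, wl ≤ w t ∧ w t ≤ ρ * wl) → (∀ t ∈ Set.Icc (0 : ℝ) 1, g m t = p.eval t * w t) →
    0 < σ → σ ≤ 1 → (∀ i < (K + 1) * (m + 1), y i ∈ Set.Icc (0 : ℝ) 1 ∧ |g 0 (y i)| ≤ ε) →
    (∀ i, i + 1 < (K + 1) * (m + 1) → y i + σ ≤ y (i + 1)) →
    ∀ j ≤ m, ∀ t ∈ Set.Icc (0 : ℝ) 1, |g j t| ≤ c * (1 / σ) ^ c * ρ * ε := by
  obtain ⟨M, hM⟩ : ∃ M : ℕ, M = K * (m + 1) + m := ⟨_, rfl⟩
  have hM1 : (K + 1) * (m + 1) = M + 1 := by rw [hM, Nat.succ_mul]; omega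
  refine ⟨(K + 1 + m) * (m + 1) ^ (m + 1) * 2 ^ (K + m), ?_⟩
  intro g p w wl ρ σ ε y hg hp hwl hw hgm hσ hσ1 hy hygap'
  rw [hM1] at hy hygap'
  have hyI : ∀ i ≤ M, y i ∈ Set.Icc (0:ℝ) 1 := fun i hi => (hy i (by omega)).1
  have hyε : ∀ i ≤ M, |g 0 (y i)| ≤ ε := fun i hi => (hy i (by omega)).2
  have hygap : ∀ i < M, y i + σ ≤ y (i + 1) := fun i hi => hygap' i (by omega)
  have hgapall := k6b_gap_le y σ hσ.le M hygap
  have hε0 : 0 ≤ ε := (abs_nonneg _).trans (hyε 0 (Nat.zero_le _))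
  have hρ1 : 1 ≤ ρ := by
    have := hw 0 ⟨le_rfl, zero_le_one⟩
    have h2 : wl ≤ ρ * wl := this.1.trans this.2
    by_contra hlt
    push Not at hlt
    nlinarith
  have hT : 1 ≤ 1 / σ := by rw [le_div_iff₀ hσ]; linarith
  obtain ⟨S, hS⟩ : ∃ S : ℝ, S = 2 / σ := ⟨_, rfl⟩
  have hSeq : S = 2 * (1 / σ) := by rw [hS]; ring
  have hS1 : 1 ≤ S := by rw [hSeq]; linarith
  obtain ⟨H, hH⟩ : ∃ H : ℝ, H = ((m:ℝ) + 1) ^ (m + 1) * S ^ m * ε := ⟨_, rfl⟩
  have hsmall : ∀ j ≤ m, ∀ s : ℕ, s + j ≤ M → ∃ ζ ∈ Set.Icc (y s) (y (s + j)), |g j ζ| ≤ H := by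
    intro j hj s hs
    obtain ⟨ζ, hζ, hb⟩ := k6b_rolle_small j g (fun k => y (s + k)) σ ε hσ
      (fun i hi => hyI _ (by omega)) (fun i hi => hygap (s + i) (by omega))
      (fun j' hj' t ht => hg j' (by omega) t ht) (fun i hi => hyε _ (by omega))
    refine ⟨ζ, hζ, hb.trans ?_⟩
    rw [← hS, hH]
    have hjm : (j:ℝ) ≤ m := by exact_mod_cast hj
    have h1 : (j:ℝ) ^ j ≤ ((m:ℝ) + 1) ^ m :=
      calc (j:ℝ) ^ j ≤ ((m:ℝ) + 1) ^ j := pow_le_pow_left₀ (Nat.cast_nonneg _) (by linarith) _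
        _ ≤ ((m:ℝ) + 1) ^ m := pow_le_pow_right₀ (by linarith [(Nat.cast_nonneg m : (0:ℝ) ≤ m)]) hj
    have h3 : S ^ j ≤ S ^ m := pow_le_pow_right₀ hS1 hj
    have hS0 : 0 ≤ S := by linarith
    calc (j:ℝ) ^ j * (((j:ℝ) + 1) * S ^ j * ε) ≤ ((m:ℝ) + 1) ^ m * (((m:ℝ) + 1) * S ^ m * ε) := by gcongr
      _ = ((m:ℝ) + 1) ^ (m + 1) * S ^ m * ε := by ring
  have hz : ∀ i : Fin (K + 1), ∃ ζ ∈ Set.Icc (y (i * (m+1))) (y (i * (m+1) + m)), |g m ζ| ≤ H := by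
    intro i
    apply hsmall m le_rfl
    have := Nat.mul_le_mul_right (m+1) (Nat.lt_succ_iff.1 i.2)
    omega
  choose ζ hζI hζb using hz
  have hζ01 : ∀ i, ζ i ∈ Set.Icc (0:ℝ) 1 := by
    intro i
    have hi := Nat.mul_le_mul_right (m+1) (Nat.lt_succ_iff.1 i.2)
    exact ⟨(hyI _ (by omega)).1.trans (hζI i).1, (hζI i).2.trans (hyI _ (by omega)).2⟩
  have hsep' : ∀ i j : Fin (K+1), i < j → ζ i + σ ≤ ζ j := by
    intro i j hij
    have hj := Nat.mul_le_mul_right (m+1) (Nat.lt_succ_iff.1 j.2)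
    have hij' : (i:ℕ) + 1 ≤ j := hij
    have h2 := Nat.mul_le_mul_right (m+1) hij'
    rw [Nat.succ_mul] at h2
    have h3 : (i:ℕ) * (m+1) + m < j * (m+1) := by omega
    have := hgapall _ _ h3 (by omega)
    linarith [(hζI i).2, (hζI j).1]
  have hsep : ∀ i j, i ≠ j → σ ≤ |ζ i - ζ j| := by
    intro i j hij
    rcases lt_or_gt_of_ne hij with h | h
    · have := hsep' i j h
      rw [abs_sub_comm]
      exact le_trans (by linarith) (le_abs_self _)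
    · have := hsep' j i h
      exact le_trans (by linarith) (le_abs_self _)
  have hB := k6b_poly_weight K p hp w wl ρ σ H hwl hσ hw ζ hζ01 hsep
    (fun i => by rw [← hgm _ (hζ01 i)]; exact hζb i)
  rw [← hS] at hB
  have hdown : ∀ d ≤ m, ∀ t ∈ Set.Icc (0:ℝ) 1,
      |g (m - d) t| ≤ ((K:ℝ)+1) * S ^ K * (ρ * H) + d * H := by
    intro d
    induction d with
    | zero =>
      intro _ t ht
      simp only [Nat.sub_zero, Nat.cast_zero, zero_mul, add_zero]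
      rw [hgm t ht]
      exact hB t ht
    | succ d ih =>
      intro hd t ht
      obtain ⟨ζ0, hζ0, hb0⟩ := hsmall (m - (d+1)) (by omega) 0 (by omega)
      have hζ0' : ζ0 ∈ Set.Icc (0:ℝ) 1 :=
        ⟨(hyI 0 (by omega)).1.trans hζ0.1, hζ0.2.trans (hyI _ (by omega)).2⟩
      have e : m - (d+1) + 1 = m - d := by omega
      have := k6b_mv_down (g (m - (d+1))) (g (m - d)) _ H ζ0 hζ0'
        (fun t ht => by
          have := hg (m-(d+1)) (by omega) t ht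
          rwa [e] at this) (ih (by omega)) hb0 t ht
      push_cast
      linarith
  intro j hj t ht
  have h1 := hdown (m - j) (by omega) t ht
  have e : m - (m - j) = j := by omega
  rw [e] at h1
  exact h1.trans (k6b_gm_nodes_arith m K (m - j) (by omega) S (1 / σ) ρ ε H hT hSeq hρ1 hε0 hH)

/-! ### LEAF L-252-SQ-GMAB -/

/-- the main generic result.  PLAN: `k6b_gm01` (same `c`) for `g' j s = (b - a)^j * g j (a + (b - a) s)`, `p' = C ((b - a)^m) * rmzAff a b p` (`rmz_aff_eval`, `rmz_aff_natDegree`),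
`w' s = w (a + (b - a) s)`, `E' = (fun s => a + (b - a) * s) ⁻¹' E`; `volume E = ofReal (b - a) * volume E'` as in the proof of `rmz_interval` (`Real.volume_preimage_mul_left`,
`measure_preimage_add`).  Chain rule: `HasDerivAt.comp` / `HasDerivAt.scomp` with `s ↦ a + (b - a) s`.  Every `t ∈ [a,b]` is `a + (b - a) s` with `s = (t - a)/(b - a) ∈ [0,1]`. -/
theorem k6b_gm (m K : ℕ) : ∃ c : ℕ, ∀ (g : ℕ → ℝ → ℝ) (p : ℝ[X]) (w : ℝ → ℝ) (a b wl ρ θ ε : ℝ) (E : Set ℝ), a < b →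
    (∀ j < m, ∀ t ∈ Set.Icc a b, HasDerivAt (g j) (g (j + 1) t) t) → p.natDegree ≤ K → 0 < wl →
    (∀ t ∈ Set.Icc a b, wl ≤ w t ∧ w t ≤ ρ * wl) → (∀ t ∈ Set.Icc a b, g m t = p.eval t * w t) →
    0 < θ → θ ≤ 1 → E ⊆ Set.Icc a b → ENNReal.ofReal (θ * (b - a)) ≤ volume E → (∀ t ∈ E, |g 0 t| ≤ ε) →
    ∀ j ≤ m, ∀ t ∈ Set.Icc a b, |g j t| * (b - a) ^ j ≤ c * (1 / θ) ^ c * ρ * ε := by
  obtain ⟨c, hc⟩ := k6b_gm01 m K
  refine ⟨c, ?_⟩
  intro g p w a b wl ρ θ ε E hab hg hp hwl hw hgm hθ hθ1 hE hvol hε j hj t ht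
  have hba : 0 < b - a := sub_pos.2 hab
  have hin : ∀ s ∈ Set.Icc (0 : ℝ) 1, a + (b - a) * s ∈ Set.Icc a b := by
    intro s hs
    constructor
    · nlinarith [hs.1]
    · nlinarith [hs.2]
  obtain ⟨E', hE'⟩ : ∃ E' : Set ℝ, E' = (fun s => (b - a) * s) ⁻¹' ((fun y => a + y) ⁻¹' E) := ⟨_, rfl⟩
  have hv : volume E' = ENNReal.ofReal |(b - a)⁻¹| * volume E := by
    rw [hE', Real.volume_preimage_mul_left hba.ne', measure_preimage_add]
  have hmem : ∀ s, s ∈ E' ↔ a + (b - a) * s ∈ E := by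
    intro s
    rw [hE']
    rfl
  obtain ⟨s, hs⟩ : ∃ s, s = (t - a) / (b - a) := ⟨_, rfl⟩
  have hst : a + (b - a) * s = t := by
    rw [hs]
    field_simp
    ring
  have hs01 : s ∈ Set.Icc (0 : ℝ) 1 := by
    rw [hs]
    constructor
    · exact div_nonneg (by linarith [ht.1]) hba.le
    · rw [div_le_one hba]
      linarith [ht.2]
  have key := hc (fun j s => (b - a) ^ j * g j (a + (b - a) * s)) (C ((b - a) ^ m) * rmzAff a b p) (fun s => w (a + (b - a) * s)) wl ρ θ ε E'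
    (by
      intro i hi u hu
      have h1 := hg i hi _ (hin u hu)
      have h2 : HasDerivAt (fun u : ℝ => a + (b - a) * u) (b - a) u := by
        simpa using ((hasDerivAt_id u).const_mul (b - a)).const_add a
      have h3 := (h1.comp u h2).const_mul ((b - a) ^ i)
      refine HasDerivAt.congr_deriv (f := fun u => (b - a) ^ i * g i (a + (b - a) * u)) h3 ?_
      rw [pow_succ]
      ring)
    ((natDegree_C_mul_le _ _).trans (rmz_aff_natDegree a b p K hp)) hwl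
    (fun u hu => hw _ (hin u hu))
    (by
      intro u hu
      show (b - a) ^ m * g m (a + (b - a) * u) = _
      rw [hgm _ (hin u hu), eval_mul, eval_C, rmz_aff_eval]
      ring)
    hθ hθ1
    (by
      intro u hu
      have h1 := hE ((hmem u).1 hu)
      constructor
      · by_contra hcon
        push Not at hcon
        have := mul_lt_mul_of_pos_left hcon hba
        linarith [h1.1]
      · by_contra hcon
        push Not at hcon
        have := mul_lt_mul_of_pos_left hcon hba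
        linarith [h1.2])
    (by
      rw [hv, abs_of_pos (inv_pos.2 hba)]
      calc ENNReal.ofReal θ = ENNReal.ofReal (b - a)⁻¹ * ENNReal.ofReal (θ * (b - a)) := by
            rw [← ENNReal.ofReal_mul (inv_pos.2 hba).le]
            congr 1
            field_simp
        _ ≤ _ := mul_le_mul' le_rfl hvol)
    (by
      intro u hu
      show |(b - a) ^ 0 * g 0 (a + (b - a) * u)| ≤ ε
      rw [pow_zero, one_mul]
      exact hε _ ((hmem u).1 hu))
    j hj s hs01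
  have e : |(b - a) ^ j * g j (a + (b - a) * s)| = |g j t| * (b - a) ^ j := by
    rw [hst, abs_mul, abs_of_pos (pow_pos hba j), mul_comm]
  rw [← e]
  exact key

/-! ### LEAF L-252-SQ-TAYLOR -/

/-- integration of a power bound -/
theorem k6b_taylor_step (h h' : ℝ → ℝ) (C : ℝ) (n : ℕ) (h0 : h 0 = 0)
    (hd : ∀ t ∈ Set.Icc (0 : ℝ) 1, HasDerivAt h (h' t) t)
    (hb : ∀ t ∈ Set.Icc (0 : ℝ) 1, |h' t| ≤ C * t ^ n) :
    ∀ t ∈ Set.Icc (0 : ℝ) 1, |h t| ≤ C * t ^ (n + 1) / ((n : ℝ) + 1) := by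
  have hB : ∀ t : ℝ, HasDerivAt (fun t : ℝ => C * t ^ (n + 1) / ((n : ℝ) + 1)) (C * t ^ n) t := by
    intro t
    have h1 := ((hasDerivAt_pow (n + 1) t).const_mul C).div_const ((n : ℝ) + 1)
    have e : C * (((n + 1 : ℕ) : ℝ) * t ^ (n + 1 - 1)) / ((n : ℝ) + 1) = C * t ^ n := by
      have : ((n : ℝ) + 1) ≠ 0 := by positivity
      push_cast
      field_simp
    rw [e] at h1
    exact h1
  have hmono : ∀ s : ℝ, (s = 1 ∨ s = -1) →
      MonotoneOn (fun t : ℝ => C * t ^ (n + 1) / ((n : ℝ) + 1) + s * h t) (Set.Icc (0 : ℝ) 1) := by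
    intro s hs
    have hder : ∀ t ∈ Set.Icc (0 : ℝ) 1,
        HasDerivAt (fun t : ℝ => C * t ^ (n + 1) / ((n : ℝ) + 1) + s * h t) (C * t ^ n + s * h' t) t :=
      fun t ht => (hB t).add ((hd t ht).const_mul s)
    refine monotoneOn_of_deriv_nonneg (convex_Icc 0 1)
      (fun t ht => (hder t ht).continuousAt.continuousWithinAt)
      (fun t ht => (hder t (interior_subset ht)).differentiableAt.differentiableWithinAt)
      (fun t ht => ?_)
    rw [(hder t (interior_subset ht)).deriv]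
    have := abs_le.1 (hb t (interior_subset ht))
    rcases hs with rfl | rfl <;> linarith [this.1, this.2]
  intro t ht
  have hz : (0 : ℝ) ∈ Set.Icc (0 : ℝ) 1 := ⟨le_rfl, zero_le_one⟩
  have h1 := hmono 1 (Or.inl rfl) hz ht ht.1
  have h2 := hmono (-1) (Or.inr rfl) hz ht ht.1
  simp only [h0, ne_eq, Nat.add_eq_zero_iff, one_ne_zero, and_false, not_false_eq_true, zero_pow, mul_zero,
    zero_div, add_zero] at h1 h2
  rw [abs_le]
  constructor <;> linarith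

/-- Taylor's formula for a jet.  PLAN: induction on `N` generalizing `g`.  Put `h t = g 0 t - ∑_{j ≤ N} g j 0 t^j / j!`; `h 0 = 0`; `h' t = g 1 t - ∑_{j ≤ N-1} g (j+1) 0 t^j / j!`
(`Finset.sum_range_succ'`), bounded by `M t^N / N!` by the induction hypothesis for `fun j => g (j+1)` (`N = 0`: `h' = g 1`, bounded by `M`).
Then `B t ∓ h t` with `B t = M t^(N+1) / (N+1)!` has a nonnegative derivative on `[0,1]`, hence is monotone (`monotoneOn_of_deriv_nonneg`, or `image_le_of_deriv_right_le_deriv_boundary`) and vanishes at `0`. -/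
theorem k6b_taylor_gen (N : ℕ) : ∀ (g : ℕ → ℝ → ℝ) (M : ℝ),
    (∀ j ≤ N, ∀ t ∈ Set.Icc (0 : ℝ) 1, HasDerivAt (g j) (g (j + 1) t) t) →
    (∀ t ∈ Set.Icc (0 : ℝ) 1, |g (N + 1) t| ≤ M) →
    ∀ t ∈ Set.Icc (0 : ℝ) 1, |g 0 t - ∑ j ∈ Finset.range (N + 1), g j 0 * t ^ j / (j.factorial : ℝ)|
      ≤ M * t ^ (N + 1) / ((N + 1).factorial : ℝ) := by
  induction N with
  | zero =>
    intro g M hg hM t ht
    have := k6b_taylor_step (fun t => g 0 t - g 0 0) (g 1) M 0 (by simp)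
      (fun t ht => (hg 0 le_rfl t ht).sub_const _) (fun t ht => by simpa using hM t ht) t ht
    simpa using this
  | succ N ih =>
    intro g M hg hM t ht
    have hIH := ih (fun j => g (j + 1)) M (fun j hj t ht => hg (j + 1) (by omega) t ht) hM
    have hder : ∀ t ∈ Set.Icc (0 : ℝ) 1,
        HasDerivAt (fun t => g 0 t - ∑ j ∈ Finset.range (N + 1 + 1), g j 0 * t ^ j / (j.factorial : ℝ))
          (g 1 t - ∑ j ∈ Finset.range (N + 1), g (j + 1) 0 * t ^ j / (j.factorial : ℝ)) t := by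
      intro t ht
      have h1 : HasDerivAt (fun t : ℝ => ∑ j ∈ Finset.range (N + 1 + 1), g j 0 * t ^ j / (j.factorial : ℝ))
          (∑ j ∈ Finset.range (N + 1 + 1), g j 0 * ((j : ℝ) * t ^ (j - 1)) / (j.factorial : ℝ)) t :=
        HasDerivAt.fun_sum fun j _ => ((hasDerivAt_pow j t).const_mul (g j 0)).div_const _
      have e : ∑ j ∈ Finset.range (N + 1 + 1), g j 0 * ((j : ℝ) * t ^ (j - 1)) / (j.factorial : ℝ)
          = ∑ j ∈ Finset.range (N + 1), g (j + 1) 0 * t ^ j / (j.factorial : ℝ) := by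
        rw [Finset.sum_range_succ']
        simp only [Nat.cast_zero, zero_mul, mul_zero, zero_div, add_zero]
        refine Finset.sum_congr rfl fun j _ => ?_
        have hf : (j.factorial : ℝ) ≠ 0 := by positivity
        have hj : ((j : ℝ) + 1) ≠ 0 := by positivity
        rw [Nat.factorial_succ]
        push_cast
        field_simp
      rw [e] at h1
      exact (hg 0 (Nat.zero_le _) t ht).sub h1
    have h0 : (fun t => g 0 t - ∑ j ∈ Finset.range (N + 1 + 1), g j 0 * t ^ j / (j.factorial : ℝ)) 0 = 0 := by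
      simp only
      rw [Finset.sum_range_succ']
      simp
    have key := k6b_taylor_step _ _ (M / ((N + 1).factorial : ℝ)) (N + 1) h0 hder
      (fun t ht => by
        have := hIH t ht
        calc _ ≤ M * t ^ (N + 1) / ((N + 1).factorial : ℝ) := this
          _ = M / ((N + 1).factorial : ℝ) * t ^ (N + 1) := by ring) t ht
    refine key.trans (le_of_eq ?_)
    have hf : ((N + 1).factorial : ℝ) ≠ 0 := by positivity
    have hj : (((N + 1 : ℕ) : ℝ) + 1) ≠ 0 := by positivity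
    rw [Nat.factorial_succ (N + 1)]
    push_cast
    field_simp

end Claimed.Agent.R252
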