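import Claimed.Agent.R252.S6b.SqDefs
import Claimed.Agent.R252.Remez.Free

/-!
# ROW 252, unit S6b, the square-root sheet kit, file 2: FORMAL CALCULUS OF SHEETS      (architect helper112; prefix `k6b_`)

PAPER-FREE.  `k6b_dP v P = ∑ j, C (v j) * pderiv j P` is a derivation of `MvPolynomial (Fin n) ℝ`;  `(F.dv Dl v).A = dP v F.A`,
`(F.dv Dl v).B = dP v F.B * Dl + C (1/2 - k) * F.B * dP v Dl`.   LEAVES `L-252-SQ-*` = the `sorry`s.  Every statement of this file may be used in the later ones.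
-/

set_option autoImplicit false

namespace Claimed.Agent.R252

open MvPolynomial MeasureTheory

variable {n : ℕ}

/-! ### LEAF L-252-SQ-DP: the derivation `dP` -/

theorem k6b_dP_add (v : Fin n → ℝ) (P Q : MvPolynomial (Fin n) ℝ) : k6b_dP v (P + Q) = k6b_dP v P + k6b_dP v Q := by
  unfold k6b_dP
  rw [← Finset.sum_add_distrib]
  refine Finset.sum_congr rfl fun j _ => ?_
  rw [map_add, mul_add]

theorem k6b_dP_zero (v : Fin n → ℝ) : k6b_dP v (0 : MvPolynomial (Fin n) ℝ) = 0 := by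
  unfold k6b_dP
  simp

theorem k6b_dP_C (v : Fin n → ℝ) (c : ℝ) : k6b_dP v (C c : MvPolynomial (Fin n) ℝ) = 0 := by
  unfold k6b_dP
  simp

/-- PLAN: `pderiv_mul`, `Finset.sum_add_distrib`, `Finset.sum_mul`, `Finset.mul_sum`, `ring`. -/
theorem k6b_dP_mul (v : Fin n → ℝ) (P Q : MvPolynomial (Fin n) ℝ) : k6b_dP v (P * Q) = k6b_dP v P * Q + P * k6b_dP v Q := by
  unfold k6b_dP
  rw [Finset.sum_mul, Finset.mul_sum, ← Finset.sum_add_distrib]
  refine Finset.sum_congr rfl fun j _ => ?_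
  rw [pderiv_mul]
  ring

/-- PLAN: `ext m`, `coeff_pderiv` twice; `i = j` trivial; `i ≠ j`: `Finsupp.single_eq_of_ne`, `add_right_comm`, `ring`.  (Or `MvPolynomial.induction_on`.) -/
theorem k6b_pderiv_comm (i j : Fin n) (P : MvPolynomial (Fin n) ℝ) : pderiv i (pderiv j P) = pderiv j (pderiv i P) := by
  by_cases hij : i = j
  · rw [hij]
  ext m
  rw [coeff_pderiv, coeff_pderiv, coeff_pderiv, coeff_pderiv]
  simp only [Finsupp.coe_add, Pi.add_apply, Finsupp.single_eq_of_ne hij, Finsupp.single_eq_of_ne (Ne.symm hij), add_zero]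
  rw [add_right_comm]
  ring

/-- PLAN: unfold, `map_sum`, `pderiv_C_mul`, `Finset.mul_sum`, `Finset.sum_comm`, `k6b_pderiv_comm`, `ring`/`mul_left_comm`. -/
theorem k6b_dP_comm (v w : Fin n → ℝ) (P : MvPolynomial (Fin n) ℝ) : k6b_dP v (k6b_dP w P) = k6b_dP w (k6b_dP v P) := by
  unfold k6b_dP
  simp only [map_sum, pderiv_C_mul, Finset.mul_sum]
  rw [Finset.sum_comm]
  refine Finset.sum_congr rfl fun i _ => Finset.sum_congr rfl fun j _ => ?_
  rw [k6b_pderiv_comm]
  ring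

/-- PLAN: `Finset.sum_congr`, `Pi.single_apply`, `Finset.sum_ite_eq`; `C` is additive and multiplicative. -/
theorem k6b_dP_sum (v : Fin n → ℝ) (P : MvPolynomial (Fin n) ℝ) : k6b_dP v P = ∑ j, C (v j) * k6b_dP (Pi.single j 1) P := by
  have h : ∀ j : Fin n, k6b_dP (Pi.single j 1) P = pderiv j P := by
    intro j
    unfold k6b_dP
    rw [Finset.sum_eq_single j]
    · simp
    · intro i _ hi
      rw [Pi.single_eq_of_ne hi]
      simp
    · intro h
      exact absurd (Finset.mem_univ j) h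
  simp only [h]
  rfl

/-! ### LEAF L-252-SQ-DPDEG: degrees -/

theorem k6b_pderiv_totalDegree (j : Fin n) (P : MvPolynomial (Fin n) ℝ) : (pderiv j P).totalDegree ≤ P.totalDegree - 1 := by
  unfold MvPolynomial.totalDegree
  refine Finset.sup_le fun m hm => ?_
  have h1 := rmz_pderiv_support P j m hm
  have h2 : (m + Finsupp.single j 1).sum (fun _ e => e) ≤ P.support.sup fun s => s.sum fun _ e => e :=
    Finset.le_sup (f := fun s : Fin n →₀ ℕ => s.sum fun _ e => e) h1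
  rw [Finsupp.sum_add_index' (fun _ => rfl) (fun _ _ _ => rfl), Finsupp.sum_single_index rfl] at h2
  omega

/-- PLAN: `totalDegree_finset_sum_le`-type bound, `totalDegree_mul_le`, `totalDegree_C`; for `pderiv j P`: every `m` of its support has `m + single j 1 ∈ P.support` (`rmz_pderiv_support`),
so `m.sum (fun _ e => e) + 1 ≤ P.totalDegree` (`le_totalDegree`, `Finsupp.sum_add_index'`, `Finsupp.sum_single_index`); `totalDegree_le_iff`/`Finset.sup_le`. -/
theorem k6b_dP_totalDegree (v : Fin n → ℝ) (P : MvPolynomial (Fin n) ℝ) : (k6b_dP v P).totalDegree ≤ P.totalDegree - 1 := by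
  unfold k6b_dP
  refine totalDegree_finsetSum_le fun j _ => ?_
  refine (totalDegree_mul _ _).trans ?_
  rw [totalDegree_C, zero_add]
  exact k6b_pderiv_totalDegree j P

theorem k6b_dP_iter_totalDegree (v : Fin n → ℝ) (P : MvPolynomial (Fin n) ℝ) (j : ℕ) :
    ((k6b_dP v)^[j] P).totalDegree ≤ P.totalDegree - j := by
  induction j with
  | zero => simp
  | succ j ih =>
    rw [Function.iterate_succ_apply']
    have := k6b_dP_totalDegree v ((k6b_dP v)^[j] P)
    omega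

/-- PLAN: by induction `((dP v)^[j] P).totalDegree ≤ P.totalDegree - j`; a polynomial of total degree `0` is `C c` (`totalDegree_eq_zero_iff_eq_C`), `k6b_dP_C`; then `k6b_dP_zero`. -/
theorem k6b_dP_iter_zero (v : Fin n → ℝ) (P : MvPolynomial (Fin n) ℝ) (j : ℕ) (h : P.totalDegree < j) : (k6b_dP v)^[j] P = 0 := by
  obtain ⟨i, rfl⟩ : ∃ i, j = i + 1 := ⟨j - 1, by omega⟩
  rw [Function.iterate_succ_apply']
  have h1 := k6b_dP_iter_totalDegree v P i
  have h2 : ((k6b_dP v)^[i] P).totalDegree = 0 := by omega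
  rw [totalDegree_eq_zero_iff_eq_C] at h2
  rw [h2, k6b_dP_C]

/-! ### LEAF L-252-SQ-DPDER: the derivative along a line -/

theorem k6b_dP_X (v : Fin n → ℝ) (i : Fin n) : k6b_dP v (X i : MvPolynomial (Fin n) ℝ) = C (v i) := by
  unfold k6b_dP
  rw [Finset.sum_eq_single i]
  · simp
  · intro j _ hj
    rw [pderiv_X_of_ne (Ne.symm hj)]
    simp
  · intro h
    exact absurd (Finset.mem_univ i) h

/-- PLAN: `MvPolynomial.induction_on P`: `C c`: `hasDerivAt_const`, `k6b_dP_C`; `+`: `HasDerivAt.add`, `k6b_dP_add`; `p * X i`: `HasDerivAt.mul`, `k6b_dP_mul`,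
`eval_X`, the derivative of `t ↦ u i + t * v i` is `v i`, and `k6b_dP v (X i) = C (v i)` (`pderiv_X`, `Finset.sum_eq_single i` / `Pi.single_apply`). -/
theorem k6b_dP_hasDerivAt (P : MvPolynomial (Fin n) ℝ) (u v : Fin n → ℝ) (s : ℝ) :
    HasDerivAt (fun t : ℝ => eval (u + t • v) P) (eval (u + s • v) (k6b_dP v P)) s := by
  induction P using MvPolynomial.induction_on with
  | C c =>
    simp only [eval_C, k6b_dP_C, map_zero]
    exact hasDerivAt_const _ _
  | add p q hp hq =>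
    simp only [map_add, k6b_dP_add]
    exact hp.add hq
  | mul_X p i hp =>
    simp only [map_mul, k6b_dP_mul, map_add, eval_X, k6b_dP_X, eval_C]
    have h1 : HasDerivAt (fun t : ℝ => (u + t • v) i) (v i) s := by
      have h2 : HasDerivAt (fun t : ℝ => u i + t * v i) (v i) s := by
        simpa using ((hasDerivAt_id s).mul_const (v i)).const_add (u i)
      exact h2
    exact hp.mul h1

/-! ### LEAF L-252-SQ-DV: the fields of `dv` -/

theorem k6b_Sheet.dv_A (Dl : MvPolynomial (Fin n) ℝ) (F : k6b_Sheet n) (v : Fin n → ℝ) : (F.dv Dl v).A = k6b_dP v F.A := rfl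

theorem k6b_Sheet.dv_k (Dl : MvPolynomial (Fin n) ℝ) (F : k6b_Sheet n) (v : Fin n → ℝ) : (F.dv Dl v).k = F.k + 1 := rfl

/-- PLAN: unfold `dv`, `k6b_dP`; `Finset.sum_mul`, `Finset.mul_sum`, `← Finset.sum_add_distrib`, `Finset.sum_congr`, `ring`. -/
theorem k6b_Sheet.dv_B (Dl : MvPolynomial (Fin n) ℝ) (F : k6b_Sheet n) (v : Fin n → ℝ) :
    (F.dv Dl v).B = k6b_dP v F.B * Dl + C (1 / 2 - (F.k : ℝ)) * F.B * k6b_dP v Dl := by
  unfold k6b_Sheet.dv k6b_dP
  simp only
  rw [Finset.sum_mul, Finset.mul_sum, ← Finset.sum_add_distrib]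
  refine Finset.sum_congr rfl fun j _ => ?_
  ring

/-- PLAN: induction on `j`, `Function.iterate_succ_apply'`. -/
theorem k6b_Sheet.iter_A (Dl : MvPolynomial (Fin n) ℝ) (F : k6b_Sheet n) (v : Fin n → ℝ) (j : ℕ) :
    (((k6b_Sheet.dv Dl v)^[j]) F).A = (k6b_dP v)^[j] F.A := by
  induction j with
  | zero => rfl
  | succ j ih => rw [Function.iterate_succ_apply', Function.iterate_succ_apply', k6b_Sheet.dv_A, ih]

theorem k6b_Sheet.iter_k (Dl : MvPolynomial (Fin n) ℝ) (F : k6b_Sheet n) (v : Fin n → ℝ) (j : ℕ) :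
    (((k6b_Sheet.dv Dl v)^[j]) F).k = F.k + j := by
  induction j with
  | zero => rfl
  | succ j ih => rw [Function.iterate_succ_apply', k6b_Sheet.dv_k, ih, add_assoc]

/-- PLAN: `dv_A`, `dv_B`, `k6b_dP_totalDegree`, `totalDegree_add`, `totalDegree_mul`, `totalDegree_C`; `omega`. -/
theorem k6b_Sheet.Deg.dv {D : ℕ} {Dl : MvPolynomial (Fin n) ℝ} {F : k6b_Sheet n} (h : F.Deg D Dl) (v : Fin n → ℝ) :
    (F.dv Dl v).Deg (2 * D + 1) Dl := by
  refine ⟨by have := h.dl; omega, ?_, ?_, ?_⟩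
  · rw [k6b_Sheet.dv_A]
    have := k6b_dP_totalDegree v F.A
    have := h.a
    omega
  · rw [k6b_Sheet.dv_B]
    refine (totalDegree_add _ _).trans (max_le ?_ ?_)
    · refine (totalDegree_mul _ _).trans ?_
      have := k6b_dP_totalDegree v F.B
      have := h.b
      have := h.dl
      omega
    · refine (totalDegree_mul _ _).trans ?_
      have h1 := totalDegree_mul (C (1 / 2 - (F.k : ℝ)) : MvPolynomial (Fin n) ℝ) F.B
      rw [totalDegree_C, zero_add] at h1
      have := k6b_dP_totalDegree v Dl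
      have := h.b
      have := h.dl
      omega
  · rw [k6b_Sheet.dv_k]
    have := h.k
    omega

theorem k6b_dg_succ (l D : ℕ) : k6b_dg (l + 1) D = 2 * k6b_dg l D + 1 := by
  unfold k6b_dg
  rw [Function.iterate_succ_apply']

/-- PLAN: induction on the list; `k6b_dg (l+1) D = 2 * k6b_dg l D + 1` by `Function.iterate_succ_apply'`. -/
theorem k6b_Sheet.Deg.foldr {D : ℕ} {Dl : MvPolynomial (Fin n) ℝ} {F : k6b_Sheet n} (h : F.Deg D Dl) (vs : List (Fin n → ℝ)) :
    (vs.foldr (k6b_Sheet.dv Dl) F).Deg (k6b_dg vs.length D) Dl := by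
  induction vs with
  | nil => exact h
  | cons v vs ih =>
    rw [List.foldr_cons, List.length_cons, k6b_dg_succ]
    exact ih.dv v

theorem k6b_Sheet.Deg.iter {D : ℕ} {Dl : MvPolynomial (Fin n) ℝ} {F : k6b_Sheet n} (h : F.Deg D Dl) (v : Fin n → ℝ) (j : ℕ) :
    (((k6b_Sheet.dv Dl v)^[j]) F).Deg (k6b_dg j D) Dl := by
  induction j with
  | zero => exact h
  | succ j ih =>
    rw [Function.iterate_succ_apply', k6b_dg_succ]
    exact ih.dv v

/-- PLAN: unfold `val`; `dv_A`, `dv_B`, `k6b_dP_sum` for `F.A`, `F.B`, `Dl`; `map_sum`, `eval_C`, `Finset.sum_mul`, `Finset.mul_sum`, `Finset.sum_add_distrib`, `ring`. -/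
theorem k6b_Sheet.val_dv_sum (Dl : MvPolynomial (Fin n) ℝ) (F : k6b_Sheet n) (v u : Fin n → ℝ) :
    (F.dv Dl v).val Dl u = ∑ j, v j * (F.dv Dl (Pi.single j 1)).val Dl u := by
  unfold k6b_Sheet.val
  simp only [k6b_Sheet.dv_A, k6b_Sheet.dv_B, k6b_Sheet.dv_k]
  rw [k6b_dP_sum v F.A, k6b_dP_sum v F.B, k6b_dP_sum v Dl]
  simp only [map_sum, map_add, map_mul, eval_C, Finset.sum_mul, Finset.mul_sum]
  rw [← Finset.sum_add_distrib, Finset.sum_mul, ← Finset.sum_add_distrib]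
  refine Finset.sum_congr rfl fun j _ => ?_
  ring

/-- PLAN: `MvPolynomial.continuous_eval` / `measurable` of `eval · P` (`MvPolynomial.continuous_eval P`), `Real.measurable_sqrt`/`Measurable.sqrt`, `Measurable.div`, `Measurable.pow_const`. -/
theorem k6b_Sheet.measurable_val (Dl : MvPolynomial (Fin n) ℝ) (F : k6b_Sheet n) : Measurable (F.val Dl) := by
  have h : ∀ P : MvPolynomial (Fin n) ℝ, Measurable fun u : Fin n → ℝ => eval u P := fun P =>
    (MvPolynomial.continuous_eval P).measurable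
  unfold k6b_Sheet.val
  exact (h F.A).add ((h F.B).mul ((h Dl).sqrt.div ((h Dl).pow_const _)))

/-! ### LEAF L-252-SQ-WT: the weight -/

/-- PLAN: `√` and powers are monotone; `κ Δ0 = κ^2 (Δ0 / κ)`, so `√(κ Δ0) = κ √(Δ0/κ)` (`Real.sqrt_mul_self`, `Real.sqrt_mul`) and `(κ Δ0)^k = κ^(2k) (Δ0/κ)^k`. -/
theorem k6b_weight (k : ℕ) (κ Δ0 x : ℝ) (hκ : 1 ≤ κ) (hΔ : 0 < Δ0) (h1 : Δ0 / κ ≤ x) (h2 : x ≤ κ * Δ0) :
    0 < √(Δ0 / κ) / (κ * Δ0) ^ k ∧ √(Δ0 / κ) / (κ * Δ0) ^ k ≤ √x / x ^ k ∧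
      √x / x ^ k ≤ κ ^ (2 * k + 1) * (√(Δ0 / κ) / (κ * Δ0) ^ k) := by
  have hκ0 : 0 < κ := by linarith
  obtain ⟨y, hy⟩ : ∃ y, y = Δ0 / κ := ⟨_, rfl⟩
  have hy0 : 0 < y := by rw [hy]; positivity
  have hΔy : κ * Δ0 = κ ^ 2 * y := by
    rw [hy]
    field_simp
  rw [← hy] at h1 ⊢
  have hx0 : 0 < x := lt_of_lt_of_le hy0 h1
  have hsy : 0 < √y := Real.sqrt_pos.2 hy0
  refine ⟨by positivity, ?_, ?_⟩
  · exact div_le_div₀ (Real.sqrt_nonneg _) (Real.sqrt_le_sqrt h1) (by positivity) (pow_le_pow_left₀ hx0.le h2 k)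
  · have h3 : √x / x ^ k ≤ √(κ * Δ0) / y ^ k :=
      div_le_div₀ (Real.sqrt_nonneg _) (Real.sqrt_le_sqrt h2) (by positivity) (pow_le_pow_left₀ hy0.le h1 k)
    refine h3.trans (le_of_eq ?_)
    rw [hΔy, Real.sqrt_mul (sq_nonneg κ), Real.sqrt_sq hκ0.le, mul_pow, ← pow_mul, pow_succ]
    field_simp

end Claimed.Agent.R252
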