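import Claimed.Agent.R252.S6b.EntryDefs

/-!
# Row252, unit S6b, part I: THE PREPARED RECORD `KsRef` ⟶ S6b ⟶ `KsTimeCand`.   THE HUB OF S6b.
# DEFINITIONS AND STATEMENTS (every statement is a `def ... : Prop`; no `sorry`).

`D = k6aOf R A s s1 s2` (S6a/Adapt, helper234), packet node `k6b_pk` = the true labels of depth `s`, `a = R.a s`, `a₁ = R.a s1`, `a₂ = R.a s2`, `H = (1/2)^lv`.
B0 (bridge), CP (density cap from `capX`), HD (hidden data of version 2), X1, X2 (exits), HUB.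
-/

set_option autoImplicit false

namespace Claimed.Agent.R252

open MeasureTheory MvPolynomial
open scoped ENNReal BigOperators

noncomputable section

variable {v : KbVer}

/-- the packet node of depth `s` -/
abbrev k6b_pk (R : KsRef v) (A : R.Par) (s s1 s2 : ℝ) (lv : ℕ) : K6aPk (k6aOf R A s s1 s2) :=
  k6aPkOf R A s s1 s2 s lv (fun x => x.1)

/-- the switching system of the label `q` -/
abbrev k6b_swR (R : KsRef v) (A : R.Par) (s s1 s2 : ℝ) (lv : ℕ) (q : R.Lab) (zc : ℝ × (Fin v.j → ℝ))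
    (Es : Set (R.L × ℝ)) (nb nv : ℕ) (K : ℝ) : k6b_Sw (v.j + 1) :=
  k6b_swOf (k6aOf R A s s1 s2) (k6b_pk R A s s1 s2 lv) q zc Es nb nv (64 * K) (k6b_M K nb nv)

/-- **B0** the abstract record reads the same trajectories, the same signal and the same prior.
PLAN.  `if_pos`; `t ↦ R.X l t` is a polynomial of degree `≤ 2` (`nat_adm`: `KbQuad.ev` along `kbY`, `kbW`; version 1: `nat_v1`, `kbW` quadratic; version 2: `kbW` affine), and a quadratic is recovered from its values at `-1, 0, 1`. -/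
def k6b_bridge_stmt : Prop :=
  ∀ (v : KbVer) (R : KsRef v) (A : R.Par) (s s1 s2 K : ℝ), R.Ok K →
    (k6aOf R A s s1 s2).prior = R.prior ∧
    ∀ l ∈ R.Sp, (k6aOf R A s s1 s2).V l = R.V l ∧
      ∀ t, (k6aOf R A s s1 s2).y l t = R.y l t ∧ (k6aOf R A s s1 s2).X l t = R.X l t

/-- **CP** the density cap.   PLAN: `KsRef.Ok.capX` with `r = s2`, `One.pA`, `One.par`, B0, `lam0 S = prior (S ∩ Ev0)`. -/
def k6b_cap2_of_ref_stmt : Prop :=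
  ∀ (v : KbVer) (R : KsRef v) (A : R.Par) (s s1 s2 K : ℝ) (Es : Set (R.L × ℝ)),
    R.Ok K → R.One A → s2 ∈ R.widths → Es ⊆ R.Ev0 →
    k6b_Cap2 (k6aOf R A s s1 s2) Es (R.a s2) (K * R.a s2 ^ R.d)

/-- **HD** the hidden data of version 2.
PLAN.  `w0 l = R.w l t0`, `w1 l = H (R.w l 1 - R.w l 0)` (`kbW` is affine in version 2); `Pst`, `Ps` from Q1 applied to the coefficients of `R.nat A`, `R.tst q` (`nat_adm`, `tst_adm`), `h = H`.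
`k6b_QW.dw`, `dww` are `kbDw`, `kbDww` of the test (exact for quadratics).  Clauses: `nat_w`, `nat_lo`, `nat_ww`, `tst_val`, `tst_w`, `tst_lo`, `tst_ww`; `time0`, `cen0`: `Fin.cons_zero`. -/
def k6b_hid_stmt : Prop :=
  ∀ (R : KsRef KbVer.two) (A : R.Par) (s s1 s2 K Kl : ℝ) (lv nb nv : ℕ) (q : R.Lab)
    (zc : ℝ × (Fin KbVer.two.j → ℝ)) (Es : Set (R.L × ℝ)),
    R.Ok K → R.One A → R.dep q = s → R.lev q = lv → Es ⊆ R.Ev0 ∩ R.inc q →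
    (k6aOf R A s s1 s2).WF K → MeasurableSet Es → R.νQ q ≠ 0 → R.prior Es ≠ 0 →
    ∃ Hd : k6b_Hid (k6b_swR R A s s1 s2 lv q zc Es nb nv Kl), Hd.Ok K (R.a s) (kbQ lv) ∧
      ∀ (l : R.L) (τ : ℝ), Hd.wd (l, τ) = R.w l (R.t0 q + kbQ lv * τ)

/-- **X1** exit of version 1: `P (t,y,w) = w - H P2(u)`, `Cn = {p | normalised p ∈ Fam}`.
PLAN.  Q3 (`KbAdm`); `kbDw P = 1`, `kbDww P = 0`; `R.X = R.w` (`nat_v1`); E0 (position, law, support); `R.blk q = [t0, t0 + H)`; `R.a (R.d * (s2 - s)) = (R.a s2 / R.a s)^d`. -/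
def k6b_exit1_stmt : Prop :=
  ∀ (R : KsRef KbVer.one) (A : R.Par) (s s1 s2 K Kl A' : ℝ) (lv nb nv : ℕ) (q : R.Lab)
    (zc : ℝ × (Fin KbVer.one.j → ℝ)) (E Es : Set (R.L × ℝ)) (P2 : MvPolynomial (Fin 2) ℝ)
    (Fam : Set ((k6b_swR R A s s1 s2 lv q zc Es nb nv Kl).Lam × ℝ)),
    R.Ok K → R.One A → R.dep q = s → R.lev q = lv → MeasurableSet Es → Es ⊆ E ∩ R.inc q → E ⊆ R.Ev0 →
    (k6aOf R A s s1 s2).WF K →
    ENNReal.ofReal (kbQ lv) * R.νQ q ≤ ENNReal.ofReal K * R.prior Es → R.νQ q ≠ 0 → 1 ≤ A' →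
    P2.totalDegree ≤ 2 → MeasurableSet Fam → Fam ⊆ (k6b_swR R A s s1 s2 lv q zc Es nb nv Kl).sup →
    ENNReal.ofReal ((R.a s2 / R.a s) ^ R.d)
      ≤ ENNReal.ofReal A' * (k6b_swR R A s s1 s2 lv q zc Es nb nv Kl).mu Fam →
    (∀ e ∈ Fam, ∀ τ ∈ Set.Icc (0 : ℝ) 1,
      |(k6b_swR R A s s1 s2 lv q zc Es nb nv Kl).x (e.1, τ)
        - eval ((k6b_swR R A s s1 s2 lv q zc Es nb nv Kl).pos (e.1, τ)) P2| ≤ A' * (R.a s2 / kbQ lv)) →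
    ∃ P Cn, KsTimeCand R E (A' * K) (s2 - s) q P Cn

/-- **X2** exit of version 2: `P (t,y,w) = Pn.ev (k6aU H zc (t,y)) w`.   PLAN: Q2 (`KbAdm`; the clause `v = one` is void), `kbDw`, `kbDww` of a `k6b_QW`; E0; as X1. -/
def k6b_exit2_stmt : Prop :=
  ∀ (R : KsRef KbVer.two) (A : R.Par) (s s1 s2 K Kl A' : ℝ) (lv nb nv : ℕ) (q : R.Lab)
    (zc : ℝ × (Fin KbVer.two.j → ℝ)) (E Es : Set (R.L × ℝ))
    (Hd : k6b_Hid (k6b_swR R A s s1 s2 lv q zc Es nb nv Kl)) (Pn : k6b_QW)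
    (Fam : Set ((k6b_swR R A s s1 s2 lv q zc Es nb nv Kl).Lam × ℝ)),
    R.Ok K → R.One A → R.dep q = s → R.lev q = lv → MeasurableSet Es → Es ⊆ E ∩ R.inc q → E ⊆ R.Ev0 →
    (k6aOf R A s s1 s2).WF K →
    ENNReal.ofReal (kbQ lv) * R.νQ q ≤ ENNReal.ofReal K * R.prior Es → R.νQ q ≠ 0 → 1 ≤ A' →
    (∀ (l : R.L) (τ : ℝ), Hd.wd (l, τ) = R.w l (R.t0 q + kbQ lv * τ)) →
    Pn.Quad → MeasurableSet Fam → Fam ⊆ (k6b_swR R A s s1 s2 lv q zc Es nb nv Kl).sup →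
    ENNReal.ofReal ((R.a s2 / R.a s) ^ R.d)
      ≤ ENNReal.ofReal A' * (k6b_swR R A s s1 s2 lv q zc Es nb nv Kl).mu Fam →
    |Pn.dww| ≤ A' / R.a s2 →
    (∀ e ∈ Fam, 1 ≤ A' * |Pn.dw ((k6b_swR R A s s1 s2 lv q zc Es nb nv Kl).pos e) (Hd.wd e)|) →
    (∀ e ∈ Fam, ∀ τ ∈ Set.Icc (0 : ℝ) 1,
      |Pn.ev ((k6b_swR R A s s1 s2 lv q zc Es nb nv Kl).pos (e.1, τ)) (Hd.wd (e.1, τ))| ≤ A' * R.a s2 ∧
      |Pn.dw ((k6b_swR R A s s1 s2 lv q zc Es nb nv Kl).pos (e.1, τ)) (Hd.wd (e.1, τ))| ≤ A') →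
    ∃ P Cn, KsTimeCand R E (A' * K) (s2 - s) q P Cn

/-- **the scale inequalities of S6b**, each with the power margin `h^μ` (`h = (1/2)^lv`; `β = (1/2)^nb / h`, `p_v = (1/2)^nv`, `ξ = (1/2)^nx`, `ρ_i = a_i / h`).
With the scales of (6.24), `a ≈ h^{1/k}`, `ε_T = h^{1/k-1+α}`, `a₁ ≈ a h^{α/2}`, `a₂ ≈ a h^{e₂}`: `main` needs `e₂ + μ ≤ (α/2)(1 - d)` (and `ξ, β, p_v` fine enough), `curv` needs `e₂ + μ ≤ 1`. -/
structure K6bLv (d μ Rm h a a1 a2 εT : ℝ) (lv nb nx nv : ℕ) : Prop where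
  nx_le : (nx : ℝ) ≤ Rm * lv
  sim_u : k6aW nb / h + k6aW nv ≤ k6aW nx
  sim_x : k6aW nb / h + k6aW nv + εT ≤ h ^ μ * (a1 / h)
  main : εT + (a / a1) ^ d * (a1 / h) + k6aW nb / h + k6aW nv + k6aW nx ≤ h ^ μ * (a2 / h)
  a2_le_a : a2 ≤ a
  a2_le_h : a2 ≤ h
  curv : h ≤ h ^ μ * (a2 / a)
  fine : k6aW nb / h + k6aW nv ≤ h ^ μ * h ^ 2
  small : a2 ≤ h ^ μ

/-- **THE HUB OF S6b** = 06 l.1113-1900 at one scale: the interpolated field on the restored good states of one packet gives a time candidate of gain `s2 - s` in that packet.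
Quantifiers as in `S6a/Hubs.lean`: slack `K ≤ h^{-η}`, output slack `h^{-ε}`.
PLAN.  `c₀` from E.  `ε₁ = min ε μ / (4 Rm)`; `(c, k)` from `k6b_main_v1/v2` at `(Dg, ε₁)`; `K' = c₀ K^{c₀}`; `A = c K'^k ξ^{-ε₁} ≤ c c₀^k 2^{(c₀ k η + ε₁ Rm) lv}`; `η = min ε μ / (4 (c₀ k + 2))`; `k0` with `c c₀^k ≤ 2^{min ε μ k0 / 4}`.
So `A K ≤ 2^{(3/4) min ε μ lv}`: all margins (`k6b_Margins`, the three extra margins of version 2) follow from `K6bLv`, and the output slack is `≤ 2^{ε lv}` (`KsTimeCand` is monotone in the slack).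
The field error of the entry is `K (64K)^(Dg+1) εT`: a power of `K`, absorbed by `h^μ`.   `cases v`: E + CP (+ HD) → main → X1 / X2 (all with the SAME `K` in `k6b_swR`; mass floor of X1/X2 = `K6aField.mass`, `νQ q ≠ 0` = `K6aField.pos`). -/
def k6b_hub_stmt : Prop :=
  ∀ (v : KbVer) (Dg : ℕ) (μ Rm ε : ℝ), 0 < μ → 0 < Rm → 0 < ε → ∃ (η : ℝ) (k0 : ℕ), 0 < η ∧
  ∀ (R : KsRef v) (A : R.Par) (s s1 s2 K εT w : ℝ) (lv nb nx nv : ℕ) (E Ep Es : Set (R.L × ℝ))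
    (g : K6aWc v.j → K6aRow v.j) (q : R.Lab) (zc : ℝ × (Fin v.j → ℝ))
    (T : Fin (v.j + 1) → MvPolynomial (Fin (v.j + 1)) ℝ),
    k0 ≤ lv → 1 ≤ K → K ≤ (2 : ℝ) ^ (η * lv) → R.Ok K → R.One A → s2 ∈ R.widths →
    R.dep q = s → R.lev q = lv → E ⊆ R.Ev0 → Ep ⊆ E → 0 ≤ εT → 0 < w → 1 ≤ K * w →
    (k6aOf R A s s1 s2).WF K → (k6b_pk R A s s1 s2 lv).Ok R.d R.k K E →
    K6aField (k6aOf R A s s1 s2) (k6b_pk R A s s1 s2 lv) R.d K εT nb nx nv Dg (R.a s1) (R.a s2) (1 / 2 ^ 30) w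
      Ep Es g q zc T →
    K6bLv R.d μ Rm (kbQ lv) (R.a s) (R.a s1) (R.a s2) εT lv nb nx nv →
    ∃ P Cn, KsTimeCand R E ((2 : ℝ) ^ (ε * lv)) (s2 - s) q P Cn

end

end Claimed.Agent.R252
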