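import Claimed.Agent.R252.S6b.TensorDefs

/-!
# Row252, unit S6b, leaf L-252-S6b-T0: toolbox for ternary forms      (architect helper295; proved by helper215)

Nothing is sorried.  `ℓ¹` norm `rmzNm` (sub-additive, sub-multiplicative), homogeneous forms (values, derivatives, Euler),
the linear substitution `k6b_sub`, the quadratic form `k6b_qf`, `3 x 3` determinant / inverse bounds,
transport of `k6b_GP` / `k6b_Conic` to the frame of three points.  The leaves T1-T6 import this file.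
-/

set_option autoImplicit false

namespace Claimed.Agent.R252

open MvPolynomial

/-! ## norms -/

theorem k6b_nm_eq_sum {σ : Type} (P : MvPolynomial σ ℝ) (s : Finset (σ →₀ ℕ)) (hs : P.support ⊆ s) :
    rmzNm P = ∑ m ∈ s, |P.coeff m| :=
  Finset.sum_subset hs fun m _ hm => by rw [notMem_support_iff.1 hm, abs_zero]

theorem k6b_nm_zero {σ : Type} : rmzNm (0 : MvPolynomial σ ℝ) = 0 := by
  simp [rmzNm]

theorem k6b_nm_add {σ : Type} (P Q : MvPolynomial σ ℝ) : rmzNm (P + Q) ≤ rmzNm P + rmzNm Q := by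
  classical
  rw [k6b_nm_eq_sum (P + Q) _ support_add, k6b_nm_eq_sum P _ Finset.subset_union_left,
    k6b_nm_eq_sum Q _ (Finset.subset_union_right (s₁ := P.support)), ← Finset.sum_add_distrib]
  refine Finset.sum_le_sum fun m _ => ?_
  rw [coeff_add]
  exact abs_add_le _ _

theorem k6b_nm_neg {σ : Type} (P : MvPolynomial σ ℝ) : rmzNm (-P) = rmzNm P := by
  unfold rmzNm
  rw [support_neg]
  exact Finset.sum_congr rfl fun m _ => by rw [coeff_neg, abs_neg]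

theorem k6b_nm_sub {σ : Type} (P Q : MvPolynomial σ ℝ) : rmzNm (P - Q) ≤ rmzNm P + rmzNm Q := by
  rw [sub_eq_add_neg, ← k6b_nm_neg Q]
  exact k6b_nm_add _ _

theorem k6b_nm_sum {σ ι : Type} (s : Finset ι) (f : ι → MvPolynomial σ ℝ) :
    rmzNm (∑ i ∈ s, f i) ≤ ∑ i ∈ s, rmzNm (f i) := by
  classical
  induction s using Finset.induction_on with
  | empty => simp [k6b_nm_zero]
  | insert a s ha ih =>
    rw [Finset.sum_insert ha, Finset.sum_insert ha]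
    exact (k6b_nm_add _ _).trans (by linarith)

theorem k6b_nm_monomial {σ : Type} (m : σ →₀ ℕ) (a : ℝ) : rmzNm (monomial m a) = |a| := by
  classical
  unfold rmzNm
  rw [support_monomial]
  split_ifs with h
  · simp [h]
  · simp

theorem k6b_nm_mul {σ : Type} (P Q : MvPolynomial σ ℝ) : rmzNm (P * Q) ≤ rmzNm P * rmzNm Q := by
  conv_lhs => rw [P.as_sum, Q.as_sum, Finset.sum_mul_sum]
  refine (k6b_nm_sum _ _).trans ?_
  unfold rmzNm
  rw [Finset.sum_mul_sum]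
  refine Finset.sum_le_sum fun u _ => (k6b_nm_sum _ _).trans (Finset.sum_le_sum fun v _ => ?_)
  rw [monomial_mul, k6b_nm_monomial, abs_mul]

theorem k6b_nm_C {σ : Type} (a : ℝ) : rmzNm (C a : MvPolynomial σ ℝ) = |a| := k6b_nm_monomial 0 a

theorem k6b_nm_one {σ : Type} : rmzNm (1 : MvPolynomial σ ℝ) = 1 := by
  rw [← C_1, k6b_nm_C, abs_one]

theorem k6b_nm_pow {σ : Type} (P : MvPolynomial σ ℝ) (k : ℕ) : rmzNm (P ^ k) ≤ rmzNm P ^ k := by
  induction k with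
  | zero => simp [k6b_nm_one]
  | succ k ih =>
    rw [pow_succ, pow_succ]
    exact (k6b_nm_mul _ _).trans (mul_le_mul_of_nonneg_right ih (rmz_Nm_nonneg _))

theorem k6b_nm_X {σ : Type} (i : σ) : rmzNm (X i : MvPolynomial σ ℝ) = 1 := by
  rw [X, k6b_nm_monomial, abs_one]

theorem k6b_nm_eq_zero {σ : Type} (P : MvPolynomial σ ℝ) : rmzNm P = 0 ↔ P = 0 := by
  constructor
  · intro h
    ext m
    have h1 := rmz_coeff_le_Nm P m
    rw [h] at h1
    rw [coeff_zero]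
    exact abs_eq_zero.1 (le_antisymm h1 (abs_nonneg _))
  · rintro rfl
    exact k6b_nm_zero

theorem k6b_nm_prod {σ ι : Type} (s : Finset ι) (f : ι → MvPolynomial σ ℝ) :
    rmzNm (∏ i ∈ s, f i) ≤ ∏ i ∈ s, rmzNm (f i) := by
  classical
  induction s using Finset.induction_on with
  | empty => simp [k6b_nm_one]
  | insert a s ha ih =>
    rw [Finset.prod_insert ha, Finset.prod_insert ha]
    exact (k6b_nm_mul _ _).trans (mul_le_mul_of_nonneg_left ih (rmz_Nm_nonneg _))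

theorem k6b_hom_degreeOf {F : MvPolynomial (Fin 3) ℝ} {r : ℕ} (h : F.IsHomogeneous r) (i : Fin 3) :
    F.degreeOf i ≤ r :=
  (degreeOf_le_totalDegree F i).trans h.totalDegree_le

theorem k6b_hom_eval_le {F : MvPolynomial (Fin 3) ℝ} {r : ℕ} (h : F.IsHomogeneous r)
    (x : Fin 3 → ℝ) (L : ℝ) (hx : ∀ i, |x i| ≤ L) : |eval x F| ≤ rmzNm F * L ^ r := by
  rw [eval_eq']
  unfold rmzNm
  rw [Finset.sum_mul]
  refine (Finset.abs_sum_le_sum_abs _ _).trans (Finset.sum_le_sum fun m hm => ?_)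
  rw [abs_mul, Finset.abs_prod]
  refine mul_le_mul_of_nonneg_left ?_ (abs_nonneg _)
  simp only [abs_pow]
  have hm' : ∑ i, m i = r := by
    have := h (mem_support_iff.1 hm)
    rw [← this, Finsupp.weight_eq_sum]
    simp
  calc ∏ i, |x i| ^ m i ≤ ∏ i, L ^ m i :=
        Finset.prod_le_prod (fun i _ => pow_nonneg (abs_nonneg _) _) fun i _ => pow_le_pow_left₀ (abs_nonneg _) (hx i) _
    _ = L ^ r := by rw [Finset.prod_pow_eq_pow_sum, hm']

theorem k6b_hom_pderiv {F : MvPolynomial (Fin 3) ℝ} {r : ℕ} (h : F.IsHomogeneous (r + 1))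
    (j : Fin 3) : (pderiv j F).IsHomogeneous r := h.pderiv

theorem k6b_nm_pderiv {F : MvPolynomial (Fin 3) ℝ} {r : ℕ} (h : F.IsHomogeneous r) (j : Fin 3) :
    rmzNm (pderiv j F) ≤ r * rmzNm F := rmz_Nm_pderiv 3 r F j (k6b_hom_degreeOf h j)

/-- Euler's identity in the form used by T4, T5. -/
theorem k6b_euler {F : MvPolynomial (Fin 3) ℝ} {r : ℕ} (h : F.IsHomogeneous r) :
    C (r : ℝ) * F = ∑ j, X j * pderiv j F := by
  rw [h.sum_X_mul_pderiv, nsmul_eq_mul, map_natCast]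

/-! ## linear substitutions -/

theorem k6b_sub_X (G : Matrix (Fin 3) (Fin 3) ℝ) (i : Fin 3) : k6b_sub G (X i) = ∑ j, C (G i j) * X j :=
  bind₁_X_right _ i

theorem k6b_sub_C (G : Matrix (Fin 3) (Fin 3) ℝ) (a : ℝ) : k6b_sub G (C a) = C a :=
  bind₁_C_right _ a

theorem k6b_sub_eval (G : Matrix (Fin 3) (Fin 3) ℝ) (F : MvPolynomial (Fin 3) ℝ)
    (y : Fin 3 → ℝ) : eval y (k6b_sub G F) = eval (G.mulVec y) F := by
  unfold k6b_sub
  rw [← aeval_eq_eval, ← aeval_eq_eval, aeval_bind₁]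
  congr 2
  funext i
  simp [Matrix.mulVec, dotProduct]

theorem k6b_lin_hom (G : Matrix (Fin 3) (Fin 3) ℝ) (i : Fin 3) :
    (∑ j, C (G i j) * X j : MvPolynomial (Fin 3) ℝ).IsHomogeneous 1 :=
  IsHomogeneous.sum _ _ _ fun _ _ => isHomogeneous_C_mul_X _ _

theorem k6b_sub_hom (G : Matrix (Fin 3) (Fin 3) ℝ) {F : MvPolynomial (Fin 3) ℝ} {r : ℕ}
    (h : F.IsHomogeneous r) : (k6b_sub G F).IsHomogeneous r := by
  have := h.aeval (S := ℝ) (fun i => ∑ j, C (G i j) * X j) (k6b_lin_hom G)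
  rwa [one_mul] at this

theorem k6b_lin_norm (G : Matrix (Fin 3) (Fin 3) ℝ) (A : ℝ) (hG : ∀ i j, |G i j| ≤ A) (i : Fin 3) :
    rmzNm (∑ j, C (G i j) * X j : MvPolynomial (Fin 3) ℝ) ≤ 3 * A := by
  refine (k6b_nm_sum _ _).trans ?_
  calc ∑ j, rmzNm (C (G i j) * X j : MvPolynomial (Fin 3) ℝ) ≤ ∑ _j : Fin 3, A := by
        refine Finset.sum_le_sum fun j _ => ?_
        rw [rmz_Nm_C_mul, k6b_nm_X, mul_one]
        exact hG i j
    _ = 3 * A := by simp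

theorem k6b_sub_norm (G : Matrix (Fin 3) (Fin 3) ℝ) {F : MvPolynomial (Fin 3) ℝ} {r : ℕ}
    (h : F.IsHomogeneous r) (A : ℝ) (hG : ∀ i j, |G i j| ≤ A) :
    rmzNm (k6b_sub G F) ≤ (3 * A) ^ r * rmzNm F := by
  conv_lhs => rw [F.as_sum, map_sum]
  refine (k6b_nm_sum _ _).trans ?_
  unfold rmzNm
  rw [Finset.mul_sum]
  refine Finset.sum_le_sum fun m hm => ?_
  have hm' : ∑ i, m i = r := by
    have := h (mem_support_iff.1 hm)
    rw [← this, Finsupp.weight_eq_sum]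
    simp
  show rmzNm (k6b_sub G (monomial m (coeff m F))) ≤ _
  unfold k6b_sub
  rw [bind₁_monomial, rmz_Nm_C_mul, mul_comm]
  refine mul_le_mul_of_nonneg_right ?_ (abs_nonneg _)
  have e : ∏ i ∈ m.support, (∑ j, C (G i j) * X j : MvPolynomial (Fin 3) ℝ) ^ m i
      = ∏ i, (∑ j, C (G i j) * X j : MvPolynomial (Fin 3) ℝ) ^ m i :=
    Finset.prod_subset (Finset.subset_univ _) fun i _ hi => by rw [Finsupp.notMem_support_iff.1 hi, pow_zero]
  rw [e]
  refine (k6b_nm_prod _ _).trans ?_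
  calc ∏ i, rmzNm ((∑ j, C (G i j) * X j : MvPolynomial (Fin 3) ℝ) ^ m i) ≤ ∏ i, (3 * A) ^ m i := by
        refine Finset.prod_le_prod (fun i _ => rmz_Nm_nonneg _) fun i _ => (k6b_nm_pow _ _).trans ?_
        exact pow_le_pow_left₀ (rmz_Nm_nonneg _) (k6b_lin_norm G A hG i) _
    _ = (3 * A) ^ r := by rw [Finset.prod_pow_eq_pow_sum, hm']

theorem k6b_sub_comp (G H : Matrix (Fin 3) (Fin 3) ℝ) (F : MvPolynomial (Fin 3) ℝ) :
    k6b_sub H (k6b_sub G F) = k6b_sub (G * H) F := by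
  unfold k6b_sub
  rw [bind₁_bind₁]
  congr 2
  funext i
  simp only [map_sum, map_mul, bind₁_C_right, bind₁_X_right, Matrix.mul_apply, Finset.mul_sum, Finset.sum_mul]
  rw [Finset.sum_comm]
  exact Finset.sum_congr rfl fun k _ => Finset.sum_congr rfl fun j _ => by ring

theorem k6b_sub_one (F : MvPolynomial (Fin 3) ℝ) : k6b_sub 1 F = F := by
  unfold k6b_sub
  have : (fun i : Fin 3 => ∑ j, C ((1 : Matrix (Fin 3) (Fin 3) ℝ) i j) * X j) = (X : Fin 3 → MvPolynomial (Fin 3) ℝ) := by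
    funext i
    simp [Matrix.one_apply]
  rw [this, bind₁_X_left]
  rfl

theorem k6b_sub_pderiv (G : Matrix (Fin 3) (Fin 3) ℝ) (F : MvPolynomial (Fin 3) ℝ) (j : Fin 3) :
    pderiv j (k6b_sub G F) = ∑ i, C (G i j) * k6b_sub G (pderiv i F) := by
  induction F using MvPolynomial.induction_on with
  | C c => simp
  | add p q hp hq => simp only [map_add, hp, hq, mul_add, Finset.sum_add_distrib]
  | mul_X p k hp =>
    have h1 : pderiv j (∑ l, C (G k l) * X l : MvPolynomial (Fin 3) ℝ) = C (G k j) := by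
      simp [pderiv_X, Pi.single_apply]
    simp only [map_mul, pderiv_mul, hp, k6b_sub_X, h1, map_add, mul_add, Finset.sum_add_distrib]
    congr 1
    · rw [Finset.sum_mul]
      exact Finset.sum_congr rfl fun i _ => by ring
    · simp only [pderiv_X, Pi.single_apply]
      simp [apply_ite, mul_comm]

theorem k6b_sub_qf (G Q : Matrix (Fin 3) (Fin 3) ℝ) :
    k6b_sub G (k6b_qf Q) = k6b_qf (G.transpose * Q * G) := by
  simp only [k6b_qf, map_mul, k6b_sub_C, k6b_sub_X, Fin.sum_univ_three, Matrix.mul_apply,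
    Matrix.transpose_apply, map_add]
  ring

/-! ## the quadratic form -/

theorem k6b_qf_hom (Q : Matrix (Fin 3) (Fin 3) ℝ) : (k6b_qf Q).IsHomogeneous 2 :=
  IsHomogeneous.sum _ _ _ fun i _ => IsHomogeneous.sum _ _ _ fun j _ =>
    (isHomogeneous_C_mul_X (Q i j) i).mul (isHomogeneous_X ℝ j)

theorem k6b_qf_eval (Q : Matrix (Fin 3) (Fin 3) ℝ) (x : Fin 3 → ℝ) :
    eval x (k6b_qf Q) = x ⬝ᵥ Q.mulVec x := by
  simp only [k6b_qf, map_sum, map_mul, eval_C, eval_X, dotProduct, Matrix.mulVec, Finset.mul_sum]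
  exact Finset.sum_congr rfl fun i _ => Finset.sum_congr rfl fun j _ => by ring

theorem k6b_qf_norm (Q : Matrix (Fin 3) (Fin 3) ℝ) (A : ℝ) (h : ∀ i j, |Q i j| ≤ A) :
    rmzNm (k6b_qf Q) ≤ 9 * A := by
  unfold k6b_qf
  refine (k6b_nm_sum _ _).trans ?_
  calc ∑ i, rmzNm (∑ j, C (Q i j) * X i * X j : MvPolynomial (Fin 3) ℝ) ≤ ∑ _i : Fin 3, ∑ _j : Fin 3, A := by
        refine Finset.sum_le_sum fun i _ => (k6b_nm_sum _ _).trans (Finset.sum_le_sum fun j _ => ?_)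
        rw [mul_assoc, rmz_Nm_C_mul]
        have h1 : rmzNm (X i * X j : MvPolynomial (Fin 3) ℝ) ≤ 1 := by
          refine (k6b_nm_mul _ _).trans ?_
          rw [k6b_nm_X, k6b_nm_X, one_mul]
        calc |Q i j| * rmzNm (X i * X j : MvPolynomial (Fin 3) ℝ) ≤ |Q i j| * 1 :=
              mul_le_mul_of_nonneg_left h1 (abs_nonneg _)
          _ ≤ A := by rw [mul_one]; exact h i j
    _ = 9 * A := by
        simp
        ring

theorem k6b_qf_grad (Q : Matrix (Fin 3) (Fin 3) ℝ) (hQ : Q.IsSymm) (x : Fin 3 → ℝ) (j : Fin 3) :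
    eval x (pderiv j (k6b_qf Q)) = 2 * Q.mulVec x j := by
  have h01 := hQ.apply 0 1
  have h02 := hQ.apply 0 2
  have h12 := hQ.apply 1 2
  fin_cases j <;>
  · simp [k6b_qf, Fin.sum_univ_three, pderiv_X, Matrix.mulVec, dotProduct, h01, h02, h12]
    ring

/-! ## matrices, general position, transport to the normal form -/

theorem k6b_abs3 {A x y z : ℝ} (hx : |x| ≤ A) (hy : |y| ≤ A) (hz : |z| ≤ A) : |x * y * z| ≤ A ^ 3 := by
  have hA : 0 ≤ A := (abs_nonneg x).trans hx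
  rw [abs_mul, abs_mul]
  calc |x| * |y| * |z| ≤ A * A * A :=
        mul_le_mul (mul_le_mul hx hy (abs_nonneg _) hA) hz (abs_nonneg _) (mul_nonneg hA hA)
    _ = A ^ 3 := by ring

theorem k6b_abs2 {A B x y : ℝ} (hx : |x| ≤ A) (hy : |y| ≤ B) : |x * y| ≤ A * B := by
  have hA : 0 ≤ A := (abs_nonneg x).trans hx
  rw [abs_mul]
  exact mul_le_mul hx hy (abs_nonneg _) hA

theorem k6b_det_le (G : Matrix (Fin 3) (Fin 3) ℝ) (A : ℝ) (hG : ∀ i j, |G i j| ≤ A) :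
    |G.det| ≤ 6 * A ^ 3 := by
  rw [Matrix.det_fin_three]
  have h1 := abs_le.1 (k6b_abs3 (hG 0 0) (hG 1 1) (hG 2 2))
  have h2 := abs_le.1 (k6b_abs3 (hG 0 0) (hG 1 2) (hG 2 1))
  have h3 := abs_le.1 (k6b_abs3 (hG 0 1) (hG 1 0) (hG 2 2))
  have h4 := abs_le.1 (k6b_abs3 (hG 0 1) (hG 1 2) (hG 2 0))
  have h5 := abs_le.1 (k6b_abs3 (hG 0 2) (hG 1 0) (hG 2 1))
  have h6 := abs_le.1 (k6b_abs3 (hG 0 2) (hG 1 1) (hG 2 0))
  rw [abs_le]
  constructor <;> linarith [h1.1, h1.2, h2.1, h2.2, h3.1, h3.2, h4.1, h4.2, h5.1, h5.2, h6.1, h6.2]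

theorem k6b_minor {A x y z w : ℝ} (hx : |x| ≤ A) (hy : |y| ≤ A) (hz : |z| ≤ A) (hw : |w| ≤ A) :
    |x * y - z * w| ≤ 2 * A ^ 2 := by
  have h1 := abs_le.1 (k6b_abs2 hx hy)
  have h2 := abs_le.1 (k6b_abs2 hz hw)
  rw [abs_le]
  constructor <;> nlinarith [h1.1, h1.2, h2.1, h2.2]

theorem k6b_adj_entry (G : Matrix (Fin 3) (Fin 3) ℝ) (A : ℝ) (hG : ∀ i j, |G i j| ≤ A) (i j : Fin 3) :
    |G.adjugate i j| ≤ 2 * A ^ 2 := by
  rw [Matrix.adjugate_fin_three]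
  fin_cases i <;> fin_cases j <;> simp <;> first
    | exact k6b_minor (hG _ _) (hG _ _) (hG _ _) (hG _ _)
    | (rw [neg_add_eq_sub]; exact k6b_minor (hG _ _) (hG _ _) (hG _ _) (hG _ _))

theorem k6b_inv_entry (G : Matrix (Fin 3) (Fin 3) ℝ) (A δ : ℝ) (hδ : 0 < δ)
    (hG : ∀ i j, |G i j| ≤ A) (hd : δ ≤ |G.det|) (i j : Fin 3) : |G⁻¹ i j| ≤ 2 * A ^ 2 / δ := by
  rw [Matrix.inv_def, Matrix.smul_apply, Ring.inverse_eq_inv', smul_eq_mul, abs_mul, abs_inv, inv_mul_eq_div]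
  exact div_le_div₀ (by positivity) (k6b_adj_entry G A hG i j) hδ hd

theorem k6b_frame_mulVec (a b c y : Fin 3 → ℝ) :
    (k6b_frame a b c).mulVec y = y 0 • a + y 1 • b + y 2 • c := by
  funext i
  simp [k6b_frame, Matrix.mulVec, dotProduct, Fin.sum_univ_three]
  ring

theorem k6b_GP_mono {n : ℕ} {A A' : ℝ} {p : Fin n → Fin 3 → ℝ} (h : k6b_GP n A p) (hA : 0 < A)
    (hAA : A ≤ A') : k6b_GP n A' p :=
  ⟨fun i j => (h.bd i j).trans hAA, fun i j k h1 h2 h3 => (inv_anti₀ hA hAA).trans (h.det i j k h1 h2 h3)⟩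

theorem k6b_Conic_mono {n : ℕ} {A A' : ℝ} {Q : Matrix (Fin 3) (Fin 3) ℝ}
    {p : Fin n → Fin 3 → ℝ} (h : k6b_Conic n A Q p) (hA : 0 < A) (hAA : A ≤ A') :
    k6b_Conic n A' Q p :=
  ⟨h.symm, fun i j => (h.bd i j).trans hAA, (inv_anti₀ hA hAA).trans h.det, h.zero⟩

/-- restriction to a subfamily of the points -/
theorem k6b_GP_comp {n n' : ℕ} {A : ℝ} {p : Fin n → Fin 3 → ℝ} (h : k6b_GP n A p)
    (f : Fin n' → Fin n) (hf : Function.Injective f) : k6b_GP n' A (p ∘ f) :=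
  ⟨fun i j => h.bd (f i) j, fun i j k h1 h2 h3 => h.det (f i) (f j) (f k) (hf.ne h1) (hf.ne h2) (hf.ne h3)⟩

theorem k6b_Conic_comp {n n' : ℕ} {A : ℝ} {Q : Matrix (Fin 3) (Fin 3) ℝ}
    {p : Fin n → Fin 3 → ℝ} (h : k6b_Conic n A Q p) (f : Fin n' → Fin n) :
    k6b_Conic n' A Q (p ∘ f) :=
  ⟨h.symm, h.bd, h.det, fun i => h.zero (f i)⟩

theorem k6b_frame_entry {a b c : Fin 3 → ℝ} {A : ℝ} (ha : ∀ l, |a l| ≤ A) (hb : ∀ l, |b l| ≤ A)
    (hc : ∀ l, |c l| ≤ A) (i j : Fin 3) : |k6b_frame a b c i j| ≤ A := by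
  fin_cases j
  · exact ha i
  · exact hb i
  · exact hc i

theorem k6b_frame_mul (M : Matrix (Fin 3) (Fin 3) ℝ) (a b c : Fin 3 → ℝ) :
    k6b_frame (M.mulVec a) (M.mulVec b) (M.mulVec c) = M * k6b_frame a b c := by
  ext i j
  fin_cases j <;> simp [k6b_frame, Matrix.mul_apply, Matrix.mulVec, dotProduct]

theorem k6b_sum3_le {B L : ℝ} (u v : Fin 3 → ℝ) (hu : ∀ l, |u l| ≤ B) (hv : ∀ l, |v l| ≤ L) :
    |∑ l, u l * v l| ≤ 3 * B * L := by
  calc |∑ l, u l * v l| ≤ ∑ l, |u l * v l| := Finset.abs_sum_le_sum_abs _ _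
    _ ≤ ∑ _l : Fin 3, B * L := Finset.sum_le_sum fun l _ => k6b_abs2 (hu l) (hv l)
    _ = 3 * B * L := by
        simp
        ring

theorem k6b_mulVec_entry (M : Matrix (Fin 3) (Fin 3) ℝ) (x : Fin 3 → ℝ) (B L : ℝ) (hM : ∀ i j, |M i j| ≤ B)
    (hx : ∀ j, |x j| ≤ L) (i : Fin 3) : |M.mulVec x i| ≤ 3 * B * L :=
  k6b_sum3_le (fun l => M i l) x (hM i) hx

theorem k6b_mul_entry (M N : Matrix (Fin 3) (Fin 3) ℝ) (B L : ℝ) (hM : ∀ i j, |M i j| ≤ B)
    (hN : ∀ i j, |N i j| ≤ L) (i j : Fin 3) : |(M * N) i j| ≤ 3 * B * L := by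
  rw [Matrix.mul_apply]
  exact k6b_sum3_le (fun l => M i l) (fun l => N l j) (hM i) (fun l => hN l j)

/-- Transport to the frame of three of the points: with `G = k6b_frame (p a) (p b) (p c)` the
points `G⁻¹ p_i` are in general position with parameter `9 A⁴`, and `p_a, p_b, p_c` become the
standard basis. -/
theorem k6b_GP_frame {n : ℕ} {A : ℝ} {p : Fin n → Fin 3 → ℝ} (hA : 2 ≤ A) (h : k6b_GP n A p)
    (a b c : Fin n) (hab : a ≠ b) (hbc : b ≠ c) (hac : a ≠ c) :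
    k6b_GP n (9 * A ^ 4) (fun i => (k6b_frame (p a) (p b) (p c))⁻¹.mulVec (p i)) ∧
    (k6b_frame (p a) (p b) (p c))⁻¹.mulVec (p a) = Pi.single 0 1 ∧
    (k6b_frame (p a) (p b) (p c))⁻¹.mulVec (p b) = Pi.single 1 1 ∧
    (k6b_frame (p a) (p b) (p c))⁻¹.mulVec (p c) = Pi.single 2 1 ∧
    (∀ i j, |k6b_frame (p a) (p b) (p c) i j| ≤ A) ∧
    (∀ i j, |(k6b_frame (p a) (p b) (p c))⁻¹ i j| ≤ 2 * A ^ 3) ∧
    k6b_frame (p a) (p b) (p c) * (k6b_frame (p a) (p b) (p c))⁻¹ = 1 ∧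
    (k6b_frame (p a) (p b) (p c))⁻¹ * k6b_frame (p a) (p b) (p c) = 1 := by
  have e0 : (k6b_frame (p a) (p b) (p c)).mulVec (Pi.single 0 1) = p a := by
    rw [k6b_frame_mulVec]
    simp
  have e1 : (k6b_frame (p a) (p b) (p c)).mulVec (Pi.single 1 1) = p b := by
    rw [k6b_frame_mulVec]
    simp
  have e2 : (k6b_frame (p a) (p b) (p c)).mulVec (Pi.single 2 1) = p c := by
    rw [k6b_frame_mulVec]
    simp
  have hA0 : 0 < A := by linarith
  have hdet : A⁻¹ ≤ |(k6b_frame (p a) (p b) (p c)).det| := h.det a b c hab hbc hac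
  have hGe : ∀ i j, |k6b_frame (p a) (p b) (p c) i j| ≤ A := k6b_frame_entry (h.bd a) (h.bd b) (h.bd c)
  generalize k6b_frame (p a) (p b) (p c) = G at *
  have hdet0 : G.det ≠ 0 := by
    intro h0
    rw [h0, abs_zero] at hdet
    have := inv_pos.2 hA0
    linarith
  have hu : IsUnit G.det := isUnit_iff_ne_zero.2 hdet0
  have hGG : G * G⁻¹ = 1 := Matrix.mul_nonsing_inv G hu
  have hGG' : G⁻¹ * G = 1 := Matrix.nonsing_inv_mul G hu
  have hGi : ∀ i j, |G⁻¹ i j| ≤ 2 * A ^ 3 := by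
    intro i j
    have := k6b_inv_entry G A A⁻¹ (inv_pos.2 hA0) hGe hdet i j
    rw [div_inv_eq_mul] at this
    calc |G⁻¹ i j| ≤ 2 * A ^ 2 * A := this
      _ = 2 * A ^ 3 := by ring
  have hcol : ∀ y, G⁻¹.mulVec (G.mulVec y) = y := by
    intro y
    rw [Matrix.mulVec_mulVec, hGG', Matrix.one_mulVec]
  refine ⟨⟨?_, ?_⟩, by rw [← e0, hcol], by rw [← e1, hcol], by rw [← e2, hcol], hGe, hGi, hGG, hGG'⟩
  · intro i j
    have := k6b_mulVec_entry G⁻¹ (p i) (2 * A ^ 3) A hGi (h.bd i) j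
    have h4 : 0 < A ^ 4 := by positivity
    calc |G⁻¹.mulVec (p i) j| ≤ 3 * (2 * A ^ 3) * A := this
      _ = 6 * A ^ 4 := by ring
      _ ≤ 9 * A ^ 4 := by linarith
  · intro i j k h1 h2 h3
    rw [k6b_frame_mul, Matrix.det_mul, abs_mul]
    have hd1 : |G⁻¹.det| = |G.det|⁻¹ := by rw [Matrix.det_nonsing_inv, Ring.inverse_eq_inv', abs_inv]
    have hd2 : |G.det| ≤ 6 * A ^ 3 := k6b_det_le G A hGe
    have hd3 : (6 * A ^ 3)⁻¹ ≤ |G.det|⁻¹ := inv_anti₀ (abs_pos.2 hdet0) hd2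
    have hd4 := h.det i j k h1 h2 h3
    have h4 : 0 < A ^ 4 := by positivity
    calc (9 * A ^ 4)⁻¹ ≤ (6 * A ^ 3)⁻¹ * A⁻¹ := by
          rw [← mul_inv]
          refine inv_anti₀ (by positivity) ?_
          have : 6 * A ^ 3 * A = 6 * A ^ 4 := by ring
          linarith
      _ ≤ |G⁻¹.det| * |(k6b_frame (p i) (p j) (p k)).det| := by
          rw [hd1]
          exact mul_le_mul hd3 hd4 (by positivity) (by positivity)

theorem k6b_Conic_frame {n : ℕ} {A : ℝ} {Q : Matrix (Fin 3) (Fin 3) ℝ} {p : Fin n → Fin 3 → ℝ}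
    (hA : 2 ≤ A) (h : k6b_GP n A p) (hQ : k6b_Conic n A Q p)
    (a b c : Fin n) (hab : a ≠ b) (hbc : b ≠ c) (hac : a ≠ c) :
    k6b_Conic n (9 * A ^ 4)
      ((k6b_frame (p a) (p b) (p c)).transpose * Q * k6b_frame (p a) (p b) (p c))
      (fun i => (k6b_frame (p a) (p b) (p c))⁻¹.mulVec (p i)) := by
  obtain ⟨-, -, -, -, hGe, -, hGG, -⟩ := k6b_GP_frame hA h a b c hab hbc hac
  have hA0 : 0 < A := by linarith
  have hdet : A⁻¹ ≤ |(k6b_frame (p a) (p b) (p c)).det| := h.det a b c hab hbc hac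
  generalize k6b_frame (p a) (p b) (p c) = G at *
  refine ⟨?_, ?_, ?_, ?_⟩
  · unfold Matrix.IsSymm
    rw [Matrix.transpose_mul, Matrix.transpose_mul, Matrix.transpose_transpose, hQ.symm.eq, Matrix.mul_assoc]
  · intro i j
    have h1 : ∀ i j, |(G.transpose * Q) i j| ≤ 3 * A * A :=
      k6b_mul_entry G.transpose Q A A (fun i j => hGe j i) hQ.bd
    have h2 := k6b_mul_entry (G.transpose * Q) G (3 * A * A) A h1 hGe i j
    have h3 : A ^ 3 ≤ A ^ 4 := pow_le_pow_right₀ (by linarith) (by norm_num)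
    calc |(G.transpose * Q * G) i j| ≤ 3 * (3 * A * A) * A := h2
      _ = 9 * A ^ 3 := by ring
      _ ≤ 9 * A ^ 4 := by linarith
  · rw [Matrix.det_mul, Matrix.det_mul, Matrix.det_transpose, abs_mul, abs_mul]
    have hi : 0 < A⁻¹ := inv_pos.2 hA0
    have h4 : 0 < A ^ 3 := by positivity
    calc (9 * A ^ 4)⁻¹ ≤ A⁻¹ * A⁻¹ * A⁻¹ := by
          rw [← mul_inv, ← mul_inv]
          refine inv_anti₀ (by positivity) ?_
          have e : 9 * A ^ 4 = 9 * A * (A * A * A) := by ring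
          rw [e]
          have : 0 < A * A * A := by positivity
          nlinarith
      _ ≤ |G.det| * |Q.det| * |G.det| :=
          mul_le_mul (mul_le_mul hdet hQ.det hi.le (abs_nonneg _)) hdet hi.le (by positivity)
  · intro i
    show eval (G⁻¹.mulVec (p i)) (k6b_qf (G.transpose * Q * G)) = 0
    rw [← k6b_sub_qf, k6b_sub_eval, Matrix.mulVec_mulVec, hGG, Matrix.one_mulVec]
    exact hQ.zero i

theorem k6b_exists_max (x : Fin 3 → ℝ) : ∃ j, ∀ l, |x l| ≤ |x j| := by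
  obtain ⟨j, -, hj⟩ := Finset.exists_max_image Finset.univ (fun j => |x j|) ⟨0, Finset.mem_univ _⟩
  exact ⟨j, fun l => hj l (Finset.mem_univ _)⟩

theorem k6b_abs3' {η A x y z : ℝ} (hx : |x| ≤ η) (hy : |y| ≤ A) (hz : |z| ≤ A) : |x * y * z| ≤ η * A ^ 2 := by
  have h1 := k6b_abs2 (k6b_abs2 hx hy) hz
  calc |x * y * z| ≤ η * A * A := h1
    _ = η * A ^ 2 := by ring

/-- the determinant is small if the first column is small -/
theorem k6b_det_col {a b c : Fin 3 → ℝ} {η A : ℝ} (ha : ∀ l, |a l| ≤ η) (hb : ∀ l, |b l| ≤ A)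
    (hc : ∀ l, |c l| ≤ A) : |(k6b_frame a b c).det| ≤ 6 * η * A ^ 2 := by
  have e : (k6b_frame a b c).det = a 0 * b 1 * c 2 - a 0 * b 2 * c 1 - a 1 * b 0 * c 2 + a 2 * b 0 * c 1
      + a 1 * b 2 * c 0 - a 2 * b 1 * c 0 := by
    rw [Matrix.det_fin_three]
    simp [k6b_frame]
    ring
  rw [e]
  have h1 := abs_le.1 (k6b_abs3' (ha 0) (hb 1) (hc 2))
  have h2 := abs_le.1 (k6b_abs3' (ha 0) (hb 2) (hc 1))
  have h3 := abs_le.1 (k6b_abs3' (ha 1) (hb 0) (hc 2))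
  have h4 := abs_le.1 (k6b_abs3' (ha 2) (hb 0) (hc 1))
  have h5 := abs_le.1 (k6b_abs3' (ha 1) (hb 2) (hc 0))
  have h6 := abs_le.1 (k6b_abs3' (ha 2) (hb 1) (hc 0))
  rw [abs_le]
  constructor <;> linarith [h1.1, h1.2, h2.1, h2.2, h3.1, h3.2, h4.1, h4.2, h5.1, h5.2, h6.1, h6.2]

theorem k6b_two_others {n : ℕ} (hn : 3 ≤ n) (i : Fin n) : ∃ j k : Fin n, i ≠ j ∧ j ≠ k ∧ i ≠ k := by
  rcases Nat.lt_or_ge i.1 1 with h | h
  · exact ⟨⟨1, by omega⟩, ⟨2, by omega⟩, by simp [Fin.ext_iff]; omega, by simp [Fin.ext_iff], by simp [Fin.ext_iff]; omega⟩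
  · rcases Nat.lt_or_ge i.1 2 with h' | h'
    · exact ⟨⟨0, by omega⟩, ⟨2, by omega⟩, by simp [Fin.ext_iff]; omega, by simp [Fin.ext_iff], by simp [Fin.ext_iff]; omega⟩
    · exact ⟨⟨0, by omega⟩, ⟨1, by omega⟩, by simp [Fin.ext_iff]; omega, by simp [Fin.ext_iff], by simp [Fin.ext_iff]; omega⟩

/-- a point of a triple with determinant `≥ A⁻¹` and entries `≤ A` is not small -/
theorem k6b_GP_point_low {n : ℕ} {A : ℝ} {p : Fin n → Fin 3 → ℝ} (hA : 2 ≤ A) (h : k6b_GP n A p)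
    (hn : 3 ≤ n) (i : Fin n) : ∃ j, (6 * A ^ 3)⁻¹ ≤ |p i j| := by
  have hA0 : 0 < A := by linarith
  obtain ⟨j, k, hij, hjk, hik⟩ := k6b_two_others hn i
  obtain ⟨l, hl⟩ := k6b_exists_max (p i)
  refine ⟨l, ?_⟩
  have h1 := h.det i j k hij hjk hik
  have h2 := k6b_det_col hl (h.bd j) (h.bd k)
  have h3 : A⁻¹ ≤ 6 * |p i l| * A ^ 2 := h1.trans h2
  rw [inv_le_iff_one_le_mul₀ (by positivity)]
  rw [inv_le_iff_one_le_mul₀ hA0] at h3
  calc (1 : ℝ) ≤ 6 * |p i l| * A ^ 2 * A := h3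
    _ = |p i l| * (6 * A ^ 3) := by ring

/-- the gradient of a nonsingular conic at a point of the family is not small -/
theorem k6b_conic_grad_low {n : ℕ} {A : ℝ} {Q : Matrix (Fin 3) (Fin 3) ℝ}
    {p : Fin n → Fin 3 → ℝ} (hA : 2 ≤ A) (h : k6b_GP n A p) (hQ : k6b_Conic n A Q p) (hn : 3 ≤ n)
    (i : Fin n) : ∃ j, (18 * A ^ 6)⁻¹ ≤ |eval (p i) (pderiv j (k6b_qf Q))| := by
  have hA0 : 0 < A := by linarith
  obtain ⟨j0, hj0⟩ := k6b_GP_point_low hA h hn i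
  obtain ⟨j, hj⟩ := k6b_exists_max (Q.mulVec (p i))
  refine ⟨j, ?_⟩
  rw [k6b_qf_grad Q hQ.symm, abs_mul, abs_two]
  have hdet0 : Q.det ≠ 0 := by
    intro h0
    have := hQ.det
    rw [h0, abs_zero] at this
    have := inv_pos.2 hA0
    linarith
  have hQQ : Q⁻¹ * Q = 1 := Matrix.nonsing_inv_mul Q (isUnit_iff_ne_zero.2 hdet0)
  have hQi : ∀ i j, |Q⁻¹ i j| ≤ 2 * A ^ 3 := by
    intro i j
    have := k6b_inv_entry Q A A⁻¹ (inv_pos.2 hA0) hQ.bd hQ.det i j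
    rw [div_inv_eq_mul] at this
    calc |Q⁻¹ i j| ≤ 2 * A ^ 2 * A := this
      _ = 2 * A ^ 3 := by ring
  have h1 := k6b_mulVec_entry Q⁻¹ (Q.mulVec (p i)) (2 * A ^ 3) _ hQi hj j0
  rw [Matrix.mulVec_mulVec, hQQ, Matrix.one_mulVec] at h1
  have h2 : (6 * A ^ 3)⁻¹ ≤ 3 * (2 * A ^ 3) * |Q.mulVec (p i) j| := hj0.trans h1
  rw [inv_le_iff_one_le_mul₀ (by positivity)] at h2 ⊢
  calc (1 : ℝ) ≤ 3 * (2 * A ^ 3) * |Q.mulVec (p i) j| * (6 * A ^ 3) := h2
    _ = 2 * |Q.mulVec (p i) j| * (18 * A ^ 6) := by ring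

/-- a linear form is the sum of its three monomials -/
theorem k6b_lin_form {L : MvPolynomial (Fin 3) ℝ} (hL : L.IsHomogeneous 1) :
    ∃ l : Fin 3 → ℝ, L = ∑ j, C (l j) * X j := by
  refine ⟨fun j => coeff 0 (pderiv j L), ?_⟩
  have h1 := k6b_euler hL
  rw [Nat.cast_one, C_1, one_mul] at h1
  refine h1.trans (Finset.sum_congr rfl fun j _ => ?_)
  have h2 : (pderiv j L).IsHomogeneous 0 := k6b_hom_pderiv (r := 0) hL j
  rw [← totalDegree_zero_iff_isHomogeneous, totalDegree_eq_zero_iff_eq_C] at h2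
  rw [mul_comm, ← h2]

/-- a linear form is controlled by its values at three points in general position -/
theorem k6b_lin_of_vals {A ε : ℝ} {p : Fin 3 → Fin 3 → ℝ} (hA : 2 ≤ A) (h : k6b_GP 3 A p)
    {L : MvPolynomial (Fin 3) ℝ} (hL : L.IsHomogeneous 1) (hv : ∀ i, |eval (p i) L| ≤ ε) :
    rmzNm L ≤ 18 * A ^ 3 * ε := by
  obtain ⟨l, rfl⟩ := k6b_lin_form hL
  obtain ⟨-, -, -, -, -, hGi, hGG, -⟩ := k6b_GP_frame hA h 0 1 2 (by decide) (by decide) (by decide)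
  have hval : ∀ i, eval (p i) (∑ j, C (l j) * X j) = (k6b_frame (p 0) (p 1) (p 2)).transpose.mulVec l i := by
    intro i
    fin_cases i <;> simp [k6b_frame, Matrix.mulVec, dotProduct, Fin.sum_univ_three] <;> ring
  generalize k6b_frame (p 0) (p 1) (p 2) = G at *
  have hT : G⁻¹.transpose * G.transpose = 1 := by
    rw [← Matrix.transpose_mul, hGG, Matrix.transpose_one]
  have h1 : ∀ j, |l j| ≤ 3 * (2 * A ^ 3) * ε := by
    intro j
    have := k6b_mulVec_entry G⁻¹.transpose (G.transpose.mulVec l) (2 * A ^ 3) ε (fun i j => hGi j i)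
      (fun i => by rw [← hval]; exact hv i) j
    rwa [Matrix.mulVec_mulVec, hT, Matrix.one_mulVec] at this
  refine (k6b_nm_sum _ _).trans ?_
  calc ∑ j, rmzNm (C (l j) * X j : MvPolynomial (Fin 3) ℝ) ≤ ∑ _j : Fin 3, 3 * (2 * A ^ 3) * ε := by
        refine Finset.sum_le_sum fun j _ => ?_
        rw [rmz_Nm_C_mul, k6b_nm_X, mul_one]
        exact h1 j
    _ = 18 * A ^ 3 * ε := by
        simp
        ring

end Claimed.Agent.R252
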