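import Claimed.Agent.R252.Remez.Mv

/-!
# Row252, unit S6b, part C: switched lines force approximate conservativity.
# DEFINITIONS AND STATEMENTS (every statement is a `def ... : Prop`; no `sorry`).

Paper: 06-isotropic.tex l.1113-1270 (`a05:conservativity`).  ONE scale, explicit slack `K ≥ 1`.

NORMALISED UNITS.  Block time `τ ∈ [0,1]`; base `u = (z - z_c)/h ∈ ℝ^m` (`m = 1 + j ∈ {2,3}`); a line
`l` moves as `pos (l,τ) = u0 l + τ • vel l`; signal `x = X / h`.  `T` = the interpolated polynomial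
field (a row of `m` polynomials in `u`), so `dx/dτ ≈ T(u) · vel`.  `ρ = a₁/h`, `ξ` = base mesh,
`β = K b / h` = diameter of a state, `pv` = width of a velocity bin, `εT` = field error.

DIFFERENCE WITH THE PAPER (simplification found by the architect): `m + 1` switches instead of `2m`.
With legs `v_0, .., v_m`, `∑ k_i v_i = 0`, the derivative of the accumulated height along `k` (base end
point fixed) is a polynomial `μ(δ)` with `∂_1 μ(0) = k_0 * skw(u_0)(v_0, v_1)`.  The forbidden strips may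
depend on the past, so `v_0, v_1` are chosen with `|skw(u_0)(v_0,v_1)| ≥ |curl T(u_0)| / K`.
-/

set_option autoImplicit false

namespace Claimed.Agent.R252

open MeasureTheory MvPolynomial
open scoped ENNReal BigOperators

noncomputable section

/-! ## 1. The field, its curl, the simulated end point -/

/-- the field as a function -/
def k6b_fld {m : ℕ} (T : Fin m → MvPolynomial (Fin m) ℝ) (u : Fin m → ℝ) : Fin m → ℝ :=
  fun i => eval u (T i)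

/-- `∂_j T_i - ∂_i T_j` -/
def k6b_curlP {m : ℕ} (T : Fin m → MvPolynomial (Fin m) ℝ) (i j : Fin m) : MvPolynomial (Fin m) ℝ :=
  pderiv j (T i) - pderiv i (T j)

/-- the bilinear form of a matrix: `∑ Ω i j * x j * y i` -/
def k6b_bil {m : ℕ} (Om : Fin m → Fin m → ℝ) (x y : Fin m → ℝ) : ℝ := ∑ i, ∑ j, Om i j * x j * y i

/-- `DT(u)[x]·y - DT(u)[y]·x` -/
def k6b_skw {m : ℕ} (T : Fin m → MvPolynomial (Fin m) ℝ) (u x y : Fin m → ℝ) : ℝ :=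
  k6b_bil (fun i j => eval u (k6b_curlP T i j)) x y

/-- base point after the first `i` legs `δ k • v k` -/
def k6b_base {m n : ℕ} (u0 : Fin m → ℝ) (v : Fin n → Fin m → ℝ) (δ : Fin n → ℝ) (i : ℕ) :
    Fin m → ℝ :=
  u0 + ∑ k : Fin n, if (k : ℕ) < i then δ k • v k else 0

/-- accumulated height: `∑_i ∫_0^{δ_i} T(base_i + s v_i) · v_i ds` -/
def k6b_height {m n : ℕ} (T : Fin m → MvPolynomial (Fin m) ℝ) (u0 : Fin m → ℝ)
    (v : Fin n → Fin m → ℝ) (δ : Fin n → ℝ) : ℝ :=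
  ∑ i : Fin n, ∫ s in (0 : ℝ)..(δ i), k6b_fld T (k6b_base u0 v δ i + s • v i) ⬝ᵥ v i

/-- the first `m` of `m + 1` directions, as rows of a matrix -/
def k6b_matA {m : ℕ} (v : Fin (m + 1) → Fin m → ℝ) : Matrix (Fin m) (Fin m) ℝ :=
  Matrix.of fun i => v i.castSucc

/-- the same with the direction `v 0` replaced by the last direction `v m` -/
def k6b_matB {m : ℕ} (v : Fin (m + 1) → Fin m → ℝ) : Matrix (Fin m) (Fin m) ℝ :=
  Matrix.of fun i => if (i : ℕ) = 0 then v (Fin.last m) else v i.castSucc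

/-- good control directions at the start `u0` -/
structure k6b_GoodDirs {m : ℕ} (T : Fin m → MvPolynomial (Fin m) ℝ) (u0 : Fin m → ℝ)
    (v : Fin (m + 1) → Fin m → ℝ) (K σ : ℝ) : Prop where
  bd : ∀ i, ‖v i‖ ≤ K
  detA : 1 ≤ K * |(k6b_matA v).det|
  detB : 1 ≤ K * |(k6b_matB v).det|
  skw : σ ≤ |k6b_skw T u0 (v 0) (v 1)|

/-! ## 2. Analytic cores -/

/-- **C1a** one variable: where `|p'| ≥ θ`, the polynomial `p` spends little time in an interval.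
PLAN: `p'` has `≤ d - 1` real roots (`Polynomial.card_roots'`, or `rmz_sign_const`), they cut `ℝ` into `≤ d` intervals on
which `p` is strictly monotone, hence injective; on such a piece `S`:
`θ * vol S ≤ ∫_S |p'| = vol (p '' S) ≤ 2ρ` (`MeasureTheory.lintegral_image_eq_lintegral_abs_deriv_mul`). -/
def k6b_mono_pieces_stmt : Prop :=
  ∀ (d : ℕ) (p : Polynomial ℝ), p.natDegree ≤ d → ∀ (θ c ρ : ℝ), 0 < θ → 0 ≤ ρ →
    volume {s : ℝ | θ ≤ |p.derivative.eval s| ∧ |p.eval s - c| ≤ ρ} ≤ ENNReal.ofReal (2 * d * ρ / θ)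

/-- **C1b** the accumulated height is a polynomial in the legs.
PLAN: for each leg, `(δ, s) ↦ T(base + s v)·v` is a polynomial in `s` with coefficients in `MvPolynomial (Fin n) ℝ`
(`MvPolynomial.aeval` into `Polynomial (MvPolynomial (Fin n) ℝ)`); integrate termwise (`integral_pow`). -/
def k6b_height_poly_stmt : Prop :=
  ∀ (m n D : ℕ) (T : Fin m → MvPolynomial (Fin m) ℝ) (u0 : Fin m → ℝ) (v : Fin n → Fin m → ℝ),
    (∀ i, (T i).totalDegree ≤ D) →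
    ∃ R : MvPolynomial (Fin n) ℝ, R.totalDegree ≤ D + 1 ∧ ∀ δ, eval δ R = k6b_height T u0 v δ

/-- **C1c** the Hessian of the height at `δ = 0`: `∂_i ∂_j R (0) = DT(u0)[v_i] · v_j` for `i ≤ j` (l.1218-1226).
PLAN: restrict to `δ = s e_i + t e_j`; `∂_t` at `t = 0` is `T(u0 + s v_i)·v_j` (FTC), then `∂_s` at `0`. -/
def k6b_height_hess_stmt : Prop :=
  ∀ (m n : ℕ) (T : Fin m → MvPolynomial (Fin m) ℝ) (u0 : Fin m → ℝ) (v : Fin n → Fin m → ℝ)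
    (R : MvPolynomial (Fin n) ℝ), (∀ δ, eval δ R = k6b_height T u0 v δ) →
    ∀ i j : Fin n, i ≤ j →
      eval 0 (pderiv i (pderiv j R)) = ∑ a, ∑ b, eval u0 (pderiv b (T a)) * v i b * v j a

/-- **C1** volume of the legs which are sent into one end cell (l.1195-1245).
PLAN.  `R` from C1b.  `k` = the kernel vector of `δ ↦ ∑ δ_i v_i` with `k_m = -1`, `k_i` = Cramer, `|k_0| = |det B / det A|`.
`μ = ∑ k_i ∂_i R`.  By C1c, `∂_1 μ (0) = k_0 * skw(u0)(v 0, v 1)`, which is a coefficient of `μ`: `rmzNm μ ≥ σ/(c K^c)`.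
`Bad = {|μ| < t}`, `t = rmzNm μ / (c (1/η)^c)`: `rmz_box` on `[-1,1]^(m+1)` (contrapositive).
Off `Bad`: linear change of variables `δ ↦ (y, s) = (∑ δ_i v_i, δ_m)` (Jacobian `det A`), Fubini, and for fixed `y` the
polynomial `s ↦ R(δ(y,s))` has derivative `-μ`: C1a. -/
def k6b_endpoint_volume_stmt : Prop :=
  ∀ (m D : ℕ), 2 ≤ m → ∃ c : ℕ, ∀ (K σ η ξ ρ : ℝ) (T : Fin m → MvPolynomial (Fin m) ℝ)
    (u0 : Fin m → ℝ) (v : Fin (m + 1) → Fin m → ℝ),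
    1 ≤ K → 0 < σ → 0 < η → η ≤ 1 → 0 < ξ → 0 < ρ →
    (∀ i, (T i).totalDegree ≤ D) → (∀ i, rmzNm (T i) ≤ K) → ‖u0‖ ≤ K → k6b_GoodDirs T u0 v K σ →
    ∃ Bad : Set (Fin (m + 1) → ℝ), MeasurableSet Bad ∧
      volume (Bad ∩ Set.Icc (-1) 1) ≤ ENNReal.ofReal η ∧
      ∀ (cu : Fin m → ℝ) (cx : ℝ),
        volume {δ : Fin (m + 1) → ℝ | δ ∈ Set.Icc (-1) 1 ∧ δ ∉ Bad ∧
            ‖k6b_base u0 v δ (m + 1) - cu‖ ≤ ξ ∧ |k6b_height T u0 v δ - cx| ≤ ρ}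
          ≤ ENNReal.ofReal (c * (K / η) ^ c * ξ ^ m * ρ / σ)

/-- **C4** sequential avoidance: one forbidden strip per switch, depending measurably on the curl matrix at the start and
on the earlier directions, produces good directions.
PLAN.  `k6b_bil Om x y = y · (Om x)`.  `a_0` = the row of `Om` that contains the largest entry, divided by that entry, so
`|Om v_0|_∞ > σ w`; `a_1 = Om v_0 / |Om v_0|_∞`, so `|bil| > σ w²`.  `m = 2`: `|bil| = |ω| |det (v_0,v_1)|`; `a_2 = v_1^⊥/|v_1|_∞`,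
`|v_1|_∞ ≥ |det A|/(2K)`.  `m = 3`: `|bil| ≤ 3 max|Om| |v_0 × v_1|_∞`; `a_2 = (v_0 × v_1)/|.|_∞`, `a_3 = (v_1 × v_2)/|.|_∞`, `|v_1 × v_2|_∞ ≥ |det A|/(3K)`.
Default `e_0` whenever the vector to be normalised is `0` (measurable case split). -/
def k6b_avoid_stmt : Prop :=
  ∀ m : ℕ, (m = 2 ∨ m = 3) → ∃ (c : ℕ)
    (a : Fin (m + 1) → (Fin m → Fin m → ℝ) → (Fin (m + 1) → Fin m → ℝ) → Fin m → ℝ),
    (∀ i, Measurable fun q : (Fin m → Fin m → ℝ) × (Fin (m + 1) → Fin m → ℝ) => a i q.1 q.2) ∧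
    (∀ i Om V V', (∀ j, j < i → V j = V' j) → a i Om V = a i Om V') ∧
    (∀ i Om V, ∃ k, 1 ≤ |a i Om V k|) ∧
    ∀ (Om : Fin m → Fin m → ℝ) (V : Fin (m + 1) → Fin m → ℝ) (K w σ : ℝ),
      1 ≤ K → 0 < w → w ≤ 1 → 0 < σ → (∀ i j, Om i j = -Om j i) → (∃ i j, σ ≤ |Om i j|) →
      (∀ i, ‖V i‖ ≤ K) → (∀ i, w < |a i Om V ⬝ᵥ V i|) →
      1 ≤ c * (K / w) ^ c * |(k6b_matA V).det| ∧ 1 ≤ c * (K / w) ^ c * |(k6b_matB V).det| ∧
        σ ≤ c * (K / w) ^ c * |k6b_bil Om (V 0) (V 1)|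

/-! ## 3. The switching system -/

/-- **data of a switching system** (one packet, one block, normalised units) -/
structure k6b_Sw (m : ℕ) where
  /-- lines -/
  Lam : Type
  mLam : MeasurableSpace Lam
  /-- states `𝒟` -/
  St : Type
  fSt : Fintype St
  /-- velocity bins -/
  Bn : Type
  fBn : Fintype Bn
  /-- prior on lines -/
  nu : Measure Lam
  /-- density of the law `ℙ` w.r.t. `nu × dτ` on `[0,1]` -/
  g : Lam × ℝ → ℝ≥0∞
  st : Lam × ℝ → St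
  bin : Lam → Bn
  /-- palette -/
  pal : Bn → ℝ≥0∞
  /-- centre of a bin (a direction in `ℝ^m`) -/
  cen : Bn → Fin m → ℝ
  u0 : Lam → Fin m → ℝ
  vel : Lam → Fin m → ℝ
  /-- normalised signal `X/h` at an event -/
  x : Lam × ℝ → ℝ
  /-- the long lines -/
  Lg : Set Lam

attribute [instance] k6b_Sw.mLam k6b_Sw.fSt k6b_Sw.fBn

namespace k6b_Sw

variable {m : ℕ} (Y : k6b_Sw m)

/-- the law `ℙ` on events -/
def mu : Measure (Y.Lam × ℝ) := (Y.nu.prod (volume.restrict (Set.Icc (0 : ℝ) 1))).withDensity Y.g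

/-- weighted duration of a line -/
def dur (l : Y.Lam) : ℝ≥0∞ := ∫⁻ τ in Set.Icc (0 : ℝ) 1, Y.g (l, τ)

/-- base position of an event -/
def pos (e : Y.Lam × ℝ) : Fin m → ℝ := Y.u0 e.1 + e.2 • Y.vel e.1

/-- the events that carry `ℙ` -/
def sup : Set (Y.Lam × ℝ) := {e | Y.g e ≠ 0 ∧ e.2 ∈ Set.Icc (0 : ℝ) 1}

/-- the event of a state -/
def stE (s : Y.St) : Set (Y.Lam × ℝ) := Y.st ⁻¹' {s}

/-- well-formedness -/
structure WF : Prop where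
  fin : IsFiniteMeasure Y.nu
  g_meas : Measurable Y.g
  st_meas : ∀ s, MeasurableSet (Y.stE s)
  bin_meas : ∀ J, MeasurableSet (Y.bin ⁻¹' {J})
  u0_meas : Measurable Y.u0
  vel_meas : Measurable Y.vel
  x_meas : Measurable Y.x
  Lg_meas : MeasurableSet Y.Lg
  prob : Y.mu Set.univ = 1

/-- the probabilistic hypotheses: short lines have mass `≤ η`; on a long line the end-time density is `≤ K`;
palette domination `K`; every strip of width `w` has conditional probability `≤ c0` in every state -/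
structure Chain (K c0 η : ℝ≥0∞) (w : ℝ) : Prop where
  long_mass : Y.mu {e | e.1 ∉ Y.Lg} ≤ η
  long_dens : ∀ l ∈ Y.Lg, ∀ τ, Y.g (l, τ) ≤ K * Y.dur l
  pal_dom : ∀ s J, Y.mu (Y.stE s ∩ {e | Y.bin e.1 = J}) ≤ K * Y.pal J * Y.mu (Y.stE s)
  strip : ∀ (s : Y.St) (a : Fin m → ℝ), (∃ i, 1 ≤ |a i|) →
    Y.mu (Y.stE s ∩ {e | |a ⬝ᵥ Y.vel e.1| ≤ w}) ≤ c0 * Y.mu (Y.stE s)

/-- a path: start `e0`, then `(l_i, τ_i^◇, τ_i)`; `evt e0 π i` is the event after `i` switches -/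
def evt {n : ℕ} (e0 : Y.Lam × ℝ) (π : Fin n → Y.Lam × ℝ × ℝ) (i : ℕ) : Y.Lam × ℝ :=
  if h : 0 < i ∧ i - 1 < n then ((π ⟨i - 1, h.2⟩).1, (π ⟨i - 1, h.2⟩).2.2) else e0

/-- admissible path: every switch happens inside a state, all events carry `ℙ`, all chosen lines are long -/
structure Adm {n : ℕ} (e0 : Y.Lam × ℝ) (π : Fin n → Y.Lam × ℝ × ℝ) : Prop where
  start : e0 ∈ Y.sup
  sw : ∀ i, ((π i).1, (π i).2.1) ∈ Y.sup ∧ Y.st ((π i).1, (π i).2.1) = Y.st (Y.evt e0 π i)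
  en : ∀ i, ((π i).1, (π i).2.2) ∈ Y.sup
  lg : ∀ i, (π i).1 ∈ Y.Lg

/-- the geometric hypotheses -/
structure Geo (T : Fin m → MvPolynomial (Fin m) ℝ) (K β pv εT : ℝ) : Prop where
  box0 : ∀ e ∈ Y.sup, ‖Y.pos e‖ ≤ K
  box : ∀ l ∈ Y.Lg, ∀ τ ∈ Set.Icc (0 : ℝ) 1, ‖Y.pos (l, τ)‖ ≤ K
  velb : ∀ l, ‖Y.vel l‖ ≤ K
  close : ∀ e ∈ Y.sup, ∀ e' ∈ Y.sup, Y.st e = Y.st e' →
    ‖Y.pos e - Y.pos e'‖ ≤ β ∧ |Y.x e - Y.x e'| ≤ β ∧ |e.2 - e'.2| ≤ β
  bins : ∀ l, ‖Y.vel l - Y.cen (Y.bin l)‖ ≤ pv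
  fit : ∀ l ∈ Y.Lg, ∀ τ₁ ∈ Set.Icc (0 : ℝ) 1, ∀ τ₂ ∈ Set.Icc (0 : ℝ) 1,
    |Y.x (l, τ₂) - Y.x (l, τ₁) - ∫ τ in τ₁..τ₂, k6b_fld T (Y.pos (l, τ)) ⬝ᵥ Y.vel l| ≤ εT

/-- base density, joint support count at the mesh `(ξ, ρ)`, total palette mass -/
structure Supp (K ξ ρ : ℝ) (Nc : ℕ) : Prop where
  dens : ∀ B : Set (Fin m → ℝ), MeasurableSet B →
    Y.mu {e | Y.pos e ∈ B} ≤ ENNReal.ofReal K * volume B
  cells : ∃ S : Finset ((Fin m → ℤ) × ℤ), S.card ≤ Nc ∧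
    ∀ e ∈ Y.sup, ((fun i => ⌊Y.pos e i / ξ⌋), ⌊Y.x e / ρ⌋) ∈ S
  pal_sum : ∑ J, Y.pal J ≤ ENNReal.ofReal K

end k6b_Sw

/-! ## 4. Probabilistic and geometric cores, and the proposition -/

/-- **C2** THE CHAIN LEMMA (l.1133-1180).  Stationary chain: from `e`, draw `(l, τ^◇)` from `ℙ(· | st e)`, then `τ` from the
`ℙ`-law given `l`.  If every admissible path from `Start` that avoids the forbidden strips satisfies the test `Ψ`
(a function of the start, of the bins and of the end times only), then `Ψ` has measure `≥ 1/2 (K²)^{-n}` for the product of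
`ℙ`, the palettes and Lebesgue measure.
PLAN.  One-step operator `(𝒦F)(e) = ℙ(st e)⁻¹ ∫_{st = st e} g(l,τ^◇) (dur l)⁻¹ ∫ g(l,τ) F(l,τ^◇,τ)`.  Path integral = `n`-fold iteration with
the history as a parameter (recursion on `n`, `Fin.cons` / `Fin.snoc`).  (i) `𝒦 1 = 1` a.e.; (ii) `∫ 𝒦(φ∘end) dℙ = ∫ φ dℙ` (both
half-steps preserve `ℙ`): short lines cost `η` per step; (iii) strips cost `c0` per step, conditionally on the past; (iv) for
`F = 1_{Lg} φ(bin l, τ)`: `𝒦F ≤ K² ∑_J pal J ∫ φ(J,τ) dτ` (`long_dens`, `pal_dom`), iterate backwards. -/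
def k6b_chain_stmt : Prop :=
  ∀ (m n : ℕ) (Y : k6b_Sw m) (K c0 η η' : ℝ≥0∞) (w : ℝ), Y.WF → Y.Chain K c0 η w →
    ∀ Start : Set (Y.Lam × ℝ), MeasurableSet Start → Y.mu Startᶜ ≤ η' →
    ∀ a : Fin n → (Y.Lam × ℝ) → (Fin n → Y.Lam) → Fin m → ℝ,
      (∀ i, Measurable fun q : (Y.Lam × ℝ) × (Fin n → Y.Lam) => a i q.1 q.2) →
      (∀ i e L L', (∀ j, j < i → L j = L' j) → a i e L = a i e L') →
      (∀ i e L, ∃ k, 1 ≤ |a i e L k|) →
    ∀ Ψ : (Y.Lam × ℝ) → (Fin n → Y.Bn) → (Fin n → ℝ) → Prop,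
      (∀ J, MeasurableSet {q : (Y.Lam × ℝ) × (Fin n → ℝ) | Ψ q.1 J q.2}) →
      (∀ e0 π, e0 ∈ Start → Y.Adm e0 π →
        (∀ i, w < |a i e0 (fun j => (π j).1) ⬝ᵥ Y.vel (π i).1|) →
        Ψ e0 (fun i => Y.bin (π i).1) (fun i => (π i).2.2)) →
    η' + n * (η + c0) ≤ 1 / 2 →
    1 / 2 ≤ (K * K) ^ n * ∫⁻ e0, ∑ J : Fin n → Y.Bn, (∏ i, Y.pal (J i)) *
      volume {τ : Fin n → ℝ | τ ∈ Set.Icc 0 1 ∧ Ψ e0 J τ} ∂Y.mu

/-- **C3** simulation error along an admissible path (l.1181-1194): deterministic induction on the switches. -/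
def k6b_simulate_stmt : Prop :=
  ∀ (m n D : ℕ), ∃ c : ℕ, ∀ (Y : k6b_Sw m) (T : Fin m → MvPolynomial (Fin m) ℝ)
    (K β pv εT : ℝ), 1 ≤ K → 0 ≤ β → β ≤ 1 → 0 ≤ pv → pv ≤ 1 → 0 ≤ εT →
    (∀ i, (T i).totalDegree ≤ D) → (∀ i, rmzNm (T i) ≤ K) → Y.Geo T K β pv εT →
    ∀ (e0 : Y.Lam × ℝ) (π : Fin n → Y.Lam × ℝ × ℝ), Y.Adm e0 π →
      ‖Y.pos (Y.evt e0 π n) - k6b_base (Y.pos e0) (fun i => Y.cen (Y.bin (π i).1))
          (fun i => (π i).2.2 - (Y.evt e0 π i).2) n‖ ≤ c * K ^ c * (β + pv) ∧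
      |Y.x (Y.evt e0 π n) - (Y.x e0 + k6b_height T (Y.pos e0) (fun i => Y.cen (Y.bin (π i).1))
          (fun i => (π i).2.2 - (Y.evt e0 π i).2))| ≤ c * K ^ c * (β + pv + εT)

/-- **C5 = Proposition `a05:conservativity`, one scale.**  In the paper `Nc ≤ K ξ^{-m} (a/a₁)^d`, `ρ = a₁/h`, so the bound is
`K (a/a₁)^d a₁/h = K h^{p_*-1} h^{e₁(1-d)}`.
PLAN.  `σ_* = max rmzNm (curl)`.  `Start = {max_ij |curl_ij (pos e)| ≥ σ_*/(c K^c)}`: `rmz_box` (contrapositive) + `dens`.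
`n = m + 1`, `a i e L = a_C4 i (curl at pos e) (vel ∘ L)`.  `Ψ e J τ` := the centres `cen ∘ J` are `k6b_GoodDirs` at `pos e` and the simulated
end point lies within `c K^c (ξ, ρ)` of a cell of `S`.  C3, C4 (+ perturbation `pv` of the determinants) give the implication;
C2 gives `1/2 ≤ K^{2n} ∫ ∑ ∏ pal * vol`; `τ ↦ δ` is unimodular; C1 with `η = 1/(4 K^{3n})` bounds `vol ≤ η + Nc c K^c ξ^m ρ/σ`. -/
def k6b_conservative_stmt : Prop :=
  ∀ (m D : ℕ), (m = 2 ∨ m = 3) → ∃ c : ℕ, ∀ (Y : k6b_Sw m) (T : Fin m → MvPolynomial (Fin m) ℝ)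
    (K β pv εT ξ ρ : ℝ) (Nc : ℕ), 1 ≤ K → 0 < ξ → 0 < ρ → 0 ≤ β → β ≤ 1 → 0 ≤ pv → 0 ≤ εT →
    (∀ i, (T i).totalDegree ≤ D) → (∀ i, rmzNm (T i) ≤ K) →
    Y.WF → Y.Chain (ENNReal.ofReal K) (1 / 64) (1 / 64) (1 / K) → Y.Geo T K β pv εT →
    Y.Supp K ξ ρ Nc →
    c * K ^ c * pv ≤ 1 → β + pv ≤ K * ξ → β + pv + εT ≤ K * ρ →
    ∀ i j, rmzNm (k6b_curlP T i j) ≤ c * K ^ c * (Nc * ξ ^ m * ρ)

end

end Claimed.Agent.R252
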