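import Claimed.Agent.R252.S6b.SwitchDefs

/-!
# Row252, unit S6b, leaf C4: sequential avoidance (`k6b_avoid_stmt`).

One forbidden strip per switch.  A functional `x` is normalised by `x ↦ m x / ∑ |x_i|` (default `(1,..,1)`), so that some
coordinate has modulus `≥ 1`, and avoiding its strip of width `w` gives `w ∑ |x_i| < m |x · v|`.
`m = 2`: `(1,1)`, `v_0^⊥`, `v_1^⊥`.  `m = 3`: the row of the largest entry, `Om v_0`, `v_0 × v_1`, `v_1 × v_2`.  Constant `27`.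
-/

set_option autoImplicit false

namespace Claimed.Agent.R252

open MeasureTheory
open scoped BigOperators

noncomputable section

/-- normalisation of a functional: divide by the mean of the absolute values; default `(1,..,1)` -/
def k6b_av_nz {m : ℕ} (x : Fin m → ℝ) : Fin m → ℝ :=
  if (∑ i, |x i|) = 0 then (fun _ => 1) else fun k => (m : ℝ) * x k / ∑ i, |x i|

theorem k6b_av_nz_meas {m : ℕ} : Measurable (k6b_av_nz : (Fin m → ℝ) → Fin m → ℝ) := by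
  unfold k6b_av_nz
  refine Measurable.ite (measurableSet_eq_fun (by fun_prop) measurable_const) measurable_const ?_
  fun_prop

theorem k6b_av_nz_big {m : ℕ} (hm : 0 < m) (x : Fin m → ℝ) : ∃ k, 1 ≤ |k6b_av_nz x k| := by
  unfold k6b_av_nz
  by_cases h : (∑ i, |x i|) = 0
  · rw [if_pos h]
    exact ⟨⟨0, hm⟩, by simp⟩
  · rw [if_neg h]
    have hS : 0 < ∑ i, |x i| := lt_of_le_of_ne (Finset.sum_nonneg fun i _ => abs_nonneg _) (Ne.symm h)
    by_contra hcon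
    push Not at hcon
    have h1 : ∀ k, (m : ℝ) * |x k| < ∑ i, |x i| := by
      intro k
      have := hcon k
      rw [abs_div, abs_mul, abs_of_pos hS, Nat.abs_cast, div_lt_one hS] at this
      exact this
    have h2 : ∑ k : Fin m, (m : ℝ) * |x k| < ∑ _k : Fin m, ∑ i, |x i| :=
      Finset.sum_lt_sum_of_nonempty ⟨⟨0, hm⟩, Finset.mem_univ _⟩ fun k _ => h1 k
    rw [← Finset.mul_sum, Finset.sum_const, Finset.card_univ, Fintype.card_fin, nsmul_eq_mul] at h2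
    exact lt_irrefl _ h2

/-- the consequence of avoiding the strip of a normalised functional -/
theorem k6b_av_nz_use {m : ℕ} (x v : Fin m → ℝ) (w : ℝ) (hS : 0 < ∑ i, |x i|) (h : w < |k6b_av_nz x ⬝ᵥ v|) :
    w * (∑ i, |x i|) < (m : ℝ) * |x ⬝ᵥ v| := by
  unfold k6b_av_nz at h
  rw [if_neg hS.ne'] at h
  have e : (fun k => (m : ℝ) * x k / ∑ i, |x i|) ⬝ᵥ v = (m : ℝ) * (x ⬝ᵥ v) / ∑ i, |x i| := by
    simp only [dotProduct, Finset.mul_sum, Finset.sum_div]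
    refine Finset.sum_congr rfl fun k _ => ?_
    ring
  rw [e, abs_div, abs_mul, abs_of_pos hS, Nat.abs_cast, lt_div_iff₀ hS] at h
  exact h

/-- the arithmetic of the constants -/
theorem k6b_av_const {K w : ℝ} (hK : 1 ≤ K) (hw : 0 < w) (hw1 : w ≤ 1) : 1 ≤ (27 : ℝ) * (K / w) ^ 27 * (w ^ 4 / (27 * K)) := by
  have hK0 : 0 < K := by linarith
  have h1 : 1 ≤ K / w := by
    rw [le_div_iff₀ hw]; linarith
  have h2 : (K / w) ^ 4 ≤ (K / w) ^ 27 := pow_le_pow_right₀ h1 (by norm_num)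
  have h3 : (27 : ℝ) * (K / w) ^ 4 * (w ^ 4 / (27 * K)) = K ^ 3 := by
    field_simp
  have h4 : (1 : ℝ) ≤ K ^ 3 := one_le_pow₀ hK
  have h5 : 0 ≤ w ^ 4 / (27 * K) := by positivity
  calc (1 : ℝ) ≤ K ^ 3 := h4
    _ = (27 : ℝ) * (K / w) ^ 4 * (w ^ 4 / (27 * K)) := h3.symm
    _ ≤ (27 : ℝ) * (K / w) ^ 27 * (w ^ 4 / (27 * K)) := by
        refine mul_le_mul_of_nonneg_right ?_ h5
        linarith

theorem k6b_av_fin {K w x : ℝ} (hK : 1 ≤ K) (hw : 0 < w) (hw1 : w ≤ 1) (hx : w ^ 4 / (27 * K) ≤ x) : 1 ≤ ((27 : ℕ) : ℝ) * (K / w) ^ 27 * x := by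
  have hK0 : 0 < K := by linarith
  have h0 : 0 ≤ (27 : ℝ) * (K / w) ^ 27 := by positivity
  push_cast
  exact (k6b_av_const hK hw hw1).trans (mul_le_mul_of_nonneg_left hx h0)

/-- the chain of inequalities for `m = 3`, in abstract form -/
theorem k6b_av_arith {K w σ M S1 S2 S3 b A B : ℝ} (hK : 1 ≤ K) (hw : 0 < w) (hw1 : w ≤ 1) (hσ : 0 < σ) (hσM : σ ≤ M)
    (hb0 : 0 ≤ b) (hA0 : 0 ≤ A)
    (h0 : M * w < S1) (h1 : w * S1 < 3 * b) (hbS : b ≤ M * S2) (h2 : 0 < S2 → w * S2 < 3 * A)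
    (hAS : A ≤ K * S3) (h3 : 0 < S3 → w * S3 < 3 * B) :
    w ^ 4 / (27 * K) ≤ A ∧ w ^ 4 / (27 * K) ≤ B ∧ w ^ 4 / (27 * K) ≤ b / σ := by
  have hK0 : 0 < K := by linarith
  have hM0 : 0 < M := hσ.trans_le hσM
  have hww : 0 < w * w := mul_pos hw hw
  have hb : M * (w * w) < 3 * b := by
    have : w * (M * w) < w * S1 := mul_lt_mul_of_pos_left h0 hw
    linarith
  have hS2 : w * w < 3 * S2 := by
    have : M * (w * w) < M * (3 * S2) := by linarith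
    exact lt_of_mul_lt_mul_left this hM0.le
  have hS2pos : 0 < S2 := by linarith
  have hA9 : w * (w * w) < 9 * A := by
    have : w * (w * w) < w * (3 * S2) := mul_lt_mul_of_pos_left hS2 hw
    have := h2 hS2pos
    linarith
  have hw3pos : 0 < w * (w * w) := mul_pos hw hww
  have hS3pos : 0 < S3 := by
    by_contra hcon
    have : K * S3 ≤ 0 := mul_nonpos_of_nonneg_of_nonpos hK0.le (not_lt.1 hcon)
    linarith
  have hB27 : w * (w * (w * w)) ≤ 27 * (K * B) := by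
    have a1 : w * (w * (w * w)) ≤ w * (9 * A) := mul_le_mul_of_nonneg_left hA9.le hw.le
    have a2 : w * A ≤ w * (K * S3) := mul_le_mul_of_nonneg_left hAS hw.le
    have a3 : K * (w * S3) ≤ K * (3 * B) := mul_le_mul_of_nonneg_left (h3 hS3pos).le hK0.le
    linarith
  have hw2 : w ^ 4 ≤ w ^ 2 := pow_le_pow_of_le_one hw.le hw1 (by norm_num)
  have hw3 : w ^ 4 ≤ w ^ 3 := pow_le_pow_of_le_one hw.le hw1 (by norm_num)
  refine ⟨?_, ?_, ?_⟩
  · rw [div_le_iff₀ (by positivity)]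
    have c : A * 27 ≤ A * (27 * K) := mul_le_mul_of_nonneg_left (by linarith) hA0
    linarith
  · rw [div_le_iff₀ (by positivity)]
    linarith
  · rw [div_le_div_iff₀ (by positivity) hσ]
    have c1 : σ * (w * w) ≤ M * (w * w) := mul_le_mul_of_nonneg_right hσM hww.le
    have c3 : w ^ 4 * σ ≤ w ^ 2 * σ := mul_le_mul_of_nonneg_right hw2 hσ.le
    have c4 : b * 27 ≤ b * (27 * K) := mul_le_mul_of_nonneg_left (by linarith) hb0
    linarith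

/-! ## m = 2 -/

/-- rotation by a right angle -/
def k6b_av_perp (x : Fin 2 → ℝ) : Fin 2 → ℝ := ![-x 1, x 0]

/-- the three functionals for `m = 2` -/
def k6b_av_a2 : Fin 3 → (Fin 2 → Fin 2 → ℝ) → (Fin 3 → Fin 2 → ℝ) → Fin 2 → ℝ :=
  ![fun _ _ _ => 1, fun _ V => k6b_av_nz (k6b_av_perp (V 0)), fun _ V => k6b_av_nz (k6b_av_perp (V 1))]

theorem k6b_av_perp_meas : Measurable k6b_av_perp := by
  unfold k6b_av_perp
  refine measurable_pi_iff.2 fun k => ?_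
  match k with
  | 0 => exact (measurable_pi_apply 1).neg
  | 1 => exact measurable_pi_apply 0

theorem k6b_av_a2_meas (i : Fin 3) :
    Measurable fun q : (Fin 2 → Fin 2 → ℝ) × (Fin 3 → Fin 2 → ℝ) => k6b_av_a2 i q.1 q.2 := by
  match i with
  | 0 => exact measurable_const
  | 1 => exact k6b_av_nz_meas.comp (k6b_av_perp_meas.comp ((measurable_pi_apply 0).comp measurable_snd))
  | 2 => exact k6b_av_nz_meas.comp (k6b_av_perp_meas.comp ((measurable_pi_apply 1).comp measurable_snd))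

theorem k6b_av_a2_past (i : Fin 3) (Om : Fin 2 → Fin 2 → ℝ) (V V' : Fin 3 → Fin 2 → ℝ) (h : ∀ j, j < i → V j = V' j) :
    k6b_av_a2 i Om V = k6b_av_a2 i Om V' := by
  match i with
  | 0 => rfl
  | 1 =>
    show k6b_av_nz (k6b_av_perp (V 0)) = k6b_av_nz (k6b_av_perp (V' 0))
    rw [h 0 (by decide)]
  | 2 =>
    show k6b_av_nz (k6b_av_perp (V 1)) = k6b_av_nz (k6b_av_perp (V' 1))
    rw [h 1 (by decide)]

theorem k6b_av_a2_big (i : Fin 3) (Om : Fin 2 → Fin 2 → ℝ) (V : Fin 3 → Fin 2 → ℝ) : ∃ k, 1 ≤ |k6b_av_a2 i Om V k| := by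
  match i with
  | 0 => exact ⟨0, by show (1 : ℝ) ≤ |1|; simp⟩
  | 1 => exact k6b_av_nz_big (by norm_num) _
  | 2 => exact k6b_av_nz_big (by norm_num) _

theorem k6b_av_good2 (Om : Fin 2 → Fin 2 → ℝ) (V : Fin 3 → Fin 2 → ℝ) (K w σ : ℝ)
    (hK : 1 ≤ K) (hw : 0 < w) (hw1 : w ≤ 1) (hσ : 0 < σ) (hanti : ∀ i j, Om i j = -Om j i) (hbig : ∃ i j, σ ≤ |Om i j|)
    (hV : ∀ i, ‖V i‖ ≤ K) (hav : ∀ i, w < |k6b_av_a2 i Om V ⬝ᵥ V i|) :
    1 ≤ ((27 : ℕ) : ℝ) * (K / w) ^ 27 * |(k6b_matA V).det| ∧ 1 ≤ ((27 : ℕ) : ℝ) * (K / w) ^ 27 * |(k6b_matB V).det| ∧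
      σ ≤ ((27 : ℕ) : ℝ) * (K / w) ^ 27 * |k6b_bil Om (V 0) (V 1)| := by
  have hK0 : 0 < K := by linarith
  have hVk : ∀ i k, |V i k| ≤ K := fun i k => (norm_le_pi_norm (V i) k).trans (hV i)
  -- determinants
  have eA : (k6b_matA V).det = V 0 0 * V 1 1 - V 0 1 * V 1 0 := by
    rw [Matrix.det_fin_two]; rfl
  have eB : (k6b_matB V).det = V 2 0 * V 1 1 - V 2 1 * V 1 0 := by
    rw [Matrix.det_fin_two]; rfl
  -- step 0
  have h0 : w < |V 0 0 + V 0 1| := by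
    have := hav 0
    have e : k6b_av_a2 0 Om V ⬝ᵥ V 0 = V 0 0 + V 0 1 := by
      show (fun _ => (1 : ℝ)) ⬝ᵥ V 0 = _
      simp [dotProduct, Fin.sum_univ_two]
    rwa [e] at this
  have hS0 : w < ∑ i, |k6b_av_perp (V 0) i| := by
    have e : ∑ i, |k6b_av_perp (V 0) i| = |V 0 1| + |V 0 0| := by
      simp [k6b_av_perp, Fin.sum_univ_two]
    rw [e]
    have := abs_add_le (V 0 0) (V 0 1)
    linarith
  -- step 1
  have h1 : w * w < 2 * |(k6b_matA V).det| := by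
    have := k6b_av_nz_use (k6b_av_perp (V 0)) (V 1) w (hw.trans hS0) (hav 1)
    have e : k6b_av_perp (V 0) ⬝ᵥ V 1 = (k6b_matA V).det := by
      rw [eA]; simp [k6b_av_perp, dotProduct, Fin.sum_univ_two]; ring
    rw [e] at this
    push_cast at this
    nlinarith
  -- step 2
  have hS1 : |(k6b_matA V).det| ≤ K * ∑ i, |k6b_av_perp (V 1) i| := by
    have e : ∑ i, |k6b_av_perp (V 1) i| = |V 1 1| + |V 1 0| := by
      simp [k6b_av_perp, Fin.sum_univ_two]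
    rw [e, eA]
    calc |V 0 0 * V 1 1 - V 0 1 * V 1 0| ≤ |V 0 0 * V 1 1| + |V 0 1 * V 1 0| := abs_sub _ _
      _ = |V 0 0| * |V 1 1| + |V 0 1| * |V 1 0| := by rw [abs_mul, abs_mul]
      _ ≤ K * |V 1 1| + K * |V 1 0| := add_le_add (mul_le_mul_of_nonneg_right (hVk 0 0) (abs_nonneg _)) (mul_le_mul_of_nonneg_right (hVk 0 1) (abs_nonneg _))
      _ = K * (|V 1 1| + |V 1 0|) := by ring
  have hS1pos : 0 < ∑ i, |k6b_av_perp (V 1) i| := by
    by_contra hcon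
    have : K * ∑ i, |k6b_av_perp (V 1) i| ≤ 0 := mul_nonpos_of_nonneg_of_nonpos hK0.le (not_lt.1 hcon)
    nlinarith
  have h2 : w * (∑ i, |k6b_av_perp (V 1) i|) < 2 * |(k6b_matB V).det| := by
    have := k6b_av_nz_use (k6b_av_perp (V 1)) (V 2) w hS1pos (hav 2)
    have e : k6b_av_perp (V 1) ⬝ᵥ V 2 = -(k6b_matB V).det := by
      rw [eB]; simp [k6b_av_perp, dotProduct, Fin.sum_univ_two]; ring
    rw [e, abs_neg] at this
    push_cast at this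
    exact this
  -- the entry of `Om`
  have hd : ∀ i, Om i i = 0 := fun i => by have := hanti i i; linarith
  have h10 : Om 1 0 = -Om 0 1 := hanti 1 0
  have hω : σ ≤ |Om 0 1| := by
    obtain ⟨i, j, hij⟩ := hbig
    match i, j with
    | 0, 0 => rw [hd 0, abs_zero] at hij; linarith
    | 0, 1 => exact hij
    | 1, 0 => rwa [h10, abs_neg] at hij
    | 1, 1 => rw [hd 1, abs_zero] at hij; linarith
  have ebil : k6b_bil Om (V 0) (V 1) = -(Om 0 1 * (k6b_matA V).det) := by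
    rw [eA]
    simp only [k6b_bil, Fin.sum_univ_two, hd, h10]
    ring
  have hw2 : w ^ 4 ≤ w ^ 2 := pow_le_pow_of_le_one hw.le hw1 (by norm_num)
  have hw3 : w ^ 4 ≤ w ^ 3 := pow_le_pow_of_le_one hw.le hw1 (by norm_num)
  have hA : w ^ 4 / (27 * K) ≤ |(k6b_matA V).det| := by
    rw [div_le_iff₀ (by positivity)]
    have : 0 ≤ |(k6b_matA V).det| := abs_nonneg _
    nlinarith
  have hB : w ^ 4 / (27 * K) ≤ |(k6b_matB V).det| := by
    rw [div_le_iff₀ (by positivity)]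
    have h3 : w * |(k6b_matA V).det| ≤ K * (2 * |(k6b_matB V).det|) := by
      calc w * |(k6b_matA V).det| ≤ w * (K * ∑ i, |k6b_av_perp (V 1) i|) := mul_le_mul_of_nonneg_left hS1 hw.le
        _ = K * (w * ∑ i, |k6b_av_perp (V 1) i|) := by ring
        _ ≤ K * (2 * |(k6b_matB V).det|) := mul_le_mul_of_nonneg_left h2.le hK0.le
    have h4 : w * (w * w) ≤ w * (2 * |(k6b_matA V).det|) := mul_le_mul_of_nonneg_left h1.le hw.le
    have h5 : 0 ≤ |(k6b_matB V).det| := abs_nonneg _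
    have h6 : 0 ≤ K * |(k6b_matB V).det| := by positivity
    nlinarith
  have gA := k6b_av_fin hK hw hw1 hA
  refine ⟨gA, k6b_av_fin hK hw hw1 hB, ?_⟩
  rw [ebil, abs_neg, abs_mul]
  have hL : 0 ≤ ((27 : ℕ) : ℝ) * (K / w) ^ 27 := by positivity
  calc σ = σ * 1 := (mul_one σ).symm
    _ ≤ σ * (((27 : ℕ) : ℝ) * (K / w) ^ 27 * |(k6b_matA V).det|) := mul_le_mul_of_nonneg_left gA hσ.le
    _ = ((27 : ℕ) : ℝ) * (K / w) ^ 27 * (σ * |(k6b_matA V).det|) := by ring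
    _ ≤ ((27 : ℕ) : ℝ) * (K / w) ^ 27 * (|Om 0 1| * |(k6b_matA V).det|) :=
        mul_le_mul_of_nonneg_left (mul_le_mul_of_nonneg_right hω (abs_nonneg _)) hL

/-! ## m = 3 -/

/-- the cross product -/
def k6b_av_cr (x y : Fin 3 → ℝ) : Fin 3 → ℝ := ![x 1 * y 2 - x 2 * y 1, x 2 * y 0 - x 0 * y 2, x 0 * y 1 - x 1 * y 0]

/-- `Om x` -/
def k6b_av_mv (Om : Fin 3 → Fin 3 → ℝ) (x : Fin 3 → ℝ) : Fin 3 → ℝ := fun i => ∑ j, Om i j * x j

/-- the row of `Om` which contains the largest of the entries `01`, `02`, `12`, divided by that entry -/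
def k6b_av_row (Om : Fin 3 → Fin 3 → ℝ) : Fin 3 → ℝ :=
  if |Om 0 2| ≤ |Om 0 1| ∧ |Om 1 2| ≤ |Om 0 1| ∧ Om 0 1 ≠ 0 then fun k => Om 0 k / Om 0 1
  else if |Om 1 2| ≤ |Om 0 2| ∧ Om 0 2 ≠ 0 then fun k => Om 0 k / Om 0 2
  else if Om 1 2 ≠ 0 then fun k => Om 1 k / Om 1 2
  else fun _ => 1

/-- the four functionals for `m = 3` -/
def k6b_av_a3 : Fin 4 → (Fin 3 → Fin 3 → ℝ) → (Fin 4 → Fin 3 → ℝ) → Fin 3 → ℝ :=
  ![fun Om _ => k6b_av_row Om, fun Om V => k6b_av_nz (k6b_av_mv Om (V 0)), fun _ V => k6b_av_nz (k6b_av_cr (V 0) (V 1)),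
    fun _ V => k6b_av_nz (k6b_av_cr (V 1) (V 2))]

theorem k6b_av_row_meas : Measurable k6b_av_row := by
  have hab : ∀ i j k l : Fin 3, MeasurableSet {Om : Fin 3 → Fin 3 → ℝ | |Om i j| ≤ |Om k l|} := fun i j k l =>
    measurableSet_le (f := fun Om : Fin 3 → Fin 3 → ℝ => |Om i j|) (g := fun Om : Fin 3 → Fin 3 → ℝ => |Om k l|)
      (by fun_prop) (by fun_prop)
  have hne : ∀ i j : Fin 3, MeasurableSet {Om : Fin 3 → Fin 3 → ℝ | Om i j ≠ 0} := fun i j =>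
    (measurableSet_eq_fun (f := fun Om : Fin 3 → Fin 3 → ℝ => Om i j) (g := fun _ => (0 : ℝ))
      (by fun_prop) measurable_const).compl
  unfold k6b_av_row
  refine Measurable.ite ?_ (by fun_prop) (Measurable.ite ?_ (by fun_prop) (Measurable.ite ?_ (by fun_prop) measurable_const))
  · exact (hab 0 2 0 1).inter ((hab 1 2 0 1).inter (hne 0 1))
  · exact (hab 1 2 0 2).inter (hne 0 2)
  · exact hne 1 2

theorem k6b_av_row_big (Om : Fin 3 → Fin 3 → ℝ) : ∃ k, 1 ≤ |k6b_av_row Om k| := by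
  unfold k6b_av_row
  split_ifs with h1 h2 h3
  · exact ⟨1, by show 1 ≤ |Om 0 1 / Om 0 1|; rw [div_self h1.2.2]; simp⟩
  · exact ⟨2, by show 1 ≤ |Om 0 2 / Om 0 2|; rw [div_self h2.2]; simp⟩
  · exact ⟨2, by show 1 ≤ |Om 1 2 / Om 1 2|; rw [div_self h3]; simp⟩
  · exact ⟨0, by simp⟩

theorem k6b_av_cr_meas (i j : Fin 4) :
    Measurable fun q : (Fin 3 → Fin 3 → ℝ) × (Fin 4 → Fin 3 → ℝ) => k6b_av_cr (q.2 i) (q.2 j) := by
  unfold k6b_av_cr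
  refine measurable_pi_iff.2 fun k => ?_
  match k with
  | 0 => show Measurable fun q : (Fin 3 → Fin 3 → ℝ) × (Fin 4 → Fin 3 → ℝ) => q.2 i 1 * q.2 j 2 - q.2 i 2 * q.2 j 1; fun_prop
  | 1 => show Measurable fun q : (Fin 3 → Fin 3 → ℝ) × (Fin 4 → Fin 3 → ℝ) => q.2 i 2 * q.2 j 0 - q.2 i 0 * q.2 j 2; fun_prop
  | 2 => show Measurable fun q : (Fin 3 → Fin 3 → ℝ) × (Fin 4 → Fin 3 → ℝ) => q.2 i 0 * q.2 j 1 - q.2 i 1 * q.2 j 0; fun_prop

theorem k6b_av_a3_meas (i : Fin 4) :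
    Measurable fun q : (Fin 3 → Fin 3 → ℝ) × (Fin 4 → Fin 3 → ℝ) => k6b_av_a3 i q.1 q.2 := by
  match i with
  | 0 => exact k6b_av_row_meas.comp measurable_fst
  | 1 =>
    refine k6b_av_nz_meas.comp ?_
    unfold k6b_av_mv
    fun_prop
  | 2 => exact k6b_av_nz_meas.comp (k6b_av_cr_meas 0 1)
  | 3 => exact k6b_av_nz_meas.comp (k6b_av_cr_meas 1 2)

theorem k6b_av_a3_past (i : Fin 4) (Om : Fin 3 → Fin 3 → ℝ) (V V' : Fin 4 → Fin 3 → ℝ) (h : ∀ j, j < i → V j = V' j) :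
    k6b_av_a3 i Om V = k6b_av_a3 i Om V' := by
  match i with
  | 0 => rfl
  | 1 =>
    show k6b_av_nz (k6b_av_mv Om (V 0)) = k6b_av_nz (k6b_av_mv Om (V' 0))
    rw [h 0 (by decide)]
  | 2 =>
    show k6b_av_nz (k6b_av_cr (V 0) (V 1)) = k6b_av_nz (k6b_av_cr (V' 0) (V' 1))
    rw [h 0 (by decide), h 1 (by decide)]
  | 3 =>
    show k6b_av_nz (k6b_av_cr (V 1) (V 2)) = k6b_av_nz (k6b_av_cr (V' 1) (V' 2))
    rw [h 1 (by decide), h 2 (by decide)]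

theorem k6b_av_a3_big (i : Fin 4) (Om : Fin 3 → Fin 3 → ℝ) (V : Fin 4 → Fin 3 → ℝ) : ∃ k, 1 ≤ |k6b_av_a3 i Om V k| := by
  match i with
  | 0 => exact k6b_av_row_big Om
  | 1 => exact k6b_av_nz_big (by norm_num) _
  | 2 => exact k6b_av_nz_big (by norm_num) _
  | 3 => exact k6b_av_nz_big (by norm_num) _

/-- the selected row: its entry `M` dominates, and `(Om v)_i = ± M (row · v)` -/
theorem k6b_av_row_use (Om : Fin 3 → Fin 3 → ℝ) (σ : ℝ) (hσ : 0 < σ) (hanti : ∀ i j, Om i j = -Om j i) (hbig : ∃ i j, σ ≤ |Om i j|) :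
    ∃ (M : ℝ) (i : Fin 3), σ ≤ M ∧ |Om 0 1| ≤ M ∧ |Om 0 2| ≤ M ∧ |Om 1 2| ≤ M ∧
      ∀ v, |k6b_av_mv Om v i| = M * |k6b_av_row Om ⬝ᵥ v| := by
  have hd : ∀ i, Om i i = 0 := fun i => by have := hanti i i; linarith
  have hmax : σ ≤ |Om 0 1| ∨ σ ≤ |Om 0 2| ∨ σ ≤ |Om 1 2| := by
    obtain ⟨i, j, hij⟩ := hbig
    match i, j with
    | 0, 0 => rw [hd 0, abs_zero] at hij; linarith
    | 1, 1 => rw [hd 1, abs_zero] at hij; linarith
    | 2, 2 => rw [hd 2, abs_zero] at hij; linarith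
    | 0, 1 => exact Or.inl hij
    | 0, 2 => exact Or.inr (Or.inl hij)
    | 1, 2 => exact Or.inr (Or.inr hij)
    | 1, 0 => rw [hanti 1 0, abs_neg] at hij; exact Or.inl hij
    | 2, 0 => rw [hanti 2 0, abs_neg] at hij; exact Or.inr (Or.inl hij)
    | 2, 1 => rw [hanti 2 1, abs_neg] at hij; exact Or.inr (Or.inr hij)
  have key : ∀ (i : Fin 3) (e : ℝ), e ≠ 0 → ∀ v, |k6b_av_mv Om v i| = |e| * |(fun k => Om i k / e) ⬝ᵥ v| := by
    intro i e he v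
    rw [← abs_mul]
    congr 1
    simp only [k6b_av_mv, dotProduct, Finset.mul_sum]
    refine Finset.sum_congr rfl fun k _ => ?_
    field_simp
  have p0 := abs_nonneg (Om 0 1)
  have q0 := abs_nonneg (Om 0 2)
  have r0 := abs_nonneg (Om 1 2)
  unfold k6b_av_row
  by_cases h1 : |Om 0 2| ≤ |Om 0 1| ∧ |Om 1 2| ≤ |Om 0 1| ∧ Om 0 1 ≠ 0
  · refine ⟨|Om 0 1|, 0, ?_, le_rfl, h1.1, h1.2.1, fun v => ?_⟩
    · rcases hmax with h | h | h <;> linarith [h1.1, h1.2.1]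
    · rw [if_pos h1]; exact key 0 _ h1.2.2 v
  · rw [if_neg h1]
    by_cases h2 : |Om 1 2| ≤ |Om 0 2| ∧ Om 0 2 ≠ 0
    · have hq : 0 < |Om 0 2| := abs_pos.2 h2.2
      have hp : |Om 0 1| ≤ |Om 0 2| := by
        by_contra hcon
        push Not at hcon
        exact h1 ⟨hcon.le, h2.1.trans hcon.le, abs_pos.1 (hq.trans hcon)⟩
      refine ⟨|Om 0 2|, 0, ?_, hp, le_rfl, h2.1, fun v => ?_⟩
      · rcases hmax with h | h | h <;> linarith [h2.1]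
      · rw [if_pos h2]; exact key 0 _ h2.2 v
    · rw [if_neg h2]
      have hq : |Om 0 2| ≤ |Om 1 2| := by
        by_contra hcon
        push Not at hcon
        exact h2 ⟨hcon.le, abs_pos.1 (lt_of_le_of_lt r0 hcon)⟩
      have hp : |Om 0 1| ≤ |Om 1 2| := by
        by_contra hcon
        push Not at hcon
        exact h1 ⟨hq.trans hcon.le, hcon.le, abs_pos.1 (lt_of_le_of_lt r0 hcon)⟩
      have hr : σ ≤ |Om 1 2| := by
        rcases hmax with h | h | h <;> linarith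
      have h3 : Om 1 2 ≠ 0 := abs_pos.1 (hσ.trans_le hr)
      refine ⟨|Om 1 2|, 1, hr, hp, hq, le_rfl, fun v => ?_⟩
      rw [if_pos h3]; exact key 1 _ h3 v

theorem k6b_av_good3 (Om : Fin 3 → Fin 3 → ℝ) (V : Fin 4 → Fin 3 → ℝ) (K w σ : ℝ)
    (hK : 1 ≤ K) (hw : 0 < w) (hw1 : w ≤ 1) (hσ : 0 < σ) (hanti : ∀ i j, Om i j = -Om j i) (hbig : ∃ i j, σ ≤ |Om i j|)
    (hV : ∀ i, ‖V i‖ ≤ K) (hav : ∀ i, w < |k6b_av_a3 i Om V ⬝ᵥ V i|) :
    1 ≤ ((27 : ℕ) : ℝ) * (K / w) ^ 27 * |(k6b_matA V).det| ∧ 1 ≤ ((27 : ℕ) : ℝ) * (K / w) ^ 27 * |(k6b_matB V).det| ∧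
      σ ≤ ((27 : ℕ) : ℝ) * (K / w) ^ 27 * |k6b_bil Om (V 0) (V 1)| := by
  have hK0 : 0 < K := by linarith
  have hVk : ∀ i k, |V i k| ≤ K := fun i k => (norm_le_pi_norm (V i) k).trans (hV i)
  obtain ⟨M, i0, hσM, hM01, hM02, hM12, hrow⟩ := k6b_av_row_use Om σ hσ hanti hbig
  have hM0 : 0 < M := hσ.trans_le hσM
  have hd : ∀ i, Om i i = 0 := fun i => by have := hanti i i; linarith
  -- determinants
  have eA : (k6b_matA V).det = V 0 0 * V 1 1 * V 2 2 - V 0 0 * V 1 2 * V 2 1 - V 0 1 * V 1 0 * V 2 2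
      + V 0 1 * V 1 2 * V 2 0 + V 0 2 * V 1 0 * V 2 1 - V 0 2 * V 1 1 * V 2 0 := by
    rw [Matrix.det_fin_three]; rfl
  have eB : (k6b_matB V).det = V 3 0 * V 1 1 * V 2 2 - V 3 0 * V 1 2 * V 2 1 - V 3 1 * V 1 0 * V 2 2
      + V 3 1 * V 1 2 * V 2 0 + V 3 2 * V 1 0 * V 2 1 - V 3 2 * V 1 1 * V 2 0 := by
    rw [Matrix.det_fin_three]; rfl
  have eS : ∀ x y : Fin 3 → ℝ, ∑ i, |k6b_av_cr x y i|
      = |x 1 * y 2 - x 2 * y 1| + |x 2 * y 0 - x 0 * y 2| + |x 0 * y 1 - x 1 * y 0| := by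
    intro x y
    rw [Fin.sum_univ_three]; rfl
  have eD : ∀ x y z : Fin 3 → ℝ, k6b_av_cr x y ⬝ᵥ z
      = (x 1 * y 2 - x 2 * y 1) * z 0 + (x 2 * y 0 - x 0 * y 2) * z 1 + (x 0 * y 1 - x 1 * y 0) * z 2 := by
    intro x y z
    rw [dotProduct, Fin.sum_univ_three]; rfl
  -- step 0
  have h0 : M * w < ∑ i, |k6b_av_mv Om (V 0) i| := by
    have h : w < |k6b_av_row Om ⬝ᵥ V 0| := hav 0
    calc M * w < M * |k6b_av_row Om ⬝ᵥ V 0| := mul_lt_mul_of_pos_left h hM0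
      _ = |k6b_av_mv Om (V 0) i0| := (hrow (V 0)).symm
      _ ≤ ∑ i, |k6b_av_mv Om (V 0) i| :=
          Finset.single_le_sum (f := fun i => |k6b_av_mv Om (V 0) i|) (fun i _ => abs_nonneg _) (Finset.mem_univ i0)
  have hS1 : 0 < ∑ i, |k6b_av_mv Om (V 0) i| := (mul_pos hM0 hw).trans h0
  -- step 1
  have h1 : w * (∑ i, |k6b_av_mv Om (V 0) i|) < 3 * |k6b_bil Om (V 0) (V 1)| := by
    have := k6b_av_nz_use (k6b_av_mv Om (V 0)) (V 1) w hS1 (hav 1)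
    have e : k6b_av_mv Om (V 0) ⬝ᵥ V 1 = k6b_bil Om (V 0) (V 1) := by
      simp only [k6b_av_mv, dotProduct, k6b_bil, Finset.sum_mul]
    rw [e] at this
    push_cast at this
    exact this
  have ebil : k6b_bil Om (V 0) (V 1) = -(Om 0 1 * (V 0 0 * V 1 1 - V 0 1 * V 1 0)) + Om 0 2 * (V 0 2 * V 1 0 - V 0 0 * V 1 2)
      - Om 1 2 * (V 0 1 * V 1 2 - V 0 2 * V 1 1) := by
    simp only [k6b_bil, Fin.sum_univ_three, hd, hanti 1 0, hanti 2 0, hanti 2 1]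
    ring
  have hbilS : |k6b_bil Om (V 0) (V 1)| ≤ M * ∑ i, |k6b_av_cr (V 0) (V 1) i| := by
    rw [eS, ebil]
    have t1 : |Om 0 1 * (V 0 0 * V 1 1 - V 0 1 * V 1 0)| ≤ M * |V 0 0 * V 1 1 - V 0 1 * V 1 0| := by
      rw [abs_mul]; exact mul_le_mul_of_nonneg_right hM01 (abs_nonneg _)
    have t2 : |Om 0 2 * (V 0 2 * V 1 0 - V 0 0 * V 1 2)| ≤ M * |V 0 2 * V 1 0 - V 0 0 * V 1 2| := by
      rw [abs_mul]; exact mul_le_mul_of_nonneg_right hM02 (abs_nonneg _)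
    have t3 : |Om 1 2 * (V 0 1 * V 1 2 - V 0 2 * V 1 1)| ≤ M * |V 0 1 * V 1 2 - V 0 2 * V 1 1| := by
      rw [abs_mul]; exact mul_le_mul_of_nonneg_right hM12 (abs_nonneg _)
    have t4 := abs_sub (-(Om 0 1 * (V 0 0 * V 1 1 - V 0 1 * V 1 0)) + Om 0 2 * (V 0 2 * V 1 0 - V 0 0 * V 1 2))
      (Om 1 2 * (V 0 1 * V 1 2 - V 0 2 * V 1 1))
    have t5 := abs_add_le (-(Om 0 1 * (V 0 0 * V 1 1 - V 0 1 * V 1 0))) (Om 0 2 * (V 0 2 * V 1 0 - V 0 0 * V 1 2))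
    rw [abs_neg] at t5
    linarith
  -- step 2
  have h2 : 0 < ∑ i, |k6b_av_cr (V 0) (V 1) i| → w * (∑ i, |k6b_av_cr (V 0) (V 1) i|) < 3 * |(k6b_matA V).det| := by
    intro hS2pos
    have := k6b_av_nz_use (k6b_av_cr (V 0) (V 1)) (V 2) w hS2pos (hav 2)
    have e : k6b_av_cr (V 0) (V 1) ⬝ᵥ V 2 = (k6b_matA V).det := by
      rw [eA, eD]; ring
    rw [e] at this
    push_cast at this
    exact this
  -- step 3
  have hAS : |(k6b_matA V).det| ≤ K * ∑ i, |k6b_av_cr (V 1) (V 2) i| := by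
    have e : (k6b_matA V).det = V 0 0 * (V 1 1 * V 2 2 - V 1 2 * V 2 1) + V 0 1 * (V 1 2 * V 2 0 - V 1 0 * V 2 2)
        + V 0 2 * (V 1 0 * V 2 1 - V 1 1 * V 2 0) := by
      rw [eA]; ring
    rw [eS, e]
    have t1 : |V 0 0 * (V 1 1 * V 2 2 - V 1 2 * V 2 1)| ≤ K * |V 1 1 * V 2 2 - V 1 2 * V 2 1| := by
      rw [abs_mul]; exact mul_le_mul_of_nonneg_right (hVk 0 0) (abs_nonneg _)
    have t2 : |V 0 1 * (V 1 2 * V 2 0 - V 1 0 * V 2 2)| ≤ K * |V 1 2 * V 2 0 - V 1 0 * V 2 2| := by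
      rw [abs_mul]; exact mul_le_mul_of_nonneg_right (hVk 0 1) (abs_nonneg _)
    have t3 : |V 0 2 * (V 1 0 * V 2 1 - V 1 1 * V 2 0)| ≤ K * |V 1 0 * V 2 1 - V 1 1 * V 2 0| := by
      rw [abs_mul]; exact mul_le_mul_of_nonneg_right (hVk 0 2) (abs_nonneg _)
    have t4 := abs_add_le (V 0 0 * (V 1 1 * V 2 2 - V 1 2 * V 2 1) + V 0 1 * (V 1 2 * V 2 0 - V 1 0 * V 2 2))
      (V 0 2 * (V 1 0 * V 2 1 - V 1 1 * V 2 0))
    have t5 := abs_add_le (V 0 0 * (V 1 1 * V 2 2 - V 1 2 * V 2 1)) (V 0 1 * (V 1 2 * V 2 0 - V 1 0 * V 2 2))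
    linarith
  have h3 : 0 < ∑ i, |k6b_av_cr (V 1) (V 2) i| → w * (∑ i, |k6b_av_cr (V 1) (V 2) i|) < 3 * |(k6b_matB V).det| := by
    intro hS3pos
    have := k6b_av_nz_use (k6b_av_cr (V 1) (V 2)) (V 3) w hS3pos (hav 3)
    have e : k6b_av_cr (V 1) (V 2) ⬝ᵥ V 3 = (k6b_matB V).det := by
      rw [eB, eD]; ring
    rw [e] at this
    push_cast at this
    exact this
  obtain ⟨hA, hB, hC⟩ := k6b_av_arith hK hw hw1 hσ hσM (abs_nonneg _) (abs_nonneg _) h0 h1 hbilS h2 hAS h3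
  refine ⟨k6b_av_fin hK hw hw1 hA, k6b_av_fin hK hw hw1 hB, ?_⟩
  have g := k6b_av_fin hK hw hw1 hC
  rw [← mul_div_assoc, le_div_iff₀ hσ, one_mul] at g
  exact g

/-- **C4** sequential avoidance -/
theorem k6b_avoid : k6b_avoid_stmt := by
  intro m hm
  rcases hm with rfl | rfl
  · exact ⟨27, k6b_av_a2, k6b_av_a2_meas, k6b_av_a2_past, k6b_av_a2_big,
      fun Om V K w σ h1 h2 h3 h4 h5 h6 h7 h8 => k6b_av_good2 Om V K w σ h1 h2 h3 h4 h5 h6 h7 h8⟩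
  · exact ⟨27, k6b_av_a3, k6b_av_a3_meas, k6b_av_a3_past, k6b_av_a3_big,
      fun Om V K w σ h1 h2 h3 h4 h5 h6 h7 h8 => k6b_av_good3 Om V K w σ h1 h2 h3 h4 h5 h6 h7 h8⟩

end

end Claimed.Agent.R252
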