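import Claimed.Agent.R252.S6b.SelectDefs

/-!
# Row252, unit S6b, part E, leaf S1 (`L-252-S6b-S1`, prover helper112): sequential avoidance for independent draws (union bound).

For every `(k, j)` the bad event `|a k j J · cen (J k)| ≤ w` has weight `≤ c1 S^r`: `a k j J` does not depend on `J k`, so the sum over the coordinate `k`
(`Fin.insertNthEquiv`) is `≤ c1 S`, and the other coordinates give `S^(r-1)`.
-/

set_option autoImplicit false

namespace Claimed.Agent.R252

open scoped BigOperators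

open Classical in
theorem k6b_avoid_one {B : Type} [Fintype B] (r : ℕ) (k : Fin r) (p : B → ℝ) (hp : ∀ b, 0 ≤ p b) (c1 : ℝ)
    (Q : (Fin r → B) → B → Prop)
    (hQ : ∀ J J' b, (∀ i, i ≠ k → J i = J' i) → (Q J b ↔ Q J' b))
    (hsum : ∀ J, ∑ b ∈ Finset.univ.filter (Q J), p b ≤ c1 * ∑ b, p b) :
    ∑ J ∈ (Finset.univ : Finset (Fin r → B)).filter (fun J => Q J (J k)), ∏ i, p (J i) ≤ c1 * (∑ b, p b) ^ r := by
  obtain ⟨r', rfl⟩ : ∃ r', r = r' + 1 := ⟨r - 1, by have := k.2; omega⟩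
  rw [Finset.sum_filter, ← (Fin.insertNthEquiv (fun _ => B) k).sum_comp, Fintype.sum_prod_type, Finset.sum_comm]
  have h1 : ∀ J' : Fin r' → B, ∑ b : B, (if Q ((Fin.insertNthEquiv (fun _ => B) k) (b, J')) ((Fin.insertNthEquiv (fun _ => B) k) (b, J') k)
      then ∏ i, p ((Fin.insertNthEquiv (fun _ => B) k) (b, J') i) else 0) ≤ (∏ i, p (J' i)) * (c1 * ∑ b, p b) := by
    intro J'
    have hW : 0 ≤ ∏ i, p (J' i) := Finset.prod_nonneg fun i _ => hp _
    rcases isEmpty_or_nonempty B with hB | ⟨⟨b0⟩⟩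
    · simp
    have h2 : ∀ b : B, (if Q ((Fin.insertNthEquiv (fun _ => B) k) (b, J')) ((Fin.insertNthEquiv (fun _ => B) k) (b, J') k)
        then ∏ i, p ((Fin.insertNthEquiv (fun _ => B) k) (b, J') i) else 0)
        = (∏ i, p (J' i)) * (if Q (Fin.insertNth k b0 J') b then p b else 0) := by
      intro b
      have e1 : (Fin.insertNthEquiv (fun _ => B) k) (b, J') = Fin.insertNth k b J' := rfl
      rw [e1, Fin.insertNth_apply_same, Fin.prod_univ_succAbove _ k, Fin.insertNth_apply_same]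
      simp only [Fin.insertNth_apply_succAbove]
      have e2 : Q (Fin.insertNth k b J') b ↔ Q (Fin.insertNth k b0 J') b := by
        apply hQ
        intro i hi
        obtain ⟨i', rfl⟩ := Fin.exists_succAbove_eq hi
        rw [Fin.insertNth_apply_succAbove, Fin.insertNth_apply_succAbove]
      by_cases h : Q (Fin.insertNth k b0 J') b
      · rw [if_pos (e2.2 h), if_pos h, mul_comm]
      · rw [if_neg (fun h' => h (e2.1 h')), if_neg h, mul_zero]
    rw [Finset.sum_congr rfl fun b _ => h2 b, ← Finset.mul_sum, ← Finset.sum_filter]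
    exact mul_le_mul_of_nonneg_left (hsum _) hW
  refine (Finset.sum_le_sum fun J' _ => h1 J').trans ?_
  rw [← Finset.sum_mul, ← Fintype.sum_pow, pow_succ]
  exact le_of_eq (by ring)

theorem k6b_avoid_sum : k6b_avoid_sum_stmt := by
  classical
  intro m r q B _ p cen w c1 a hp hc1 hdep hstrip
  obtain ⟨S, hS⟩ : ∃ S, S = ∑ b, p b := ⟨_, rfl⟩
  rw [← hS]
  have hW : ∀ J : Fin r → B, 0 ≤ ∏ i, p (J i) := fun J => Finset.prod_nonneg fun i _ => hp _
  have htot : S ^ r = ∑ J : Fin r → B, ∏ i, p (J i) := by rw [hS, Fintype.sum_pow]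
  have hsplit := Finset.sum_filter_add_sum_filter_not (Finset.univ : Finset (Fin r → B))
    (fun J => ∀ k j, w < |a k j J ⬝ᵥ cen (J k)|) (fun J => ∏ i, p (J i))
  have hone : ∀ (k : Fin r) (j : Fin q),
      ∑ J ∈ (Finset.univ : Finset (Fin r → B)).filter (fun J => |a k j J ⬝ᵥ cen (J k)| ≤ w), ∏ i, p (J i) ≤ c1 * S ^ r := by
    intro k j
    rw [hS]
    refine k6b_avoid_one r k p hp c1 (fun J b => |a k j J ⬝ᵥ cen b| ≤ w) ?_ (fun J => hstrip k j J)
    intro J J' b hJ
    rw [hdep k j J J' (fun i hi => hJ i (ne_of_lt hi))]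
  have hbad : ∑ J ∈ (Finset.univ : Finset (Fin r → B)).filter (fun J => ¬ ∀ k j, w < |a k j J ⬝ᵥ cen (J k)|), ∏ i, p (J i)
      ≤ ∑ k : Fin r, ∑ j : Fin q,
        ∑ J ∈ (Finset.univ : Finset (Fin r → B)).filter (fun J => |a k j J ⬝ᵥ cen (J k)| ≤ w), ∏ i, p (J i) := by
    simp only [Finset.sum_filter]
    have e : ∑ k : Fin r, ∑ j : Fin q, ∑ J : Fin r → B, (if |a k j J ⬝ᵥ cen (J k)| ≤ w then ∏ i, p (J i) else 0)
        = ∑ J : Fin r → B, ∑ k : Fin r, ∑ j : Fin q, (if |a k j J ⬝ᵥ cen (J k)| ≤ w then ∏ i, p (J i) else 0) := by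
      rw [Finset.sum_congr rfl (fun k _ => Finset.sum_comm), Finset.sum_comm]
    rw [e]
    refine Finset.sum_le_sum fun J _ => ?_
    have hnn : ∀ (k : Fin r) (j : Fin q), 0 ≤ (if |a k j J ⬝ᵥ cen (J k)| ≤ w then ∏ i, p (J i) else 0) := by
      intro k j
      split_ifs
      · exact hW J
      · exact le_rfl
    by_cases hJ : ∀ k j, w < |a k j J ⬝ᵥ cen (J k)|
    · rw [if_neg (not_not.2 hJ)]
      exact Finset.sum_nonneg fun k _ => Finset.sum_nonneg fun j _ => hnn k j
    · rw [if_pos hJ]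
      push Not at hJ
      obtain ⟨k, j, hkj⟩ := hJ
      calc ∏ i, p (J i) = (if |a k j J ⬝ᵥ cen (J k)| ≤ w then ∏ i, p (J i) else 0) := by rw [if_pos hkj]
        _ ≤ ∑ j : Fin q, (if |a k j J ⬝ᵥ cen (J k)| ≤ w then ∏ i, p (J i) else 0) :=
            Finset.single_le_sum (f := fun j : Fin q => (if |a k j J ⬝ᵥ cen (J k)| ≤ w then ∏ i, p (J i) else 0))
              (fun j _ => hnn k j) (Finset.mem_univ j)
        _ ≤ _ := Finset.single_le_sum
              (f := fun k : Fin r => ∑ j : Fin q, (if |a k j J ⬝ᵥ cen (J k)| ≤ w then ∏ i, p (J i) else 0))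
              (fun k _ => Finset.sum_nonneg fun j _ => hnn k j) (Finset.mem_univ k)
  have hbad2 : ∑ k : Fin r, ∑ j : Fin q,
        ∑ J ∈ (Finset.univ : Finset (Fin r → B)).filter (fun J => |a k j J ⬝ᵥ cen (J k)| ≤ w), ∏ i, p (J i)
      ≤ r * q * c1 * S ^ r := by
    refine (Finset.sum_le_sum fun k _ => Finset.sum_le_sum fun j _ => hone k j).trans ?_
    simp only [Finset.sum_const, Finset.card_univ, Fintype.card_fin, nsmul_eq_mul]
    exact le_of_eq (by ring)
  rw [← htot] at hsplit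
  have h3 := hbad.trans hbad2
  have e : (1 - r * q * c1) * S ^ r = S ^ r - r * q * c1 * S ^ r := by ring
  rw [e]
  linarith

end Claimed.Agent.R252
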