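import Claimed.Agent.R252.S6b.V2Defs

/-!
# Row252, unit S6b, part F, leaf W1: the branch `f` and the normalised test `R` as formal sheets      (helper250)
`k6b_branch : k6b_branch_stmt`.
-/

set_option autoImplicit false

namespace Claimed.Agent.R252

open MeasureTheory MvPolynomial
open scoped ENNReal BigOperators

noncomputable section

theorem k6b_br_degC (c : ℝ) (P : MvPolynomial (Fin 3) ℝ) (d : ℕ) (h : P.totalDegree ≤ d) : (C c * P).totalDegree ≤ d := by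
  refine (totalDegree_mul _ _).trans ?_
  rw [totalDegree_C, zero_add]
  exact h

theorem k6b_br_disc_eval (Pst : k6b_QW) (Φ : MvPolynomial (Fin 3) ℝ) (u : Fin 3 → ℝ) :
    eval u (k6b_disc Pst Φ) = eval u Pst.c1 ^ 2 - 4 * Pst.c2 * (eval u Pst.c0 - eval u Φ) := by
  unfold k6b_disc
  simp only [map_sub, map_mul, map_pow, eval_C]

theorem k6b_br_sub_deg (Pst : k6b_QW) (Φ : MvPolynomial (Fin 3) ℝ) (D : ℕ) (h : Pst.Quad) (hΦ : Φ.totalDegree ≤ D) :
    (Φ - Pst.c0).totalDegree ≤ D + 2 :=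
  (totalDegree_sub _ _).trans (max_le (hΦ.trans (Nat.le_add_right _ _)) (h.d0.trans (Nat.le_add_left _ _)))

theorem k6b_br_disc_deg (Pst : k6b_QW) (Φ : MvPolynomial (Fin 3) ℝ) (D : ℕ) (h : Pst.Quad) (hΦ : Φ.totalDegree ≤ D) :
    (k6b_disc Pst Φ).totalDegree ≤ D + 2 := by
  unfold k6b_disc
  refine (totalDegree_sub _ _).trans (max_le ?_ (k6b_br_degC _ _ _ ?_))
  · refine (totalDegree_pow _ _).trans ?_
    have := h.d1
    omega
  · exact (totalDegree_sub _ _).trans (max_le (h.d0.trans (Nat.le_add_left _ _)) (hΦ.trans (Nat.le_add_right _ _)))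

/-- the case of a genuine quadratic -/
theorem k6b_br_quad (D : ℕ) (Pst Ps : k6b_QW) (Φ : MvPolynomial (Fin 3) ℝ) (sg a : ℝ) (hPst : Pst.Quad) (hPs : Ps.Quad)
    (hΦ : Φ.totalDegree ≤ D) (hsg : sg = 1 ∨ sg = -1) (ha : a ≠ 0) (hc : Pst.c2 ≠ 0) :
    ∃ f R : k6b_Sheet 3, f.Deg (2 * D + 5) (k6b_disc Pst Φ) ∧ R.Deg (2 * D + 5) (k6b_disc Pst Φ) ∧
      ∀ u, 0 < eval u (k6b_disc Pst Φ) →
        Pst.ev u (f.val (k6b_disc Pst Φ) u) = eval u Φ ∧
        Pst.dw u (f.val (k6b_disc Pst Φ) u) = sg * √(eval u (k6b_disc Pst Φ)) ∧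
        R.val (k6b_disc Pst Φ) u = Ps.ev u (f.val (k6b_disc Pst Φ) u) / a := by
  have hdl := k6b_br_disc_deg Pst Φ D hPst hΦ
  have h1 := hPst.d1
  have h1' := hPs.d1
  have h0' := hPs.d0
  have hsub := k6b_br_sub_deg Pst Φ D hPst hΦ
  have hlin : (Ps.c1 - C (Ps.c2 / Pst.c2) * Pst.c1).totalDegree ≤ 1 :=
    (totalDegree_sub _ _).trans (max_le h1' (k6b_br_degC _ _ _ h1))
  refine ⟨⟨C (-1 / (2 * Pst.c2)) * Pst.c1, C (sg / (2 * Pst.c2)), 0⟩,
    ⟨C a⁻¹ * (Ps.c0 + C (Ps.c2 / Pst.c2) * (Φ - Pst.c0)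
        + (Ps.c1 - C (Ps.c2 / Pst.c2) * Pst.c1) * (C (-1 / (2 * Pst.c2)) * Pst.c1)),
      C a⁻¹ * ((Ps.c1 - C (Ps.c2 / Pst.c2) * Pst.c1) * C (sg / (2 * Pst.c2))), 0⟩, ?_, ?_, ?_⟩
  · refine ⟨by omega, ?_, ?_, Nat.zero_le _⟩
    · exact k6b_br_degC _ _ _ (by omega)
    · show (C (sg / (2 * Pst.c2)) : MvPolynomial (Fin 3) ℝ).totalDegree ≤ _
      rw [totalDegree_C]; exact Nat.zero_le _
  · refine ⟨by omega, ?_, ?_, Nat.zero_le _⟩
    · refine k6b_br_degC _ _ _ ?_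
      refine (totalDegree_add _ _).trans (max_le ((totalDegree_add _ _).trans (max_le (by omega) (k6b_br_degC _ _ _ (by omega)))) ?_)
      refine (totalDegree_mul _ _).trans ?_
      have := k6b_br_degC (-1 / (2 * Pst.c2)) Pst.c1 1 h1
      omega
    · refine k6b_br_degC _ _ _ ?_
      refine (totalDegree_mul _ _).trans ?_
      rw [totalDegree_C]
      omega
  · intro u hu
    set Δ := eval u (k6b_disc Pst Φ) with hΔ
    have hs : √Δ ^ 2 = Δ := Real.sq_sqrt hu.le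
    have hsg2 : sg ^ 2 = 1 := by rcases hsg with h | h <;> rw [h] <;> norm_num
    have hΔe := k6b_br_disc_eval Pst Φ u
    rw [← hΔ] at hΔe
    have hf : (⟨C (-1 / (2 * Pst.c2)) * Pst.c1, C (sg / (2 * Pst.c2)), 0⟩ : k6b_Sheet 3).val (k6b_disc Pst Φ) u
        = (-(eval u Pst.c1) + sg * √Δ) / (2 * Pst.c2) := by
      unfold k6b_Sheet.val
      simp only [map_mul, eval_C, pow_zero, div_one]
      rw [← hΔ]
      field_simp
    rw [hf]
    set s := √Δ with hsdef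
    have hev : Pst.ev u ((-(eval u Pst.c1) + sg * s) / (2 * Pst.c2)) = eval u Φ := by
      unfold k6b_QW.ev
      have e : eval u Pst.c0 + eval u Pst.c1 * ((-(eval u Pst.c1) + sg * s) / (2 * Pst.c2))
          + Pst.c2 * ((-(eval u Pst.c1) + sg * s) / (2 * Pst.c2)) ^ 2
          = eval u Pst.c0 + (sg ^ 2 * s ^ 2 - eval u Pst.c1 ^ 2) / (4 * Pst.c2) := by
        field_simp
        ring
      rw [e, hsg2, hs, hΔe]
      field_simp
      ring
    refine ⟨hev, ?_, ?_⟩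
    · unfold k6b_QW.dw
      field_simp
      ring
    · unfold k6b_Sheet.val
      simp only [map_mul, map_add, map_sub, eval_C, pow_zero, div_one]
      rw [← hΔ, ← hsdef]
      set y := (-(eval u Pst.c1) + sg * s) / (2 * Pst.c2) with hy
      have hy2 : Pst.c2 * y ^ 2 = eval u Φ - eval u Pst.c0 - eval u Pst.c1 * y := by
        unfold k6b_QW.ev at hev
        linarith
      have hy2' : y ^ 2 = (eval u Φ - eval u Pst.c0 - eval u Pst.c1 * y) / Pst.c2 := by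
        rw [eq_div_iff hc, ← hy2]; ring
      unfold k6b_QW.ev
      rw [hy2']
      have hyy : -1 / (2 * Pst.c2) * eval u Pst.c1 + sg / (2 * Pst.c2) * s = y := by
        rw [hy]; field_simp
      have e : a⁻¹ * (eval u Ps.c0 + Ps.c2 / Pst.c2 * (eval u Φ - eval u Pst.c0)
            + (eval u Ps.c1 - Ps.c2 / Pst.c2 * eval u Pst.c1) * (-1 / (2 * Pst.c2) * eval u Pst.c1))
          + a⁻¹ * ((eval u Ps.c1 - Ps.c2 / Pst.c2 * eval u Pst.c1) * (sg / (2 * Pst.c2))) * s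
          = a⁻¹ * (eval u Ps.c0 + Ps.c2 / Pst.c2 * (eval u Φ - eval u Pst.c0)
            + (eval u Ps.c1 - Ps.c2 / Pst.c2 * eval u Pst.c1)
              * (-1 / (2 * Pst.c2) * eval u Pst.c1 + sg / (2 * Pst.c2) * s)) := by ring
      rw [e, hyy]
      field_simp
      ring

/-- the degenerate case -/
theorem k6b_br_lin (D : ℕ) (Pst Ps : k6b_QW) (Φ : MvPolynomial (Fin 3) ℝ) (sg a : ℝ) (hPst : Pst.Quad) (hPs : Ps.Quad)
    (hΦ : Φ.totalDegree ≤ D) (hsg : sg = 1 ∨ sg = -1) (ha : a ≠ 0) (hc : Pst.c2 = 0) :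
    ∃ f R : k6b_Sheet 3, f.Deg (2 * D + 5) (k6b_disc Pst Φ) ∧ R.Deg (2 * D + 5) (k6b_disc Pst Φ) ∧
      ∀ u, 0 < eval u (k6b_disc Pst Φ) → 0 < sg * eval u Pst.c1 →
        Pst.ev u (f.val (k6b_disc Pst Φ) u) = eval u Φ ∧
        Pst.dw u (f.val (k6b_disc Pst Φ) u) = sg * √(eval u (k6b_disc Pst Φ)) ∧
        R.val (k6b_disc Pst Φ) u = Ps.ev u (f.val (k6b_disc Pst Φ) u) / a := by
  have hdl := k6b_br_disc_deg Pst Φ D hPst hΦ
  have h1 := hPst.d1
  have h1' := hPs.d1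
  have h0' := hPs.d0
  have hsub := k6b_br_sub_deg Pst Φ D hPst hΦ
  have hdl2 : (k6b_disc Pst Φ).totalDegree ≤ 2 := by
    unfold k6b_disc
    rw [hc]
    simp only [mul_zero, map_zero, zero_mul, sub_zero]
    refine (totalDegree_pow _ _).trans ?_
    omega
  refine ⟨⟨0, C sg * (Φ - Pst.c0), 1⟩,
    ⟨C a⁻¹ * Ps.c0, C (sg * a⁻¹) * (Ps.c1 * (Φ - Pst.c0) * k6b_disc Pst Φ + C Ps.c2 * ((Φ - Pst.c0) ^ 2 * Pst.c1)), 2⟩, ?_, ?_, ?_⟩
  · refine ⟨by omega, ?_, ?_, by show 1 ≤ _; omega⟩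
    · show (0 : MvPolynomial (Fin 3) ℝ).totalDegree ≤ _
      rw [totalDegree_zero]; exact Nat.zero_le _
    · exact k6b_br_degC _ _ _ (by omega)
  · refine ⟨by omega, k6b_br_degC _ _ _ (by omega), ?_, by show 2 ≤ _; omega⟩
    refine k6b_br_degC _ _ _ ?_
    refine (totalDegree_add _ _).trans (max_le ?_ (k6b_br_degC _ _ _ ?_))
    · refine (totalDegree_mul _ _).trans ?_
      have := totalDegree_mul Ps.c1 (Φ - Pst.c0)
      omega
    · refine (totalDegree_mul _ _).trans ?_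
      have := totalDegree_pow (Φ - Pst.c0) 2
      omega
  · intro u hu hpos
    set Δ := eval u (k6b_disc Pst Φ) with hΔ
    have hsg2 : sg * sg = 1 := by rcases hsg with h | h <;> rw [h] <;> norm_num
    have hΔe := k6b_br_disc_eval Pst Φ u
    rw [← hΔ, hc] at hΔe
    simp only [mul_zero, zero_mul, sub_zero] at hΔe
    set α := eval u Pst.c1 with hα
    have hα0 : α ≠ 0 := by
      intro h
      rw [h, mul_zero] at hpos
      exact lt_irrefl _ hpos
    have hs : √Δ = sg * α := by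
      rw [hΔe, Real.sqrt_sq_eq_abs]
      rcases hsg with h | h
      · rw [h, one_mul] at hpos ⊢; exact abs_of_pos hpos
      · rw [h] at hpos ⊢
        rw [abs_of_neg (by linarith)]; ring
    have hf : (⟨0, C sg * (Φ - Pst.c0), 1⟩ : k6b_Sheet 3).val (k6b_disc Pst Φ) u = (eval u Φ - eval u Pst.c0) / α := by
      unfold k6b_Sheet.val
      simp only [map_zero, map_mul, map_sub, eval_C, pow_one, zero_add]
      rw [← hΔ, hs, hΔe]
      have e : sg * (eval u Φ - eval u Pst.c0) * (sg * α / α ^ 2) = (sg * sg) * ((eval u Φ - eval u Pst.c0) / α) := by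
        field_simp
      rw [e, hsg2, one_mul]
    rw [hf]
    refine ⟨?_, ?_, ?_⟩
    · unfold k6b_QW.ev
      rw [hc, ← hα]
      field_simp
      ring
    · unfold k6b_QW.dw
      rw [hc, ← hα, hs, ← mul_assoc, hsg2]
      ring
    · unfold k6b_Sheet.val k6b_QW.ev
      simp only [map_mul, map_add, map_sub, map_pow, eval_C]
      rw [← hΔ, hs, hΔe, ← hα]
      have e : sg * a⁻¹ * (eval u Ps.c1 * (eval u Φ - eval u Pst.c0) * α ^ 2 + Ps.c2 * ((eval u Φ - eval u Pst.c0) ^ 2 * α))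
            * (sg * α / (α ^ 2) ^ 2)
          = (sg * sg) * (a⁻¹ * (eval u Ps.c1 * ((eval u Φ - eval u Pst.c0) / α) + Ps.c2 * ((eval u Φ - eval u Pst.c0) / α) ^ 2)) := by
        field_simp
      rw [e, hsg2]
      field_simp
      ring

theorem k6b_branch : k6b_branch_stmt := by
  intro D
  refine ⟨2 * D + 5, ?_⟩
  intro Pst Ps Φ sg a hPst hPs hΦ hsg ha
  by_cases hc : Pst.c2 = 0
  · obtain ⟨f, R, hf, hR, h⟩ := k6b_br_lin D Pst Ps Φ sg a hPst hPs hΦ hsg ha hc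
    exact ⟨f, R, hf, hR, fun u hu h2 => h u hu (h2 hc)⟩
  · obtain ⟨f, R, hf, hR, h⟩ := k6b_br_quad D Pst Ps Φ sg a hPst hPs hΦ hsg ha hc
    exact ⟨f, R, hf, hR, fun u hu _ => h u hu⟩

end

end Claimed.Agent.R252
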