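import Claimed.Agent.R252.S6b.ExitDefs

/-!
# Row252, unit S6b, leaf B0: the abstract record reads the prepared record   (helper260; prefix `k6b_bg_`)

`k6b_bridge : k6b_bridge_stmt`, `k6b_cap2_of_ref_of : k6b_bridge_stmt → k6b_cap2_of_ref_stmt`.
-/

set_option autoImplicit false

namespace Claimed.Agent.R252

open MeasureTheory MvPolynomial
open scoped ENNReal BigOperators

noncomputable section

/-- a quadratic is recovered from its values at `-1, 0, 1` -/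
theorem k6b_bg_three (f : ℝ → ℝ) (α β γ : ℝ) (h : ∀ t, f t = α + β * t + γ * t ^ 2) (t : ℝ) :
    f 0 + (f 1 - f (-1)) / 2 * t + (f 1 - 2 * f 0 + f (-1)) / 2 * t ^ 2 = f t := by
  rw [h 0, h 1, h (-1), h t]
  ring

/-- a quadratic test along a trajectory of version 2 is a quadratic in `t` -/
theorem k6b_bg_quad2 (Q : KbQuad KbVer.two) (l : KbTj KbVer.two) :
    ∃ α β γ : ℝ, ∀ t, Q.ev t (kbY l t) (kbW l t) = α + β * t + γ * t ^ 2 := by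
  have hw : ∀ t, kbW l t = l.2.2 (0 : Fin 2) + l.2.2 (1 : Fin 2) * t := by
    intro t
    unfold kbW
    rw [show (∑ i : Fin KbVer.two.e, l.2.2 i * t ^ (i : ℕ)) = ∑ i : Fin 2, l.2.2 i * t ^ (i : ℕ) from rfl,
      Fin.sum_univ_two]
    simp
  refine ⟨Q.c0 + Q.cy ⬝ᵥ l.1 + Q.cw * l.2.2 (0 : Fin 2) + l.1 ⬝ᵥ Q.cyy.mulVec l.1
      + l.2.2 (0 : Fin 2) * (Q.cyw ⬝ᵥ l.1) + Q.cww * l.2.2 (0 : Fin 2) ^ 2,
    Q.ct + Q.cy ⬝ᵥ l.2.1 + Q.cw * l.2.2 (1 : Fin 2) + Q.cty ⬝ᵥ l.1 + Q.ctw * l.2.2 (0 : Fin 2)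
      + (l.1 ⬝ᵥ Q.cyy.mulVec l.2.1 + l.2.1 ⬝ᵥ Q.cyy.mulVec l.1)
      + (l.2.2 (0 : Fin 2) * (Q.cyw ⬝ᵥ l.2.1) + l.2.2 (1 : Fin 2) * (Q.cyw ⬝ᵥ l.1))
      + 2 * Q.cww * l.2.2 (0 : Fin 2) * l.2.2 (1 : Fin 2),
    Q.ctt + Q.cty ⬝ᵥ l.2.1 + Q.ctw * l.2.2 (1 : Fin 2) + l.2.1 ⬝ᵥ Q.cyy.mulVec l.2.1
      + l.2.2 (1 : Fin 2) * (Q.cyw ⬝ᵥ l.2.1) + Q.cww * l.2.2 (1 : Fin 2) ^ 2, ?_⟩
  intro t
  rw [hw]
  unfold KbQuad.ev kbY
  simp only [dotProduct_add, add_dotProduct, dotProduct_smul, smul_dotProduct, Matrix.mulVec_add,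
    Matrix.mulVec_smul, smul_eq_mul]
  ring

/-- the native signal is a quadratic in `t` -/
theorem k6b_bg_X {v : KbVer} (R : KsRef v) {K : ℝ} (hR : R.Ok K) (l : R.L) :
    ∃ α β γ : ℝ, ∀ t, R.X l t = α + β * t + γ * t ^ 2 := by
  cases v with
  | one =>
    refine ⟨(R.co l).2.2 (0 : Fin 3), (R.co l).2.2 (1 : Fin 3), (R.co l).2.2 (2 : Fin 3), ?_⟩
    intro t
    unfold KsRef.X kbX
    rw [hR.nat_v1 rfl]
    unfold kbW
    rw [show (∑ i : Fin KbVer.one.e, (R.co l).2.2 i * t ^ (i : ℕ))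
      = ∑ i : Fin 3, (R.co l).2.2 i * t ^ (i : ℕ) from rfl, Fin.sum_univ_three]
    simp
  | two =>
    obtain ⟨Q, hQ⟩ := (hR.nat_adm (R.par l)).1
    obtain ⟨α, β, γ, h⟩ := k6b_bg_quad2 Q (R.co l)
    refine ⟨α, β, γ, fun t => ?_⟩
    unfold KsRef.X kbX
    rw [hQ, h]

/-- **B0** -/
theorem k6b_bridge : k6b_bridge_stmt := by
  intro v R A s s1 s2 K hR
  refine ⟨rfl, fun l hl => ?_⟩
  have hV : (k6aOf R A s s1 s2).V l = R.V l := if_pos hl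
  have hy0 : (k6aOf R A s s1 s2).y0 l = (R.co l).1 := if_pos hl
  have hxc : (k6aOf R A s s1 s2).xc l
      = ![R.X l 0, (R.X l 1 - R.X l (-1)) / 2, (R.X l 1 - 2 * R.X l 0 + R.X l (-1)) / 2] := if_pos hl
  refine ⟨hV, fun t => ⟨?_, ?_⟩⟩
  · unfold K6aDat.y
    rw [hV, hy0]
    rfl
  · obtain ⟨α, β, γ, h⟩ := k6b_bg_X R hR l
    unfold K6aDat.X
    rw [hxc]
    exact k6b_bg_three (R.X l) α β γ h t

/-- **CP** -/
theorem k6b_cap2_of_ref_of (hB : k6b_bridge_stmt) : k6b_cap2_of_ref_stmt := by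
  intro v R A s s1 s2 K Es hR hA hs2 hEs U f hU hf
  obtain ⟨hp, hb⟩ := hB v R A s s1 s2 K hR
  have h1 := hR.capX s2 hs2 A U f hU hf
  rw [hA.pA, mul_one] at h1
  rw [hp, ENNReal.ofReal_mul (zero_le_one.trans hR.K_ge)]
  refine le_trans ?_ h1
  refine le_trans (measure_mono ?_) (Measure.le_restrict_apply _ _)
  rintro e ⟨he, hU', hX⟩
  have he0 := hEs he
  have hSp : e.1 ∈ R.Sp := (hR.Ev0_sub he0).1
  have hbase : (k6aOf R A s s1 s2).base e = R.base e := by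
    unfold K6aDat.base KsRef.base
    rw [((hb e.1 hSp).2 e.2).1]
    rfl
  rw [hbase] at hU' hX
  rw [((hb e.1 hSp).2 e.2).2] at hX
  exact ⟨⟨hA.par e he0, hU', hX⟩, he0⟩

end

end Claimed.Agent.R252
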