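import Claimed.Agent.R252.S6b.CellsOne

/-!
# Row252, unit S6b, leaf G1: `k6b_cells : k6b_cells_stmt`  (A BROAD FAMILY OF LINES FILLS THE BASE).      (helper193)

`k6b_cells_core` : assembly (cells of states, classes of lines, `k6b_cell_count`, `mlk_cells`);   `k6b_cells_arith` : the constants.
-/

set_option autoImplicit false

namespace Claimed.Agent.R252

open MeasureTheory
open scoped ENNReal BigOperators

noncomputable section

theorem k6b_cells_core (m : ℕ) (hm : 2 ≤ m) (ε' : ℝ) (hε' : 0 < ε') : ∃ C : ℝ, 0 < C ∧ ∀ (Y : k6b_Sw m)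
    (F : Set (Y.Lam × ℝ)) (K ξ w : ℝ) (cells : Finset (Fin m → ℤ)),
    1 ≤ K → 0 < ξ → ξ ≤ 1 → 0 < w → w ≤ 1 → Y.WF → MeasurableSet F → F ⊆ Y.sup → 0 < Y.mu F →
    (∀ e ∈ F, Y.g e ≤ ENNReal.ofReal K) → (∀ e ∈ F, ‖Y.pos e‖ ≤ K) → (∀ l, ‖Y.vel l‖ ≤ K) →
    (∃ i0, ∀ l, Y.vel l i0 = 1) →
    (∀ e ∈ F, ∀ e' ∈ F, Y.st e = Y.st e' → ‖Y.pos e - Y.pos e'‖ ≤ ξ) →
    (∀ (s : Y.St) (a : Fin m → ℝ), (∃ i, 1 ≤ |a i|) →
      Y.mu (F ∩ Y.stE s ∩ {e | |a ⬝ᵥ Y.vel e.1| ≤ w})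
        ≤ ENNReal.ofReal (1 / (4 * m)) * Y.mu (F ∩ Y.stE s)) →
    Y.nu {l | 0 < Y.durF F l} ≤ ENNReal.ofReal K * Y.mu F →
    (∀ e ∈ F, (fun i => ⌊Y.pos e i / ξ⌋) ∈ cells) →
    1 ≤ cells.card * (2 * (4 * K * ξ) ^ m) * (C * (4 / (w / (8 * K)) ^ m) ^ (m ^ 2 + m) * (6 * K / ξ) ^ ε') ^ (m - 1) * K ^ m := by
  obtain ⟨C, hC0, hC⟩ := mlk_cells.{0, 0} m hm ε' hε'
  refine ⟨C, hC0, ?_⟩
  intro Y F K ξ w cells hK hξ hξ1 hw hw1 hY hF hFsup hμF hg hpos hvel ⟨i0, hi0⟩ hclose hstrip hν hcells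
  classical
  have hfin := k6b_mu_fin Y hY
  have hfin' := hY.fin
  have hm0 : 0 < m := by omega
  have hmR : (2 : ℝ) ≤ m := by exact_mod_cast hm
  have hK0 : 0 < K := by linarith
  -- the mesh
  obtain ⟨η, hηdef⟩ : ∃ η : ℝ, η = ξ * w / (2 * m) := ⟨_, rfl⟩
  have hη : 0 < η := by rw [hηdef]; positivity
  have hηξ : η ≤ ξ := by
    rw [hηdef, div_le_iff₀ (by positivity)]
    nlinarith
  have hηw : m * η ≤ w / 2 := by
    have : m * η = ξ * w / 2 := by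
      rw [hηdef]
      field_simp
    rw [this]
    nlinarith
  have hη1 : η ≤ 1 := hηξ.trans hξ1
  -- the box of classes
  obtain ⟨N, hN1, hN2⟩ : ∃ N : ℕ, 2 * K / η + 1 ≤ N ∧ η * N ≤ 4 * K := by
    refine ⟨⌈2 * K / η + 1⌉₊, Nat.le_ceil _, ?_⟩
    have h1 : (⌈2 * K / η + 1⌉₊ : ℝ) < 2 * K / η + 1 + 1 := Nat.ceil_lt_add_one (by positivity)
    have h2 : η * (2 * K / η + 1 + 1) = 2 * K + 2 * η := by
      field_simp
      ring
    nlinarith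
  -- the cells of the states
  obtain ⟨cellOf, hcell⟩ := k6b_cell_assign Y F hξ cells hclose hcells
  have hcE := k6b_st_lab_meas Y hY cellOf
  obtain ⟨G, hGdef⟩ : ∃ G : (Fin m → ℤ) → Set (Y.Lam × ℝ), G = fun E => F ∩ (fun e => cellOf (Y.st e)) ⁻¹' {E} := ⟨_, rfl⟩
  have hGm : ∀ E, MeasurableSet (G E) := fun E => by rw [hGdef]; exact hF.inter (hcE E)
  have hGF : ∀ E, G E ⊆ F := fun E => by rw [hGdef]; exact Set.inter_subset_left
  have hGE : ∀ E, ∀ e ∈ G E, cellOf (Y.st e) = E := fun E e he => by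
    rw [hGdef] at he
    exact he.2
  obtain ⟨B, hBdef⟩ : ∃ B : Finset (Fin m → ℤ), B = cells.filter (fun E => (G E).Nonempty) := ⟨_, rfl⟩
  have hBcard : (B.card : ℝ) ≤ cells.card := by
    rw [hBdef]
    exact_mod_cast Finset.card_filter_le _ _
  have hFB : ∀ e ∈ F, cellOf (Y.st e) ∈ B := by
    intro e he
    rw [hBdef, Finset.mem_filter]
    refine ⟨(hcell e he).1, e, ?_⟩
    rw [hGdef]
    exact ⟨he, rfl⟩
  obtain ⟨M, hMdef⟩ : ∃ M : ℝ, M = (Y.mu F).toReal := ⟨_, rfl⟩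
  have hM0 : 0 < M := by
    rw [hMdef]
    exact ENNReal.toReal_pos hμF.ne' (measure_ne_top _ _)
  have hsumB : ∑ E ∈ B, (Y.mu (G E)).toReal = M := by
    rw [hMdef, ← k6b_fiber_sum_all Y.mu (fun e => cellOf (Y.st e)) hcE B hF hFB, ENNReal.toReal_sum (fun b _ => measure_ne_top _ _), hGdef]
  -- the lines of `F` are bounded
  have hτ : ∀ e ∈ F, e.2 ∈ Set.Icc (0 : ℝ) 1 := fun e he => (hFsup he).2
  have hu0 : ∀ e ∈ F, ‖Y.u0 e.1‖ ≤ 2 * K := by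
    intro e he
    have e1 : Y.u0 e.1 = Y.pos e - e.2 • Y.vel e.1 := by
      simp [k6b_Sw.pos]
    rw [e1]
    calc ‖Y.pos e - e.2 • Y.vel e.1‖ ≤ ‖Y.pos e‖ + ‖e.2 • Y.vel e.1‖ := norm_sub_le _ _
      _ ≤ K + 1 * K := by
          refine add_le_add (hpos e he) ?_
          rw [norm_smul, Real.norm_eq_abs, abs_of_nonneg (hτ e he).1]
          exact mul_le_mul (hτ e he).2 (hvel _) (norm_nonneg _) zero_le_one
      _ = 2 * K := by ring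
  have hbox : ∀ e ∈ F, k6b_cl Y η e.1 ∈ k6b_box m N := fun e he =>
    k6b_cl_mem_box Y hη hN1 (hu0 e he) ((hvel _).trans (by linarith))
  -- one cell
  have hone : ∀ E ∈ B, (Y.mu (G E)).toReal ^ m ≤ 2 * (4 * K * ξ) ^ m *
      mlkCount (fun _ : Fin m => (Finset.univ : Finset (k6b_box m N))) (fun b => k6b_clP η b.1) (fun b => k6b_clE η K b.1)
        (fun b => (Y.nu (k6b_cl Y η ⁻¹' {b.1} ∩ {l | 0 < Y.durF F l})).toReal) (4 * ξ) ((w / (8 * K)) ^ m) (fun i => ξ * (E i : ℝ)) := by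
    intro E _
    refine k6b_cell_count hm0 Y hY (hGm E) (hGF E) hK hξ hw hη hηξ hηw N (fun e he => hbox e (hGF E he)) (fun e he => hg e (hGF E he))
      (fun e he => hτ e (hGF E he)) i0 hi0 _ (fun e he i => ?_) (fun a ha => ?_)
    · have := (hcell e (hGF E he)).2 i
      rwa [hGE E e he] at this
    · rw [hGdef]
      exact k6b_cell_strip Y hY hF cellOf E _ _ fun s => hstrip s a ha
  -- the total weight of the classes
  have hAm : MeasurableSet {l | 0 < Y.durF F l} := measurableSet_lt measurable_const (k6b_durF_meas Y hY hF)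
  have hW : ∑ b : (k6b_box m N), (Y.nu (k6b_cl Y η ⁻¹' {b.1} ∩ {l | 0 < Y.durF F l})).toReal ≤ K * M := by
    have h1 : ∑ b : (k6b_box m N), (Y.nu (k6b_cl Y η ⁻¹' {b.1} ∩ {l | 0 < Y.durF F l})).toReal
        = (Y.nu ({l | 0 < Y.durF F l} ∩ {l | k6b_cl Y η l ∈ k6b_box m N})).toReal := by
      rw [← k6b_fiber_sum Y.nu (k6b_cl Y η) (k6b_cl_meas Y hY η) _ hAm, ENNReal.toReal_sum (fun b _ => measure_ne_top _ _)]
      rw [Finset.sum_coe_sort (k6b_box m N) (fun b => (Y.nu (k6b_cl Y η ⁻¹' {b} ∩ {l | 0 < Y.durF F l})).toReal)]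
      refine Finset.sum_congr rfl fun b _ => ?_
      rw [Set.inter_comm]
    rw [h1]
    have h2 : Y.nu ({l | 0 < Y.durF F l} ∩ {l | k6b_cl Y η l ∈ k6b_box m N}) ≤ ENNReal.ofReal K * Y.mu F :=
      (measure_mono Set.inter_subset_left).trans hν
    have h3 := ENNReal.toReal_mono (ENNReal.mul_ne_top ENNReal.ofReal_ne_top (measure_ne_top _ _)) h2
    rwa [ENNReal.toReal_mul, ENNReal.toReal_ofReal hK0.le, ← hMdef] at h3
  have hW0 : 0 ≤ ∑ b : (k6b_box m N), (Y.nu (k6b_cl Y η ⁻¹' {b.1} ∩ {l | 0 < Y.durF F l})).toReal :=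
    Finset.sum_nonneg fun _ _ => ENNReal.toReal_nonneg
  -- the parameters of the multilinear estimate
  have hθ0 : 0 < (w / (8 * K)) ^ m := by positivity
  have hθ1 : (w / (8 * K)) ^ m ≤ 1 := by
    refine pow_le_one₀ (by positivity) ?_
    rw [div_le_one (by positivity)]
    linarith
  have hS : (4 : ℝ) ≤ 6 * K / ξ := by
    rw [le_div_iff₀ hξ]
    nlinarith
  have hBz : ∀ E ∈ B, ∀ i, |ξ * (E i : ℝ)| ≤ 3 * K := by
    intro E hE i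
    rw [hBdef, Finset.mem_filter] at hE
    obtain ⟨e, he⟩ := hE.2
    have h1 := (hcell e (hGF E he)).2 i
    rw [hGE E e he] at h1
    have h2 : |Y.pos e i| ≤ K := (norm_le_pi_norm (Y.pos e) i).trans (hpos e (hGF E he))
    have h3 : |ξ * (E i : ℝ)| ≤ |Y.pos e i| + |Y.pos e i - ξ * (E i : ℝ)| := by
      have : ξ * (E i : ℝ) = Y.pos e i - (Y.pos e i - ξ * (E i : ℝ)) := by ring
      calc |ξ * (E i : ℝ)| = |Y.pos e i - (Y.pos e i - ξ * (E i : ℝ))| := by rw [← this]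
        _ ≤ _ := abs_sub _ _
    linarith
  have hmain := hC ξ 4 (6 * K / ξ) ((w / (8 * K)) ^ m) (2 * (4 * K * ξ) ^ m) hξ (by norm_num) hS hθ0 hθ1 (by positivity)
    (k6b_box m N) (Fin m → ℤ) Finset.univ (fun b => k6b_clP η b.1) (fun b => k6b_clE η K b.1)
    (fun b => (Y.nu (k6b_cl Y η ⁻¹' {b.1} ∩ {l | 0 < Y.durF F l})).toReal) (fun _ => ENNReal.toReal_nonneg)
    (fun b _ k => k6b_clE_le hη hK0 hN2 b.2 k) B (fun E i => ξ * (E i : ℝ))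
    (by
      intro E _ E' _ hne
      obtain ⟨i, hi⟩ := Function.ne_iff.1 hne
      refine ⟨i, ?_⟩
      have h1 : (1 : ℝ) ≤ |(E i : ℝ) - (E' i : ℝ)| := by
        have : (1 : ℤ) ≤ |E i - E' i| := Int.one_le_abs (sub_ne_zero.2 hi)
        exact_mod_cast this
      rw [← mul_sub, abs_mul, abs_of_pos hξ]
      nlinarith)
    (by
      intro E hE E' hE' i
      have h1 := hBz E hE i
      have h2 := hBz E' hE' i
      have h3 : 6 * K / ξ * ξ = 6 * K := by field_simp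
      rw [h3]
      calc |ξ * (E i : ℝ) - ξ * (E' i : ℝ)| ≤ |ξ * (E i : ℝ)| + |ξ * (E' i : ℝ)| := abs_sub _ _
        _ ≤ _ := by linarith)
    (fun E => (Y.mu (G E)).toReal) (fun _ _ => ENNReal.toReal_nonneg) hone
  rw [hsumB] at hmain
  obtain ⟨R, hR⟩ : ∃ R : ℝ, R = (C * (4 / (w / (8 * K)) ^ m) ^ (m ^ 2 + m) * (6 * K / ξ) ^ ε') ^ (m - 1) := ⟨_, rfl⟩
  rw [← hR] at hmain ⊢
  have hR0 : 0 ≤ R := by rw [hR]; positivity
  have hfinal : M ^ m ≤ (cells.card * (2 * (4 * K * ξ) ^ m) * R * K ^ m) * M ^ m := by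
    calc M ^ m ≤ _ := hmain
      _ ≤ cells.card * (2 * (4 * K * ξ) ^ m) * R * (K * M) ^ m := by
          refine mul_le_mul ?_ (pow_le_pow_left₀ hW0 hW m) (by positivity) (by positivity)
          refine mul_le_mul_of_nonneg_right ?_ hR0
          exact mul_le_mul_of_nonneg_right hBcard (by positivity)
      _ = _ := by rw [mul_pow]; ring
  have hMm : 0 < M ^ m := by positivity
  exact le_of_mul_le_mul_right (by rwa [one_mul]) hMm

/-- the constants -/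
theorem k6b_cells_arith (m : ℕ) (hm : 2 ≤ m) (ε C : ℝ) (_hε : 0 < ε) (hC : 0 < C) (K ξ w n : ℝ) (hK : 1 ≤ K) (hξ : 0 < ξ)
    (hw : 0 < w) (hw1 : w ≤ 1) (hn : 0 ≤ n)
    (h : 1 ≤ n * (2 * (4 * K * ξ) ^ m) * (C * (4 / (w / (8 * K)) ^ m) ^ (m ^ 2 + m) * (6 * K / ξ) ^ (ε / ((m : ℝ) - 1))) ^ (m - 1) * K ^ m) :
    ξ ^ (-(m : ℝ) + ε) ≤ (2 * 4 ^ m * C ^ (m - 1) * (4 * 8 ^ m) ^ ((m ^ 2 + m) * (m - 1)) * 6 ^ ⌈ε⌉₊)
      * (K / w) ^ (2 * m + m * ((m ^ 2 + m) * (m - 1)) + ⌈ε⌉₊) * n := by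
  have hK0 : 0 < K := by linarith
  have hmR : (2 : ℝ) ≤ m := by exact_mod_cast hm
  obtain ⟨x, hx⟩ : ∃ x : ℝ, x = K / w := ⟨_, rfl⟩
  have hKx : K ≤ x := by
    rw [hx, le_div_iff₀ hw]
    nlinarith
  have hx1 : 1 ≤ x := hK.trans hKx
  have hx0 : 0 < x := by linarith
  obtain ⟨Q, hQ⟩ : ∃ Q : ℕ, Q = m - 1 := ⟨_, rfl⟩
  obtain ⟨P, hP⟩ : ∃ P : ℕ, P = m ^ 2 + m := ⟨_, rfl⟩
  obtain ⟨e, he⟩ : ∃ e : ℕ, e = ⌈ε⌉₊ := ⟨_, rfl⟩
  rw [← hx, ← hQ, ← hP, ← he]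
  rw [← hQ, ← hP] at h
  have hQR : (Q : ℝ) = (m : ℝ) - 1 := by
    rw [hQ, Nat.cast_sub (by omega)]
    simp
  have ha : 4 / (w / (8 * K)) ^ m = 4 * 8 ^ m * x ^ m := by
    rw [hx, div_pow, div_pow, mul_pow]
    field_simp
  have hs : ((6 * K / ξ) ^ (ε / ((m : ℝ) - 1))) ^ Q = (6 * K) ^ ε / ξ ^ ε := by
    rw [← Real.rpow_natCast, ← Real.rpow_mul (by positivity), hQR, div_mul_cancel₀ _ (by linarith : (m : ℝ) - 1 ≠ 0),
      Real.div_rpow (by positivity) hξ.le]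
  have hA2 : 0 < ξ ^ ε := Real.rpow_pos_of_pos hξ _
  have hA1 : 0 < ξ ^ m := pow_pos hξ m
  have hgoal : ξ ^ (-(m : ℝ) + ε) = ξ ^ ε / ξ ^ m := by
    rw [Real.rpow_add hξ, Real.rpow_neg hξ.le, Real.rpow_natCast]
    field_simp
  rw [hgoal]
  rw [mul_pow (C * (4 / (w / (8 * K)) ^ m) ^ P) _ Q, mul_pow C _ Q, hs, ha, ← pow_mul, mul_pow (4 * K) ξ m, mul_pow 4 K m] at h
  have h6 : (6 * K) ^ ε ≤ 6 ^ e * x ^ e := by
    calc (6 * K) ^ ε ≤ (6 * K) ^ (e : ℝ) :=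
          Real.rpow_le_rpow_of_exponent_le (by linarith) (by rw [he]; exact Nat.le_ceil ε)
      _ = (6 * K) ^ e := Real.rpow_natCast _ _
      _ = 6 ^ e * K ^ e := mul_pow _ _ _
      _ ≤ 6 ^ e * x ^ e := mul_le_mul_of_nonneg_left (pow_le_pow_left₀ hK0.le hKx e) (by positivity)
  have hKm : K ^ m ≤ x ^ m := pow_le_pow_left₀ hK0.le hKx m
  have h60 : 0 < (6 * K) ^ ε := Real.rpow_pos_of_pos (by positivity) _
  -- isolate the powers of `ξ`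
  have h' : 1 ≤ (n * (2 * 4 ^ m * C ^ Q * (4 * 8 ^ m * x ^ m) ^ (P * Q)) * (K ^ m * K ^ m * (6 * K) ^ ε)) * (ξ ^ m / ξ ^ ε) := by
    calc (1 : ℝ) ≤ _ := h
      _ = _ := by
          field_simp
  have h'' : ξ ^ ε / ξ ^ m ≤ n * (2 * 4 ^ m * C ^ Q * (4 * 8 ^ m * x ^ m) ^ (P * Q)) * (K ^ m * K ^ m * (6 * K) ^ ε) := by
    have hpos : 0 < ξ ^ ε / ξ ^ m := by positivity
    have := mul_le_mul_of_nonneg_right h' hpos.le
    rw [one_mul, mul_assoc] at this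
    have e1 : ξ ^ m / ξ ^ ε * (ξ ^ ε / ξ ^ m) = 1 := by
      field_simp
    rwa [e1, mul_one] at this
  refine h''.trans ?_
  calc n * (2 * 4 ^ m * C ^ Q * (4 * 8 ^ m * x ^ m) ^ (P * Q)) * (K ^ m * K ^ m * (6 * K) ^ ε)
      ≤ n * (2 * 4 ^ m * C ^ Q * (4 * 8 ^ m * x ^ m) ^ (P * Q)) * (x ^ m * x ^ m * (6 ^ e * x ^ e)) := by
        refine mul_le_mul_of_nonneg_left ?_ (by positivity)
        exact mul_le_mul (mul_le_mul hKm hKm (by positivity) (by positivity)) h6 h60.le (by positivity)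
    _ = _ := by
        have e2 : x ^ (2 * m) = x ^ m * x ^ m := by rw [two_mul, pow_add]
        rw [mul_pow (4 * 8 ^ m) (x ^ m) (P * Q), ← pow_mul x m (P * Q), pow_add, pow_add, e2]
        ring

/-- **G1: A BROAD FAMILY OF LINES FILLS THE BASE.** -/
theorem k6b_cells : k6b_cells_stmt := by
  intro m ε hm hε
  have hmR : (2 : ℝ) ≤ m := by exact_mod_cast hm
  obtain ⟨C, hC0, hC⟩ := k6b_cells_core m hm (ε / ((m : ℝ) - 1)) (div_pos hε (by linarith))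
  refine ⟨2 * 4 ^ m * C ^ (m - 1) * (4 * 8 ^ m) ^ ((m ^ 2 + m) * (m - 1)) * 6 ^ ⌈ε⌉₊,
    2 * m + m * ((m ^ 2 + m) * (m - 1)) + ⌈ε⌉₊, by positivity, ?_⟩
  intro Y F K ξ w cells hK hξ hξ1 hw hw1 hY hF hFsup hμF hg hpos hvel hi0 hclose hstrip hν hcells
  exact k6b_cells_arith m hm ε C hε hC0 K ξ w cells.card hK hξ hw hw1 (Nat.cast_nonneg _)
    (hC Y F K ξ w cells hK hξ hξ1 hw hw1 hY hF hFsup hμF hg hpos hvel hi0 hclose hstrip hν hcells)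

end

end Claimed.Agent.R252
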