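import Mathlib

/-!
# Row252, unit S6b, leaf G1 (`k6b_cells`), file 1: SEQUENTIAL AVOIDANCE FOR FINITE WEIGHTED FAMILIES OF VECTORS.      (helper193)

PAPER-FREE, FINITE.   `D b ≥ 0` weights on a finite type, `e b ∈ ℝ^m`.   If every strip `{|a · e b| ≤ w}` (`|a|_∞ = 1`) carries at most the fraction `δ` of the weight, then the tuples
`(b_1, .., b_m)` with `|det (e b_1, .., e b_m)| ≤ w^m` carry at most the fraction `m δ` of the product weight.
Device: `k6b_cdet j V` = the largest `|det|` of the matrices whose first `j` rows are `V 0, .., V (j-1)` and whose other rows are basis vectors.   `cdet 0 ≥ 1`, `cdet m = |det V|`, and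
`cdet (j+1) ≥ |a · V j| cdet j` for a normalised functional `a` which depends on the earlier rows only.
-/

set_option autoImplicit false

namespace Claimed.Agent.R252

open scoped BigOperators

noncomputable section

/-- the first `j` rows are `V i`, the other rows are the basis vectors `e_{c i}` -/
def k6b_cmat {m : ℕ} (j : ℕ) (V : Fin m → Fin m → ℝ) (c : Fin m → Fin m) : Matrix (Fin m) (Fin m) ℝ :=
  Matrix.of fun i => if (i : ℕ) < j then V i else Pi.single (c i) 1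

/-- the largest determinant of a completion -/
def k6b_cdet {m : ℕ} (j : ℕ) (V : Fin m → Fin m → ℝ) : ℝ :=
  Finset.univ.sup' ⟨id, Finset.mem_univ _⟩ fun c : Fin m → Fin m => |(k6b_cmat j V c).det|

theorem k6b_cdet_ge {m : ℕ} (j : ℕ) (V : Fin m → Fin m → ℝ) (c : Fin m → Fin m) : |(k6b_cmat j V c).det| ≤ k6b_cdet j V :=
  Finset.le_sup' (fun c : Fin m → Fin m => |(k6b_cmat j V c).det|) (Finset.mem_univ c)

theorem k6b_cdet_exists {m : ℕ} (j : ℕ) (V : Fin m → Fin m → ℝ) : ∃ c, k6b_cdet j V = |(k6b_cmat j V c).det| := by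
  obtain ⟨c, -, hc⟩ := Finset.exists_mem_eq_sup' ⟨id, Finset.mem_univ _⟩ (fun c : Fin m → Fin m => |(k6b_cmat j V c).det|)
  exact ⟨c, hc⟩

theorem k6b_cdet_nonneg {m : ℕ} (j : ℕ) (V : Fin m → Fin m → ℝ) : 0 ≤ k6b_cdet j V :=
  (abs_nonneg _).trans (k6b_cdet_ge j V id)

theorem k6b_cdet_zero {m : ℕ} (V : Fin m → Fin m → ℝ) : 1 ≤ k6b_cdet 0 V := by
  refine le_trans ?_ (k6b_cdet_ge 0 V id)
  have : k6b_cmat 0 V id = 1 := by
    ext i k
    simp [k6b_cmat, Matrix.one_apply, Pi.single_apply, eq_comm]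
  rw [this]
  simp

theorem k6b_cdet_full {m : ℕ} (V : Fin m → Fin m → ℝ) : k6b_cdet m V = |(Matrix.of V).det| := by
  obtain ⟨c, hc⟩ := k6b_cdet_exists m V
  rw [hc]
  congr 2
  ext i k
  simp [k6b_cmat]

theorem k6b_cdet_congr {m : ℕ} {j : ℕ} {V V' : Fin m → Fin m → ℝ} (h : ∀ i : Fin m, (i : ℕ) < j → V i = V' i) :
    k6b_cdet j V = k6b_cdet j V' := by
  unfold k6b_cdet
  congr 1
  funext c
  congr 2
  ext i k
  simp only [k6b_cmat, Matrix.of_apply]
  split_ifs with hi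
  · rw [h i hi]
  · rfl

/-- the determinant is linear in a row -/
theorem k6b_det_row {m : ℕ} (M : Matrix (Fin m) (Fin m) ℝ) (j : Fin m) (x : Fin m → ℝ) :
    (M.updateRow j x).det = ∑ i, x i * (M.updateRow j (Pi.single i 1)).det := by
  let L : (Fin m → ℝ) →ₗ[ℝ] ℝ :=
    { toFun := fun x => (M.updateRow j x).det
      map_add' := fun u v => Matrix.det_updateRow_add M j u v
      map_smul' := fun s u => Matrix.det_updateRow_smul M j s u }
  have h := LinearMap.pi_apply_eq_sum_univ L x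
  have e : ∀ i : Fin m, (fun k : Fin m => if i = k then (1 : ℝ) else 0) = Pi.single i 1 := by
    intro i
    ext k
    simp [Pi.single_apply, eq_comm]
  simp only [e, smul_eq_mul] at h
  exact h

/-- **one step** -/
theorem k6b_cdet_step {m : ℕ} (j : Fin m) (V : Fin m → Fin m → ℝ) :
    ∃ a : Fin m → ℝ, (∀ i, |a i| ≤ 1) ∧ (∃ i, 1 ≤ |a i|) ∧
      ∀ x : Fin m → ℝ, |a ⬝ᵥ x| * k6b_cdet j V ≤ k6b_cdet (j + 1) (Function.update V j x) := by
  obtain ⟨c, hc⟩ := k6b_cdet_exists (j : ℕ) V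
  by_cases hΔ : k6b_cdet j V = 0
  · refine ⟨Pi.single j 1, ?_, ⟨j, by simp⟩, fun x => ?_⟩
    · intro i
      by_cases hi : i = j
      · subst hi; simp
      · simp [hi]
    · rw [hΔ, mul_zero]
      exact k6b_cdet_nonneg _ _
  · have hΔ0 : 0 < k6b_cdet j V := lt_of_le_of_ne (k6b_cdet_nonneg _ _) (Ne.symm hΔ)
    have hb1 : ∀ i, (k6b_cmat j V c).updateRow j (Pi.single i 1) = k6b_cmat j V (Function.update c j i) := by
      intro i
      ext r k
      by_cases hr : r = j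
      · subst hr
        simp [k6b_cmat, Matrix.updateRow_apply]
      · simp [k6b_cmat, Matrix.updateRow_apply, hr]
    have hup : ∀ x, (k6b_cmat j V c).updateRow j x = k6b_cmat (j + 1) (Function.update V j x) c := by
      intro x
      ext r k
      by_cases hr : r = j
      · subst hr
        simp [k6b_cmat, Matrix.updateRow_apply]
      · have hr' : (r : ℕ) ≠ j := fun h => hr (Fin.ext h)
        have hiff : ((r : ℕ) < (j : ℕ) + 1) ↔ ((r : ℕ) < j) := by omega
        simp only [k6b_cmat, Matrix.updateRow_apply, hr, if_false, Matrix.of_apply, Function.update_of_ne hr, hiff]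
    have hb : ∀ i, |((k6b_cmat j V c).updateRow j (Pi.single i 1)).det| ≤ k6b_cdet j V := by
      intro i
      rw [hb1]
      exact k6b_cdet_ge _ _ _
    have hbc : |((k6b_cmat j V c).updateRow j (Pi.single (c j) 1)).det| = k6b_cdet j V := by
      rw [hb1, Function.update_eq_self, hc]
    refine ⟨fun i => ((k6b_cmat j V c).updateRow j (Pi.single i 1)).det / k6b_cdet j V, ?_, ⟨c j, ?_⟩, fun x => ?_⟩
    · intro i
      rw [abs_div, abs_of_pos hΔ0, div_le_one hΔ0]
      exact hb i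
    · rw [abs_div, abs_of_pos hΔ0, hbc, div_self hΔ]
    · have h1 : (fun i => ((k6b_cmat j V c).updateRow j (Pi.single i 1)).det / k6b_cdet j V) ⬝ᵥ x
          = ((k6b_cmat j V c).updateRow j x).det / k6b_cdet j V := by
        rw [k6b_det_row, dotProduct, Finset.sum_div]
        refine Finset.sum_congr rfl fun i _ => ?_
        ring
      rw [h1, abs_div, abs_of_pos hΔ0, div_mul_cancel₀ _ hΔ, hup]
      exact k6b_cdet_ge _ _ _

/-- a tuple with a small determinant fails at some step -/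
theorem k6b_cdet_fail {m : ℕ} (hm : 0 < m) (V : Fin m → Fin m → ℝ) (w : ℝ) (hw : 0 < w) (h : |(Matrix.of V).det| ≤ w ^ m) :
    ∃ j : Fin m, 0 < k6b_cdet j V ∧ k6b_cdet (j + 1) V ≤ w * k6b_cdet j V := by
  by_contra hcon
  push Not at hcon
  have key : ∀ j : ℕ, j ≤ m → w ^ j ≤ k6b_cdet j V ∧ (0 < j → w ^ j < k6b_cdet j V) := by
    intro j
    induction j with
    | zero =>
      intro _
      exact ⟨by simpa using k6b_cdet_zero V, fun h => absurd h (lt_irrefl _)⟩
    | succ j ih =>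
      intro hj
      obtain ⟨h1, -⟩ := ih (by omega)
      have hpos : 0 < k6b_cdet j V := lt_of_lt_of_le (pow_pos hw j) h1
      have h2 := hcon ⟨j, by omega⟩ hpos
      have h3 : w ^ (j + 1) < k6b_cdet (j + 1) V := by
        calc w ^ (j + 1) = w * w ^ j := by ring
          _ ≤ w * k6b_cdet j V := mul_le_mul_of_nonneg_left h1 hw.le
          _ < _ := h2
      exact ⟨h3.le, fun _ => h3⟩
  have := (key m le_rfl).2 hm
  rw [k6b_cdet_full] at this
  exact absurd h (not_le.2 this)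

/-- the tuples which fail at the step `j` -/
theorem k6b_avoid_step {n : ℕ} {α : Type*} [Fintype α] (e : α → Fin (n + 1) → ℝ) (D : α → ℝ) (hD : ∀ b, 0 ≤ D b) (w δ : ℝ)
    (hstrip : ∀ a : Fin (n + 1) → ℝ, (∀ i, |a i| ≤ 1) → (∃ i, 1 ≤ |a i|) → ∀ T : Finset α, (∀ b ∈ T, |a ⬝ᵥ e b| ≤ w) →
      ∑ b ∈ T, D b ≤ δ * ∑ b, D b)
    (j : Fin (n + 1)) (T : Finset (Fin (n + 1) → α))
    (hT : ∀ t ∈ T, 0 < k6b_cdet j (fun i => e (t i)) ∧ k6b_cdet (j + 1) (fun i => e (t i)) ≤ w * k6b_cdet j (fun i => e (t i))) :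
    ∑ t ∈ T, ∏ i, D (t i) ≤ δ * (∑ b, D b) ^ (n + 1) := by
  classical
  have h1 : ∑ t ∈ T, ∏ i, D (t i) = ∑ t : Fin (n + 1) → α, if t ∈ T then ∏ i, D (t i) else 0 := by
    rw [Finset.sum_ite_mem, Finset.univ_inter]
  rw [h1, ← Equiv.sum_comp (Fin.insertNthEquiv (fun _ => α) j), Fintype.sum_prod_type_right]
  have h2 : ∀ t' : Fin n → α,
      ∑ b : α, (if (Fin.insertNthEquiv (fun _ => α) j) (b, t') ∈ T then ∏ i, D ((Fin.insertNthEquiv (fun _ => α) j) (b, t') i) else 0)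
        ≤ δ * (∑ b, D b) * ∏ i, D (t' i) := by
    intro t'
    have hP : 0 ≤ ∏ i, D (t' i) := Finset.prod_nonneg fun i _ => hD _
    have e1 : ∀ b : α, ∏ i, D ((Fin.insertNthEquiv (fun _ => α) j) (b, t') i) = D b * ∏ i, D (t' i) := by
      intro b
      rw [Fin.prod_univ_succAbove _ j]
      simp
    simp only [e1]
    -- the rows other than `j`
    obtain ⟨a, ha1, ha2, ha3⟩ := k6b_cdet_step j (j.insertNth (0 : Fin (n + 1) → ℝ) fun i => e (t' i))
    have e2 : ∀ b : α, (fun i => e ((Fin.insertNthEquiv (fun _ => α) j) (b, t') i))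
        = Function.update (j.insertNth (0 : Fin (n + 1) → ℝ) fun i => e (t' i)) j (e b) := by
      intro b
      rw [Fin.update_insertNth]
      funext i
      rcases Fin.eq_self_or_eq_succAbove j i with rfl | ⟨i, rfl⟩
      · simp
      · simp
    have h3 : ∑ b : α, (if (Fin.insertNthEquiv (fun _ => α) j) (b, t') ∈ T then D b * ∏ i, D (t' i) else 0)
        = (∑ b ∈ Finset.univ.filter (fun b => (Fin.insertNthEquiv (fun _ => α) j) (b, t') ∈ T), D b) * ∏ i, D (t' i) := by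
      rw [Finset.sum_mul, Finset.sum_filter]
    rw [h3]
    refine mul_le_mul_of_nonneg_right ?_ hP
    refine hstrip a ha1 ha2 _ fun b hb => ?_
    rw [Finset.mem_filter] at hb
    obtain ⟨hp, hle⟩ := hT _ hb.2
    rw [e2 b] at hp hle
    have hc : k6b_cdet j (Function.update (j.insertNth (0 : Fin (n + 1) → ℝ) fun i => e (t' i)) j (e b))
        = k6b_cdet j (j.insertNth (0 : Fin (n + 1) → ℝ) fun i => e (t' i)) := by
      refine k6b_cdet_congr fun i hi => ?_
      have : i ≠ j := fun h => by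
        rw [h] at hi
        exact lt_irrefl _ hi
      rw [Function.update_of_ne this]
    rw [hc] at hp hle
    have := (ha3 (e b)).trans hle
    exact le_of_mul_le_mul_right this hp
  refine (Finset.sum_le_sum fun t' _ => h2 t').trans (le_of_eq ?_)
  rw [← Finset.mul_sum, ← Fintype.sum_pow]
  ring

/-- **SEQUENTIAL AVOIDANCE, FINITE FORM** -/
theorem k6b_avoid_fin {n : ℕ} {α : Type*} [Fintype α] (e : α → Fin (n + 1) → ℝ) (D : α → ℝ) (hD : ∀ b, 0 ≤ D b) (w δ : ℝ) (hw : 0 < w)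
    (hstrip : ∀ a : Fin (n + 1) → ℝ, (∀ i, |a i| ≤ 1) → (∃ i, 1 ≤ |a i|) → ∀ T : Finset α, (∀ b ∈ T, |a ⬝ᵥ e b| ≤ w) →
      ∑ b ∈ T, D b ≤ δ * ∑ b, D b)
    (T : Finset (Fin (n + 1) → α)) (hT : ∀ t ∈ T, |(Matrix.of fun i => e (t i)).det| ≤ w ^ (n + 1)) :
    ∑ t ∈ T, ∏ i, D (t i) ≤ ((n : ℝ) + 1) * δ * (∑ b, D b) ^ (n + 1) := by
  classical
  have hex : ∀ t : Fin (n + 1) → α, ∃ j : Fin (n + 1), t ∈ T →
      0 < k6b_cdet j (fun i => e (t i)) ∧ k6b_cdet (j + 1) (fun i => e (t i)) ≤ w * k6b_cdet j (fun i => e (t i)) := by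
    intro t
    by_cases ht : t ∈ T
    · obtain ⟨j, hj⟩ := k6b_cdet_fail (Nat.succ_pos n) (fun i => e (t i)) w hw (hT t ht)
      exact ⟨j, fun _ => hj⟩
    · exact ⟨0, fun h => absurd h ht⟩
  choose J hJ using hex
  rw [← Finset.sum_fiberwise T J]
  calc ∑ j, ∑ t ∈ T with J t = j, ∏ i, D (t i) ≤ ∑ _j : Fin (n + 1), δ * (∑ b, D b) ^ (n + 1) := by
        refine Finset.sum_le_sum fun j _ => ?_
        refine k6b_avoid_step e D hD w δ hstrip j _ fun t ht => ?_
        rw [Finset.mem_filter] at ht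
        rw [← ht.2]
        exact hJ t ht.1
    _ = _ := by
        rw [Finset.sum_const, Finset.card_univ, Fintype.card_fin, nsmul_eq_mul]
        push_cast
        ring

/-- the same for `Fin m`, `0 < m` -/
theorem k6b_avoid_fin' {m : ℕ} (hm : 0 < m) {α : Type*} [Fintype α] (e : α → Fin m → ℝ) (D : α → ℝ) (hD : ∀ b, 0 ≤ D b) (w δ : ℝ) (hw : 0 < w)
    (hstrip : ∀ a : Fin m → ℝ, (∀ i, |a i| ≤ 1) → (∃ i, 1 ≤ |a i|) → ∀ T : Finset α, (∀ b ∈ T, |a ⬝ᵥ e b| ≤ w) →
      ∑ b ∈ T, D b ≤ δ * ∑ b, D b)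
    (T : Finset (Fin m → α)) (hT : ∀ t ∈ T, |(Matrix.of fun i => e (t i)).det| ≤ w ^ m) :
    ∑ t ∈ T, ∏ i, D (t i) ≤ (m : ℝ) * δ * (∑ b, D b) ^ m := by
  obtain ⟨n, rfl⟩ := Nat.exists_eq_succ_of_ne_zero hm.ne'
  have := k6b_avoid_fin e D hD w δ hw hstrip T hT
  push_cast
  exact this

end

end Claimed.Agent.R252
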