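import Claimed.Agent.R252.S6b.GroupDefs
import Claimed.Agent.R252.Mlk.Main

/-!
# Row252, unit S6b, leaf G1 (`k6b_cells`), file 2: MEASURE FACTS AND ROUNDING OF LINES.      (helper193)

* `k6b_mu_eq`          `μ(G) = ∫ durF G dν`  (Tonelli);   `k6b_durF_le`, `k6b_mu_class_le` : a class of lines which spend a short time in `G`.
* `k6b_fiber_sum`      finite measurable labels cut a measurable set into pieces.
* `k6b_cl`             the class of a line: floors of `u0 / η` and `vel / η`;   representative line `k6b_clP + ℝ k6b_clE`.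
-/

set_option autoImplicit false

namespace Claimed.Agent.R252

open MeasureTheory
open scoped ENNReal BigOperators

noncomputable section

/-! ## 1. Labels -/

theorem k6b_fiber_sum {Ω β : Type*} [MeasurableSpace Ω] (μ : Measure Ω) (lab : Ω → β) (hlab : ∀ b, MeasurableSet (lab ⁻¹' {b}))
    (T : Finset β) {G : Set Ω} (hG : MeasurableSet G) : ∑ b ∈ T, μ (G ∩ lab ⁻¹' {b}) = μ (G ∩ {x | lab x ∈ T}) := by
  classical
  have e : G ∩ {x | lab x ∈ T} = ⋃ b ∈ T, G ∩ lab ⁻¹' {b} := by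
    ext x
    simp only [Set.mem_inter_iff, Set.mem_ofPred_eq, Set.mem_iUnion, Set.mem_preimage, Set.mem_singleton_iff, exists_prop]
    constructor
    · rintro ⟨h1, h2⟩
      exact ⟨lab x, h2, h1, rfl⟩
    · rintro ⟨b, hb, h1, h2⟩
      exact ⟨h1, h2 ▸ hb⟩
  rw [e, measure_biUnion_finset]
  · intro b _ b' _ hbb'
    refine Set.disjoint_left.2 fun x hx hx' => hbb' ?_
    have h1 : lab x = b := hx.2
    have h2 : lab x = b' := hx'.2
    rw [← h1, h2]
  · intro b _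
    exact hG.inter (hlab b)

theorem k6b_fiber_sum_all {Ω β : Type*} [MeasurableSpace Ω] (μ : Measure Ω) (lab : Ω → β) (hlab : ∀ b, MeasurableSet (lab ⁻¹' {b}))
    (T : Finset β) {G : Set Ω} (hG : MeasurableSet G) (hT : ∀ x ∈ G, lab x ∈ T) : ∑ b ∈ T, μ (G ∩ lab ⁻¹' {b}) = μ G := by
  rw [k6b_fiber_sum μ lab hlab T hG]
  congr 1
  ext x
  exact ⟨fun h => h.1, fun h => ⟨h, hT x h⟩⟩

/-! ## 2. The law of a switching system -/

section sw

variable {m : ℕ} (Y : k6b_Sw m)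

theorem k6b_mu_fin (hY : Y.WF) : IsFiniteMeasure Y.mu := ⟨by rw [hY.prob]; exact ENNReal.one_lt_top⟩

theorem k6b_durF_meas (hY : Y.WF) {G : Set (Y.Lam × ℝ)} (hG : MeasurableSet G) : Measurable (Y.durF G) := by
  unfold k6b_Sw.durF
  exact (hY.g_meas.indicator hG).lintegral_prod_right'

theorem k6b_mu_eq (hY : Y.WF) {G : Set (Y.Lam × ℝ)} (hG : MeasurableSet G) : Y.mu G = ∫⁻ l, Y.durF G l ∂Y.nu := by
  have := hY.fin
  unfold k6b_Sw.mu k6b_Sw.durF
  rw [withDensity_apply _ hG, ← lintegral_indicator hG, lintegral_prod _ (hY.g_meas.indicator hG).aemeasurable]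

theorem k6b_durF_mono {G G' : Set (Y.Lam × ℝ)} (h : G ⊆ G') (l : Y.Lam) : Y.durF G l ≤ Y.durF G' l := by
  unfold k6b_Sw.durF
  exact lintegral_mono fun τ => Set.indicator_le_indicator_of_subset h (fun _ => zero_le) _

theorem k6b_durF_le {G : Set (Y.Lam × ℝ)} {K t0 L : ℝ} (hg : ∀ e ∈ G, Y.g e ≤ ENNReal.ofReal K) (l : Y.Lam)
    (ht : ∀ τ, (l, τ) ∈ G → τ ∈ Set.Icc t0 (t0 + L)) : Y.durF G l ≤ ENNReal.ofReal K * ENNReal.ofReal L := by
  unfold k6b_Sw.durF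
  calc ∫⁻ τ in Set.Icc (0 : ℝ) 1, G.indicator Y.g (l, τ)
      ≤ ∫⁻ τ in Set.Icc (0 : ℝ) 1, (Set.Icc t0 (t0 + L)).indicator (fun _ => ENNReal.ofReal K) τ := by
        refine lintegral_mono fun τ => ?_
        by_cases h : (l, τ) ∈ G
        · rw [Set.indicator_of_mem h, Set.indicator_of_mem (ht τ h)]
          exact hg _ h
        · rw [Set.indicator_of_notMem h]
          exact zero_le
    _ ≤ ∫⁻ τ, (Set.Icc t0 (t0 + L)).indicator (fun _ => ENNReal.ofReal K) τ := lintegral_mono' Measure.restrict_le_self le_rfl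
    _ = ENNReal.ofReal K * volume (Set.Icc t0 (t0 + L)) := lintegral_indicator_const measurableSet_Icc _
    _ = _ := by
        rw [Real.volume_Icc]
        congr 2
        ring

/-- a class of lines, each of which spends little weighted time in `G` -/
theorem k6b_mu_class_le (hY : Y.WF) {F G : Set (Y.Lam × ℝ)} (hG : MeasurableSet G) (hGF : G ⊆ F) {Cl : Set Y.Lam} (hCl : MeasurableSet Cl)
    (c : ℝ≥0∞) (hc : ∀ l, Y.durF G l ≤ c) : Y.mu (G ∩ {e | e.1 ∈ Cl}) ≤ c * Y.nu (Cl ∩ {l | 0 < Y.durF F l}) := by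
  have hm : MeasurableSet (G ∩ {e : Y.Lam × ℝ | e.1 ∈ Cl}) := hG.inter (measurable_fst hCl)
  rw [k6b_mu_eq Y hY hm]
  refine le_trans (lintegral_mono fun l => ?_) (lintegral_indicator_const_le (Cl ∩ {l | 0 < Y.durF F l}) c)
  by_cases hl : l ∈ Cl ∩ {l | 0 < Y.durF F l}
  · rw [Set.indicator_of_mem hl]
    exact (k6b_durF_mono Y Set.inter_subset_left l).trans (hc l)
  · rw [Set.indicator_of_notMem hl]
    rw [Set.mem_inter_iff, not_and_or] at hl
    rcases hl with hl | hl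
    · have : ∀ τ, (G ∩ {e : Y.Lam × ℝ | e.1 ∈ Cl}).indicator Y.g (l, τ) = 0 := fun τ =>
        Set.indicator_of_notMem (fun h => hl h.2) _
      unfold k6b_Sw.durF
      simp [this]
    · have h0 : Y.durF F l = 0 := by
        by_contra h
        exact hl (pos_iff_ne_zero.2 h)
      exact (k6b_durF_mono Y (Set.inter_subset_left.trans hGF) l).trans h0.le

/-- functions of the state are measurable labels -/
theorem k6b_st_lab_meas (hY : Y.WF) {β : Type*} (φ : Y.St → β) (b : β) : MeasurableSet ((fun e => φ (Y.st e)) ⁻¹' {b}) := by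
  have e : (fun e => φ (Y.st e)) ⁻¹' {b} = ⋃ s ∈ {s | φ s = b}, Y.stE s := by
    ext x
    simp [k6b_Sw.stE]
  rw [e]
  exact MeasurableSet.biUnion (Set.to_countable _) fun s _ => hY.st_meas s

/-- a line of positive duration has an event -/
theorem k6b_durF_pos {G : Set (Y.Lam × ℝ)} {l : Y.Lam} (h : 0 < Y.durF G l) : ∃ τ, (l, τ) ∈ G := by
  by_contra hcon
  push Not at hcon
  have : ∀ τ, G.indicator Y.g (l, τ) = 0 := fun τ => Set.indicator_of_notMem (hcon τ) _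
  unfold k6b_Sw.durF at h
  simp [this] at h

/-! ## 3. Rounding of lines -/

/-- the class of a line at the mesh `η` -/
def k6b_cl (η : ℝ) (l : Y.Lam) : (Fin m → ℤ) × (Fin m → ℤ) := (fun i => ⌊Y.u0 l i / η⌋, fun i => ⌊Y.vel l i / η⌋)

theorem k6b_cl_measurable (hY : Y.WF) (η : ℝ) : Measurable (k6b_cl Y η) := by
  unfold k6b_cl
  refine Measurable.prodMk ?_ ?_
  · refine measurable_pi_lambda _ fun i => ?_
    exact Int.measurable_floor.comp (((measurable_pi_apply i).comp hY.u0_meas).div_const η)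
  · refine measurable_pi_lambda _ fun i => ?_
    exact Int.measurable_floor.comp (((measurable_pi_apply i).comp hY.vel_meas).div_const η)

theorem k6b_cl_meas (hY : Y.WF) (η : ℝ) (b : (Fin m → ℤ) × (Fin m → ℤ)) : MeasurableSet (k6b_cl Y η ⁻¹' {b}) :=
  k6b_cl_measurable Y hY η (measurableSet_singleton b)

theorem k6b_cl_meas' (hY : Y.WF) (η : ℝ) (b : (Fin m → ℤ) × (Fin m → ℤ)) :
    MeasurableSet ((fun e : Y.Lam × ℝ => k6b_cl Y η e.1) ⁻¹' {b}) :=
  ((k6b_cl_measurable Y hY η).comp measurable_fst) (measurableSet_singleton b)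

end sw

/-- the base point of the representative of a class -/
def k6b_clP {m : ℕ} (η : ℝ) (b : (Fin m → ℤ) × (Fin m → ℤ)) : Fin m → ℝ := fun i => η * b.1 i

/-- the direction of the representative of a class -/
def k6b_clE {m : ℕ} (η K : ℝ) (b : (Fin m → ℤ) × (Fin m → ℤ)) : Fin m → ℝ := fun i => η * b.2 i / (4 * K)

/-- the classes of the bounded lines -/
def k6b_box (m N : ℕ) : Finset ((Fin m → ℤ) × (Fin m → ℤ)) :=
  (Fintype.piFinset fun _ => Finset.Icc (-(N : ℤ)) N) ×ˢ (Fintype.piFinset fun _ => Finset.Icc (-(N : ℤ)) N)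

theorem k6b_floor_err {η : ℝ} (hη : 0 < η) (x : ℝ) : |x - η * (⌊x / η⌋ : ℝ)| ≤ η := by
  have h1 : (⌊x / η⌋ : ℝ) ≤ x / η := Int.floor_le _
  have h2 : x / η < (⌊x / η⌋ : ℝ) + 1 := Int.lt_floor_add_one _
  rw [le_div_iff₀ hη] at h1
  rw [div_lt_iff₀ hη] at h2
  rw [abs_le]
  constructor <;> nlinarith

theorem k6b_floor_box {η B : ℝ} (hη : 0 < η) {N : ℕ} (hN : B / η + 1 ≤ N) {x : ℝ} (hx : |x| ≤ B) :
    ⌊x / η⌋ ∈ Finset.Icc (-(N : ℤ)) N := by
  have h1 : (⌊x / η⌋ : ℝ) ≤ x / η := Int.floor_le _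
  have h2 : x / η < (⌊x / η⌋ : ℝ) + 1 := Int.lt_floor_add_one _
  have h3 : x / η ≤ B / η := div_le_div_of_nonneg_right (le_abs_self x |>.trans hx) hη.le
  have h4 : -(B / η) ≤ x / η := by
    rw [← neg_div]
    exact div_le_div_of_nonneg_right (by linarith [neg_abs_le x]) hη.le
  rw [Finset.mem_Icc]
  constructor
  · have : (-(N : ℤ) : ℝ) ≤ (⌊x / η⌋ : ℝ) := by
      push_cast
      linarith
    exact_mod_cast this
  · have : (⌊x / η⌋ : ℝ) ≤ ((N : ℤ) : ℝ) := by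
      push_cast
      linarith
    exact_mod_cast this

theorem k6b_cl_mem_box {m : ℕ} (Y : k6b_Sw m) {η B : ℝ} (hη : 0 < η) {N : ℕ} (hN : B / η + 1 ≤ N) {l : Y.Lam}
    (h0 : ‖Y.u0 l‖ ≤ B) (h1 : ‖Y.vel l‖ ≤ B) : k6b_cl Y η l ∈ k6b_box m N := by
  unfold k6b_cl k6b_box
  rw [Finset.mem_product, Fintype.mem_piFinset, Fintype.mem_piFinset]
  exact ⟨fun i => k6b_floor_box hη hN ((norm_le_pi_norm (Y.u0 l) i).trans h0),
    fun i => k6b_floor_box hη hN ((norm_le_pi_norm (Y.vel l) i).trans h1)⟩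

theorem k6b_clE_le {m : ℕ} {η K : ℝ} (hη : 0 < η) (hK : 0 < K) {N : ℕ} (hN : η * N ≤ 4 * K) {b : (Fin m → ℤ) × (Fin m → ℤ)}
    (hb : b ∈ k6b_box m N) (k : Fin m) : |k6b_clE η K b k| ≤ 1 := by
  unfold k6b_box at hb
  rw [Finset.mem_product, Fintype.mem_piFinset, Fintype.mem_piFinset] at hb
  have h := hb.2 k
  rw [Finset.mem_Icc] at h
  have h1 : (-(N : ℝ)) ≤ (b.2 k : ℝ) := by exact_mod_cast h.1
  have h2 : (b.2 k : ℝ) ≤ (N : ℝ) := by exact_mod_cast h.2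
  have h3 : |(b.2 k : ℝ)| ≤ N := abs_le.2 ⟨h1, h2⟩
  unfold k6b_clE
  rw [abs_div, abs_mul, abs_of_pos hη, abs_of_pos (by positivity : (0 : ℝ) < 4 * K), div_le_one (by positivity)]
  exact (mul_le_mul_of_nonneg_left h3 hη.le).trans hN

/-- the tube of the class of a line contains the points near the line -/
theorem k6b_cl_tube {m : ℕ} (Y : k6b_Sw m) {η ξ K : ℝ} (hη : 0 < η) (hηξ : η ≤ ξ) (hK : 0 < K) (l : Y.Lam) (τ : ℝ) (hτ : τ ∈ Set.Icc (0 : ℝ) 1)
    (z : Fin m → ℝ) (hz : ∀ i, |Y.pos (l, τ) i - z i| ≤ 2 * ξ) :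
    z ∈ mlkTube (k6b_clP η (k6b_cl Y η l)) (k6b_clE η K (k6b_cl Y η l)) (4 * ξ) := by
  refine ⟨4 * K * τ, fun i => ?_⟩
  have h1 := k6b_floor_err hη (Y.u0 l i)
  have h2 := k6b_floor_err hη (Y.vel l i)
  have h3 := hz i
  have e : z i - k6b_clP η (k6b_cl Y η l) i - 4 * K * τ * k6b_clE η K (k6b_cl Y η l) i
      = -(Y.pos (l, τ) i - z i) + (Y.u0 l i - η * (⌊Y.u0 l i / η⌋ : ℝ)) + τ * (Y.vel l i - η * (⌊Y.vel l i / η⌋ : ℝ)) := by
    simp only [k6b_clP, k6b_clE, k6b_cl, k6b_Sw.pos, Pi.add_apply, Pi.smul_apply, smul_eq_mul]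
    field_simp
    ring
  rw [e]
  have h4 : |τ * (Y.vel l i - η * (⌊Y.vel l i / η⌋ : ℝ))| ≤ η := by
    rw [abs_mul, abs_of_nonneg hτ.1]
    calc τ * |Y.vel l i - η * (⌊Y.vel l i / η⌋ : ℝ)| ≤ 1 * η := mul_le_mul hτ.2 h2 (abs_nonneg _) zero_le_one
      _ = η := one_mul _
  calc _ ≤ |-(Y.pos (l, τ) i - z i)| + |Y.u0 l i - η * (⌊Y.u0 l i / η⌋ : ℝ)| + |τ * (Y.vel l i - η * (⌊Y.vel l i / η⌋ : ℝ))| := abs_add_three _ _ _
    _ ≤ 2 * ξ + η + η := by
        rw [abs_neg]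
        exact add_le_add (add_le_add h3 h1) h4
    _ ≤ 4 * ξ := by linarith

/-- strips of classes are contained in strips of lines -/
theorem k6b_cl_strip {m : ℕ} (Y : k6b_Sw m) {η K w : ℝ} (hη : 0 < η) (hK : 0 < K) (hηw : m * η ≤ w / 2) (l : Y.Lam) (a : Fin m → ℝ)
    (ha : ∀ i, |a i| ≤ 1) (h : |a ⬝ᵥ k6b_clE η K (k6b_cl Y η l)| ≤ w / (8 * K)) : |a ⬝ᵥ Y.vel l| ≤ w := by
  have e : a ⬝ᵥ Y.vel l = 4 * K * (a ⬝ᵥ k6b_clE η K (k6b_cl Y η l)) + ∑ i, a i * (Y.vel l i - η * (⌊Y.vel l i / η⌋ : ℝ)) := by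
    simp only [dotProduct, Finset.mul_sum, ← Finset.sum_add_distrib]
    refine Finset.sum_congr rfl fun i _ => ?_
    simp only [k6b_clE, k6b_cl]
    field_simp
    ring
  rw [e]
  have h1 : |4 * K * (a ⬝ᵥ k6b_clE η K (k6b_cl Y η l))| ≤ w / 2 := by
    rw [abs_mul, abs_of_pos (by positivity : (0 : ℝ) < 4 * K)]
    calc 4 * K * |a ⬝ᵥ k6b_clE η K (k6b_cl Y η l)| ≤ 4 * K * (w / (8 * K)) := mul_le_mul_of_nonneg_left h (by positivity)
      _ = w / 2 := by
          field_simp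
          ring
  have h2 : |∑ i, a i * (Y.vel l i - η * (⌊Y.vel l i / η⌋ : ℝ))| ≤ m * η := by
    calc _ ≤ ∑ i, |a i * (Y.vel l i - η * (⌊Y.vel l i / η⌋ : ℝ))| := Finset.abs_sum_le_sum_abs _ _
      _ ≤ ∑ _i : Fin m, η := by
          refine Finset.sum_le_sum fun i _ => ?_
          rw [abs_mul]
          calc |a i| * |Y.vel l i - η * (⌊Y.vel l i / η⌋ : ℝ)| ≤ 1 * η :=
                mul_le_mul (ha i) (k6b_floor_err hη _) (abs_nonneg _) zero_le_one
            _ = η := one_mul _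
      _ = m * η := by simp
  calc _ ≤ _ := abs_add_le _ _
    _ ≤ w / 2 + m * η := add_le_add h1 h2
    _ ≤ w := by linarith

end

end Claimed.Agent.R252
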