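import Claimed.Agent.R252.S6b.CellsFin
import Claimed.Agent.R252.S6b.CellsMeas

/-!
# Row252, unit S6b, leaf G1 (`k6b_cells`), file 3: ONE CELL.      (helper193)

`G` = the events assigned to one cell (centre `z`).   `μ(G)^m ≤ 2 (4 K ξ)^m mlkCount z` for the finite family of the classes of lines with the weights `ν(class ∩ {durF F > 0})`.
-/

set_option autoImplicit false

namespace Claimed.Agent.R252

open MeasureTheory
open scoped ENNReal BigOperators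

noncomputable section

theorem k6b_cell_count {m : ℕ} (hm : 0 < m) (Y : k6b_Sw m) (hY : Y.WF) {F G : Set (Y.Lam × ℝ)} (hG : MeasurableSet G) (hGF : G ⊆ F)
    {K ξ w η : ℝ} (hK : 1 ≤ K) (hξ : 0 < ξ) (hw : 0 < w) (hη : 0 < η) (hηξ : η ≤ ξ) (hηw : m * η ≤ w / 2) (N : ℕ)
    (hbox : ∀ e ∈ G, k6b_cl Y η e.1 ∈ k6b_box m N)
    (hg : ∀ e ∈ G, Y.g e ≤ ENNReal.ofReal K) (hτ : ∀ e ∈ G, e.2 ∈ Set.Icc (0 : ℝ) 1)
    (i0 : Fin m) (hi0 : ∀ l, Y.vel l i0 = 1)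
    (z : Fin m → ℝ) (hz : ∀ e ∈ G, ∀ i, |Y.pos e i - z i| ≤ 2 * ξ)
    (hstrip : ∀ a : Fin m → ℝ, (∃ i, 1 ≤ |a i|) → Y.mu (G ∩ {e | |a ⬝ᵥ Y.vel e.1| ≤ w}) ≤ ENNReal.ofReal (1 / (4 * m)) * Y.mu G) :
    (Y.mu G).toReal ^ m ≤ 2 * (4 * K * ξ) ^ m *
      mlkCount (fun _ : Fin m => (Finset.univ : Finset (k6b_box m N))) (fun b => k6b_clP η b.1) (fun b => k6b_clE η K b.1)
        (fun b => (Y.nu (k6b_cl Y η ⁻¹' {b.1} ∩ {l | 0 < Y.durF F l})).toReal) (4 * ξ) ((w / (8 * K)) ^ m) z := by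
  classical
  have hfin := k6b_mu_fin Y hY
  have hfin' := hY.fin
  have hK0 : 0 < K := by linarith
  have hmR : (0 : ℝ) < m := by exact_mod_cast hm
  have hlab := k6b_cl_meas' Y hY η
  obtain ⟨D, hDdef⟩ : ∃ D : (k6b_box m N) → ℝ, D = fun b => (Y.mu (G ∩ (fun e : Y.Lam × ℝ => k6b_cl Y η e.1) ⁻¹' {b.1})).toReal := ⟨_, rfl⟩
  obtain ⟨wt, hwt⟩ : ∃ wt : (k6b_box m N) → ℝ, wt = fun b => (Y.nu (k6b_cl Y η ⁻¹' {b.1} ∩ {l | 0 < Y.durF F l})).toReal := ⟨_, rfl⟩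
  rw [← hwt]
  have hD0 : ∀ b, 0 ≤ D b := fun b => by rw [hDdef]; exact ENNReal.toReal_nonneg
  have hwt0 : ∀ b, 0 ≤ wt b := fun b => by rw [hwt]; exact ENNReal.toReal_nonneg
  -- the sum of the pieces
  have hsum : ∑ b, D b = (Y.mu G).toReal := by
    rw [← k6b_fiber_sum_all Y.mu (fun e : Y.Lam × ℝ => k6b_cl Y η e.1) hlab (k6b_box m N) hG hbox,
      ENNReal.toReal_sum (fun b _ => measure_ne_top _ _), hDdef]
    exact Finset.sum_coe_sort (k6b_box m N) (fun b => (Y.mu (G ∩ (fun e : Y.Lam × ℝ => k6b_cl Y η e.1) ⁻¹' {b})).toReal)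
  -- strips of classes
  have hst : ∀ a : Fin m → ℝ, (∀ i, |a i| ≤ 1) → (∃ i, 1 ≤ |a i|) → ∀ T : Finset (k6b_box m N),
      (∀ b ∈ T, |a ⬝ᵥ k6b_clE η K b.1| ≤ w / (8 * K)) → ∑ b ∈ T, D b ≤ (1 / (4 * m)) * ∑ b, D b := by
    intro a ha1 ha2 T hT
    rw [hsum]
    have h1 : ∑ b ∈ T, D b
        = (Y.mu (G ∩ {x | (fun e : Y.Lam × ℝ => k6b_cl Y η e.1) x ∈ T.map (Function.Embedding.subtype _)})).toReal := by
      rw [← k6b_fiber_sum Y.mu _ hlab _ hG, ENNReal.toReal_sum (fun b _ => measure_ne_top _ _), Finset.sum_map, hDdef]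
      rfl
    rw [h1]
    have h2 : Y.mu (G ∩ {x | (fun e : Y.Lam × ℝ => k6b_cl Y η e.1) x ∈ T.map (Function.Embedding.subtype _)})
        ≤ ENNReal.ofReal (1 / (4 * m)) * Y.mu G := by
      refine (measure_mono ?_).trans (hstrip a ha2)
      rintro e ⟨he1, he2⟩
      refine ⟨he1, ?_⟩
      obtain ⟨b, hb, hbe⟩ := Finset.mem_map.1 he2
      refine k6b_cl_strip Y hη hK0 hηw e.1 a ha1 ?_
      have : k6b_cl Y η e.1 = b.1 := hbe.symm
      rw [this]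
      exact hT b hb
    have h3 := ENNReal.toReal_mono (ENNReal.mul_ne_top ENNReal.ofReal_ne_top (measure_ne_top _ _)) h2
    rwa [ENNReal.toReal_mul, ENNReal.toReal_ofReal (by positivity)] at h3
  -- avoidance
  obtain ⟨θ, hθ⟩ : ∃ θ : ℝ, θ = (w / (8 * K)) ^ m := ⟨_, rfl⟩
  rw [← hθ]
  have hbad : ∑ t ∈ Finset.univ.filter (fun t : Fin m → (k6b_box m N) => |(Matrix.of fun i => k6b_clE η K (t i).1).det| ≤ θ), ∏ i, D (t i)
      ≤ (m : ℝ) * (1 / (4 * m)) * (∑ b, D b) ^ m :=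
    k6b_avoid_fin' hm (fun b : (k6b_box m N) => k6b_clE η K b.1) D hD0 (w / (8 * K)) _ (by positivity) hst _
      (fun t ht => by rw [← hθ]; exact (Finset.mem_filter.1 ht).2)
  -- a class weighs at most `4 K ξ` times its prior weight
  have hdur : ∀ l, Y.durF G l ≤ ENNReal.ofReal K * ENNReal.ofReal (4 * ξ) := by
    intro l
    refine k6b_durF_le Y hg l (t0 := z i0 - 2 * ξ - Y.u0 l i0) fun τ h => ?_
    have h1 := hz _ h i0
    have e : Y.pos (l, τ) i0 = Y.u0 l i0 + τ := by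
      simp [k6b_Sw.pos, hi0]
    rw [e, abs_le] at h1
    constructor <;> linarith [h1.1, h1.2]
  have hDw : ∀ b, D b ≤ 4 * K * ξ * wt b := by
    intro b
    have h1 := k6b_mu_class_le Y hY hG hGF (k6b_cl_meas Y hY η b.1) _ hdur
    have h2 := ENNReal.toReal_mono (ENNReal.mul_ne_top (ENNReal.mul_ne_top ENNReal.ofReal_ne_top ENNReal.ofReal_ne_top)
      (measure_ne_top _ _)) h1
    rw [ENNReal.toReal_mul, ENNReal.toReal_mul, ENNReal.toReal_ofReal hK0.le, ENNReal.toReal_ofReal (by positivity)] at h2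
    rw [hDdef, hwt]
    calc _ ≤ _ := h2
      _ = _ := by ring
  -- a class which does not meet the cell weighs nothing
  have hDt : ∀ b : (k6b_box m N), z ∉ mlkTube (k6b_clP η b.1) (k6b_clE η K b.1) (4 * ξ) → D b = 0 := by
    intro b hb
    by_contra hne
    have h1 : (G ∩ (fun e : Y.Lam × ℝ => k6b_cl Y η e.1) ⁻¹' {b.1}).Nonempty := by
      by_contra hemp
      rw [Set.not_nonempty_iff_eq_empty] at hemp
      apply hne
      rw [hDdef]
      simp [hemp]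
    obtain ⟨e, he1, he2⟩ := h1
    have he3 : k6b_cl Y η e.1 = b.1 := he2
    apply hb
    rw [← he3]
    exact k6b_cl_tube Y hη hηξ hK0 e.1 e.2 (hτ e he1) z (hz e he1)
  -- the good tuples
  have hgood : ∑ t ∈ Finset.univ.filter (fun t : Fin m → (k6b_box m N) => ¬ |(Matrix.of fun i => k6b_clE η K (t i).1).det| ≤ θ), ∏ i, D (t i)
      ≤ (4 * K * ξ) ^ m * mlkCount (fun _ : Fin m => (Finset.univ : Finset (k6b_box m N))) (fun b => k6b_clP η b.1)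
        (fun b => k6b_clE η K b.1) wt (4 * ξ) θ z := by
    unfold mlkCount
    rw [Fintype.piFinset_univ, Finset.mul_sum]
    refine le_trans (Finset.sum_le_sum fun t ht => ?_) (Finset.sum_le_sum_of_subset_of_nonneg (Finset.filter_subset _ _) fun t _ _ => ?_)
    · rw [Finset.mem_filter] at ht
      have hdet : θ ≤ |(Matrix.of fun i => k6b_clE η K (t i).1).det| := (not_le.1 ht.2).le
      by_cases hall : ∀ i, z ∈ mlkTube (k6b_clP η (t i).1) (k6b_clE η K (t i).1) (4 * ξ)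
      · rw [if_pos ⟨hdet, hall⟩]
        calc ∏ i, D (t i) ≤ ∏ i, (4 * K * ξ * wt (t i)) := Finset.prod_le_prod (fun i _ => hD0 _) (fun i _ => hDw _)
          _ = _ := by rw [Finset.prod_mul_distrib, Finset.prod_const, Finset.card_univ, Fintype.card_fin]
      · rw [if_neg (fun h => hall h.2), mul_zero]
        push Not at hall
        obtain ⟨i, hi⟩ := hall
        exact (Finset.prod_eq_zero (Finset.mem_univ i) (hDt _ hi)).le
    · refine mul_nonneg (by positivity) ?_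
      split_ifs
      · exact Finset.prod_nonneg fun i _ => hwt0 _
      · exact le_rfl
  have hsplit := Finset.sum_filter_add_sum_filter_not Finset.univ
    (fun t : Fin m → (k6b_box m N) => |(Matrix.of fun i => k6b_clE η K (t i).1).det| ≤ θ) (fun t => ∏ i, D (t i))
  rw [← Fintype.sum_pow, hsum] at hsplit
  rw [hsum] at hbad
  have hq : (m : ℝ) * (1 / (4 * m)) = 1 / 4 := by
    field_simp
  rw [hq] at hbad
  have hcnt : 0 ≤ (4 * K * ξ) ^ m * mlkCount (fun _ : Fin m => (Finset.univ : Finset (k6b_box m N))) (fun b => k6b_clP η b.1)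
        (fun b => k6b_clE η K b.1) wt (4 * ξ) θ z :=
    mul_nonneg (by positivity) (mlkCount_nonneg _ _ _ _ hwt0 _ _ _)
  nlinarith

/-- every state gets the cell of one of its events -/
theorem k6b_cell_assign {m : ℕ} (Y : k6b_Sw m) (F : Set (Y.Lam × ℝ)) {ξ : ℝ} (hξ : 0 < ξ) (cells : Finset (Fin m → ℤ))
    (hclose : ∀ e ∈ F, ∀ e' ∈ F, Y.st e = Y.st e' → ‖Y.pos e - Y.pos e'‖ ≤ ξ)
    (hcells : ∀ e ∈ F, (fun i => ⌊Y.pos e i / ξ⌋) ∈ cells) :
    ∃ cellOf : Y.St → Fin m → ℤ, ∀ e ∈ F, cellOf (Y.st e) ∈ cells ∧ ∀ i, |Y.pos e i - ξ * (cellOf (Y.st e) i : ℝ)| ≤ 2 * ξ := by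
  have h : ∀ s : Y.St, ∃ E : Fin m → ℤ, ∀ e ∈ F, Y.st e = s → E ∈ cells ∧ ∀ i, |Y.pos e i - ξ * (E i : ℝ)| ≤ 2 * ξ := by
    intro s
    by_cases hs : ∃ e' ∈ F, Y.st e' = s
    · obtain ⟨e', he', hs'⟩ := hs
      refine ⟨fun i => ⌊Y.pos e' i / ξ⌋, fun e he hes => ⟨hcells e' he', fun i => ?_⟩⟩
      have h1 : |Y.pos e i - Y.pos e' i| ≤ ξ :=
        (norm_le_pi_norm (Y.pos e - Y.pos e') i).trans (hclose e he e' he' (hes.trans hs'.symm))
      have h2 := k6b_floor_err hξ (Y.pos e' i)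
      calc |Y.pos e i - ξ * (⌊Y.pos e' i / ξ⌋ : ℝ)|
          = |(Y.pos e i - Y.pos e' i) + (Y.pos e' i - ξ * (⌊Y.pos e' i / ξ⌋ : ℝ))| := by congr 1; ring
        _ ≤ _ := abs_add_le _ _
        _ ≤ ξ + ξ := add_le_add h1 h2
        _ = 2 * ξ := by ring
    · exact ⟨0, fun e he hes => absurd ⟨e, he, hes⟩ hs⟩
  choose cellOf hc using h
  exact ⟨cellOf, fun e he => hc _ e he rfl⟩

/-- the strips in the events of one cell -/
theorem k6b_cell_strip {m : ℕ} (Y : k6b_Sw m) (hY : Y.WF) {F : Set (Y.Lam × ℝ)} (hF : MeasurableSet F) {β : Type*} (cellOf : Y.St → β) (E : β)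
    (Z : Set (Y.Lam × ℝ)) (c : ℝ≥0∞) (hstrip : ∀ s, Y.mu (F ∩ Y.stE s ∩ Z) ≤ c * Y.mu (F ∩ Y.stE s)) :
    Y.mu (F ∩ (fun e => cellOf (Y.st e)) ⁻¹' {E} ∩ Z) ≤ c * Y.mu (F ∩ (fun e => cellOf (Y.st e)) ⁻¹' {E}) := by
  classical
  have hGm : MeasurableSet (F ∩ (fun e => cellOf (Y.st e)) ⁻¹' {E}) := hF.inter (k6b_st_lab_meas Y hY cellOf E)
  rw [← k6b_fiber_sum_all Y.mu Y.st hY.st_meas Finset.univ hGm (fun _ _ => Finset.mem_univ _), Finset.mul_sum]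
  have hsub : F ∩ (fun e => cellOf (Y.st e)) ⁻¹' {E} ∩ Z ⊆ ⋃ s ∈ (Finset.univ : Finset Y.St), F ∩ (fun e => cellOf (Y.st e)) ⁻¹' {E} ∩ Z ∩ Y.st ⁻¹' {s} := by
    intro e he
    simp only [Set.mem_iUnion]
    exact ⟨Y.st e, Finset.mem_univ _, he, rfl⟩
  refine (measure_mono hsub).trans ((measure_biUnion_finset_le _ _).trans (Finset.sum_le_sum fun s _ => ?_))
  by_cases hs : cellOf s = E
  · calc Y.mu (F ∩ (fun e => cellOf (Y.st e)) ⁻¹' {E} ∩ Z ∩ Y.st ⁻¹' {s}) ≤ Y.mu (F ∩ Y.stE s ∩ Z) := by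
          refine measure_mono ?_
          rintro e ⟨⟨⟨h1, -⟩, h3⟩, h4⟩
          exact ⟨⟨h1, h4⟩, h3⟩
      _ ≤ c * Y.mu (F ∩ Y.stE s) := hstrip s
      _ ≤ _ := by
          refine mul_le_mul' le_rfl (measure_mono ?_)
          rintro e ⟨h1, h2⟩
          have h3 : Y.st e = s := h2
          refine ⟨⟨h1, ?_⟩, h2⟩
          show cellOf (Y.st e) = E
          rw [h3, hs]
  · have : F ∩ (fun e => cellOf (Y.st e)) ⁻¹' {E} ∩ Z ∩ Y.st ⁻¹' {s} = ∅ := by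
      ext e
      simp only [Set.mem_inter_iff, Set.mem_preimage, Set.mem_singleton_iff, Set.mem_empty_iff_false, iff_false]
      rintro ⟨⟨⟨-, h2⟩, -⟩, h4⟩
      exact hs (h4 ▸ h2)
    rw [this, measure_empty]
    exact zero_le

end

end Claimed.Agent.R252
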