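import Claimed.Agent.R252.S6b.ChainD

/-!
# Row252, unit S6b, part C2: `k6b_chain : k6b_chain_stmt`.      (helper224; sub-architect helper68)
Proof in `ChainA.lean` (one step), `ChainB.lean` (path operators), `ChainC.lean` (union bound), `ChainD.lean` (upper bound, assembly).
-/

set_option autoImplicit false

namespace Claimed.Agent.R252

theorem k6b_chain : k6b_chain_stmt := k6b_chain_update

end Claimed.Agent.R252
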