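import Claimed.Agent.R252.S6b.SwitchDefs

/-!
# Row252, unit S6b, part C2 (the chain lemma), file A: the step measure   (prefix `k6b_`)

`X = Lam × ℝ × ℝ` = steps `(l, τ^◇, τ)`.  `rho = g(l,τ^◇) (dur l)⁻¹ g(l,τ) dν dτ^◇ dτ`, `kap s = ℙ(st = s)⁻¹ rho|_{st (l,τ^◇) = s}`.
Both marginals of `rho` are `ℙ`.
-/

set_option autoImplicit false

namespace Claimed.Agent.R252

open MeasureTheory
open scoped ENNReal BigOperators

noncomputable section

/-- Lebesgue measure on `[0,1]` -/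
def k6b_lam : Measure ℝ := volume.restrict (Set.Icc (0 : ℝ) 1)

instance : IsFiniteMeasure k6b_lam := by
  unfold k6b_lam
  exact ⟨by simp⟩

/-- a function which is measurable on each fibre of a finitely valued measurable label -/
theorem k6b_measurable_fin_comp {α β σ : Type*} [MeasurableSpace α] [MeasurableSpace β] [Finite σ]
    (c : α → σ) (hc : ∀ s, MeasurableSet (c ⁻¹' {s})) (f : σ → α → β) (hf : ∀ s, Measurable (f s)) :
    Measurable fun p => f (c p) p := by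
  intro B hB
  have e : (fun p => f (c p) p) ⁻¹' B = ⋃ s, (c ⁻¹' {s} ∩ (f s) ⁻¹' B) := by
    ext p
    simp
  rw [e]
  exact MeasurableSet.iUnion fun s => (hc s).inter (hf s hB)

namespace k6b_Sw

variable {m : ℕ} (Y : k6b_Sw m)

/-- the switch event of a step -/
def swE (x : Y.Lam × ℝ × ℝ) : Y.Lam × ℝ := (x.1, x.2.1)

/-- the end event of a step -/
def enE (x : Y.Lam × ℝ × ℝ) : Y.Lam × ℝ := (x.1, x.2.2)

theorem measurable_swE : Measurable Y.swE :=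
  measurable_fst.prodMk (measurable_fst.comp measurable_snd)

theorem measurable_enE : Measurable Y.enE :=
  measurable_fst.prodMk (measurable_snd.comp measurable_snd)

/-- the density of the step measure -/
def hden (x : Y.Lam × ℝ × ℝ) : ℝ≥0∞ := Y.g (x.1, x.2.1) * ((Y.dur x.1)⁻¹ * Y.g (x.1, x.2.2))

/-- the step measure -/
def rho : Measure (Y.Lam × ℝ × ℝ) := (Y.nu.prod (k6b_lam.prod k6b_lam)).withDensity Y.hden

/-- the law of a step from the state `s` -/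
def kap (s : Y.St) : Measure (Y.Lam × ℝ × ℝ) :=
  (Y.mu (Y.stE s))⁻¹ • Y.rho.restrict (Y.swE ⁻¹' Y.stE s)

variable {Y}

theorem dur_eq (l : Y.Lam) : Y.dur l = ∫⁻ τ, Y.g (l, τ) ∂k6b_lam := rfl

theorem WF.measurable_dur (h : Y.WF) : Measurable Y.dur := by
  have := h.fin
  exact h.g_meas.lintegral_prod_right'

theorem WF.measurable_hden (h : Y.WF) : Measurable Y.hden :=
  (h.g_meas.comp Y.measurable_swE).mul
    (((h.measurable_dur.comp measurable_fst).inv).mul (h.g_meas.comp Y.measurable_enE))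

theorem WF.lintegral_mu (h : Y.WF) {ψ : Y.Lam × ℝ → ℝ≥0∞} (hψ : Measurable ψ) :
    ∫⁻ e, ψ e ∂Y.mu = ∫⁻ l, ∫⁻ τ, Y.g (l, τ) * ψ (l, τ) ∂k6b_lam ∂Y.nu := by
  have := h.fin
  rw [mu, lintegral_withDensity_eq_lintegral_mul _ h.g_meas hψ]
  exact lintegral_prod _ (h.g_meas.mul hψ).aemeasurable

/-- disintegration of the step measure over the switch event -/
theorem WF.lintegral_rho (h : Y.WF) {F : Y.Lam × ℝ × ℝ → ℝ≥0∞} (hF : Measurable F) :
    ∫⁻ x, F x ∂Y.rho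
      = ∫⁻ y, (Y.dur y.1)⁻¹ * ∫⁻ τ, Y.g (y.1, τ) * F (y.1, y.2, τ) ∂k6b_lam ∂Y.mu := by
  have := h.fin
  have hm : Measurable fun y : Y.Lam × ℝ =>
      (Y.dur y.1)⁻¹ * ∫⁻ τ, Y.g (y.1, τ) * F (y.1, y.2, τ) ∂k6b_lam := by
    refine ((h.measurable_dur.comp measurable_fst).inv).mul ?_
    refine Measurable.lintegral_prod_right' (f := fun q : (Y.Lam × ℝ) × ℝ =>
      Y.g (q.1.1, q.2) * F (q.1.1, q.1.2, q.2)) ?_
    exact (h.g_meas.comp ((measurable_fst.comp measurable_fst).prodMk measurable_snd)).mul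
      (hF.comp ((measurable_fst.comp measurable_fst).prodMk
        ((measurable_snd.comp measurable_fst).prodMk measurable_snd)))
  rw [h.lintegral_mu hm, rho, lintegral_withDensity_eq_lintegral_mul _ h.measurable_hden hF,
    lintegral_prod _ (h.measurable_hden.mul hF).aemeasurable]
  refine lintegral_congr fun l => ?_
  have hs : Measurable fun q : ℝ × ℝ => (Y.hden * F) (l, q) :=
    (h.measurable_hden.mul hF).comp (measurable_const.prodMk measurable_id)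
  rw [lintegral_prod _ hs.aemeasurable]
  refine lintegral_congr fun τ' => ?_
  have hs2 : Measurable fun τ : ℝ => Y.g (l, τ) * F (l, τ', τ) :=
    (h.g_meas.comp (measurable_const.prodMk measurable_id)).mul
      (hF.comp (measurable_const.prodMk (measurable_const.prodMk measurable_id)))
  rw [← lintegral_const_mul _ hs2, ← lintegral_const_mul _ (hs2.const_mul _)]
  refine lintegral_congr fun τ => ?_
  simp only [Pi.mul_apply, hden]
  ring

theorem WF.lintegral_dur (h : Y.WF) : ∫⁻ l, Y.dur l ∂Y.nu = 1 := by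
  have e := h.lintegral_mu (ψ := fun _ => 1) measurable_const
  simp only [mul_one, lintegral_const, h.prob] at e
  exact e.symm

theorem WF.ae_dur_lt_top (h : Y.WF) : ∀ᵐ l ∂Y.nu, Y.dur l < ∞ :=
  ae_lt_top h.measurable_dur (by rw [h.lintegral_dur]; exact ENNReal.one_ne_top)

theorem WF.dur_cancel (h : Y.WF) {l : Y.Lam} (hl : Y.dur l < ∞) (ψ : ℝ → ℝ≥0∞) :
    Y.dur l * ((Y.dur l)⁻¹ * ∫⁻ τ, Y.g (l, τ) * ψ τ ∂k6b_lam) = ∫⁻ τ, Y.g (l, τ) * ψ τ ∂k6b_lam := by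
  by_cases h0 : Y.dur l = 0
  · have hg : Measurable fun τ : ℝ => Y.g (l, τ) := h.g_meas.comp (measurable_const.prodMk measurable_id)
    have h2 : (fun τ : ℝ => Y.g (l, τ)) =ᵐ[k6b_lam] 0 := (lintegral_eq_zero_iff hg).1 h0
    have h1 : ∫⁻ τ, Y.g (l, τ) * ψ τ ∂k6b_lam = 0 := by
      rw [lintegral_congr_ae (g := fun _ => 0) ?_, lintegral_zero]
      filter_upwards [h2] with τ hτ
      rw [hτ]
      simp
    rw [h1]
    simp
  · rw [← mul_assoc, ENNReal.mul_inv_cancel h0 hl.ne, one_mul]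

/-- the law of the end event is `ℙ` -/
theorem WF.lintegral_rho_en (h : Y.WF) {ψ : Y.Lam × ℝ → ℝ≥0∞} (hψ : Measurable ψ) :
    ∫⁻ x, ψ (Y.enE x) ∂Y.rho = ∫⁻ e, ψ e ∂Y.mu := by
  have := h.fin
  have hΘ : Measurable fun l : Y.Lam => (Y.dur l)⁻¹ * ∫⁻ τ, Y.g (l, τ) * ψ (l, τ) ∂k6b_lam :=
    h.measurable_dur.inv.mul (h.g_meas.mul hψ).lintegral_prod_right'
  rw [h.lintegral_rho (F := fun x => ψ (Y.enE x)) (hψ.comp Y.measurable_enE)]
  have e1 := h.lintegral_mu (hΘ.comp measurable_fst)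
  simp only [Function.comp_def] at e1
  simp only [enE]
  rw [e1, h.lintegral_mu hψ]
  refine lintegral_congr_ae ?_
  filter_upwards [h.ae_dur_lt_top] with l hl
  have hg : Measurable fun τ : ℝ => Y.g (l, τ) := h.g_meas.comp (measurable_const.prodMk measurable_id)
  rw [lintegral_mul_const _ hg]
  exact h.dur_cancel hl fun τ => ψ (l, τ)

/-- the law of the switch event is `ℙ` -/
theorem WF.lintegral_rho_sw (h : Y.WF) {ψ : Y.Lam × ℝ → ℝ≥0∞} (hψ : Measurable ψ) :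
    ∫⁻ x, ψ (Y.swE x) ∂Y.rho = ∫⁻ e, ψ e ∂Y.mu := by
  have := h.fin
  rw [h.lintegral_rho (F := fun x => ψ (Y.swE x)) (hψ.comp Y.measurable_swE)]
  have e0 : ∀ y : Y.Lam × ℝ, (Y.dur y.1)⁻¹ * ∫⁻ τ, Y.g (y.1, τ) * ψ (Y.swE (y.1, y.2, τ)) ∂k6b_lam
      = (Y.dur y.1)⁻¹ * Y.dur y.1 * ψ y := by
    intro y
    have hg : Measurable fun τ : ℝ => Y.g (y.1, τ) :=
      h.g_meas.comp (measurable_const.prodMk measurable_id)
    simp only [swE]
    rw [lintegral_mul_const _ hg, ← dur_eq, mul_assoc]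
  simp only [e0]
  have hm : Measurable fun y : Y.Lam × ℝ => (Y.dur y.1)⁻¹ * Y.dur y.1 * ψ y :=
    (((h.measurable_dur.comp measurable_fst).inv).mul (h.measurable_dur.comp measurable_fst)).mul hψ
  rw [h.lintegral_mu hm, h.lintegral_mu hψ]
  refine lintegral_congr_ae ?_
  filter_upwards [h.ae_dur_lt_top] with l hl
  have hs : Measurable fun τ : ℝ => Y.g (l, τ) * ψ (l, τ) :=
    (h.g_meas.mul hψ).comp (measurable_const.prodMk measurable_id)
  rw [← h.dur_cancel hl fun τ => ψ (l, τ), ← mul_assoc, ← lintegral_const_mul _ hs]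
  refine lintegral_congr fun τ => ?_
  ring

theorem WF.rho_sw (h : Y.WF) {C : Set (Y.Lam × ℝ)} (hC : MeasurableSet C) :
    Y.rho (Y.swE ⁻¹' C) = Y.mu C := by
  have e := h.lintegral_rho_sw (ψ := C.indicator 1) (measurable_one.indicator hC)
  rw [lintegral_indicator_one hC] at e
  rw [← e, ← lintegral_indicator_one (Y.measurable_swE hC)]
  rfl

theorem WF.rho_en (h : Y.WF) {C : Set (Y.Lam × ℝ)} (hC : MeasurableSet C) :
    Y.rho (Y.enE ⁻¹' C) = Y.mu C := by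
  have e := h.lintegral_rho_en (ψ := C.indicator 1) (measurable_one.indicator hC)
  rw [lintegral_indicator_one hC] at e
  rw [← e, ← lintegral_indicator_one (Y.measurable_enE hC)]
  rfl

theorem WF.measurableSet_sup (h : Y.WF) : MeasurableSet Y.sup :=
  ((h.g_meas (measurableSet_singleton 0)).compl).inter (measurable_snd measurableSet_Icc)

/-- `ℙ` is carried by `sup` -/
theorem WF.mu_sup_compl (h : Y.WF) : Y.mu Y.supᶜ = 0 := by
  rw [← lintegral_indicator_one h.measurableSet_sup.compl,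
    h.lintegral_mu (measurable_one.indicator h.measurableSet_sup.compl)]
  refine (lintegral_congr fun l => ?_).trans lintegral_zero
  refine (lintegral_congr_ae ?_).trans lintegral_zero
  have h1 : ∀ᵐ τ ∂k6b_lam, τ ∈ Set.Icc (0 : ℝ) 1 := ae_restrict_mem measurableSet_Icc
  filter_upwards [h1] with τ hτ
  by_cases hg : Y.g (l, τ) = 0
  · rw [hg, zero_mul]
  · have : (l, τ) ∉ Y.supᶜ := fun hh => hh ⟨hg, hτ⟩
    rw [Set.indicator_of_notMem this, mul_zero]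

/-! ### the step laws -/

theorem kap_apply_le (s : Y.St) (B : Set (Y.Lam × ℝ × ℝ)) :
    Y.kap s B ≤ (Y.mu (Y.stE s))⁻¹ * Y.rho B := by
  rw [kap, Measure.smul_apply, smul_eq_mul]
  exact mul_le_mul_right (Measure.restrict_le_self B) _

theorem WF.kap_sw (h : Y.WF) (s : Y.St) {C : Set (Y.Lam × ℝ)} (hC : MeasurableSet C) :
    Y.kap s (Y.swE ⁻¹' C) = (Y.mu (Y.stE s))⁻¹ * Y.mu (Y.stE s ∩ C) := by
  rw [kap, Measure.smul_apply, smul_eq_mul, Measure.restrict_apply (Y.measurable_swE hC),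
    ← Set.preimage_inter, h.rho_sw (hC.inter (h.st_meas s)), Set.inter_comm]

theorem WF.kap_univ_le (h : Y.WF) (s : Y.St) : Y.kap s Set.univ ≤ 1 := by
  have e := h.kap_sw s MeasurableSet.univ
  rw [Set.preimage_univ, Set.inter_univ] at e
  rw [e]
  exact ENNReal.inv_mul_le_one _

theorem WF.kap_state (h : Y.WF) (s : Y.St) : Y.kap s {x | Y.st (Y.swE x) ≠ s} = 0 := by
  have e := h.kap_sw s (h.st_meas s).compl
  rw [Set.inter_compl_self, measure_empty, mul_zero] at e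
  exact e

theorem WF.kap_sw_sup (h : Y.WF) (s : Y.St) : Y.kap s {x | Y.swE x ∉ Y.sup} = 0 := by
  have e := h.kap_sw s h.measurableSet_sup.compl
  rw [measure_mono_null Set.inter_subset_right h.mu_sup_compl, mul_zero] at e
  exact e

theorem WF.kap_en_sup (h : Y.WF) (s : Y.St) : Y.kap s {x | Y.enE x ∉ Y.sup} = 0 := by
  have e := kap_apply_le s {x | Y.enE x ∉ Y.sup}
  have e2 : Y.rho {x | Y.enE x ∉ Y.sup} = 0 :=
    (h.rho_en h.measurableSet_sup.compl).trans h.mu_sup_compl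
  rw [e2, mul_zero] at e
  exact le_antisymm e bot_le

theorem WF.measurableSet_strip (h : Y.WF) (a : Fin m → ℝ) (w : ℝ) :
    MeasurableSet {e : Y.Lam × ℝ | |a ⬝ᵥ Y.vel e.1| ≤ w} := by
  have h1 : Measurable fun e : Y.Lam × ℝ => |a ⬝ᵥ Y.vel e.1| := by
    have h2 : Measurable fun e : Y.Lam × ℝ => a ⬝ᵥ Y.vel e.1 := by
      unfold dotProduct
      exact Finset.measurable_sum _ fun i _ =>
        measurable_const.mul ((measurable_pi_apply i).comp (h.vel_meas.comp measurable_fst))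
    exact (continuous_abs.measurable).comp h2
  exact h1 measurableSet_Iic

/-- a strip costs `c0`, conditionally on the state -/
theorem WF.kap_strip (h : Y.WF) {K c0 η : ℝ≥0∞} {w : ℝ} (hc : Y.Chain K c0 η w) (s : Y.St)
    (a : Fin m → ℝ) (ha : ∃ i, 1 ≤ |a i|) : Y.kap s {x | |a ⬝ᵥ Y.vel x.1| ≤ w} ≤ c0 := by
  have e := h.kap_sw s (h.measurableSet_strip a w)
  have e' : Y.kap s {x | |a ⬝ᵥ Y.vel x.1| ≤ w}
      = (Y.mu (Y.stE s))⁻¹ * Y.mu (Y.stE s ∩ {e | |a ⬝ᵥ Y.vel e.1| ≤ w}) := e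
  rw [e']
  calc (Y.mu (Y.stE s))⁻¹ * Y.mu (Y.stE s ∩ {e | |a ⬝ᵥ Y.vel e.1| ≤ w})
      ≤ (Y.mu (Y.stE s))⁻¹ * (c0 * Y.mu (Y.stE s)) := mul_le_mul_right (hc.strip s a ha) _
    _ = c0 * ((Y.mu (Y.stE s))⁻¹ * Y.mu (Y.stE s)) := by ring
    _ ≤ c0 * 1 := mul_le_mul_right (ENNReal.inv_mul_le_one _) _
    _ = c0 := mul_one _

theorem lintegral_kap (s : Y.St) (F : Y.Lam × ℝ × ℝ → ℝ≥0∞) :
    ∫⁻ x, F x ∂Y.kap s = (Y.mu (Y.stE s))⁻¹ * ∫⁻ x in Y.swE ⁻¹' Y.stE s, F x ∂Y.rho := by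
  rw [kap, lintegral_smul_measure, smul_eq_mul]

variable (Y) in
/-- the indicator of the long lines of the bin `J` -/
def cJ (J : Y.Bn) : Y.Lam × ℝ × ℝ → ℝ≥0∞ :=
  {x : Y.Lam × ℝ × ℝ | x.1 ∈ Y.Lg ∧ Y.bin x.1 = J}.indicator 1

theorem WF.measurable_cJ (h : Y.WF) (J : Y.Bn) : Measurable (Y.cJ J) :=
  measurable_one.indicator ((measurable_fst h.Lg_meas).inter (measurable_fst (h.bin_meas J)))

/-- **one step domination** by the palette and Lebesgue measure -/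
theorem WF.kap_dom (h : Y.WF) {K c0 η : ℝ≥0∞} {w : ℝ} (hc : Y.Chain K c0 η w) (s : Y.St) (J : Y.Bn)
    {ψ : ℝ → ℝ≥0∞} (hψ : Measurable ψ) :
    ∫⁻ x, Y.cJ J x * ψ x.2.2 ∂Y.kap s ≤ K * K * Y.pal J * ∫⁻ τ, ψ τ ∂k6b_lam := by
  have hA : MeasurableSet (Y.swE ⁻¹' Y.stE s) := Y.measurable_swE (h.st_meas s)
  have hF : Measurable fun x : Y.Lam × ℝ × ℝ => Y.cJ J x * ψ x.2.2 :=
    (h.measurable_cJ J).mul (hψ.comp (measurable_snd.comp measurable_snd))
  have hB : MeasurableSet (Y.stE s ∩ {e | Y.bin e.1 = J}) :=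
    (h.st_meas s).inter (measurable_fst (h.bin_meas J))
  rw [lintegral_kap, ← lintegral_indicator hA, h.lintegral_rho (hF.indicator hA)]
  have hpt : ∀ y : Y.Lam × ℝ, (Y.dur y.1)⁻¹ * ∫⁻ τ, Y.g (y.1, τ) *
      (Y.swE ⁻¹' Y.stE s).indicator (fun x : Y.Lam × ℝ × ℝ => Y.cJ J x * ψ x.2.2) (y.1, y.2, τ) ∂k6b_lam
      ≤ (Y.stE s ∩ {e | Y.bin e.1 = J}).indicator (fun _ => K * ∫⁻ τ, ψ τ ∂k6b_lam) y := by
    intro y
    by_cases hy : y ∈ Y.stE s ∧ y.1 ∈ Y.Lg ∧ Y.bin y.1 = J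
    · rw [Set.indicator_of_mem (show y ∈ Y.stE s ∩ {e | Y.bin e.1 = J} from ⟨hy.1, hy.2.2⟩)]
      calc (Y.dur y.1)⁻¹ * ∫⁻ τ, Y.g (y.1, τ) * (Y.swE ⁻¹' Y.stE s).indicator
            (fun x : Y.Lam × ℝ × ℝ => Y.cJ J x * ψ x.2.2) (y.1, y.2, τ) ∂k6b_lam
          ≤ (Y.dur y.1)⁻¹ * ∫⁻ τ, (K * Y.dur y.1) * ψ τ ∂k6b_lam := by
            refine mul_le_mul_right (lintegral_mono fun τ => ?_) _
            refine mul_le_mul' (hc.long_dens _ hy.2.1 τ) ?_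
            refine (Set.indicator_le_self _ _ _).trans ?_
            show Y.cJ J (y.1, y.2, τ) * ψ τ ≤ ψ τ
            refine (mul_le_mul_left (Set.indicator_le_self' (fun _ _ => zero_le) _) _).trans ?_
            simp
        _ = ((Y.dur y.1)⁻¹ * Y.dur y.1) * (K * ∫⁻ τ, ψ τ ∂k6b_lam) := by
            rw [lintegral_const_mul _ hψ]
            ring
        _ ≤ 1 * (K * ∫⁻ τ, ψ τ ∂k6b_lam) := mul_le_mul_left (ENNReal.inv_mul_le_one _) _
        _ = K * ∫⁻ τ, ψ τ ∂k6b_lam := one_mul _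
    · have h0 : ∀ τ : ℝ, (Y.swE ⁻¹' Y.stE s).indicator
          (fun x : Y.Lam × ℝ × ℝ => Y.cJ J x * ψ x.2.2) (y.1, y.2, τ) = 0 := by
        intro τ
        by_cases h1 : y ∈ Y.stE s
        · have h2 : (y.1, y.2, τ) ∉ {x : Y.Lam × ℝ × ℝ | x.1 ∈ Y.Lg ∧ Y.bin x.1 = J} :=
            fun hh => hy ⟨h1, hh⟩
          rw [Set.indicator_apply_eq_zero]
          intro _
          show Y.cJ J (y.1, y.2, τ) * ψ τ = 0
          rw [cJ, Set.indicator_of_notMem h2, zero_mul]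
        · exact Set.indicator_of_notMem (s := Y.swE ⁻¹' Y.stE s) (fun hh => h1 hh) _
      simp only [h0, mul_zero, lintegral_zero]
      exact zero_le
  calc (Y.mu (Y.stE s))⁻¹ * ∫⁻ y, (Y.dur y.1)⁻¹ * ∫⁻ τ, Y.g (y.1, τ) * (Y.swE ⁻¹' Y.stE s).indicator
          (fun x : Y.Lam × ℝ × ℝ => Y.cJ J x * ψ x.2.2) (y.1, y.2, τ) ∂k6b_lam ∂Y.mu
      ≤ (Y.mu (Y.stE s))⁻¹ * ∫⁻ y, (Y.stE s ∩ {e | Y.bin e.1 = J}).indicator
          (fun _ => K * ∫⁻ τ, ψ τ ∂k6b_lam) y ∂Y.mu := mul_le_mul_right (lintegral_mono hpt) _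
    _ = (Y.mu (Y.stE s))⁻¹ * ((K * ∫⁻ τ, ψ τ ∂k6b_lam) * Y.mu (Y.stE s ∩ {e | Y.bin e.1 = J})) := by
        rw [lintegral_indicator_const hB]
    _ ≤ (Y.mu (Y.stE s))⁻¹ * ((K * ∫⁻ τ, ψ τ ∂k6b_lam) * (K * Y.pal J * Y.mu (Y.stE s))) :=
        mul_le_mul_right (mul_le_mul_right (hc.pal_dom s J) _) _
    _ = ((Y.mu (Y.stE s))⁻¹ * Y.mu (Y.stE s)) * (K * K * Y.pal J * ∫⁻ τ, ψ τ ∂k6b_lam) := by ring
    _ ≤ 1 * (K * K * Y.pal J * ∫⁻ τ, ψ τ ∂k6b_lam) := mul_le_mul_left (ENNReal.inv_mul_le_one _) _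
    _ = K * K * Y.pal J * ∫⁻ τ, ψ τ ∂k6b_lam := one_mul _

/-! ### the Markov operator on functions of events -/

variable (Y) in
/-- `(S ψ)(e)` = expectation of `ψ` at the end event of a step from `e` -/
def Sop (ψ : Y.Lam × ℝ → ℝ≥0∞) (e : Y.Lam × ℝ) : ℝ≥0∞ := ∫⁻ x, ψ (Y.enE x) ∂Y.kap (Y.st e)

theorem WF.measurable_Sop (h : Y.WF) (ψ : Y.Lam × ℝ → ℝ≥0∞) : Measurable (Y.Sop ψ) :=
  k6b_measurable_fin_comp Y.st h.st_meas (fun s _ => ∫⁻ x, ψ (Y.enE x) ∂Y.kap s)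
    fun _ => measurable_const

end k6b_Sw

/-- decomposition of an integral along a finitely valued measurable label -/
theorem k6b_lintegral_fin_label {α σ : Type*} [MeasurableSpace α] [Fintype σ] (μ : Measure α)
    (c : α → σ) (hc : ∀ s, MeasurableSet (c ⁻¹' {s})) (F : α → ℝ≥0∞) :
    ∫⁻ a, F a ∂μ = ∑ s, ∫⁻ a in c ⁻¹' {s}, F a ∂μ := by
  have hU : (⋃ s, c ⁻¹' {s}) = Set.univ := by
    ext a
    simp
  have hd : Pairwise (Function.onFun Disjoint fun s => c ⁻¹' {s}) := by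
    intro s t hst
    refine Set.disjoint_left.2 fun a ha hb => hst ?_
    rw [← (ha : c a = s), ← (hb : c a = t)]
  have e := lintegral_iUnion (μ := μ) hc hd F
  rw [hU, Measure.restrict_univ, tsum_fintype] at e
  exact e

namespace k6b_Sw

variable {m : ℕ} {Y : k6b_Sw m}

/-- **stationarity** -/
theorem WF.lintegral_Sop (h : Y.WF) {ψ : Y.Lam × ℝ → ℝ≥0∞} (hψ : Measurable ψ) :
    ∫⁻ e, Y.Sop ψ e ∂Y.mu = ∫⁻ e, ψ e ∂Y.mu := by
  have hfin : IsFiniteMeasure Y.mu := ⟨by rw [h.prob]; exact ENNReal.one_lt_top⟩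
  rw [← h.lintegral_rho_en hψ, k6b_lintegral_fin_label Y.mu Y.st h.st_meas,
    k6b_lintegral_fin_label Y.rho (fun x => Y.st (Y.swE x)) fun s => Y.measurable_swE (h.st_meas s)]
  refine Finset.sum_congr rfl fun s _ => ?_
  have e1 : ∫⁻ e in Y.st ⁻¹' {s}, Y.Sop ψ e ∂Y.mu
      = ∫⁻ _ in Y.st ⁻¹' {s}, (∫⁻ x, ψ (Y.enE x) ∂Y.kap s) ∂Y.mu := by
    refine setLIntegral_congr_fun (h.st_meas s) fun e he => ?_
    rw [Sop, (he : Y.st e = s)]
  rw [e1, setLIntegral_const, lintegral_kap]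
  show (Y.mu (Y.stE s))⁻¹ * (∫⁻ x in Y.swE ⁻¹' Y.stE s, ψ (Y.enE x) ∂Y.rho) * Y.mu (Y.stE s)
    = ∫⁻ x in Y.swE ⁻¹' Y.stE s, ψ (Y.enE x) ∂Y.rho
  by_cases h0 : Y.mu (Y.stE s) = 0
  · have h1 : Y.rho (Y.swE ⁻¹' Y.stE s) = 0 := (h.rho_sw (h.st_meas s)).trans h0
    rw [h0, mul_zero, Measure.restrict_eq_zero.2 h1, lintegral_zero_measure]
  · rw [mul_comm, ← mul_assoc, ENNReal.mul_inv_cancel h0 (measure_ne_top _ _), one_mul]

theorem WF.measurable_Sop_iter (h : Y.WF) {ψ : Y.Lam × ℝ → ℝ≥0∞} (hψ : Measurable ψ) (k : ℕ) :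
    Measurable ((Y.Sop)^[k] ψ) := by
  induction k generalizing ψ with
  | zero => exact hψ
  | succ k ih => exact ih (h.measurable_Sop ψ)

theorem WF.lintegral_Sop_iter (h : Y.WF) {ψ : Y.Lam × ℝ → ℝ≥0∞} (hψ : Measurable ψ) (k : ℕ) :
    ∫⁻ e, (Y.Sop)^[k] ψ e ∂Y.mu = ∫⁻ e, ψ e ∂Y.mu := by
  induction k generalizing ψ with
  | zero => rfl
  | succ k ih =>
    rw [Function.iterate_succ_apply, ih (h.measurable_Sop ψ), h.lintegral_Sop hψ]

end k6b_Sw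

end

end Claimed.Agent.R252
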