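import Claimed.Agent.R252.S6b.ChainA

/-!
# Row252, unit S6b, part C2 (the chain lemma), file B: the path operators   (prefix `k6b_`)

Path space `(Lam × ℝ) × (Fin n → Lam × ℝ × ℝ)`.  `Top i F` integrates the `i`-th step out (law `kap (st (evt i))`), `Pop k = Top 0 ∘ ⋯ ∘ Top (k-1)`.
-/

set_option autoImplicit false

namespace Claimed.Agent.R252

open MeasureTheory
open scoped ENNReal BigOperators

noncomputable section

namespace k6b_Sw

variable {m n : ℕ} (Y : k6b_Sw m)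

theorem evt_zero (e0 : Y.Lam × ℝ) (π : Fin n → Y.Lam × ℝ × ℝ) : Y.evt e0 π 0 = e0 := by
  simp [evt]

theorem evt_succ (e0 : Y.Lam × ℝ) (π : Fin n → Y.Lam × ℝ × ℝ) (i : Fin n) :
    Y.evt e0 π ((i : ℕ) + 1) = Y.enE (π i) := by
  have h : 0 < (i : ℕ) + 1 ∧ (i : ℕ) + 1 - 1 < n := ⟨Nat.succ_pos _, by simp⟩
  rw [evt, dif_pos h]
  rfl

theorem evt_update_succ (e0 : Y.Lam × ℝ) (π : Fin n → Y.Lam × ℝ × ℝ) (i : Fin n)
    (x : Y.Lam × ℝ × ℝ) : Y.evt e0 (Function.update π i x) ((i : ℕ) + 1) = Y.enE x := by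
  rw [evt_succ, Function.update_self]

theorem evt_update_of_ne (e0 : Y.Lam × ℝ) (π : Fin n → Y.Lam × ℝ × ℝ) (i : Fin n)
    (x : Y.Lam × ℝ × ℝ) {j : ℕ} (hj : j ≠ (i : ℕ) + 1) :
    Y.evt e0 (Function.update π i x) j = Y.evt e0 π j := by
  unfold evt
  by_cases h : 0 < j ∧ j - 1 < n
  · rw [dif_pos h, dif_pos h]
    have hne : (⟨j - 1, h.2⟩ : Fin n) ≠ i := by
      intro e
      have := congrArg Fin.val e
      simp only at this
      omega
    rw [Function.update_of_ne hne]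
  · rw [dif_neg h, dif_neg h]

theorem measurable_evt (j : ℕ) :
    Measurable fun p : (Y.Lam × ℝ) × (Fin n → Y.Lam × ℝ × ℝ) => Y.evt p.1 p.2 j := by
  unfold evt
  by_cases h : 0 < j ∧ j - 1 < n
  · simp only [dif_pos h]
    exact Y.measurable_enE.comp ((measurable_pi_apply _).comp measurable_snd)
  · simp only [dif_neg h]
    exact measurable_fst

/-- integrate the `i`-th step out -/
def Top (i : Fin n) (F : (Y.Lam × ℝ) × (Fin n → Y.Lam × ℝ × ℝ) → ℝ≥0∞) :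
    (Y.Lam × ℝ) × (Fin n → Y.Lam × ℝ × ℝ) → ℝ≥0∞ :=
  fun p => ∫⁻ x, F (p.1, Function.update p.2 i x) ∂Y.kap (Y.st (Y.evt p.1 p.2 i))

/-- the same with a natural number as index -/
def Top' (k : ℕ) (F : (Y.Lam × ℝ) × (Fin n → Y.Lam × ℝ × ℝ) → ℝ≥0∞) :
    (Y.Lam × ℝ) × (Fin n → Y.Lam × ℝ × ℝ) → ℝ≥0∞ :=
  if h : k < n then Y.Top ⟨k, h⟩ F else F

/-- integrate the steps `0, …, k - 1` out (the last one first) -/
def Pop : ℕ → ((Y.Lam × ℝ) × (Fin n → Y.Lam × ℝ × ℝ) → ℝ≥0∞) →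
    (Y.Lam × ℝ) × (Fin n → Y.Lam × ℝ × ℝ) → ℝ≥0∞
  | 0, F => F
  | k + 1, F => Pop k (Y.Top' k F)

variable {Y}

theorem Top_mono (i : Fin n) {F G : (Y.Lam × ℝ) × (Fin n → Y.Lam × ℝ × ℝ) → ℝ≥0∞} (h : F ≤ G) :
    Y.Top i F ≤ Y.Top i G := fun _ => lintegral_mono fun _ => h _

theorem Top'_mono (k : ℕ) {F G : (Y.Lam × ℝ) × (Fin n → Y.Lam × ℝ × ℝ) → ℝ≥0∞} (h : F ≤ G) :
    Y.Top' k F ≤ Y.Top' k G := by
  unfold Top'
  split_ifs
  · exact Top_mono _ h
  · exact h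

theorem Pop_mono (k : ℕ) {F G : (Y.Lam × ℝ) × (Fin n → Y.Lam × ℝ × ℝ) → ℝ≥0∞} (h : F ≤ G) :
    Y.Pop k F ≤ Y.Pop k G := by
  induction k generalizing F G with
  | zero => exact h
  | succ k ih => exact ih (Top'_mono k h)

theorem WF.sfinite_kap (h : Y.WF) (s : Y.St) : SFinite (Y.kap s) := by
  have := h.fin
  unfold kap rho
  infer_instance

theorem measurable_upd (i : Fin n) :
    Measurable fun q : ((Y.Lam × ℝ) × (Fin n → Y.Lam × ℝ × ℝ)) × (Y.Lam × ℝ × ℝ) =>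
      ((q.1.1, Function.update q.1.2 i q.2) : (Y.Lam × ℝ) × (Fin n → Y.Lam × ℝ × ℝ)) :=
  (measurable_fst.comp measurable_fst).prodMk
    (measurable_update'.comp ((measurable_snd.comp measurable_fst).prodMk measurable_snd))

theorem measurable_upd_right (i : Fin n) (p : (Y.Lam × ℝ) × (Fin n → Y.Lam × ℝ × ℝ)) :
    Measurable fun x : Y.Lam × ℝ × ℝ =>
      ((p.1, Function.update p.2 i x) : (Y.Lam × ℝ) × (Fin n → Y.Lam × ℝ × ℝ)) :=
  (measurable_upd i).comp (measurable_const.prodMk measurable_id)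

theorem WF.measurable_Top (h : Y.WF) (i : Fin n)
    {F : (Y.Lam × ℝ) × (Fin n → Y.Lam × ℝ × ℝ) → ℝ≥0∞} (hF : Measurable F) :
    Measurable (Y.Top i F) := by
  refine k6b_measurable_fin_comp (fun p : (Y.Lam × ℝ) × (Fin n → Y.Lam × ℝ × ℝ) =>
    Y.st (Y.evt p.1 p.2 i)) (fun s => Y.measurable_evt i (h.st_meas s))
    (fun s p => ∫⁻ x, F (p.1, Function.update p.2 i x) ∂Y.kap s) fun s => ?_
  have := h.sfinite_kap s
  exact (hF.comp (measurable_upd i)).lintegral_prod_right'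

theorem WF.measurable_Top' (h : Y.WF) (k : ℕ)
    {F : (Y.Lam × ℝ) × (Fin n → Y.Lam × ℝ × ℝ) → ℝ≥0∞} (hF : Measurable F) :
    Measurable (Y.Top' k F) := by
  unfold Top'
  split_ifs
  · exact h.measurable_Top _ hF
  · exact hF

theorem WF.measurable_Pop (h : Y.WF) (k : ℕ)
    {F : (Y.Lam × ℝ) × (Fin n → Y.Lam × ℝ × ℝ) → ℝ≥0∞} (hF : Measurable F) :
    Measurable (Y.Pop k F) := by
  induction k generalizing F with
  | zero => exact hF
  | succ k ih => exact ih (h.measurable_Top' k hF)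

theorem Top_add (i : Fin n) {F : (Y.Lam × ℝ) × (Fin n → Y.Lam × ℝ × ℝ) → ℝ≥0∞} (hF : Measurable F)
    (G : (Y.Lam × ℝ) × (Fin n → Y.Lam × ℝ × ℝ) → ℝ≥0∞) :
    Y.Top i (F + G) = Y.Top i F + Y.Top i G := by
  funext p
  exact lintegral_add_left (hF.comp (measurable_upd_right i p)) _

theorem Top'_add (k : ℕ) {F : (Y.Lam × ℝ) × (Fin n → Y.Lam × ℝ × ℝ) → ℝ≥0∞} (hF : Measurable F)
    (G : (Y.Lam × ℝ) × (Fin n → Y.Lam × ℝ × ℝ) → ℝ≥0∞) :
    Y.Top' k (F + G) = Y.Top' k F + Y.Top' k G := by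
  unfold Top'
  split_ifs
  · exact Top_add _ hF G
  · rfl

theorem WF.Pop_add (h : Y.WF) (k : ℕ) {F : (Y.Lam × ℝ) × (Fin n → Y.Lam × ℝ × ℝ) → ℝ≥0∞}
    (hF : Measurable F) (G : (Y.Lam × ℝ) × (Fin n → Y.Lam × ℝ × ℝ) → ℝ≥0∞) :
    Y.Pop k (F + G) = Y.Pop k F + Y.Pop k G := by
  induction k generalizing F G with
  | zero => rfl
  | succ k ih =>
    show Y.Pop k (Y.Top' k (F + G)) = _
    rw [Top'_add k hF G, ih (h.measurable_Top' k hF)]
    rfl

theorem Pop_zero' (k : ℕ) : Y.Pop (n := n) k 0 = 0 := by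
  induction k with
  | zero => rfl
  | succ k ih =>
    have e : Y.Top' (n := n) k 0 = 0 := by
      unfold Top'
      split_ifs
      · funext p
        simp [Top]
      · rfl
    show Y.Pop k (Y.Top' k 0) = 0
    rw [e, ih]

theorem WF.Pop_sum (h : Y.WF) (k : ℕ) {σ : Type*} (s : Finset σ)
    (F : σ → (Y.Lam × ℝ) × (Fin n → Y.Lam × ℝ × ℝ) → ℝ≥0∞) (hF : ∀ j, Measurable (F j)) :
    Y.Pop k (∑ j ∈ s, F j) = ∑ j ∈ s, Y.Pop k (F j) := by
  classical
  induction s using Finset.induction_on with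
  | empty => simp [Pop_zero']
  | insert j s hj ih => rw [Finset.sum_insert hj, Finset.sum_insert hj, h.Pop_add k (hF j), ih]

/-- a function which does not depend on the `i`-th step -/
theorem WF.Top_le_of_indep (h : Y.WF) (i : Fin n)
    {G : (Y.Lam × ℝ) × (Fin n → Y.Lam × ℝ × ℝ) → ℝ≥0∞}
    (hG : ∀ p x, G (p.1, Function.update p.2 i x) = G p) : Y.Top i G ≤ G := by
  intro p
  simp only [Top, hG, lintegral_const]
  calc G p * Y.kap (Y.st (Y.evt p.1 p.2 i)) Set.univ ≤ G p * 1 :=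
        mul_le_mul_right (h.kap_univ_le _) _
    _ = G p := mul_one _

theorem WF.Pop_le_of_indep (h : Y.WF) {j : ℕ}
    {G : (Y.Lam × ℝ) × (Fin n → Y.Lam × ℝ × ℝ) → ℝ≥0∞}
    (hG : ∀ i : Fin n, j ≤ i → ∀ p x, G (p.1, Function.update p.2 i x) = G p) {k : ℕ} (hk : j ≤ k) :
    Y.Pop k G ≤ Y.Pop j G := by
  induction k, hk using Nat.le_induction with
  | base => exact le_rfl
  | succ k hk ih =>
    refine le_trans (Pop_mono k ?_) ih
    unfold Top'
    split_ifs with hkn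
    · exact h.Top_le_of_indep _ (hG ⟨k, hkn⟩ hk)
    · exact le_rfl

/-- functions of the current event -/
theorem Pop_evt {k : ℕ} (hk : k ≤ n) (ψ : Y.Lam × ℝ → ℝ≥0∞) :
    Y.Pop (n := n) k (fun p => ψ (Y.evt p.1 p.2 k)) = fun p => (Y.Sop)^[k] ψ p.1 := by
  induction k generalizing ψ with
  | zero =>
    funext p
    show ψ (Y.evt p.1 p.2 0) = ψ p.1
    rw [evt_zero]
  | succ k ih =>
    have hkn : k < n := hk
    have e : Y.Top' (n := n) k (fun p => ψ (Y.evt p.1 p.2 (k + 1)))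
        = fun p => Y.Sop ψ (Y.evt p.1 p.2 k) := by
      unfold Top'
      rw [dif_pos hkn]
      funext p
      have e1 : ∀ x, Y.evt p.1 (Function.update p.2 ⟨k, hkn⟩ x) (k + 1) = Y.enE x :=
        fun x => Y.evt_update_succ p.1 p.2 ⟨k, hkn⟩ x
      simp only [Top, e1]
      rfl
    show Y.Pop k (Y.Top' k _) = _
    rw [e, ih hkn.le]
    rfl

end k6b_Sw

end

end Claimed.Agent.R252
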