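import Claimed.Agent.R252.S6b.ChainB

/-!
# Row252, unit S6b, part C2 (the chain lemma), file C: the union bound   (prefix `k6b_`)

`BadS a w i` = the paths whose `i`-th step is not admissible or lies in the forbidden strip; its probability is `≤ η + c0`.
-/

set_option autoImplicit false

namespace Claimed.Agent.R252

open MeasureTheory
open scoped ENNReal BigOperators

noncomputable section

namespace k6b_Sw

variable {m n : ℕ} {Y : k6b_Sw m}

/-- the lines of a path -/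
def lin (π : Fin n → Y.Lam × ℝ × ℝ) : Fin n → Y.Lam := fun j => (π j).1

/-- the end times of a path -/
def ends (π : Fin n → Y.Lam × ℝ × ℝ) : Fin n → ℝ := fun j => (π j).2.2

theorem measurable_lin : Measurable (lin : (Fin n → Y.Lam × ℝ × ℝ) → Fin n → Y.Lam) :=
  measurable_pi_lambda _ fun j => measurable_fst.comp (measurable_pi_apply j)

theorem measurable_ends : Measurable (ends : (Fin n → Y.Lam × ℝ × ℝ) → Fin n → ℝ) :=
  measurable_pi_lambda _ fun j => (measurable_snd.comp measurable_snd).comp (measurable_pi_apply j)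

theorem ends_update (π : Fin n → Y.Lam × ℝ × ℝ) (i : Fin n) (x : Y.Lam × ℝ × ℝ) :
    ends (Function.update π i x) = Function.update (ends π) i x.2.2 := by
  funext j
  by_cases h : j = i
  · subst h
    simp [ends]
  · simp [ends, Function.update_of_ne h]

/-- the paths whose `i`-th step is bad -/
def BadS (a : Fin n → (Y.Lam × ℝ) → (Fin n → Y.Lam) → Fin m → ℝ) (w : ℝ) (i : Fin n) :
    Set ((Y.Lam × ℝ) × (Fin n → Y.Lam × ℝ × ℝ)) :=
  {p | Y.swE (p.2 i) ∉ Y.sup ∨ Y.st (Y.swE (p.2 i)) ≠ Y.st (Y.evt p.1 p.2 i) ∨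
    Y.enE (p.2 i) ∉ Y.sup ∨ (p.2 i).1 ∉ Y.Lg ∨ |a i p.1 (lin p.2) ⬝ᵥ Y.vel (p.2 i).1| ≤ w}

theorem WF.measurableSet_BadS (h : Y.WF) {a : Fin n → (Y.Lam × ℝ) → (Fin n → Y.Lam) → Fin m → ℝ}
    (ha : ∀ i, Measurable fun q : (Y.Lam × ℝ) × (Fin n → Y.Lam) => a i q.1 q.2) (w : ℝ) (i : Fin n) :
    MeasurableSet (BadS a w i) := by
  have hpi : Measurable fun p : (Y.Lam × ℝ) × (Fin n → Y.Lam × ℝ × ℝ) => p.2 i :=
    (measurable_pi_apply i).comp measurable_snd
  have h1 : MeasurableSet {p : (Y.Lam × ℝ) × (Fin n → Y.Lam × ℝ × ℝ) | Y.swE (p.2 i) ∉ Y.sup} :=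
    (Y.measurable_swE.comp hpi) h.measurableSet_sup.compl
  have h2 : MeasurableSet {p : (Y.Lam × ℝ) × (Fin n → Y.Lam × ℝ × ℝ) |
      Y.st (Y.swE (p.2 i)) ≠ Y.st (Y.evt p.1 p.2 i)} := by
    have e : {p : (Y.Lam × ℝ) × (Fin n → Y.Lam × ℝ × ℝ) |
        Y.st (Y.swE (p.2 i)) ≠ Y.st (Y.evt p.1 p.2 i)}
        = (⋃ s, ({p | Y.swE (p.2 i) ∈ Y.stE s} ∩ {p | Y.evt p.1 p.2 i ∈ Y.stE s}))ᶜ := by
      ext p
      simp only [Set.mem_ofPred_eq, Set.mem_compl_iff, Set.mem_iUnion, Set.mem_inter_iff, stE,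
        Set.mem_preimage, Set.mem_singleton_iff, not_exists, not_and]
      constructor
      · intro hne s hs hs'
        exact hne (hs.trans hs'.symm)
      · intro hh he
        exact hh _ he rfl
    rw [e]
    exact (MeasurableSet.iUnion fun s => ((Y.measurable_swE.comp hpi) (h.st_meas s)).inter
      (Y.measurable_evt i (h.st_meas s))).compl
  have h3 : MeasurableSet {p : (Y.Lam × ℝ) × (Fin n → Y.Lam × ℝ × ℝ) | Y.enE (p.2 i) ∉ Y.sup} :=
    (Y.measurable_enE.comp hpi) h.measurableSet_sup.compl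
  have h4 : MeasurableSet {p : (Y.Lam × ℝ) × (Fin n → Y.Lam × ℝ × ℝ) | (p.2 i).1 ∉ Y.Lg} :=
    (measurable_fst.comp hpi) h.Lg_meas.compl
  have h5 : MeasurableSet {p : (Y.Lam × ℝ) × (Fin n → Y.Lam × ℝ × ℝ) |
      |a i p.1 (lin p.2) ⬝ᵥ Y.vel (p.2 i).1| ≤ w} := by
    have ha' : Measurable fun p : (Y.Lam × ℝ) × (Fin n → Y.Lam × ℝ × ℝ) => a i p.1 (lin p.2) :=
      (ha i).comp (measurable_fst.prodMk (measurable_lin.comp measurable_snd))
    have hv : Measurable fun p : (Y.Lam × ℝ) × (Fin n → Y.Lam × ℝ × ℝ) => Y.vel (p.2 i).1 :=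
      h.vel_meas.comp (measurable_fst.comp hpi)
    have hd : Measurable fun p : (Y.Lam × ℝ) × (Fin n → Y.Lam × ℝ × ℝ) =>
        a i p.1 (lin p.2) ⬝ᵥ Y.vel (p.2 i).1 := by
      unfold dotProduct
      exact Finset.measurable_sum _ fun k _ =>
        ((measurable_pi_apply k).comp ha').mul ((measurable_pi_apply k).comp hv)
    exact ((continuous_abs.measurable).comp hd) measurableSet_Iic
  exact h1.union (h2.union (h3.union (h4.union h5)))

/-- the indicator of the short lines -/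
def chi (Y : k6b_Sw m) : Y.Lam × ℝ → ℝ≥0∞ := {e : Y.Lam × ℝ | e.1 ∉ Y.Lg}.indicator 1

theorem WF.measurable_chi (h : Y.WF) : Measurable Y.chi :=
  measurable_one.indicator (measurable_fst h.Lg_meas.compl)

theorem WF.Sop_chi (h : Y.WF) (e : Y.Lam × ℝ) :
    Y.Sop Y.chi e = Y.kap (Y.st e) {x | x.1 ∉ Y.Lg} := by
  have hm : MeasurableSet {x : Y.Lam × ℝ × ℝ | x.1 ∉ Y.Lg} := measurable_fst h.Lg_meas.compl
  rw [← lintegral_indicator_one hm]
  rfl

/-- the cost of one step as a function of the current event -/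
def psi0 (Y : k6b_Sw m) (c0 : ℝ≥0∞) : Y.Lam × ℝ → ℝ≥0∞ := fun e => Y.Sop Y.chi e + c0

section step

variable {a : Fin n → (Y.Lam × ℝ) → (Fin n → Y.Lam) → Fin m → ℝ}
  (hdep : ∀ i e L L', (∀ j, j < i → L j = L' j) → a i e L = a i e L')
include hdep

theorem a_update (i i' : Fin n) (hi : i ≤ i') (e : Y.Lam × ℝ) (π : Fin n → Y.Lam × ℝ × ℝ)
    (x : Y.Lam × ℝ × ℝ) : a i e (lin (Function.update π i' x)) = a i e (lin π) := by
  refine hdep i e _ _ fun j hj => ?_
  have hne : j ≠ i' := (lt_of_lt_of_le hj hi).ne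
  simp [lin, Function.update_of_ne hne]

/-- a later step does not change the badness of the step `i` -/
theorem BadS_update (w : ℝ) (i i' : Fin n) (hi : i < i')
    (p : (Y.Lam × ℝ) × (Fin n → Y.Lam × ℝ × ℝ)) (x : Y.Lam × ℝ × ℝ) :
    ((p.1, Function.update p.2 i' x) ∈ BadS a w i) ↔ p ∈ BadS a w i := by
  have hne : i ≠ i' := hi.ne
  have hev : Y.evt p.1 (Function.update p.2 i' x) i = Y.evt p.1 p.2 i := by
    refine Y.evt_update_of_ne _ _ _ _ ?_
    have : (i : ℕ) < i' := hi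
    omega
  simp only [BadS, Set.mem_ofPred_eq, Function.update_of_ne hne, hev, a_update hdep i i' hi.le]

/-- **one bad step** -/
theorem WF.Top_BadS (h : Y.WF) {K c0 η : ℝ≥0∞} {w : ℝ} (hc : Y.Chain K c0 η w)
    (hone : ∀ i e L, ∃ k, 1 ≤ |a i e L k|) (i : Fin n) :
    Y.Top i ((BadS a w i).indicator 1) ≤ fun p => (Y.psi0 c0) (Y.evt p.1 p.2 i) := by
  intro p
  set s := Y.st (Y.evt p.1 p.2 i) with hs
  set a₀ := a i p.1 (lin p.2) with ha₀
  have hsub : {x : Y.Lam × ℝ × ℝ | (p.1, Function.update p.2 i x) ∈ BadS a w i}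
      ⊆ {x | Y.swE x ∉ Y.sup} ∪ ({x | Y.st (Y.swE x) ≠ s} ∪ ({x | Y.enE x ∉ Y.sup} ∪
        ({x | x.1 ∉ Y.Lg} ∪ {x | |a₀ ⬝ᵥ Y.vel x.1| ≤ w}))) := by
    intro x hx
    have hev : Y.evt p.1 (Function.update p.2 i x) i = Y.evt p.1 p.2 i :=
      Y.evt_update_of_ne _ _ _ _ (Nat.lt_succ_self _).ne
    simp only [BadS, Set.mem_ofPred_eq, Function.update_self, hev, a_update hdep i i le_rfl] at hx
    exact hx
  calc Y.Top i ((BadS a w i).indicator 1) p
      = ∫⁻ x, {x : Y.Lam × ℝ × ℝ | (p.1, Function.update p.2 i x) ∈ BadS a w i}.indicator 1 x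
          ∂Y.kap s := rfl
    _ ≤ Y.kap s {x : Y.Lam × ℝ × ℝ | (p.1, Function.update p.2 i x) ∈ BadS a w i} :=
        lintegral_indicator_one_le _
    _ ≤ Y.kap s ({x | Y.swE x ∉ Y.sup} ∪ ({x | Y.st (Y.swE x) ≠ s} ∪ ({x | Y.enE x ∉ Y.sup} ∪
        ({x | x.1 ∉ Y.Lg} ∪ {x | |a₀ ⬝ᵥ Y.vel x.1| ≤ w})))) := measure_mono hsub
    _ ≤ 0 + (0 + (0 + (Y.kap s {x | x.1 ∉ Y.Lg} + c0))) := by
        refine (measure_union_le _ _).trans (add_le_add (h.kap_sw_sup s).le ?_)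
        refine (measure_union_le _ _).trans (add_le_add (h.kap_state s).le ?_)
        refine (measure_union_le _ _).trans (add_le_add (h.kap_en_sup s).le ?_)
        exact (measure_union_le _ _).trans (add_le_add le_rfl (h.kap_strip hc s a₀ (hone _ _ _)))
    _ = (Y.psi0 c0) (Y.evt p.1 p.2 i) := by
        simp only [zero_add, psi0, h.Sop_chi]
        rfl

/-- **the probability of a bad step** -/
theorem WF.lintegral_Pop_BadS (h : Y.WF) {K c0 η : ℝ≥0∞} {w : ℝ} (hc : Y.Chain K c0 η w)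
    (hone : ∀ i e L, ∃ k, 1 ≤ |a i e L k|) (i : Fin n) (π₀ : Fin n → Y.Lam × ℝ × ℝ) :
    ∫⁻ e0, Y.Pop n ((BadS a w i).indicator 1) (e0, π₀) ∂Y.mu ≤ η + c0 := by
  have h1 : Y.Pop n ((BadS a w i).indicator 1) ≤ Y.Pop ((i : ℕ) + 1) ((BadS a w i).indicator 1) := by
    refine h.Pop_le_of_indep (fun i' hi' p x => ?_) i.2
    have hlt : i < i' := hi'
    by_cases hp : p ∈ BadS a w i
    · rw [Set.indicator_of_mem hp, Set.indicator_of_mem ((BadS_update hdep w i i' hlt p x).2 hp)]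
      rfl
    · rw [Set.indicator_of_notMem hp,
        Set.indicator_of_notMem fun hh => hp ((BadS_update hdep w i i' hlt p x).1 hh)]
  have h2 : Y.Pop ((i : ℕ) + 1) ((BadS a w i).indicator 1)
      ≤ fun p => (Y.Sop)^[(i : ℕ)] (Y.psi0 c0) p.1 := by
    rw [← Pop_evt i.2.le]
    refine Pop_mono _ ?_
    unfold Top'
    rw [dif_pos i.2]
    exact h.Top_BadS hdep hc hone i
  have hm : Measurable (Y.psi0 c0) := (h.measurable_Sop _).add measurable_const
  calc ∫⁻ e0, Y.Pop n ((BadS a w i).indicator 1) (e0, π₀) ∂Y.mu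
      ≤ ∫⁻ e0, (Y.Sop)^[(i : ℕ)] (Y.psi0 c0) e0 ∂Y.mu :=
        lintegral_mono fun e0 => (h1 _).trans (h2 _)
    _ = ∫⁻ e0, (Y.psi0 c0) e0 ∂Y.mu := h.lintegral_Sop_iter hm _
    _ = Y.mu {e | e.1 ∉ Y.Lg} + c0 := by
        simp only [psi0]
        rw [lintegral_add_left (h.measurable_Sop _), h.lintegral_Sop h.measurable_chi, lintegral_const,
          h.prob, mul_one, chi, lintegral_indicator_one
            (show MeasurableSet {e : Y.Lam × ℝ | e.1 ∉ Y.Lg} from measurable_fst h.Lg_meas.compl)]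
    _ ≤ η + c0 := add_le_add hc.long_mass le_rfl

end step

end k6b_Sw

end

end Claimed.Agent.R252
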