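import Claimed.Agent.R252.S6b.ChainC
import Mathlib.MeasureTheory.Integral.Marginal

/-!
# Row252, unit S6b, part C2 (the chain lemma), file D: the upper bound and the assembly   (prefix `k6b_`)

For a fixed vector of bins `J` the steps are integrated out one after the other; each costs `K² pal (J i)` and replaces the end time by a Lebesgue variable
(`MeasureTheory.lmarginal`).
-/

set_option autoImplicit false

namespace Claimed.Agent.R252

open MeasureTheory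
open scoped ENNReal BigOperators

noncomputable section

namespace k6b_Sw

variable {m n : ℕ} {Y : k6b_Sw m}

/-- the steps of `s` have been integrated out -/
def Gfn (K : ℝ≥0∞) (J : Fin n → Y.Bn) (φ : (Y.Lam × ℝ) × (Fin n → ℝ) → ℝ≥0∞) (s : Finset (Fin n)) :
    (Y.Lam × ℝ) × (Fin n → Y.Lam × ℝ × ℝ) → ℝ≥0∞ := fun p =>
  (∏ i ∈ s, (K * K * Y.pal (J i))) * ((∏ i ∈ sᶜ, Y.cJ (J i) (p.2 i)) *
    (∫⋯∫⁻_s, (fun t => φ (p.1, t)) ∂(fun _ => k6b_lam)) (ends p.2))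

theorem WF.Top_Gfn (h : Y.WF) {K c0 η : ℝ≥0∞} {w : ℝ} (hc : Y.Chain K c0 η w) (J : Fin n → Y.Bn)
    {φ : (Y.Lam × ℝ) × (Fin n → ℝ) → ℝ≥0∞} (hφ : Measurable φ) {s : Finset (Fin n)} {i : Fin n}
    (hi : i ∉ s) : Y.Top i (Gfn K J φ s) ≤ Gfn K J φ (insert i s) := by
  intro p
  have hφp : Measurable fun t : Fin n → ℝ => φ (p.1, t) :=
    hφ.comp (measurable_const.prodMk measurable_id)
  set Φ : (Fin n → ℝ) → ℝ≥0∞ := ∫⋯∫⁻_s, (fun t => φ (p.1, t)) ∂(fun _ => k6b_lam) with hΦ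
  have hΦm : Measurable Φ := hφp.lmarginal _
  set ψ : ℝ → ℝ≥0∞ := fun t => Φ (Function.update (ends p.2) i t) with hψ
  have hψm : Measurable ψ := hΦm.comp (measurable_update _)
  have hcompl : sᶜ = insert i (insert i s)ᶜ := by
    ext j
    simp only [Finset.mem_compl, Finset.mem_insert, not_or]
    constructor
    · intro hj
      by_cases hji : j = i
      · exact Or.inl hji
      · exact Or.inr ⟨hji, hj⟩
    · rintro (rfl | hj)
      · exact hi
      · exact hj.2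
  have hni : i ∉ (insert i s)ᶜ := by simp
  have hint : ∀ x : Y.Lam × ℝ × ℝ, Gfn K J φ s (p.1, Function.update p.2 i x)
      = ((∏ j ∈ s, (K * K * Y.pal (J j))) * ∏ j ∈ (insert i s)ᶜ, Y.cJ (J j) (p.2 j)) *
        (Y.cJ (J i) x * ψ x.2.2) := by
    intro x
    have e1 : ∏ j ∈ (insert i s)ᶜ, Y.cJ (J j) (Function.update p.2 i x j)
        = ∏ j ∈ (insert i s)ᶜ, Y.cJ (J j) (p.2 j) := by
      refine Finset.prod_congr rfl fun j hj => ?_
      have hji : j ≠ i := fun e => hni (e ▸ hj)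
      rw [Function.update_of_ne hji]
    simp only [Gfn]
    rw [hcompl, Finset.prod_insert hni, e1, Function.update_self, ends_update]
    ring
  have hmeas : Measurable fun x : Y.Lam × ℝ × ℝ => Y.cJ (J i) x * ψ x.2.2 :=
    (h.measurable_cJ _).mul (hψm.comp (measurable_snd.comp measurable_snd))
  calc Y.Top i (Gfn K J φ s) p
      = ∫⁻ x, ((∏ j ∈ s, (K * K * Y.pal (J j))) * ∏ j ∈ (insert i s)ᶜ, Y.cJ (J j) (p.2 j)) *
          (Y.cJ (J i) x * ψ x.2.2) ∂Y.kap (Y.st (Y.evt p.1 p.2 i)) := by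
        simp only [Top, hint]
    _ = ((∏ j ∈ s, (K * K * Y.pal (J j))) * ∏ j ∈ (insert i s)ᶜ, Y.cJ (J j) (p.2 j)) *
          ∫⁻ x, Y.cJ (J i) x * ψ x.2.2 ∂Y.kap (Y.st (Y.evt p.1 p.2 i)) := lintegral_const_mul _ hmeas
    _ ≤ ((∏ j ∈ s, (K * K * Y.pal (J j))) * ∏ j ∈ (insert i s)ᶜ, Y.cJ (J j) (p.2 j)) *
          (K * K * Y.pal (J i) * ∫⁻ τ, ψ τ ∂k6b_lam) := mul_le_mul_right (h.kap_dom hc _ _ hψm) _
    _ = Gfn K J φ (insert i s) p := by
        simp only [Gfn]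
        rw [Finset.prod_insert hi, lmarginal_insert _ hφp hi]
        ring

/-- the indices `≥ k` -/
def sk (n k : ℕ) : Finset (Fin n) := Finset.univ.filter fun i => k ≤ (i : ℕ)

theorem sk_zero (n : ℕ) : sk n 0 = Finset.univ := by simp [sk]

theorem sk_self (n : ℕ) : sk n n = ∅ := by
  ext i
  simp [sk]

theorem sk_insert {n k : ℕ} (hk : k < n) : insert (⟨k, hk⟩ : Fin n) (sk n (k + 1)) = sk n k := by
  ext i
  simp only [sk, Finset.mem_insert, Finset.mem_filter, Finset.mem_univ, true_and, Fin.ext_iff]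
  omega

theorem sk_notMem {n k : ℕ} (hk : k < n) : (⟨k, hk⟩ : Fin n) ∉ sk n (k + 1) := by
  simp [sk]

theorem WF.Pop_Gfn (h : Y.WF) {K c0 η : ℝ≥0∞} {w : ℝ} (hc : Y.Chain K c0 η w) (J : Fin n → Y.Bn)
    {φ : (Y.Lam × ℝ) × (Fin n → ℝ) → ℝ≥0∞} (hφ : Measurable φ) {k : ℕ} (hk : k ≤ n) :
    Y.Pop k (Gfn K J φ (sk n k)) ≤ Gfn K J φ Finset.univ := by
  induction k with
  | zero =>
    rw [sk_zero]
    exact le_rfl
  | succ k ih =>
    have hkn : k < n := hk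
    refine le_trans (Pop_mono k ?_) (ih hkn.le)
    unfold Top'
    rw [dif_pos hkn, ← sk_insert hkn]
    exact h.Top_Gfn hc J hφ (sk_notMem hkn)

theorem k6b_pi_lam_le (n : ℕ) : Measure.pi (fun _ : Fin n => k6b_lam) ≤ volume := by
  unfold k6b_lam
  rw [← Measure.restrict_pi_pi, ← volume_pi]
  exact Measure.restrict_le_self

theorem Gfn_empty (K : ℝ≥0∞) (J : Fin n → Y.Bn) (φ : (Y.Lam × ℝ) × (Fin n → ℝ) → ℝ≥0∞) :
    Gfn K J φ ∅ = fun p => (∏ i, Y.cJ (J i) (p.2 i)) * φ (p.1, ends p.2) := by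
  funext p
  simp [Gfn]

theorem WF.measurable_Gfn_empty (h : Y.WF) (K : ℝ≥0∞) (J : Fin n → Y.Bn)
    {φ : (Y.Lam × ℝ) × (Fin n → ℝ) → ℝ≥0∞} (hφ : Measurable φ) : Measurable (Gfn K J φ ∅) := by
  rw [Gfn_empty]
  exact (Finset.measurable_prod _ fun i _ =>
    (h.measurable_cJ _).comp ((measurable_pi_apply i).comp measurable_snd)).mul
    (hφ.comp (measurable_fst.prodMk (measurable_ends.comp measurable_snd)))

theorem Gfn_univ_le (K : ℝ≥0∞) (J : Fin n → Y.Bn) (A : Set ((Y.Lam × ℝ) × (Fin n → ℝ)))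
    (p : (Y.Lam × ℝ) × (Fin n → Y.Lam × ℝ × ℝ)) :
    Gfn K J (A.indicator 1) Finset.univ p
      ≤ (K * K) ^ n * ((∏ i, Y.pal (J i)) * volume {τ : Fin n → ℝ | (p.1, τ) ∈ A}) := by
  have e1 : ∏ i : Fin n, (K * K * Y.pal (J i)) = (K * K) ^ n * ∏ i, Y.pal (J i) := by
    rw [Finset.prod_mul_distrib, Finset.prod_const, Finset.card_univ, Fintype.card_fin]
  have e2 : ∫⁻ t, A.indicator 1 (p.1, t) ∂Measure.pi (fun _ : Fin n => k6b_lam)
      ≤ volume {τ : Fin n → ℝ | (p.1, τ) ∈ A} :=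
    calc ∫⁻ t, A.indicator 1 (p.1, t) ∂Measure.pi (fun _ : Fin n => k6b_lam)
        ≤ ∫⁻ t, A.indicator 1 (p.1, t) ∂volume := lintegral_mono' (k6b_pi_lam_le n) le_rfl
      _ = ∫⁻ t, {τ : Fin n → ℝ | (p.1, τ) ∈ A}.indicator 1 t ∂volume := rfl
      _ ≤ volume {τ : Fin n → ℝ | (p.1, τ) ∈ A} := lintegral_indicator_one_le _
  simp only [Gfn, lmarginal_univ, Finset.compl_univ, Finset.prod_empty, one_mul, e1]
  rw [mul_assoc]
  exact mul_le_mul_right (mul_le_mul_right e2 _) _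

end k6b_Sw

open k6b_Sw in
/-- **C2, the chain lemma.** -/
theorem k6b_chain_update : k6b_chain_stmt := by
  intro m n Y K c0 η η' w hWF hC Start hStart hη' a ha hdep hone Ψ hΨ himp hsmall
  classical
  -- a reference path
  have hne : Nonempty Y.Lam := by
    by_contra hcon
    rw [not_nonempty_iff] at hcon
    have h0 : Y.mu = 0 := Measure.eq_zero_of_isEmpty _
    have h1 := hWF.prob
    rw [h0] at h1
    simp at h1
  obtain ⟨l₀⟩ := hne
  set π₀ : Fin n → Y.Lam × ℝ × ℝ := fun _ => (l₀, 0, 0) with hπ₀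
  have hsec : Measurable fun e0 : Y.Lam × ℝ =>
      ((e0, π₀) : (Y.Lam × ℝ) × (Fin n → Y.Lam × ℝ × ℝ)) := measurable_id.prodMk measurable_const
  -- the sets
  set B0 : Set ((Y.Lam × ℝ) × (Fin n → Y.Lam × ℝ × ℝ)) := {p | p.1 ∉ Start ∨ p.1 ∉ Y.sup} with hB0
  set Gd : Set ((Y.Lam × ℝ) × (Fin n → Y.Lam × ℝ × ℝ)) :=
    {p | p.1 ∈ Start ∧ Y.Adm p.1 p.2 ∧ ∀ i, w < |a i p.1 (lin p.2) ⬝ᵥ Y.vel (p.2 i).1|} with hGd
  have hB0m : MeasurableSet B0 :=
    (measurable_fst hStart.compl).union (measurable_fst hWF.measurableSet_sup.compl)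
  have hBm : ∀ i, MeasurableSet (BadS a w i) := fun i => hWF.measurableSet_BadS ha w i
  have hf0 : Measurable (B0.indicator (1 : (Y.Lam × ℝ) × (Fin n → Y.Lam × ℝ × ℝ) → ℝ≥0∞)) :=
    measurable_one.indicator hB0m
  have hfi : ∀ i, Measurable
      ((BadS a w i).indicator (1 : (Y.Lam × ℝ) × (Fin n → Y.Lam × ℝ × ℝ) → ℝ≥0∞)) :=
    fun i => measurable_one.indicator (hBm i)
  -- the union bound, pointwise
  have hpt : (fun _ => 1 : (Y.Lam × ℝ) × (Fin n → Y.Lam × ℝ × ℝ) → ℝ≥0∞)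
      ≤ B0.indicator 1 + ((∑ i, (BadS a w i).indicator 1) + Gd.indicator 1) := by
    intro p
    simp only [Pi.add_apply, Finset.sum_apply]
    by_cases h0 : p ∈ B0
    · rw [Set.indicator_of_mem h0]
      exact le_self_add
    by_cases h1 : ∃ i, p ∈ BadS a w i
    · obtain ⟨i, hi⟩ := h1
      refine le_trans ?_ le_add_self
      refine le_trans ?_ le_self_add
      refine le_trans ?_ (Finset.single_le_sum (f := fun i => (BadS a w i).indicator
          (1 : (Y.Lam × ℝ) × (Fin n → Y.Lam × ℝ × ℝ) → ℝ≥0∞) p)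
        (fun _ _ => zero_le) (Finset.mem_univ i))
      show (1 : ℝ≥0∞) ≤ (BadS a w i).indicator 1 p
      rw [Set.indicator_of_mem hi]
      rfl
    · have h2 : p ∈ Gd := by
        simp only [hB0, Set.mem_ofPred_eq, not_or, not_not] at h0
        simp only [BadS, Set.mem_ofPred_eq, not_exists, not_or, not_not, not_le] at h1
        exact ⟨h0.1, ⟨h0.2, fun i => ⟨(h1 i).1, (h1 i).2.1⟩, fun i => (h1 i).2.2.1,
          fun i => (h1 i).2.2.2.1⟩, fun i => (h1 i).2.2.2.2⟩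
      refine le_trans ?_ le_add_self
      refine le_trans ?_ le_add_self
      rw [Set.indicator_of_mem h2]
      rfl
  -- total mass
  have hone' : ∫⁻ e0, Y.Pop n (fun _ => 1) (e0, π₀) ∂Y.mu = 1 := by
    have e := Pop_evt (Y := Y) (n := n) le_rfl (fun _ => 1)
    rw [e, hWF.lintegral_Sop_iter measurable_const, lintegral_const, hWF.prob, mul_one]
  -- the bad parts
  have hb0 : ∫⁻ e0, Y.Pop n (B0.indicator 1) (e0, π₀) ∂Y.mu ≤ η' := by
    have h1 : Y.Pop n (B0.indicator 1) ≤ Y.Pop 0 (B0.indicator 1) :=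
      hWF.Pop_le_of_indep (fun _ _ _ _ => rfl) (Nat.zero_le n)
    calc ∫⁻ e0, Y.Pop n (B0.indicator 1) (e0, π₀) ∂Y.mu
        ≤ ∫⁻ e0, (Startᶜ ∪ Y.supᶜ).indicator 1 e0 ∂Y.mu := lintegral_mono fun e0 => h1 _
      _ ≤ Y.mu (Startᶜ ∪ Y.supᶜ) := lintegral_indicator_one_le _
      _ ≤ Y.mu Startᶜ + Y.mu Y.supᶜ := measure_union_le _ _
      _ ≤ η' := by rw [hWF.mu_sup_compl, add_zero]; exact hη'
  have hbi : ∀ i, ∫⁻ e0, Y.Pop n ((BadS a w i).indicator 1) (e0, π₀) ∂Y.mu ≤ η + c0 :=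
    fun i => hWF.lintegral_Pop_BadS hdep hC hone i π₀
  -- lower bound
  have hlow : 1 / 2 ≤ ∫⁻ e0, Y.Pop n (Gd.indicator 1) (e0, π₀) ∂Y.mu := by
    have hsum : Measurable (∑ i, (BadS a w i).indicator
        (1 : (Y.Lam × ℝ) × (Fin n → Y.Lam × ℝ × ℝ) → ℝ≥0∞)) :=
      by
        have e : (∑ i, (BadS a w i).indicator
            (1 : (Y.Lam × ℝ) × (Fin n → Y.Lam × ℝ × ℝ) → ℝ≥0∞))
            = fun p => ∑ i, (BadS a w i).indicator 1 p := by
          funext p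
          rw [Finset.sum_apply]
        rw [e]
        exact Finset.measurable_sum _ fun i _ => hfi i
    have e1 : Y.Pop n (B0.indicator 1 + ((∑ i, (BadS a w i).indicator 1) + Gd.indicator 1))
        = Y.Pop n (B0.indicator 1) + ((∑ i, Y.Pop n ((BadS a w i).indicator 1))
          + Y.Pop n (Gd.indicator 1)) := by
      rw [hWF.Pop_add n hf0, hWF.Pop_add n hsum, hWF.Pop_sum n _ _ hfi]
    have h1 : (1 : ℝ≥0∞) ≤ η' + (n * (η + c0) + ∫⁻ e0, Y.Pop n (Gd.indicator 1) (e0, π₀) ∂Y.mu) :=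
      calc (1 : ℝ≥0∞) = ∫⁻ e0, Y.Pop n (fun _ => 1) (e0, π₀) ∂Y.mu := hone'.symm
        _ ≤ ∫⁻ e0, (Y.Pop n (B0.indicator 1) + ((∑ i, Y.Pop n ((BadS a w i).indicator 1))
              + Y.Pop n (Gd.indicator 1))) (e0, π₀) ∂Y.mu := by
            rw [← e1]
            exact lintegral_mono fun e0 => Pop_mono n hpt _
        _ = ∫⁻ e0, Y.Pop n (B0.indicator 1) (e0, π₀) ∂Y.mu
              + ((∑ i, ∫⁻ e0, Y.Pop n ((BadS a w i).indicator 1) (e0, π₀) ∂Y.mu)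
              + ∫⁻ e0, Y.Pop n (Gd.indicator 1) (e0, π₀) ∂Y.mu) := by
            simp only [Pi.add_apply, Finset.sum_apply]
            have m0 : Measurable fun e0 : Y.Lam × ℝ => Y.Pop n (B0.indicator 1) (e0, π₀) :=
              (hWF.measurable_Pop n hf0).comp hsec
            have mi : ∀ i, Measurable fun e0 : Y.Lam × ℝ =>
                Y.Pop n ((BadS a w i).indicator 1) (e0, π₀) :=
              fun i => (hWF.measurable_Pop n (hfi i)).comp hsec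
            rw [lintegral_add_left m0, lintegral_add_left (Finset.measurable_sum _ fun i _ => mi i),
              lintegral_finsetSum _ fun i _ => mi i]
        _ ≤ η' + (n * (η + c0) + ∫⁻ e0, Y.Pop n (Gd.indicator 1) (e0, π₀) ∂Y.mu) := by
            refine add_le_add hb0 (add_le_add ?_ le_rfl)
            calc ∑ i : Fin n, ∫⁻ e0, Y.Pop n ((BadS a w i).indicator 1) (e0, π₀) ∂Y.mu
                ≤ ∑ _i : Fin n, (η + c0) := Finset.sum_le_sum fun i _ => hbi i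
              _ = n * (η + c0) := by
                  rw [Finset.sum_const, Finset.card_univ, Fintype.card_fin, nsmul_eq_mul]
    have h2 : (1 : ℝ≥0∞) ≤ 1 / 2 + ∫⁻ e0, Y.Pop n (Gd.indicator 1) (e0, π₀) ∂Y.mu :=
      h1.trans (by rw [← add_assoc]; exact add_le_add hsmall le_rfl)
    have h3 : (1 / 2 : ℝ≥0∞) + 1 / 2 ≤ 1 / 2 + ∫⁻ e0, Y.Pop n (Gd.indicator 1) (e0, π₀) ∂Y.mu := by
      rw [ENNReal.add_halves]
      exact h2
    exact (ENNReal.add_le_add_iff_left (by simp)).1 h3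
  -- upper bound
  set A : (Fin n → Y.Bn) → Set ((Y.Lam × ℝ) × (Fin n → ℝ)) :=
    fun J => {q | q.2 ∈ Set.Icc 0 1 ∧ Ψ q.1 J q.2} with hA
  have hAm : ∀ J, MeasurableSet (A J) := fun J => (measurable_snd measurableSet_Icc).inter (hΨ J)
  have hφ : ∀ J, Measurable ((A J).indicator (1 : (Y.Lam × ℝ) × (Fin n → ℝ) → ℝ≥0∞)) :=
    fun J => measurable_one.indicator (hAm J)
  have hGle : Gd.indicator 1 ≤ ∑ J, Gfn K J ((A J).indicator 1) ∅ := by
    intro p
    by_cases hp : p ∈ Gd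
    · rw [Set.indicator_of_mem hp, Finset.sum_apply]
      refine le_trans ?_ (Finset.single_le_sum (f := fun J => Gfn K J ((A J).indicator 1) ∅ p)
        (fun _ _ => zero_le) (Finset.mem_univ fun i => Y.bin (p.2 i).1))
      have hΨp := himp p.1 p.2 hp.1 hp.2.1 hp.2.2
      have hmem : (p.1, ends p.2) ∈ A fun i => Y.bin (p.2 i).1 := by
        refine ⟨⟨fun i => ((hp.2.1.en i).2).1, fun i => ((hp.2.1.en i).2).2⟩, hΨp⟩
      have hc1 : ∀ i, Y.cJ (Y.bin (p.2 i).1) (p.2 i) = 1 := fun i =>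
        Set.indicator_of_mem (show p.2 i ∈ {x : Y.Lam × ℝ × ℝ | x.1 ∈ Y.Lg ∧ Y.bin x.1 = _} from
          ⟨hp.2.1.lg i, rfl⟩) _
      simp only [Gfn_empty, hc1, Finset.prod_const_one, one_mul]
      rw [Set.indicator_of_mem hmem]
      exact le_rfl
    · rw [Set.indicator_of_notMem hp]
      exact zero_le
  have hup : Y.Pop n (Gd.indicator 1) ≤ fun p => (K * K) ^ n * ∑ J : Fin n → Y.Bn,
      (∏ i, Y.pal (J i)) * volume {τ : Fin n → ℝ | τ ∈ Set.Icc 0 1 ∧ Ψ p.1 J τ} := by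
    refine (Pop_mono n hGle).trans ?_
    rw [hWF.Pop_sum n _ _ fun J => hWF.measurable_Gfn_empty K J (hφ J)]
    intro p
    rw [Finset.sum_apply]
    show _ ≤ (K * K) ^ n * ∑ J : Fin n → Y.Bn,
      (∏ i, Y.pal (J i)) * volume {τ : Fin n → ℝ | τ ∈ Set.Icc 0 1 ∧ Ψ p.1 J τ}
    rw [Finset.mul_sum]
    refine Finset.sum_le_sum fun J _ => ?_
    have h1 := hWF.Pop_Gfn hC J (hφ J) (le_refl n) p
    rw [sk_self] at h1
    exact h1.trans (Gfn_univ_le K J (A J) p)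
  have hmeasF : Measurable fun e0 : Y.Lam × ℝ => ∑ J : Fin n → Y.Bn,
      (∏ i, Y.pal (J i)) * volume {τ : Fin n → ℝ | τ ∈ Set.Icc 0 1 ∧ Ψ e0 J τ} :=
    Finset.measurable_sum _ fun J _ => measurable_const.mul (measurable_measure_prodMk_left (hAm J))
  calc (1 / 2 : ℝ≥0∞) ≤ ∫⁻ e0, Y.Pop n (Gd.indicator 1) (e0, π₀) ∂Y.mu := hlow
    _ ≤ ∫⁻ e0, (K * K) ^ n * ∑ J : Fin n → Y.Bn,
          (∏ i, Y.pal (J i)) * volume {τ : Fin n → ℝ | τ ∈ Set.Icc 0 1 ∧ Ψ e0 J τ} ∂Y.mu :=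
        lintegral_mono fun e0 => hup (e0, π₀)
    _ = (K * K) ^ n * ∫⁻ e0, ∑ J : Fin n → Y.Bn,
          (∏ i, Y.pal (J i)) * volume {τ : Fin n → ℝ | τ ∈ Set.Icc 0 1 ∧ Ψ e0 J τ} ∂Y.mu :=
        lintegral_const_mul _ hmeasF

end

end Claimed.Agent.R252
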