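import Claimed.Agent.R252.S6b.SelectDefs

/-!
# Row252, unit S6b, leaf S3: the common tuple of velocity bins for a family with fat states      (helper60)

`k6b_common_tuple_of : k6b_avoid_sum_stmt → k6b_tuple_stmt → k6b_common_tuple_stmt`.
`p s b = μ(F ∩ s ∩ {bin = b})`, `M s = μ(F ∩ s)` (`toReal`); S1 in every state with `c1 = c0 Φ`, width `w/2`; S2 with `K' = Φ K`.
-/

set_option autoImplicit false

namespace Claimed.Agent.R252

open MeasureTheory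
open scoped ENNReal BigOperators

noncomputable section

/-- a finite measurable partition -/
theorem k6b_ct_part {α ι : Type} [MeasurableSpace α] (μ : Measure α) (f : α → ι) (hf : ∀ i, MeasurableSet (f ⁻¹' {i})) (A : Set α)
    (hA : MeasurableSet A) (G : Finset ι) : μ (A ∩ {e | f e ∈ G}) = ∑ i ∈ G, μ (A ∩ f ⁻¹' {i}) := by
  have h : A ∩ {e | f e ∈ G} = ⋃ i ∈ G, A ∩ f ⁻¹' {i} := by
    ext e
    simp only [Set.mem_inter_iff, Set.mem_ofPred_eq, Set.mem_iUnion, Set.mem_preimage, Set.mem_singleton_iff, exists_prop]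
    constructor
    · rintro ⟨h1, h2⟩
      exact ⟨f e, h2, h1, rfl⟩
    · rintro ⟨i, h1, h2, rfl⟩
      exact ⟨h2, h1⟩
  rw [h, measure_biUnion_finset]
  · intro i _ j _ hij
    exact Set.disjoint_left.2 fun e h1 h2 => hij ((Set.mem_singleton_iff.1 h1.2).symm.trans (Set.mem_singleton_iff.1 h2.2))
  · intro i _
    exact hA.inter (hf i)

/-- the same in real numbers -/
theorem k6b_ct_part_real {α ι : Type} [MeasurableSpace α] (μ : Measure α) [IsFiniteMeasure μ] (f : α → ι) (hf : ∀ i, MeasurableSet (f ⁻¹' {i}))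
    (A : Set α) (hA : MeasurableSet A) (G : Finset ι) : (μ (A ∩ {e | f e ∈ G})).toReal = ∑ i ∈ G, (μ (A ∩ f ⁻¹' {i})).toReal := by
  rw [k6b_ct_part μ f hf A hA G, ENNReal.toReal_sum fun i _ => measure_ne_top μ _]

/-- a functional with entries `≤ 1` moves by at most `m pv` -/
theorem k6b_ct_dot {m : ℕ} (α x y : Fin m → ℝ) (pv : ℝ) (hα : ∀ i, |α i| ≤ 1) (hxy : ‖x - y‖ ≤ pv) : |α ⬝ᵥ x - α ⬝ᵥ y| ≤ m * pv := by
  rw [← dotProduct_sub]
  unfold dotProduct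
  calc |∑ i, α i * (x - y) i| ≤ ∑ i, |α i * (x - y) i| := Finset.abs_sum_le_sum_abs _ _
    _ ≤ ∑ _i : Fin m, pv := by
        refine Finset.sum_le_sum fun i _ => ?_
        rw [abs_mul]
        have h1 : |(x - y) i| ≤ pv := (norm_le_pi_norm (x - y) i).trans hxy
        calc |α i| * |(x - y) i| ≤ 1 * |(x - y) i| := mul_le_mul_of_nonneg_right (hα i) (abs_nonneg _)
          _ ≤ pv := by rw [one_mul]; exact h1
    _ = m * pv := by simp

theorem k6b_common_tuple_of (hS1 : k6b_avoid_sum_stmt) (hS2 : k6b_tuple_stmt) : k6b_common_tuple_stmt := by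
  intro m r q Y F K Φ w pv c0 η a hK hΦ hw hc0 hWF hF hFpos hcaus hnorm hch hpal hfat hbin hpv hsmall
  have : IsFiniteMeasure Y.mu := ⟨by rw [hWF.prob]; exact ENNReal.one_lt_top⟩
  have hK0 : 0 ≤ K := by linarith
  have hΦ0 : 0 ≤ Φ := by linarith
  -- measurability
  have hst : ∀ s, MeasurableSet (Y.st ⁻¹' {s}) := hWF.st_meas
  have hbn : ∀ b, MeasurableSet ((fun e : Y.Lam × ℝ => Y.bin e.1) ⁻¹' {b}) := fun b => measurable_fst (hWF.bin_meas b)
  have hE : ∀ s, MeasurableSet (F ∩ Y.stE s) := fun s => hF.inter (hWF.st_meas s)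
  have hpalT : ∀ b, Y.pal b ≠ ⊤ := by
    intro b hb
    have h1 : Y.pal b ≤ ∑ J, Y.pal J := Finset.single_le_sum (f := Y.pal) (fun _ _ => zero_le) (Finset.mem_univ b)
    rw [hb] at h1
    exact absurd (lt_of_le_of_lt (h1.trans hpal) ENNReal.ofReal_lt_top) (lt_irrefl _)
  -- the fat states
  have hfat' : ∀ s, Y.mu (F ∩ Y.stE s) ≠ 0 → Y.mu (Y.stE s) ≤ ENNReal.ofReal Φ * Y.mu (F ∩ Y.stE s) := by
    intro s hs
    obtain ⟨e, he⟩ : (F ∩ Y.stE s).Nonempty := by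
      by_contra hc
      rw [Set.not_nonempty_iff_eq_empty] at hc
      exact hs (by rw [hc, measure_empty])
    have hes : Y.st e = s := he.2
    have := hfat e he.1
    rwa [hes] at this
  -- anything inside a state, of relative mass `≤ κ`
  have hrel : ∀ (s : Y.St) (A : Set (Y.Lam × ℝ)) (κ : ℝ≥0∞), κ ≠ ⊤ → Y.mu (Y.stE s ∩ A) ≤ κ * Y.mu (Y.stE s) →
      (Y.mu (F ∩ Y.stE s ∩ A)).toReal ≤ κ.toReal * Φ * (Y.mu (F ∩ Y.stE s)).toReal := by
    intro s A κ hκ h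
    by_cases hs : Y.mu (F ∩ Y.stE s) = 0
    · have h0 : Y.mu (F ∩ Y.stE s ∩ A) = 0 := measure_mono_null Set.inter_subset_left hs
      rw [h0, hs]
      simp
    · have h1 : Y.mu (F ∩ Y.stE s ∩ A) ≤ κ * (ENNReal.ofReal Φ * Y.mu (F ∩ Y.stE s)) :=
        calc Y.mu (F ∩ Y.stE s ∩ A) ≤ Y.mu (Y.stE s ∩ A) := measure_mono (Set.inter_subset_inter_left _ Set.inter_subset_right)
          _ ≤ κ * Y.mu (Y.stE s) := h
          _ ≤ κ * (ENNReal.ofReal Φ * Y.mu (F ∩ Y.stE s)) := mul_le_mul_right (hfat' s hs) _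
      have h2 := ENNReal.toReal_mono (ENNReal.mul_ne_top hκ (ENNReal.mul_ne_top ENNReal.ofReal_ne_top (measure_ne_top _ _))) h1
      rw [ENNReal.toReal_mul, ENNReal.toReal_mul, ENNReal.toReal_ofReal hΦ0] at h2
      linarith
  -- the sums over the bins
  have hsumb : ∀ (s : Y.St) (G : Finset Y.Bn), ∑ b ∈ G, (Y.mu (F ∩ Y.stE s ∩ {e' | Y.bin e'.1 = b})).toReal
      = (Y.mu (F ∩ Y.stE s ∩ {e | Y.bin e.1 ∈ G})).toReal := fun s G =>
    (k6b_ct_part_real Y.mu (fun e : Y.Lam × ℝ => Y.bin e.1) hbn _ (hE s) G).symm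
  have hsumb1 : ∀ s : Y.St, ∑ b, (Y.mu (F ∩ Y.stE s ∩ {e' | Y.bin e'.1 = b})).toReal = (Y.mu (F ∩ Y.stE s)).toReal := by
    intro s
    rw [hsumb s Finset.univ]
    congr 2
    ext e
    simp
  -- the sums over the states
  have hsums : ∀ G : Finset Y.St, ∑ s ∈ G, (Y.mu (F ∩ Y.stE s)).toReal = (Y.mu (F ∩ {e | Y.st e ∈ G})).toReal := fun G =>
    (k6b_ct_part_real Y.mu Y.st hst F hF G).symm
  have hsums1 : ∑ s, (Y.mu (F ∩ Y.stE s)).toReal = (Y.mu F).toReal := by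
    rw [hsums Finset.univ]
    congr 2
    ext e
    simp
  -- S1 in every state
  have h1 : ∀ s : Y.St, (Y.mu (F ∩ Y.stE s)).toReal ^ r ≤ 2 * ∑ J ∈ (Finset.univ : Finset (Fin r → Y.Bn)).filter
      (fun J => ∀ k j, w / 2 < |a k j (fun i => Y.cen (J i)) ⬝ᵥ Y.cen (J k)|), ∏ i, (Y.mu (F ∩ Y.stE s ∩ {e' | Y.bin e'.1 = J i})).toReal := by
    intro s
    have h := hS1 m r q Y.Bn (fun b => (Y.mu (F ∩ Y.stE s ∩ {e' | Y.bin e'.1 = b})).toReal) Y.cen (w / 2) (c0 * Φ)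
      (fun k j J => a k j (fun i => Y.cen (J i))) (fun b => ENNReal.toReal_nonneg) (mul_nonneg hc0 hΦ0)
      (fun k j J J' hJ => hcaus k j _ _ fun i hi => by rw [hJ i hi]) ?_
    · rw [hsumb1 s] at h
      have hM : 0 ≤ (Y.mu (F ∩ Y.stE s)).toReal ^ r := pow_nonneg ENNReal.toReal_nonneg r
      have h2 : (1 / 2 : ℝ) ≤ 1 - r * q * (c0 * Φ) := by linarith
      have h3 : 1 / 2 * (Y.mu (F ∩ Y.stE s)).toReal ^ r ≤ (1 - r * q * (c0 * Φ)) * (Y.mu (F ∩ Y.stE s)).toReal ^ r :=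
        mul_le_mul_of_nonneg_right h2 hM
      linarith
    · intro k j J
      rw [hsumb1 s, hsumb s]
      obtain ⟨hα1, hα2⟩ := hnorm k j (fun i => Y.cen (J i))
      have h3 := hrel s {e | |a k j (fun i => Y.cen (J i)) ⬝ᵥ Y.vel e.1| ≤ w} (ENNReal.ofReal c0) ENNReal.ofReal_ne_top (hch.strip s _ hα1)
      rw [ENNReal.toReal_ofReal hc0] at h3
      refine le_trans (ENNReal.toReal_mono (measure_ne_top _ _) (measure_mono ?_)) h3
      rintro e ⟨he1, he2⟩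
      refine ⟨he1, ?_⟩
      have he3 : |a k j (fun i => Y.cen (J i)) ⬝ᵥ Y.cen (Y.bin e.1)| ≤ w / 2 := (Finset.mem_filter.1 he2).2
      have he4 := k6b_ct_dot (a k j (fun i => Y.cen (J i))) (Y.vel e.1) (Y.cen (Y.bin e.1)) pv hα2 (hbin e.1)
      show |a k j (fun i => Y.cen (J i)) ⬝ᵥ Y.vel e.1| ≤ w
      have he5 := abs_le.1 he3
      have he6 := abs_le.1 he4
      rw [abs_le]
      constructor <;> linarith [he5.1, he5.2, he6.1, he6.2]
  -- S2
  obtain ⟨J, hJ1, hJ2⟩ := hS2 Y.St Y.Bn r (fun s => (Y.mu (F ∩ Y.stE s)).toReal) (fun s b => (Y.mu (F ∩ Y.stE s ∩ {e' | Y.bin e'.1 = b})).toReal)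
    (fun b => (Y.pal b).toReal) (Φ * K) (fun J => ∀ k j, w / 2 < |a k j (fun i => Y.cen (J i)) ⬝ᵥ Y.cen (J k)|)
    (fun s => ENNReal.toReal_nonneg) (fun s b => ENNReal.toReal_nonneg) (fun b => ENNReal.toReal_nonneg) (mul_nonneg hΦ0 hK0)
    (by
      rw [hsums1]
      exact ENNReal.toReal_pos hFpos.ne' (measure_ne_top _ _))
    (fun s b => by
      have h3 := hrel s {e | Y.bin e.1 = b} (ENNReal.ofReal K * Y.pal b) (ENNReal.mul_ne_top ENNReal.ofReal_ne_top (hpalT b)) (hch.pal_dom s b)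
      rw [ENNReal.toReal_mul, ENNReal.toReal_ofReal hK0] at h3
      calc _ ≤ _ := h3
        _ = _ := by ring)
    (fun s => by convert h1 s)
  refine ⟨J, hJ1, ?_⟩
  rw [hsums1, hsums] at hJ2
  have hset : ∀ G : Finset Y.St, (∀ s, s ∈ G ↔ ∀ i, 0 < (Y.mu (F ∩ Y.stE s ∩ {e' | Y.bin e'.1 = J i})).toReal) → F ∩ {e | Y.st e ∈ G}
      = F ∩ {e | ∀ i, 0 < Y.mu (F ∩ Y.stE (Y.st e) ∩ {e' | Y.bin e'.1 = J i})} := by
    intro G hG
    congr 1
    ext e
    simp only [hG, Set.mem_ofPred_eq]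
    refine forall_congr' fun i => ?_
    rw [ENNReal.toReal_pos_iff]
    exact ⟨fun h => h.1, fun h => ⟨h, measure_lt_top _ _⟩⟩
  rw [hset _ (fun s => by simp only [Finset.mem_filter, Finset.mem_univ, true_and])] at hJ2
  have hpl : ∑ b, (Y.pal b).toReal ≤ K := by
    rw [← ENNReal.toReal_sum fun b _ => hpalT b]
    exact ENNReal.toReal_le_of_le_ofReal hK0 hpal
  have hpl0 : 0 ≤ ∑ b, (Y.pal b).toReal := Finset.sum_nonneg fun b _ => ENNReal.toReal_nonneg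
  have hC : 2 * (Φ * K) ^ r * (∑ b, (Y.pal b).toReal) ^ r ≤ 2 * (Φ * K * K) ^ r := by
    rw [mul_pow (Φ * K) K r, ← mul_assoc]
    exact mul_le_mul_of_nonneg_left (pow_le_pow_left₀ hpl0 hpl r) (by positivity)
  have hfin : (Y.mu F).toReal ≤ 2 * (Φ * K * K) ^ r * (Y.mu (F ∩ {e | ∀ i, 0 < Y.mu (F ∩ Y.stE (Y.st e) ∩ {e' | Y.bin e'.1 = J i})})).toReal :=
    hJ2.trans (mul_le_mul_of_nonneg_right hC ENNReal.toReal_nonneg)
  calc Y.mu F = ENNReal.ofReal (Y.mu F).toReal := (ENNReal.ofReal_toReal (measure_ne_top _ _)).symm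
    _ ≤ ENNReal.ofReal (2 * (Φ * K * K) ^ r * (Y.mu (F ∩ {e | ∀ i, 0 < Y.mu (F ∩ Y.stE (Y.st e) ∩ {e' | Y.bin e'.1 = J i})})).toReal) :=
        ENNReal.ofReal_le_ofReal hfin
    _ = _ := by
        rw [ENNReal.ofReal_mul (by positivity), ENNReal.ofReal_toReal (measure_ne_top _ _)]

end

end Claimed.Agent.R252
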