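import Claimed.Agent.R252.S6b.SqGen
import Claimed.Agent.R252.S6b.SqKit

/-!
# ROW 252, unit S6b, the square-root sheet kit, file 3: SHEETS ALONG A LINE      (statements Q0, Q0', Q1, Q3: helper295, VERBATIM; architect of the proofs helper112)

* `k6b_Sheet.hasDerivAt_line` (Q0), `k6b_Sheet.dv_comm` (Q0'): leaves.
* `k6b_sq_line` (Q1): `k6b_gm` with `m = D + 1 + q`: the `A`-part of the `m`-th formal derivative vanishes, the `B`-part is a polynomial on the line (`rmz_line`), the weight is `k6b_weight`.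
* `k6b_sq_taylor` (Q3): `k6b_taylor_gen`.
-/

set_option autoImplicit false

namespace Claimed.Agent.R252

open MvPolynomial MeasureTheory

/-! ### LEAF L-252-SQ-Q0 -/

theorem k6b_hasDerivAt_aux (a b d : ℝ → ℝ) (a' b' d' s : ℝ) (k : ℕ) (ha : HasDerivAt a a' s) (hb : HasDerivAt b b' s)
    (hd : HasDerivAt d d' s) (h : 0 < d s) :
    HasDerivAt (fun t => a t + b t * (√(d t) / d t ^ k))
      (a' + (b' * d s + (1 / 2 - (k : ℝ)) * b s * d') * (√(d s) / d s ^ (k + 1))) s := by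
  have h1 := ha.fun_add (hb.fun_mul ((hd.sqrt h.ne').fun_div (hd.fun_pow k) (pow_ne_zero _ h.ne')))
  refine h1.congr_deriv ?_
  obtain ⟨r, hr⟩ : ∃ r, r = √(d s) := ⟨_, rfl⟩
  have hr0 : 0 < r := by rw [hr]; exact Real.sqrt_pos.2 h
  have hrr : d s = r * r := by rw [hr]; exact (Real.mul_self_sqrt h.le).symm
  rw [← hr, hrr]
  rcases Nat.eq_zero_or_pos k with hk | hk
  · rw [hk]
    simp only [pow_zero, Nat.cast_zero, zero_mul, zero_add, pow_one]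
    field_simp
    ring
  · obtain ⟨k', hk'⟩ : ∃ k', k = k' + 1 := ⟨k - 1, by omega⟩
    rw [hk']
    simp only [Nat.add_sub_cancel]
    push_cast
    field_simp
    ring

/-- **Q0** the formal derivative is the derivative along lines.
PLAN: `a t = eval (u + t • v) F.A`, `b`, `δ` likewise have the derivatives `eval _ (k6b_dP v _)` (`k6b_dP_hasDerivAt`).  `HasDerivAt.sqrt` (`δ s ≠ 0`), `HasDerivAt.pow`, `HasDerivAt.div`, `HasDerivAt.mul`, `HasDerivAt.add`;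
then `convert .. using 1`, unfold `val`, `dv_A`, `dv_B`, `dv_k`, `eval_add/mul/C`; with `r = √(δ s)`, `δ s = r * r` (`Real.mul_self_sqrt`), `r ≠ 0`: `field_simp`, `ring`. -/
theorem k6b_Sheet.hasDerivAt_line {n : ℕ} (Dl : MvPolynomial (Fin n) ℝ) (F : k6b_Sheet n)
    (u v : Fin n → ℝ) (s : ℝ) (h : 0 < eval (u + s • v) Dl) :
    HasDerivAt (fun t : ℝ => F.val Dl (u + t • v)) ((F.dv Dl v).val Dl (u + s • v)) s := by
  have h1 := k6b_hasDerivAt_aux _ _ _ _ _ _ s F.k (k6b_dP_hasDerivAt F.A u v s) (k6b_dP_hasDerivAt F.B u v s)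
    (k6b_dP_hasDerivAt Dl u v s) h
  unfold k6b_Sheet.val
  refine h1.congr_deriv ?_
  rw [k6b_Sheet.dv_A, k6b_Sheet.dv_B, k6b_Sheet.dv_k]
  simp only [map_add, map_mul, eval_C]

/-! ### LEAF L-252-SQ-Q0C -/

/-- **Q0'** formal derivatives commute (as formal sheets).
PLAN: the three fields (`k6b_Sheet.mk.injEq` / `cases`, or a small `ext` lemma).  `A`: `dv_A`, `k6b_dP_comm`.  `k`: `rfl`.  `B`: `dv_B` (twice), `dv_k`, `k6b_dP_add`, `k6b_dP_mul`, `k6b_dP_C`, `k6b_dP_comm` for `F.B` and `Dl`;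
`Nat.cast_succ`, `C` of a sum/difference (`map_sub`, `map_add`, `C_1`): write `C (1/2 - (k+1)) = C (1/2 - k) - 1`; `ring`. -/
theorem k6b_Sheet.dv_comm {n : ℕ} (Dl : MvPolynomial (Fin n) ℝ) (F : k6b_Sheet n)
    (v w : Fin n → ℝ) : (F.dv Dl v).dv Dl w = (F.dv Dl w).dv Dl v := by
  have hext : ∀ G H : k6b_Sheet n, G.A = H.A → G.B = H.B → G.k = H.k → G = H := by
    intro G H h1 h2 h3
    cases G
    cases H
    simp only at h1 h2 h3
    subst h1 h2 h3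
    rfl
  refine hext _ _ ?_ ?_ rfl
  · rw [k6b_Sheet.dv_A, k6b_Sheet.dv_A, k6b_Sheet.dv_A, k6b_Sheet.dv_A, k6b_dP_comm]
  · rw [k6b_Sheet.dv_B, k6b_Sheet.dv_B, k6b_Sheet.dv_k, k6b_Sheet.dv_B _ (F.dv Dl w), k6b_Sheet.dv_B, k6b_Sheet.dv_k]
    simp only [k6b_dP_add, k6b_dP_mul, k6b_dP_C]
    rw [k6b_dP_comm w v F.B, k6b_dP_comm w v Dl]
    have e : (C (1 / 2 - ((F.k + 1 : ℕ) : ℝ)) : MvPolynomial (Fin n) ℝ) = C (1 / 2 - (F.k : ℝ)) - 1 := by
      rw [← C_1, ← C_sub]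
      congr 1
      push_cast
      ring
    rw [e]
    ring

/-! ### assembly -/

theorem k6b_absorb (c e e' : ℕ) (κ θ : ℝ) (hκ : 1 ≤ κ) (hθ : 0 < θ) (hθ1 : θ ≤ 1) (he : e ≤ e') :
    (c : ℝ) * (1 / θ) ^ c * κ ^ e ≤ ((c + e' : ℕ) : ℝ) * (κ / θ) ^ (c + e') := by
  have h1 : 1 / θ ≤ κ / θ := div_le_div_of_nonneg_right hκ hθ.le
  have h2 : κ ≤ κ / θ := by
    rw [le_div_iff₀ hθ]
    nlinarith
  have h3 : 1 ≤ κ / θ := hκ.trans h2
  have h4 : (1 / θ) ^ c ≤ (κ / θ) ^ c := pow_le_pow_left₀ (by positivity) h1 c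
  have h5 : κ ^ e ≤ (κ / θ) ^ e' := (pow_le_pow_left₀ (by linarith) h2 e).trans (pow_le_pow_right₀ h3 he)
  have h6 : (1 / θ) ^ c * κ ^ e ≤ (κ / θ) ^ (c + e') := by
    rw [pow_add]
    exact mul_le_mul h4 h5 (by positivity) (by positivity)
  have h7 : (c : ℝ) ≤ ((c + e' : ℕ) : ℝ) := by exact_mod_cast Nat.le_add_right _ _
  rw [mul_assoc]
  exact mul_le_mul h7 h6 (by positivity) (by positivity)

/-- **Q1** Remez with derivatives along a segment. -/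
theorem k6b_sq_line (n D q : ℕ) : ∃ c : ℕ, ∀ (Dl : MvPolynomial (Fin n) ℝ) (F : k6b_Sheet n)
    (u v : Fin n → ℝ) (a b κ θ ε Δ0 : ℝ) (E : Set ℝ),
    F.Deg D Dl → a < b → 1 ≤ κ → 0 < θ → θ ≤ 1 → 0 < Δ0 →
    (∀ s ∈ Set.Icc a b, Δ0 / κ ≤ eval (u + s • v) Dl ∧ eval (u + s • v) Dl ≤ κ * Δ0) →
    MeasurableSet E → E ⊆ Set.Icc a b → ENNReal.ofReal (θ * (b - a)) ≤ volume E →
    (∀ s ∈ E, |F.val Dl (u + s • v)| ≤ ε) →
    ∀ j ≤ q, ∀ s ∈ Set.Icc a b,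
      |(((k6b_Sheet.dv Dl v)^[j]) F).val Dl (u + s • v)| * (b - a) ^ j
        ≤ c * (κ / θ) ^ c * ε := by
  obtain ⟨m, hm⟩ : ∃ m : ℕ, m = D + 1 + q := ⟨_, rfl⟩
  obtain ⟨c, hc⟩ := k6b_gm m (k6b_dg m D)
  refine ⟨c + (2 * (D + m) + 1), ?_⟩
  intro Dl F u v a b κ θ ε Δ0 E hdeg hab hκ hθ hθ1 hΔ0 hDl _ hE hvol hε j hj s hs
  have hκ0 : 0 < κ := by linarith
  have hpos : ∀ t ∈ Set.Icc a b, 0 < eval (u + t • v) Dl := fun t ht =>
    lt_of_lt_of_le (by positivity) (hDl t ht).1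
  have hε0 : 0 ≤ ε := by
    have hne : E.Nonempty := by
      by_contra hcon
      rw [Set.not_nonempty_iff_eq_empty] at hcon
      rw [hcon, measure_empty, nonpos_iff_eq_zero, ENNReal.ofReal_eq_zero] at hvol
      have : 0 < θ * (b - a) := mul_pos hθ (by linarith)
      linarith
    obtain ⟨t, ht⟩ := hne
    exact (abs_nonneg _).trans (hε t ht)
  obtain ⟨p, hp1, hp2⟩ := rmz_line n (((k6b_Sheet.dv Dl v)^[m]) F).B u v
  have hline : ∀ t : ℝ, (fun i => u i + t * v i) = u + t • v := by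
    intro t
    funext i
    simp
  have key := hc (fun j t => (((k6b_Sheet.dv Dl v)^[j]) F).val Dl (u + t • v)) p
    (fun t => √(eval (u + t • v) Dl) / eval (u + t • v) Dl ^ (F.k + m)) a b
    (√(Δ0 / κ) / (κ * Δ0) ^ (F.k + m)) (κ ^ (2 * (F.k + m) + 1)) θ ε E hab
    (by
      intro i _ t ht
      have h1 := k6b_Sheet.hasDerivAt_line Dl (((k6b_Sheet.dv Dl v)^[i]) F) u v t (hpos t ht)
      rw [← Function.iterate_succ_apply' (k6b_Sheet.dv Dl v) i F] at h1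
      exact h1)
    (hp1.trans (hdeg.iter v m).b)
    (k6b_weight (F.k + m) κ Δ0 Δ0 hκ hΔ0 (div_le_self hΔ0.le hκ) (by nlinarith)).1
    (fun t ht => (k6b_weight (F.k + m) κ Δ0 _ hκ hΔ0 (hDl t ht).1 (hDl t ht).2).2)
    (by
      intro t _
      show (((k6b_Sheet.dv Dl v)^[m]) F).val Dl (u + t • v) = _
      unfold k6b_Sheet.val
      rw [k6b_Sheet.iter_A, k6b_dP_iter_zero v F.A m (by have := hdeg.a; omega), k6b_Sheet.iter_k, ← hp2 t, hline t]
      simp)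
    hθ hθ1 hE hvol hε j (by omega) s hs
  refine key.trans ?_
  exact mul_le_mul_of_nonneg_right
    (k6b_absorb c (2 * (F.k + m) + 1) (2 * (D + m) + 1) κ θ hκ hθ hθ1 (by have := hdeg.k; omega)) hε0

/-- **Q3** Taylor's formula with remainder for a sheet along a segment on which `Δ > 0`. -/
theorem k6b_sq_taylor {n : ℕ} (Dl : MvPolynomial (Fin n) ℝ) (F : k6b_Sheet n)
    (u x : Fin n → ℝ) (N : ℕ) (M : ℝ)
    (hpos : ∀ s ∈ Set.Icc (0 : ℝ) 1, 0 < eval (u + s • x) Dl)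
    (hM : ∀ s ∈ Set.Icc (0 : ℝ) 1,
      |(((k6b_Sheet.dv Dl x)^[N + 1]) F).val Dl (u + s • x)| ≤ M) :
    |F.val Dl (u + x) - ∑ j ∈ Finset.range (N + 1),
        (((k6b_Sheet.dv Dl x)^[j]) F).val Dl u / (j.factorial : ℝ)|
      ≤ M / ((N + 1).factorial : ℝ) := by
  have key := k6b_taylor_gen N (fun j t => (((k6b_Sheet.dv Dl x)^[j]) F).val Dl (u + t • x)) M
    (by
      intro i _ t ht
      have h1 := k6b_Sheet.hasDerivAt_line Dl (((k6b_Sheet.dv Dl x)^[i]) F) u x t (hpos t ht)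
      rw [← Function.iterate_succ_apply' (k6b_Sheet.dv Dl x) i F] at h1
      exact h1)
    hM 1 ⟨zero_le_one, le_refl _⟩
  simpa using key

end Claimed.Agent.R252
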