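import Claimed.Agent.R252.S6b.V2Defs
import Claimed.Agent.R252.S6b.SqLine
import Claimed.Agent.R252.S6b.Form

/-!
# Row252, unit S6b, leaf L-252-S6b-J: the calculus of jets of a sheet (`k6b_jet_calc : k6b_jet_stmt`).      helper253

Key: the recursion `jet (r+1) F = ∑ j, X j * jet r (∂_j F)` (`k6b_jet_succ`) and `∂_j jet (r+1) F = (r+1) jet r (∂_j F)` (`k6b_jet_pderiv`).
-/

set_option autoImplicit false

namespace Claimed.Agent.R252

open MvPolynomial
open scoped BigOperators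

variable {n : ℕ}

theorem k6b_foldr_dv_comm (Dl : MvPolynomial (Fin n) ℝ) (F : k6b_Sheet n) (v : Fin n → ℝ) (L : List (Fin n → ℝ)) :
    L.foldr (k6b_Sheet.dv Dl) (F.dv Dl v) = (L.foldr (k6b_Sheet.dv Dl) F).dv Dl v := by
  induction L with
  | nil => rfl
  | cons w L ih => rw [List.foldr_cons, List.foldr_cons, ih, k6b_Sheet.dv_comm]

theorem k6b_iter_dv_comm (Dl : MvPolynomial (Fin n) ℝ) (F : k6b_Sheet n) (v x : Fin n → ℝ) (r : ℕ) :
    ((k6b_Sheet.dv Dl x)^[r]) (F.dv Dl v) = (((k6b_Sheet.dv Dl x)^[r]) F).dv Dl v := by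
  induction r with
  | zero => rfl
  | succ r ih => rw [Function.iterate_succ_apply', Function.iterate_succ_apply', ih, k6b_Sheet.dv_comm]

theorem k6b_pd_cons (Dl : MvPolynomial (Fin n) ℝ) (F : k6b_Sheet n) {r : ℕ} (j : Fin n) (I : Fin r → Fin n) :
    k6b_pd Dl F (Fin.cons j I : Fin (r + 1) → Fin n) = k6b_pd Dl (F.dv Dl (Pi.single j 1)) I := by
  unfold k6b_pd
  rw [List.ofFn_succ, List.foldr_cons, k6b_foldr_dv_comm]
  simp only [Fin.cons_zero, Fin.cons_succ]

theorem k6b_jet_zero (Dl : MvPolynomial (Fin n) ℝ) (F : k6b_Sheet n) (u : Fin n → ℝ) :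
    k6b_jet Dl F 0 u = C (F.val Dl u) := by
  unfold k6b_jet k6b_pd
  simp

theorem k6b_jet_succ (Dl : MvPolynomial (Fin n) ℝ) (F : k6b_Sheet n) (r : ℕ) (u : Fin n → ℝ) :
    k6b_jet Dl F (r + 1) u = ∑ j, X j * k6b_jet Dl (F.dv Dl (Pi.single j 1)) r u := by
  unfold k6b_jet
  rw [← (Fin.consEquiv fun _ : Fin (r + 1) => Fin n).sum_comp, Fintype.sum_prod_type]
  refine Finset.sum_congr rfl fun j _ => ?_
  rw [Finset.mul_sum]
  refine Finset.sum_congr rfl fun I _ => ?_
  have e : (Fin.consEquiv fun _ : Fin (r + 1) => Fin n) (j, I) = (Fin.cons j I : Fin (r + 1) → Fin n) := rfl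
  rw [e, k6b_pd_cons, Fin.prod_univ_succ]
  simp only [Fin.cons_zero, Fin.cons_succ]
  ring

theorem k6b_jet_hom (Dl : MvPolynomial (Fin n) ℝ) (F : k6b_Sheet n) (r : ℕ) (u : Fin n → ℝ) :
    (k6b_jet Dl F r u).IsHomogeneous r := by
  unfold k6b_jet
  refine IsHomogeneous.sum _ _ _ fun I _ => ?_
  have h1 : (∏ k : Fin r, (X (I k) : MvPolynomial (Fin n) ℝ)).IsHomogeneous (∑ _k : Fin r, 1) :=
    IsHomogeneous.prod _ _ _ fun k _ => isHomogeneous_X ℝ (I k)
  have h2 : (∑ _k : Fin r, 1) = r := by simp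
  rw [h2] at h1
  have h3 := (isHomogeneous_C (Fin n) ((k6b_pd Dl F I).val Dl u)).mul h1
  rwa [zero_add] at h3

theorem k6b_jet_eval (Dl : MvPolynomial (Fin n) ℝ) (F : k6b_Sheet n) (r : ℕ) (u x : Fin n → ℝ) :
    eval x (k6b_jet Dl F r u) = (((k6b_Sheet.dv Dl x)^[r]) F).val Dl u := by
  induction r generalizing F with
  | zero => rw [k6b_jet_zero, eval_C]; rfl
  | succ r ih =>
    rw [k6b_jet_succ, map_sum, Function.iterate_succ_apply', k6b_Sheet.val_dv_sum]
    refine Finset.sum_congr rfl fun j _ => ?_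
    rw [map_mul, eval_X, ih, k6b_iter_dv_comm]

theorem k6b_jet_pderiv (Dl : MvPolynomial (Fin n) ℝ) (F : k6b_Sheet n) (r : ℕ) (u : Fin n → ℝ) (j : Fin n) :
    pderiv j (k6b_jet Dl F (r + 1) u) = C ((r : ℝ) + 1) * k6b_jet Dl (F.dv Dl (Pi.single j 1)) r u := by
  induction r generalizing F with
  | zero =>
    rw [k6b_jet_succ, map_sum]
    simp only [k6b_jet_zero, pderiv_mul, pderiv_C, mul_zero, add_zero]
    rw [Finset.sum_eq_single j]
    · simp
    · intro i _ hi
      rw [pderiv_X_of_ne hi]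
      simp
    · intro h
      exact absurd (Finset.mem_univ j) h
  | succ r ih =>
    rw [k6b_jet_succ, map_sum]
    simp only [pderiv_mul, ih]
    rw [Finset.sum_add_distrib]
    have h1 : ∑ i, pderiv j (X i : MvPolynomial (Fin n) ℝ) * k6b_jet Dl (F.dv Dl (Pi.single i 1)) (r + 1) u
        = k6b_jet Dl (F.dv Dl (Pi.single j 1)) (r + 1) u := by
      rw [Finset.sum_eq_single j]
      · simp
      · intro i _ hi
        rw [pderiv_X_of_ne hi]
        simp
      · intro h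
        exact absurd (Finset.mem_univ j) h
    have h2 : ∑ i, (X i : MvPolynomial (Fin n) ℝ) * (C ((r : ℝ) + 1) *
          k6b_jet Dl ((F.dv Dl (Pi.single i 1)).dv Dl (Pi.single j 1)) r u)
        = C ((r : ℝ) + 1) * k6b_jet Dl (F.dv Dl (Pi.single j 1)) (r + 1) u := by
      rw [k6b_jet_succ, Finset.mul_sum]
      refine Finset.sum_congr rfl fun i _ => ?_
      rw [k6b_Sheet.dv_comm]
      ring
    rw [h1, h2]
    have e : (C (((r + 1 : ℕ) : ℝ) + 1) : MvPolynomial (Fin n) ℝ) = C ((r : ℝ) + 1) + 1 := by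
      rw [← C_1, ← C_add]
      push_cast
      rfl
    rw [e]
    ring

theorem k6b_jet_norm (Dl : MvPolynomial (Fin n) ℝ) (F : k6b_Sheet n) (r : ℕ) (u : Fin n → ℝ) (M : ℝ)
    (h : ∀ I : Fin r → Fin n, |(k6b_pd Dl F I).val Dl u| ≤ M) : rmzNm (k6b_jet Dl F r u) ≤ (n : ℝ) ^ r * M := by
  unfold k6b_jet
  refine (k6b_nm_sum _ _).trans ?_
  calc ∑ I : Fin r → Fin n, rmzNm (C ((k6b_pd Dl F I).val Dl u) * ∏ k, (X (I k) : MvPolynomial (Fin n) ℝ))
      ≤ ∑ _I : Fin r → Fin n, M := by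
        refine Finset.sum_le_sum fun I _ => ?_
        rw [rmz_Nm_C_mul]
        have h1 : rmzNm (∏ k, (X (I k) : MvPolynomial (Fin n) ℝ)) ≤ 1 := by
          refine (k6b_nm_prod _ _).trans ?_
          simp [k6b_nm_X]
        calc |(k6b_pd Dl F I).val Dl u| * rmzNm (∏ k, (X (I k) : MvPolynomial (Fin n) ℝ))
            ≤ |(k6b_pd Dl F I).val Dl u| * 1 := by gcongr
          _ ≤ M := by rw [mul_one]; exact h I
    _ = (n : ℝ) ^ r * M := by
        rw [Finset.sum_const, nsmul_eq_mul]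
        simp

theorem k6b_jet_shift_eval (Dl : MvPolynomial (Fin n) ℝ) (F : k6b_Sheet n) (r : ℕ) (u y : Fin n → ℝ) :
    eval y (bind₁ (fun i => X i - C (u i)) (k6b_jet Dl F r u)) = eval (y - u) (k6b_jet Dl F r u) := by
  unfold k6b_jet
  simp only [map_sum, map_mul, map_prod, bind₁_X_right, bind₁_C_right, eval_X, eval_C, map_sub, Pi.sub_apply]

theorem k6b_jet_shift_deg (Dl : MvPolynomial (Fin n) ℝ) (F : k6b_Sheet n) (r : ℕ) (u : Fin n → ℝ) :
    (bind₁ (fun i => X i - C (u i)) (k6b_jet Dl F r u)).totalDegree ≤ r := by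
  unfold k6b_jet
  simp only [map_sum, map_mul, map_prod, bind₁_X_right, bind₁_C_right]
  refine totalDegree_finsetSum_le fun I _ => ?_
  refine (totalDegree_mul _ _).trans ?_
  rw [totalDegree_C, zero_add]
  refine (totalDegree_finsetProd _ _).trans ?_
  calc ∑ k : Fin r, (X (I k) - C (u (I k)) : MvPolynomial (Fin n) ℝ).totalDegree ≤ ∑ _k : Fin r, 1 := by
        refine Finset.sum_le_sum fun k _ => ?_
        refine (totalDegree_sub _ _).trans ?_
        rw [totalDegree_X, totalDegree_C]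
        simp
    _ = r := by simp

theorem k6b_jet_calc : k6b_jet_stmt := by
  intro n Dl F r u
  refine ⟨k6b_jet_hom Dl F r u, k6b_jet_eval Dl F r u, ?_, ?_, k6b_jet_norm Dl F r u, ?_⟩
  · intro x j
    rw [k6b_jet_pderiv, map_mul, eval_C, k6b_jet_eval, k6b_iter_dv_comm]
  · intro x j k
    have e : ((r + 2 : ℕ) : ℝ) = ((r + 1 : ℕ) : ℝ) + 1 := by push_cast; ring
    rw [show r + 2 = (r + 1) + 1 from rfl, k6b_jet_pderiv, pderiv_C_mul, k6b_jet_pderiv, map_mul, map_mul, eval_C, eval_C,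
      k6b_jet_eval, k6b_iter_dv_comm, k6b_iter_dv_comm]
    push_cast
    ring
  · intro N
    constructor
    · unfold k6b_tay
      refine totalDegree_finsetSum_le fun j hj => ?_
      refine (totalDegree_mul _ _).trans ?_
      rw [totalDegree_C, zero_add]
      have := Finset.mem_range.1 hj
      exact (k6b_jet_shift_deg Dl F j u).trans (by omega)
    · intro y
      unfold k6b_tay
      rw [map_sum]
      refine Finset.sum_congr rfl fun j _ => ?_
      rw [map_mul, eval_C, k6b_jet_shift_eval, k6b_jet_eval, div_eq_mul_inv, mul_comm]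

end Claimed.Agent.R252
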