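import Claimed.Agent.R252.S6b.V2Defs
import Claimed.Agent.R252.S6b.SheetContract
import Claimed.Agent.R252.S6b.Jet

/-!
# Row252, unit S6b, leaf R01: the deviation `S` exists and bounds all derivatives of order `≥ 2`   (helper260; prefix `k6b_db_`)

`k6b_dev_exists : k6b_dev_exists_stmt` (continuity + compactness), `k6b_dev_bound : k6b_dev_bound_stmt` (`k6b_sq_box` for `(f.A - L', f.B, f.k)`).
-/

set_option autoImplicit false

namespace Claimed.Agent.R252

open MeasureTheory MvPolynomial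
open scoped ENNReal BigOperators

noncomputable section

/-! ## 1. continuity of a sheet -/

theorem k6b_db_contOn {n : ℕ} (Dl : MvPolynomial (Fin n) ℝ) (F : k6b_Sheet n) (U : Set (Fin n → ℝ))
    (hU : ∀ u ∈ U, 0 < eval u Dl) : ContinuousOn (F.val Dl) U := by
  unfold k6b_Sheet.val
  have hA : Continuous fun u : Fin n → ℝ => eval u F.A := MvPolynomial.continuous_eval F.A
  have hB : Continuous fun u : Fin n → ℝ => eval u F.B := MvPolynomial.continuous_eval F.B
  have hD : Continuous fun u : Fin n → ℝ => eval u Dl := MvPolynomial.continuous_eval Dl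
  refine hA.continuousOn.add (hB.continuousOn.mul ?_)
  refine ContinuousOn.div (Real.continuous_sqrt.comp hD).continuousOn (hD.pow F.k).continuousOn ?_
  intro u hu
  exact pow_ne_zero _ (hU u hu).ne'

/-- **R0** -/
theorem k6b_dev_exists : k6b_dev_exists_stmt := by
  intro Dl f uc r hr hpos
  have hc : ContinuousOn (fun u => |f.val Dl u - eval u (k6b_tay Dl f 1 uc)|)
      (Metric.closedBall uc r) :=
    ((k6b_db_contOn Dl f _ hpos).sub
      (MvPolynomial.continuous_eval (k6b_tay Dl f 1 uc)).continuousOn).abs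
  obtain ⟨u0, hu0, hmax⟩ := (isCompact_closedBall uc r).exists_isMaxOn
    ⟨uc, Metric.mem_closedBall_self hr⟩ hc
  exact ⟨_, fun u hu => hmax hu, u0, hu0, rfl⟩

/-! ## 2. formal derivatives do not see an affine change of `A` -/

theorem k6b_db_foldr_A {n : ℕ} (Dl : MvPolynomial (Fin n) ℝ) (F : k6b_Sheet n)
    (vs : List (Fin n → ℝ)) : (vs.foldr (k6b_Sheet.dv Dl) F).A = vs.foldr k6b_dP F.A := by
  induction vs with
  | nil => rfl
  | cons v vs ih => rw [List.foldr_cons, List.foldr_cons, k6b_Sheet.dv_A, ih]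

theorem k6b_db_foldr_Bk {n : ℕ} (Dl : MvPolynomial (Fin n) ℝ) (F G : k6b_Sheet n) (hB : F.B = G.B)
    (hk : F.k = G.k) (vs : List (Fin n → ℝ)) :
    (vs.foldr (k6b_Sheet.dv Dl) F).B = (vs.foldr (k6b_Sheet.dv Dl) G).B ∧
      (vs.foldr (k6b_Sheet.dv Dl) F).k = (vs.foldr (k6b_Sheet.dv Dl) G).k := by
  induction vs with
  | nil => exact ⟨hB, hk⟩
  | cons v vs ih =>
    rw [List.foldr_cons, List.foldr_cons]
    refine ⟨?_, ?_⟩
    · rw [k6b_Sheet.dv_B, k6b_Sheet.dv_B, ih.1, ih.2]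
    · rw [k6b_Sheet.dv_k, k6b_Sheet.dv_k, ih.2]

theorem k6b_db_foldr_deg {n : ℕ} (P : MvPolynomial (Fin n) ℝ) (vs : List (Fin n → ℝ)) :
    (vs.foldr k6b_dP P).totalDegree ≤ P.totalDegree - vs.length := by
  induction vs with
  | nil => simp
  | cons v vs ih =>
    rw [List.foldr_cons, List.length_cons]
    have h := k6b_dP_totalDegree v (vs.foldr k6b_dP P)
    omega

theorem k6b_db_foldr_zero {n : ℕ} (P : MvPolynomial (Fin n) ℝ) (vs : List (Fin n → ℝ))
    (h : P.totalDegree < vs.length) : vs.foldr k6b_dP P = 0 := by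
  cases vs with
  | nil => simp at h
  | cons v vs =>
    rw [List.length_cons] at h
    have h1 := k6b_db_foldr_deg P vs
    have h2 : (vs.foldr k6b_dP P).totalDegree = 0 := by omega
    rw [List.foldr_cons, (totalDegree_eq_zero_iff_eq_C.1 h2), k6b_dP_C]

theorem k6b_db_foldr_sub {n : ℕ} (P Q : MvPolynomial (Fin n) ℝ) (vs : List (Fin n → ℝ)) :
    vs.foldr k6b_dP (P - Q) = vs.foldr k6b_dP P - vs.foldr k6b_dP Q := by
  induction vs with
  | nil => rfl
  | cons v vs ih =>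
    rw [List.foldr_cons, List.foldr_cons, List.foldr_cons, ih]
    unfold k6b_dP
    rw [← Finset.sum_sub_distrib]
    refine Finset.sum_congr rfl fun j _ => ?_
    rw [map_sub, mul_sub]

/-- the sheet `F - L` -/
def k6b_db_sub {n : ℕ} (F : k6b_Sheet n) (L : MvPolynomial (Fin n) ℝ) : k6b_Sheet n :=
  ⟨F.A - L, F.B, F.k⟩

theorem k6b_db_sub_val {n : ℕ} (Dl : MvPolynomial (Fin n) ℝ) (F : k6b_Sheet n)
    (L : MvPolynomial (Fin n) ℝ) (u : Fin n → ℝ) :
    (k6b_db_sub F L).val Dl u = F.val Dl u - eval u L := by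
  unfold k6b_db_sub k6b_Sheet.val
  simp only [map_sub]
  ring

theorem k6b_db_sub_deg {n D D' : ℕ} {Dl : MvPolynomial (Fin n) ℝ} {F : k6b_Sheet n}
    {L : MvPolynomial (Fin n) ℝ} (h : F.Deg D Dl) (hL : L.totalDegree ≤ D') :
    (k6b_db_sub F L).Deg (max D D') Dl :=
  ⟨h.dl.trans (le_max_left _ _),
    (totalDegree_sub _ _).trans (max_le_max h.a hL),
    h.b.trans (le_max_left _ _), h.k.trans (le_max_left _ _)⟩

theorem k6b_db_sub_foldr {n : ℕ} (Dl : MvPolynomial (Fin n) ℝ) (F : k6b_Sheet n)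
    (L : MvPolynomial (Fin n) ℝ) (vs : List (Fin n → ℝ)) (h : L.totalDegree < vs.length) :
    vs.foldr (k6b_Sheet.dv Dl) (k6b_db_sub F L) = vs.foldr (k6b_Sheet.dv Dl) F := by
  have hA : (vs.foldr (k6b_Sheet.dv Dl) (k6b_db_sub F L)).A = (vs.foldr (k6b_Sheet.dv Dl) F).A := by
    rw [k6b_db_foldr_A, k6b_db_foldr_A]
    show vs.foldr k6b_dP (F.A - L) = _
    rw [k6b_db_foldr_sub, k6b_db_foldr_zero L vs h, sub_zero]
  obtain ⟨hB, hk⟩ := k6b_db_foldr_Bk Dl (k6b_db_sub F L) F rfl rfl vs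
  generalize vs.foldr (k6b_Sheet.dv Dl) (k6b_db_sub F L) = X at hA hB hk
  generalize vs.foldr (k6b_Sheet.dv Dl) F = Y at hA hB hk
  cases X; cases Y
  simp only at hA hB hk
  subst hA hB hk
  rfl

/-! ## 3. R1 -/

theorem k6b_db_vol (uc : Fin 3 → ℝ) {r : ℝ} (hr : 0 ≤ r) :
    volume (Metric.closedBall uc r) = ENNReal.ofReal ((2 * r) ^ 3) := by
  rw [Real.volume_pi_closedBall uc hr]
  simp

/-- **R1** -/
theorem k6b_dev_bound : k6b_dev_bound_stmt := by
  intro D q
  obtain ⟨c, hc⟩ := k6b_sq_box 3 (max D 1) q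
  refine ⟨c, ?_⟩
  intro Dl f uc r κ Δ0 S hdeg hr hκ hΔ0 hDl hS vs h2 hq hv u hu
  have hL : (k6b_tay Dl f 1 uc).totalDegree ≤ 1 := ((k6b_jet_calc 3 Dl f 0 uc).2.2.2.2.2 1).1
  have h := hc Dl (k6b_db_sub f (k6b_tay Dl f 1 uc)) uc r κ 1 S Δ0 (Metric.closedBall uc r)
    (k6b_db_sub_deg hdeg hL) hr hκ one_pos le_rfl hΔ0 hDl measurableSet_closedBall subset_rfl
    (by rw [one_mul, k6b_db_vol uc hr.le])
    (fun u hu => by rw [k6b_db_sub_val]; exact hS u hu) vs hq hv u hu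
  rw [k6b_db_sub_foldr Dl f _ vs (by omega), div_one] at h
  exact h

end

end Claimed.Agent.R252
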