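import Claimed.Agent.R252.S6b.EndVolKit

/-!
# Row252, unit S6b, part C1, file 2 (GLUE, proved): `k6b_endpoint_volume_of`.      (sub-architect helper68)
From the five pieces of `EndVolKit.lean` and the hypotheses C1a, C1b, C1c.   (The bounds `rmzNm (T i) ≤ K`, `‖u0‖ ≤ K`, `‖v i‖ ≤ K` are not used.)
-/

set_option autoImplicit false

namespace Claimed.Agent.R252

open MeasureTheory MvPolynomial
open scoped ENNReal BigOperators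

theorem k6b_ev_base {m : ℕ} (u0 : Fin m → ℝ) (v : Fin (m + 1) → Fin m → ℝ) (δ : Fin (m + 1) → ℝ) :
    k6b_base u0 v δ (m + 1) = u0 + ∑ k, δ k • v k := by
  unfold k6b_base
  congr 1
  exact Finset.sum_congr rfl fun k _ => if_pos k.2

/-- the arithmetic of the constants -/
theorem k6b_ev_const (m dd : ℕ) (K σ η ξ ρ dA dB d0 Cm : ℝ) (hK : 1 ≤ K) (hσ : 0 < σ) (hη : 0 < η) (hη1 : η ≤ 1) (hξ : 0 < ξ) (hρ : 0 < ρ)
    (hdA : 0 < dA) (hd0 : 0 < d0) (hAB : d0 * dA = dB) (hB : 1 ≤ K * dB) (hCm0 : 0 < Cm) (hdd : 1 ≤ dd)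
    (hCm : Cm ≤ (((dd : ℝ) + 1) ^ 2 * (8 * ((dd : ℝ) + 1) * 2 ^ (m + 1)) ^ dd) ^ (m + 1) * ((η / 2 ^ (m + 1))⁻¹) ^ ((m + 1) * dd)) :
    (2 * ξ) ^ m / dA * (2 * dd * ρ / (d0 * σ / (dd * Cm)))
      ≤ ((2 ^ (m + 1) * dd ^ 2 * ((dd + 1) ^ 2 * (8 * (dd + 1) * 2 ^ (m + 1)) ^ dd) ^ (m + 1) * (2 ^ (m + 1)) ^ ((m + 1) * dd) + (m + 1) * dd + 1 : ℕ) : ℝ)
        * (K / η) ^ (2 ^ (m + 1) * dd ^ 2 * ((dd + 1) ^ 2 * (8 * (dd + 1) * 2 ^ (m + 1)) ^ dd) ^ (m + 1) * (2 ^ (m + 1)) ^ ((m + 1) * dd) + (m + 1) * dd + 1)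
        * ξ ^ m * ρ / σ := by
  obtain ⟨c1, hc1⟩ : ∃ c1 : ℕ, c1 = ((dd + 1) ^ 2 * (8 * (dd + 1) * 2 ^ (m + 1)) ^ dd) ^ (m + 1) := ⟨_, rfl⟩
  obtain ⟨e, he⟩ : ∃ e : ℕ, e = (m + 1) * dd := ⟨_, rfl⟩
  obtain ⟨c0, hc0⟩ : ∃ c0 : ℕ, c0 = 2 ^ (m + 1) * dd ^ 2 * c1 * (2 ^ (m + 1)) ^ e := ⟨_, rfl⟩
  rw [← hc1, ← he, ← hc0]
  have hc1' : (((dd : ℝ) + 1) ^ 2 * (8 * ((dd : ℝ) + 1) * 2 ^ (m + 1)) ^ dd) ^ (m + 1) = (c1 : ℝ) := by
    rw [hc1]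
    push_cast
    ring
  rw [hc1', ← he] at hCm
  have hdB : 0 < dB := by rw [← hAB]; positivity
  have hK0 : 0 < K := by linarith
  have hdd0 : (0 : ℝ) < dd := by exact_mod_cast hdd
  have e1 : (2 * ξ) ^ m / dA * (2 * dd * ρ / (d0 * σ / (dd * Cm))) = 2 ^ (m + 1) * (dd : ℝ) ^ 2 * Cm * (1 / dB) * (ξ ^ m * ρ / σ) := by
    rw [← hAB, mul_pow, pow_succ]
    field_simp
  have h1 : 1 / dB ≤ K := by
    rw [div_le_iff₀ hdB]
    exact hB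
  have h2 : ((η / 2 ^ (m + 1))⁻¹) ^ e = ((2 : ℝ) ^ (m + 1)) ^ e * (1 / η) ^ e := by
    rw [← mul_pow]
    congr 1
    field_simp
  rw [h2] at hCm
  have hη' : 1 ≤ 1 / η := by
    rw [le_div_iff₀ hη]
    linarith
  have h3 : K * (1 / η) ^ e ≤ (K / η) ^ (c0 + e + 1) := by
    have : K / η = K * (1 / η) := by ring
    rw [this, mul_pow]
    have a1 : K ≤ K ^ (c0 + e + 1) := le_self_pow₀ hK (by omega)
    have a2 : (1 / η) ^ e ≤ (1 / η) ^ (c0 + e + 1) := pow_le_pow_right₀ hη' (by omega)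
    exact mul_le_mul a1 a2 (by positivity) (by positivity)
  have hX : 0 ≤ ξ ^ m * ρ / σ := by positivity
  rw [e1]
  have h4 : 2 ^ (m + 1) * (dd : ℝ) ^ 2 * Cm * (1 / dB) ≤ ((c0 + e + 1 : ℕ) : ℝ) * (K / η) ^ (c0 + e + 1) := by
    calc 2 ^ (m + 1) * (dd : ℝ) ^ 2 * Cm * (1 / dB) ≤ 2 ^ (m + 1) * (dd : ℝ) ^ 2 * ((c1 : ℝ) * (((2 : ℝ) ^ (m + 1)) ^ e * (1 / η) ^ e)) * K := by
          gcongr
      _ = (c0 : ℝ) * (K * (1 / η) ^ e) := by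
          rw [hc0]
          push_cast
          ring
      _ ≤ (c0 : ℝ) * (K / η) ^ (c0 + e + 1) := by gcongr
      _ ≤ ((c0 + e + 1 : ℕ) : ℝ) * (K / η) ^ (c0 + e + 1) := by
          have : (c0 : ℝ) ≤ ((c0 + e + 1 : ℕ) : ℝ) := by exact_mod_cast (by omega : c0 ≤ c0 + e + 1)
          gcongr
  calc 2 ^ (m + 1) * (dd : ℝ) ^ 2 * Cm * (1 / dB) * (ξ ^ m * ρ / σ) ≤ ((c0 + e + 1 : ℕ) : ℝ) * (K / η) ^ (c0 + e + 1) * (ξ ^ m * ρ / σ) :=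
        mul_le_mul_of_nonneg_right h4 hX
    _ = _ := by ring

theorem k6b_endpoint_volume_of (h1 : k6b_mono_pieces_stmt) (h2 : k6b_height_poly_stmt) (h3 : k6b_height_hess_stmt) : k6b_endpoint_volume_stmt := by
  intro m D hm
  refine ⟨2 ^ (m + 1) * (D + 1) ^ 2 * (((D + 1) + 1) ^ 2 * (8 * ((D + 1) + 1) * 2 ^ (m + 1)) ^ (D + 1)) ^ (m + 1) * (2 ^ (m + 1)) ^ ((m + 1) * (D + 1))
    + (m + 1) * (D + 1) + 1, ?_⟩
  intro K σ η ξ ρ T u0 v hK hσ hη hη1 hξ hρ hTd _ _ hG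
  obtain ⟨R, hRd, hR⟩ := h2 m (m + 1) D T u0 v hTd
  have hK0 : 0 < K := by linarith
  have hA0 : 0 < |(k6b_matA v).det| := by
    by_contra h
    have : |(k6b_matA v).det| = 0 := le_antisymm (not_lt.1 h) (abs_nonneg _)
    have h' := hG.detA
    rw [this, mul_zero] at h'
    linarith
  have hA : (k6b_matA v).det ≠ 0 := abs_pos.1 hA0
  have hB0 : 0 < |(k6b_matB v).det| := by
    by_contra h
    have : |(k6b_matB v).det| = 0 := le_antisymm (not_lt.1 h) (abs_nonneg _)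
    have h' := hG.detB
    rw [this, mul_zero] at h'
    linarith
  obtain ⟨d, hd1, hd0, hdAB⟩ := k6b_ev_kernel (by omega) v hA
  have hμdeg : ∀ i, (k6b_dirD d R).degreeOf i ≤ D + 1 := k6b_ev_dirD_deg d R (D + 1) hRd
  have hess := k6b_ev_hess h3 (by omega) T u0 v R hR d hd0
  have hd0pos : 0 < |d 0| := by
    by_contra h
    have : |d 0| = 0 := le_antisymm (not_lt.1 h) (abs_nonneg _)
    rw [this, zero_mul] at hdAB
    exact hB0.ne hdAB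
  have hs : 0 < |d 0| * σ := by positivity
  have hsle : |d 0| * σ ≤ |eval 0 (pderiv 1 (k6b_dirD d R))| := by
    rw [hess, abs_mul]
    exact mul_le_mul_of_nonneg_left hG.skw (abs_nonneg _)
  have hθ : 0 < η / 2 ^ (m + 1) := by positivity
  have hCm := rmz_Cm_pos (m + 1) (D + 1) (η / 2 ^ (m + 1)) hθ
  have ht : 0 < |d 0| * σ / (((D + 1 : ℕ) : ℝ) * rmzCm (m + 1) (D + 1) (η / 2 ^ (m + 1))) := by positivity
  refine ⟨{δ | |eval δ (k6b_dirD d R)| < |d 0| * σ / (((D + 1 : ℕ) : ℝ) * rmzCm (m + 1) (D + 1) (η / 2 ^ (m + 1)))}, ?_,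
    k6b_ev_bad (m + 1) (D + 1) (by omega) (k6b_dirD d R) hμdeg 1 _ η hs hη hsle, ?_⟩
  · exact (isOpen_lt (continuous_abs.comp (MvPolynomial.continuous_eval _)) continuous_const).measurableSet
  intro cu cx
  obtain ⟨t, htdef⟩ : ∃ t : ℝ, t = |d 0| * σ / (((D + 1 : ℕ) : ℝ) * rmzCm (m + 1) (D + 1) (η / 2 ^ (m + 1))) := ⟨_, rfl⟩
  rw [← htdef] at ht ⊢
  have hZ : MeasurableSet {δ : Fin (m + 1) → ℝ | t ≤ |eval δ (k6b_dirD d R)| ∧ |eval δ R - cx| ≤ ρ} :=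
    ((isClosed_le continuous_const (continuous_abs.comp (MvPolynomial.continuous_eval _))).inter
      (isClosed_le (continuous_abs.comp ((MvPolynomial.continuous_eval _).sub continuous_const)) continuous_const)).measurableSet
  have hb : ∀ x : Fin (m + 1) → ℝ, volume {s : ℝ | x + s • d ∈ {δ : Fin (m + 1) → ℝ | t ≤ |eval δ (k6b_dirD d R)| ∧ |eval δ R - cx| ≤ ρ}}
      ≤ ENNReal.ofReal (2 * ((D + 1 : ℕ) : ℝ) * ρ / t) := by
    intro x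
    obtain ⟨p, hp1, hp2, hp3⟩ := k6b_ev_line R x d
    refine le_trans (measure_mono ?_) (h1 (D + 1) p (hp1.trans hRd) t cx ρ ht hρ.le)
    intro s hs
    exact ⟨by rw [hp3]; exact hs.1, by rw [hp2]; exact hs.2⟩
  have hF := k6b_ev_fubini v d hd1 hd0 hA _ hZ _ hb (cu - u0) ξ hξ.le
  refine (measure_mono ?_).trans (hF.trans ?_)
  · rintro δ ⟨-, g2, g3, g4⟩
    refine ⟨⟨not_lt.1 g2, by rw [hR]; exact g4⟩, ?_⟩
    rw [k6b_ev_base] at g3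
    have e : ∑ k, δ k • v k - (cu - u0) = u0 + ∑ k, δ k • v k - cu := by abel
    show ‖∑ k, δ k • v k - (cu - u0)‖ ≤ ξ
    rw [e]
    exact g3
  · rw [← ENNReal.ofReal_mul (by positivity)]
    apply ENNReal.ofReal_le_ofReal
    rw [htdef]
    have := k6b_ev_const m (D + 1) K σ η ξ ρ _ _ _ _ hK hσ hη hη1 hξ hρ hA0 hd0pos hdAB hG.detB hCm (by omega)
      (by
        have := rmz_Cm_le (m + 1) (D + 1) (η / 2 ^ (m + 1)) hθ
        exact this)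
    exact this

end Claimed.Agent.R252
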