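import Claimed.Agent.R252.S6b.SelectDefs

/-!
# Row252, unit S6b, part E, leaf S4: four pairwise independent planar directions from avoidance      (helper250)
`k6b_gp4 : k6b_gp4_stmt`.
-/

set_option autoImplicit false

namespace Claimed.Agent.R252

open MeasureTheory MvPolynomial
open scoped ENNReal BigOperators

noncomputable section

/-- sup norm in the plane -/
def k6b_g4n (x : Fin 2 → ℝ) : ℝ := max |x 0| |x 1|

/-- the functionals -/
def k6b_g4a (k j : Fin 4) (V : Fin 4 → Fin 2 → ℝ) : Fin 2 → ℝ :=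
  if j < k ∧ k6b_g4n (V j) ≠ 0 then ![-(V j 1) / k6b_g4n (V j), V j 0 / k6b_g4n (V j)] else ![1, 0]

theorem k6b_g4_eqns_cite : True := by
  have := @k6b_g4n.eq_1
  have := @k6b_g4a.eq_1
  trivial

theorem k6b_g4n_nonneg (x : Fin 2 → ℝ) : 0 ≤ k6b_g4n x := le_max_of_le_left (abs_nonneg _)

theorem k6b_g4a_local (k j : Fin 4) (V V' : Fin 4 → Fin 2 → ℝ) (h : ∀ i, i < k → V i = V' i) :
    k6b_g4a k j V = k6b_g4a k j V' := by
  unfold k6b_g4a
  by_cases hjk : j < k
  · rw [h j hjk]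
  · rw [if_neg (fun hh => hjk hh.1), if_neg (fun hh => hjk hh.1)]

theorem k6b_g4a_norm (k j : Fin 4) (V : Fin 4 → Fin 2 → ℝ) :
    (∃ i, 1 ≤ |k6b_g4a k j V i|) ∧ ∀ i, |k6b_g4a k j V i| ≤ 1 := by
  unfold k6b_g4a
  split_ifs with h
  · have hn : 0 < k6b_g4n (V j) := lt_of_le_of_ne (k6b_g4n_nonneg _) (Ne.symm h.2)
    have h0 : |V j 0| ≤ k6b_g4n (V j) := le_max_left _ _
    have h1 : |V j 1| ≤ k6b_g4n (V j) := le_max_right _ _
    constructor
    · rcases max_choice |V j 0| |V j 1| with hm | hm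
      · refine ⟨1, ?_⟩
        simp only [Matrix.cons_val_one, Matrix.cons_val_zero]
        rw [abs_div, abs_of_pos hn, le_div_iff₀ hn, one_mul]
        exact le_of_eq hm
      · refine ⟨0, ?_⟩
        simp only [Matrix.cons_val_zero]
        rw [abs_div, abs_neg, abs_of_pos hn, le_div_iff₀ hn, one_mul]
        exact le_of_eq hm
    · intro i
      fin_cases i
      · simp only [Fin.zero_eta, Matrix.cons_val_zero]
        rw [abs_div, abs_neg, abs_of_pos hn, div_le_one hn]
        exact h1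
      · simp only [Fin.mk_one, Matrix.cons_val_one, Matrix.cons_val_zero]
        rw [abs_div, abs_of_pos hn, div_le_one hn]
        exact h0
  · constructor
    · exact ⟨0, by simp⟩
    · intro i
      fin_cases i <;> simp

theorem k6b_g4_low (V : Fin 4 → Fin 2 → ℝ) (w : ℝ) (hw : 0 < w)
    (hav : ∀ k j, w < |k6b_g4a k j V ⬝ᵥ V k|) (j k : Fin 4) (hjk : j < k) :
    w ^ 2 < |V j 0 * V k 1 - V j 1 * V k 0| := by
  have h1 : w < k6b_g4n (V j) := by
    have h := hav j j
    unfold k6b_g4a at h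
    rw [if_neg (fun hh => lt_irrefl _ hh.1)] at h
    simp only [dotProduct, Fin.sum_univ_two, Matrix.cons_val_zero, Matrix.cons_val_one, one_mul, zero_mul,
      add_zero] at h
    exact lt_of_lt_of_le h (le_max_left _ _)
  have hn : 0 < k6b_g4n (V j) := hw.trans h1
  have h := hav k j
  unfold k6b_g4a at h
  rw [if_pos ⟨hjk, hn.ne'⟩] at h
  simp only [dotProduct, Fin.sum_univ_two, Matrix.cons_val_zero, Matrix.cons_val_one] at h
  have e : -(V j 1) / k6b_g4n (V j) * V k 0 + V j 0 / k6b_g4n (V j) * V k 1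
      = (V j 0 * V k 1 - V j 1 * V k 0) / k6b_g4n (V j) := by
    field_simp
    ring
  rw [e, abs_div, abs_of_pos hn, lt_div_iff₀ hn] at h
  calc w ^ 2 = w * w := sq w
    _ < w * k6b_g4n (V j) := mul_lt_mul_of_pos_left h1 hw
    _ < _ := h

theorem k6b_gp4 : k6b_gp4_stmt := by
  refine ⟨2, k6b_g4a, k6b_g4a_local, k6b_g4a_norm, ?_⟩
  intro V K w hK hw hw1 _ hav i j hij
  have key : ∀ i j : Fin 4, i < j → 1 ≤ ((2 : ℕ) : ℝ) * (K / w) ^ 2 * |V i 0 * V j 1 - V i 1 * V j 0| := by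
    intro i j hlt
    have h := k6b_g4_low V w hw hav i j hlt
    have h2 : (1 / w) ^ 2 ≤ (K / w) ^ 2 := by
      refine pow_le_pow_left₀ (by positivity) ?_ 2
      exact div_le_div_of_nonneg_right hK hw.le
    have h3 : 1 ≤ (1 / w) ^ 2 * |V i 0 * V j 1 - V i 1 * V j 0| := by
      rw [div_pow, one_pow, div_mul_eq_mul_div, one_mul, le_div_iff₀ (by positivity), one_mul]
      exact h.le
    have h4 : (1 / w) ^ 2 * |V i 0 * V j 1 - V i 1 * V j 0| ≤ (K / w) ^ 2 * |V i 0 * V j 1 - V i 1 * V j 0| :=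
      mul_le_mul_of_nonneg_right h2 (abs_nonneg _)
    have h5 : 0 ≤ (K / w) ^ 2 * |V i 0 * V j 1 - V i 1 * V j 0| := by positivity
    push_cast
    nlinarith
  rcases lt_or_gt_of_ne hij with h | h
  · exact key i j h
  · have := key j i h
    have e : |V i 0 * V j 1 - V i 1 * V j 0| = |V j 0 * V i 1 - V j 1 * V i 0| := by
      rw [← abs_neg]; congr 1; ring
    rw [e]; exact this

end

end Claimed.Agent.R252
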