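import Claimed.Agent.R252.S6b.SelectDefs

/-!
# Row252, unit S6b, leaf S5: seven directions of `ℝ³` in general position from avoidance      (helper60)

`k6b_gp7 : k6b_gp7_stmt`.   The 22 slots: a table `k6b_g7tab : Fin 22 → Fin 7 × Fin 7`; the slot `(6,6)` is the default `e_0`; `(i,i)` is the row `(v_2, 0, -v_0)` of `x ↦ v × x`, `v = V i` (it contains `v_0`, and `|v_0| > w` by the
slot `e_0`, so no choice of a largest entry is needed); `(i,j)`, `i < j`, is `V i × V j`; every vector is normalised in the sup norm.   `|det| > w³`, `c = 3`.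
-/

set_option autoImplicit false

namespace Claimed.Agent.R252

open scoped BigOperators

noncomputable section

/-- normalisation in the sup norm, default `e_0` -/
def k6b_g7nz (u : Fin 3 → ℝ) : Fin 3 → ℝ := if u = 0 then Pi.single 0 1 else ‖u‖⁻¹ • u

/-- the row `(v_2, 0, -v_0)` -/
def k6b_g7row (v : Fin 3 → ℝ) : Fin 3 → ℝ := ![v 2, 0, -v 0]

/-- the cross product -/
def k6b_g7cr (v x : Fin 3 → ℝ) : Fin 3 → ℝ := ![v 1 * x 2 - v 2 * x 1, v 2 * x 0 - v 0 * x 2, v 0 * x 1 - v 1 * x 0]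

/-- the table of the slots -/
def k6b_g7tab : Fin 22 → Fin 7 × Fin 7 :=
  ![(6, 6), (0, 0), (1, 1), (2, 2), (3, 3), (4, 4), (5, 5), (0, 1), (0, 2), (0, 3), (0, 4), (0, 5), (1, 2), (1, 3), (1, 4), (1, 5),
    (2, 3), (2, 4), (2, 5), (3, 4), (3, 5), (4, 5)]

/-- the functionals -/
def k6b_g7a (k : Fin 7) (s : Fin 22) (V : Fin 7 → Fin 3 → ℝ) : Fin 3 → ℝ :=
  if (k6b_g7tab s).2 < k then
    (if (k6b_g7tab s).1 = (k6b_g7tab s).2 then k6b_g7nz (k6b_g7row (V (k6b_g7tab s).1))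
      else k6b_g7nz (k6b_g7cr (V (k6b_g7tab s).1) (V (k6b_g7tab s).2)))
  else Pi.single 0 1

theorem k6b_g7_eqns_cite : True := by
  have := @k6b_g7nz.eq_1; have := @k6b_g7row.eq_1; have := @k6b_g7cr.eq_1; have := @k6b_g7tab.eq_1; have := @k6b_g7a.eq_1; trivial

theorem k6b_g7_e0 : (∃ i, 1 ≤ |(Pi.single 0 1 : Fin 3 → ℝ) i|) ∧ ∀ i, |(Pi.single 0 1 : Fin 3 → ℝ) i| ≤ 1 := by
  refine ⟨⟨0, by simp⟩, fun i => ?_⟩
  by_cases h : i = 0
  · subst h; simp
  · rw [Pi.single_eq_of_ne h]; simp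

theorem k6b_g7nz_norm (u : Fin 3 → ℝ) : (∃ i, 1 ≤ |k6b_g7nz u i|) ∧ ∀ i, |k6b_g7nz u i| ≤ 1 := by
  unfold k6b_g7nz
  split_ifs with h
  · exact k6b_g7_e0
  · have hn : 0 < ‖u‖ := norm_pos_iff.2 h
    refine ⟨?_, fun i => ?_⟩
    · obtain ⟨i, hi⟩ : ∃ i, ‖u‖ ≤ |u i| := by
        by_contra hc
        push Not at hc
        have : ‖u‖ < ‖u‖ := (pi_norm_lt_iff hn).2 fun i => by rw [Real.norm_eq_abs]; exact hc i
        exact lt_irrefl _ this
      refine ⟨i, ?_⟩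
      rw [Pi.smul_apply, smul_eq_mul, abs_mul, abs_of_pos (inv_pos.2 hn), ← div_eq_inv_mul, le_div_iff₀ hn, one_mul]
      exact hi
    · rw [Pi.smul_apply, smul_eq_mul, abs_mul, abs_of_pos (inv_pos.2 hn), ← div_eq_inv_mul, div_le_iff₀ hn, one_mul]
      exact norm_le_pi_norm u i

/-- what avoidance of a normalised functional gives -/
theorem k6b_g7nz_gain {u x : Fin 3 → ℝ} {w b : ℝ} (i : Fin 3) (hw : 0 < w) (hb : 0 < b) (hu : b < |u i|) (h : w < |k6b_g7nz u ⬝ᵥ x|) :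
    w * b < |u ⬝ᵥ x| := by
  have h0 : u ≠ 0 := by
    rintro rfl
    simp at hu
    linarith
  have hn : 0 < ‖u‖ := norm_pos_iff.2 h0
  unfold k6b_g7nz at h
  rw [if_neg h0, smul_dotProduct, smul_eq_mul, abs_mul, abs_of_pos (inv_pos.2 hn), ← div_eq_inv_mul, lt_div_iff₀ hn] at h
  have h1 : |u i| ≤ ‖u‖ := norm_le_pi_norm u i
  nlinarith

theorem k6b_g7_tab_le : ∀ s, (k6b_g7tab s).1 ≤ (k6b_g7tab s).2 := by decide

theorem k6b_g7_tab_pt : ∀ i : Fin 7, i < 6 → ∃ s, k6b_g7tab s = (i, i) := by decide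

theorem k6b_g7_tab_pr : ∀ i j : Fin 7, i < j → j < 6 → ∃ s, k6b_g7tab s = (i, j) := by decide

theorem k6b_g7_det (a b c : Fin 3 → ℝ) : (k6b_frame a b c).det = k6b_g7cr a b ⬝ᵥ c := by
  unfold k6b_frame k6b_g7cr
  rw [Matrix.det_transpose, Matrix.det_fin_three]
  simp [dotProduct, Fin.sum_univ_three]
  ring

theorem k6b_g7_swap12 (a b c : Fin 3 → ℝ) : |(k6b_frame a b c).det| = |(k6b_frame b a c).det| := by
  rw [← abs_neg]
  congr 1
  rw [k6b_g7_det, k6b_g7_det]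
  unfold k6b_g7cr
  simp [dotProduct, Fin.sum_univ_three]
  ring

theorem k6b_g7_swap23 (a b c : Fin 3 → ℝ) : |(k6b_frame a b c).det| = |(k6b_frame a c b).det| := by
  rw [← abs_neg]
  congr 1
  rw [k6b_g7_det, k6b_g7_det]
  unfold k6b_g7cr
  simp [dotProduct, Fin.sum_univ_three]
  ring

/-- the ordered case -/
theorem k6b_g7_ord (V : Fin 7 → Fin 3 → ℝ) (w : ℝ) (hw : 0 < w) (h : ∀ k s, w < |k6b_g7a k s V ⬝ᵥ V k|) (i j k : Fin 7) (hij : i < j) (hjk : j < k) :
    w ^ 3 < |(k6b_frame (V i) (V j) (V k)).det| := by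
  have h6 : ∀ k : Fin 7, k ≤ 6 := by decide
  have hj6 : j < 6 := lt_of_lt_of_le hjk (h6 k)
  have hi6 : i < 6 := hij.trans hj6
  -- the first coordinate
  have h1 : w < |V i 0| := by
    have := h i 0
    unfold k6b_g7a at this
    rw [if_neg (by
      have : (k6b_g7tab 0).2 = 6 := rfl
      rw [this]
      exact not_lt.2 (h6 i))] at this
    simpa using this
  -- the row
  have h2 : w * w < |k6b_g7cr (V i) (V j) 1| := by
    obtain ⟨s, hs⟩ := k6b_g7_tab_pt i hi6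
    have := h j s
    unfold k6b_g7a at this
    rw [hs, if_pos hij, if_pos rfl] at this
    have h3 := k6b_g7nz_gain (u := k6b_g7row (V i)) (b := w) 2 hw hw (by simpa [k6b_g7row] using h1) this
    have e : k6b_g7row (V i) ⬝ᵥ V j = k6b_g7cr (V i) (V j) 1 := by
      unfold k6b_g7row k6b_g7cr
      simp [dotProduct, Fin.sum_univ_three]
      ring
    rwa [e] at h3
  obtain ⟨s, hs⟩ := k6b_g7_tab_pr i j hij hj6
  have := h k s
  unfold k6b_g7a at this
  rw [hs, if_pos hjk, if_neg (ne_of_lt hij)] at this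
  have h3 := k6b_g7nz_gain (b := w * w) 1 hw (mul_pos hw hw) h2 this
  rw [k6b_g7_det]
  calc w ^ 3 = w * (w * w) := by ring
    _ < _ := h3

theorem k6b_gp7 : k6b_gp7_stmt := by
  refine ⟨3, k6b_g7a, ?_, ?_, ?_⟩
  · intro k s V V' hV
    unfold k6b_g7a
    by_cases hk : (k6b_g7tab s).2 < k
    · rw [if_pos hk, if_pos hk, hV _ hk, hV _ (lt_of_le_of_lt (k6b_g7_tab_le s) hk)]
    · rw [if_neg hk, if_neg hk]
  · intro k s V
    unfold k6b_g7a
    split_ifs
    · exact k6b_g7nz_norm _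
    · exact k6b_g7nz_norm _
    · exact k6b_g7_e0
  · intro V K w hK hw hw1 hV h
    have hKw : 1 ≤ K / w := by
      rw [le_div_iff₀ hw]
      linarith
    have hKK : K ≤ K / w := by
      rw [le_div_iff₀ hw]
      nlinarith
    have hA : (K / w) ^ 3 ≤ ((3 : ℕ) : ℝ) * (K / w) ^ 3 := by
      have : 0 ≤ (K / w) ^ 3 := by positivity
      push_cast
      linarith
    have hpow : K / w ≤ (K / w) ^ 3 := by
      calc K / w = (K / w) ^ 1 := (pow_one _).symm
        _ ≤ (K / w) ^ 3 := pow_le_pow_right₀ hKw (by norm_num)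
    have hinv : (((3 : ℕ) : ℝ) * (K / w) ^ 3)⁻¹ ≤ w ^ 3 := by
      have h1 : (1 / w) ^ 3 ≤ ((3 : ℕ) : ℝ) * (K / w) ^ 3 := by
        refine le_trans ?_ hA
        exact pow_le_pow_left₀ (by positivity) (div_le_div_of_nonneg_right hK hw.le) 3
      have h2 : 0 < (1 / w) ^ 3 := by positivity
      calc (((3 : ℕ) : ℝ) * (K / w) ^ 3)⁻¹ ≤ ((1 / w) ^ 3)⁻¹ := inv_anti₀ h2 h1
        _ = w ^ 3 := by
          rw [one_div, inv_pow, inv_inv]
    have ho := k6b_g7_ord V w hw h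
    refine ⟨fun i j => ?_, fun i j k hij hjk hik => le_trans hinv (le_of_lt ?_)⟩
    · calc |V i j| ≤ ‖V i‖ := norm_le_pi_norm (V i) j
        _ ≤ K := hV i
        _ ≤ _ := hKK.trans (hpow.trans hA)
    · rcases lt_or_gt_of_ne hij with a1 | a1 <;> rcases lt_or_gt_of_ne hjk with a2 | a2 <;> rcases lt_or_gt_of_ne hik with a3 | a3
      · exact ho i j k a1 a2
      · exact absurd (a1.trans a2) (not_lt.2 a3.le)
      · -- i < k < j
        rw [k6b_g7_swap23]
        exact ho i k j a3 a2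
      · -- k < i < j
        rw [k6b_g7_swap23, k6b_g7_swap12]
        exact ho k i j a3 a1
      · -- j < i < k
        rw [k6b_g7_swap12]
        exact ho j i k a1 a3
      · -- j < k < i
        rw [k6b_g7_swap12, k6b_g7_swap23]
        exact ho j k i a2 a3
      · exact absurd (a2.trans a1) (not_lt.2 a3.le)
      · -- k < j < i
        rw [k6b_g7_swap12, k6b_g7_swap23, k6b_g7_swap12]
        exact ho k j i a2 a1

end

end Claimed.Agent.R252
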