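import Claimed.Agent.R252.S6b.Prune0

/-!
# Row252, unit S6b, part D: THE HEAVY INTERCEPT GROUP (leaf L-252-S6b-G).      (helper140)

`k6b_heavy_group_of : k6b_prune0_stmt → k6b_prune_stmt → k6b_cells_stmt → k6b_heavy_group_stmt`.
Plan = docstring of `k6b_heavy_group_stmt` (`GroupDefs.lean`).  Constants: `c = 10 c₁ 128^k₁ + D + 2`, `k = 2 k₁ + D + 1`, `(c₁, k₁)` from `k6b_cells_stmt m ε`.
A. polynomials are Lipschitz on boxes (`D K^D rmzNm P`);  B. floors;  C. a joint cell pays for `≤ 5` groups;  D. pigeonhole;  E. prior weight (Markov + Fubini);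
F. numerals in `ℝ≥0∞`;  G. intercepts;  H. the assembly.
-/

set_option autoImplicit false

namespace Claimed.Agent.R252

open MeasureTheory MvPolynomial
open scoped ENNReal BigOperators

noncomputable section

/-! ## A. Polynomials are Lipschitz on boxes -/

theorem k6b_hg_pow_sub (a b L δ : ℝ) (hL : 1 ≤ L) (ha : |a| ≤ L) (hb : |b| ≤ L) (hab : |a - b| ≤ δ) (n : ℕ) :
    |a ^ n - b ^ n| ≤ n * L ^ n * δ := by
  have hδ : 0 ≤ δ := (abs_nonneg _).trans hab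
  induction n with
  | zero => simp
  | succ n ih =>
    have e : a ^ (n + 1) - b ^ (n + 1) = (a - b) * a ^ n + b * (a ^ n - b ^ n) := by ring
    rw [e]
    have h1 : |(a - b) * a ^ n| ≤ δ * L ^ n := by
      rw [abs_mul, abs_pow]
      exact mul_le_mul hab (pow_le_pow_left₀ (abs_nonneg _) ha n) (by positivity) hδ
    have h2 : |b * (a ^ n - b ^ n)| ≤ L * (n * L ^ n * δ) := by
      rw [abs_mul]
      exact mul_le_mul hb ih (abs_nonneg _) (by linarith)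
    have h3 : δ * L ^ n ≤ δ * L ^ (n + 1) := by
      apply mul_le_mul_of_nonneg_left _ hδ
      exact pow_le_pow_right₀ hL (Nat.le_succ n)
    calc |(a - b) * a ^ n + b * (a ^ n - b ^ n)| ≤ |(a - b) * a ^ n| + |b * (a ^ n - b ^ n)| := abs_add_le _ _
      _ ≤ δ * L ^ (n + 1) + L * (n * L ^ n * δ) := by linarith
      _ = ((n + 1 : ℕ) : ℝ) * L ^ (n + 1) * δ := by push_cast; ring

theorem k6b_hg_prod_sub {m : ℕ} (μ : Fin m → ℕ) (u u' : Fin m → ℝ) (L δ : ℝ) (hL : 1 ≤ L) (hu : ∀ i, |u i| ≤ L)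
    (hu' : ∀ i, |u' i| ≤ L) (hd : ∀ i, |u i - u' i| ≤ δ) (hδ : 0 ≤ δ) (s : Finset (Fin m)) :
    |∏ i ∈ s, u i ^ μ i - ∏ i ∈ s, u' i ^ μ i| ≤ ((∑ i ∈ s, μ i : ℕ) : ℝ) * L ^ (∑ i ∈ s, μ i) * δ ∧
      |∏ i ∈ s, u i ^ μ i| ≤ L ^ (∑ i ∈ s, μ i) := by
  have hL0 : 0 ≤ L := by linarith
  induction s using Finset.induction_on with
  | empty => simp
  | insert i s hi ih =>
    rw [Finset.prod_insert hi, Finset.prod_insert hi, Finset.sum_insert hi]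
    obtain ⟨ih1, ih2⟩ := ih
    have hx : |u i ^ μ i - u' i ^ μ i| ≤ (μ i : ℝ) * L ^ μ i * δ := k6b_hg_pow_sub _ _ L δ hL (hu i) (hu' i) (hd i) _
    have hy : |u' i ^ μ i| ≤ L ^ μ i := by
      rw [abs_pow]; exact pow_le_pow_left₀ (abs_nonneg _) (hu' i) _
    have hx' : |u i ^ μ i| ≤ L ^ μ i := by
      rw [abs_pow]; exact pow_le_pow_left₀ (abs_nonneg _) (hu i) _
    constructor
    · have e : u i ^ μ i * ∏ j ∈ s, u j ^ μ j - u' i ^ μ i * ∏ j ∈ s, u' j ^ μ j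
          = (u i ^ μ i - u' i ^ μ i) * ∏ j ∈ s, u j ^ μ j + u' i ^ μ i * (∏ j ∈ s, u j ^ μ j - ∏ j ∈ s, u' j ^ μ j) := by ring
      rw [e]
      have h1 : |(u i ^ μ i - u' i ^ μ i) * ∏ j ∈ s, u j ^ μ j| ≤ ((μ i : ℝ) * L ^ μ i * δ) * L ^ (∑ j ∈ s, μ j) := by
        rw [abs_mul]
        exact mul_le_mul hx ih2 (abs_nonneg _) (by positivity)
      have h2 : |u' i ^ μ i * (∏ j ∈ s, u j ^ μ j - ∏ j ∈ s, u' j ^ μ j)|
          ≤ L ^ μ i * (((∑ j ∈ s, μ j : ℕ) : ℝ) * L ^ (∑ j ∈ s, μ j) * δ) := by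
        rw [abs_mul]
        exact mul_le_mul hy ih1 (abs_nonneg _) (by positivity)
      refine (abs_add_le _ _).trans ((add_le_add h1 h2).trans (le_of_eq ?_))
      push_cast
      rw [pow_add]
      ring
    · rw [abs_mul, pow_add]
      exact mul_le_mul hx' ih2 (abs_nonneg _) (by positivity)

theorem k6b_hg_eval_sub {m : ℕ} (D : ℕ) (P : MvPolynomial (Fin m) ℝ) (hP : P.totalDegree ≤ D) (u u' : Fin m → ℝ) (L δ : ℝ)
    (hL : 1 ≤ L) (hu : ∀ i, |u i| ≤ L) (hu' : ∀ i, |u' i| ≤ L) (hd : ∀ i, |u i - u' i| ≤ δ) (hδ : 0 ≤ δ) :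
    |eval u P - eval u' P| ≤ D * L ^ D * δ * rmzNm P := by
  rw [MvPolynomial.eval_eq', MvPolynomial.eval_eq', ← Finset.sum_sub_distrib]
  unfold rmzNm
  rw [Finset.mul_sum]
  refine (Finset.abs_sum_le_sum_abs _ _).trans (Finset.sum_le_sum fun μ hμ => ?_)
  rw [← mul_sub, abs_mul, mul_comm]
  refine mul_le_mul_of_nonneg_right ?_ (abs_nonneg _)
  have h1 := (k6b_hg_prod_sub μ u u' L δ hL hu hu' hd hδ Finset.univ).1
  have h2 : ∑ i, μ i ≤ D := by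
    have := MvPolynomial.le_totalDegree hμ
    rw [Finsupp.sum_fintype _ _ (fun _ => rfl)] at this
    exact this.trans hP
  refine h1.trans ?_
  have h3 : ((∑ i, μ i : ℕ) : ℝ) ≤ D := by exact_mod_cast h2
  have h4 : L ^ (∑ i, μ i) ≤ L ^ D := pow_le_pow_right₀ hL h2
  have hL0 : 0 ≤ L := by linarith
  gcongr

/-! ## B. Floors -/

theorem k6b_hg_floor_two (A : Set ℝ) (hA : ∀ a ∈ A, ∀ b ∈ A, |a - b| ≤ 1) :
    ∃ L : Finset ℤ, L.card ≤ 2 ∧ ∀ a ∈ A, ⌊a⌋ ∈ L := by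
  by_cases hne : A.Nonempty
  · obtain ⟨a0, ha0⟩ := hne
    by_cases hlow : ∃ a ∈ A, ⌊a⌋ < ⌊a0⌋
    · obtain ⟨a1, ha1, hlt⟩ := hlow
      refine ⟨{⌊a0⌋ - 1, ⌊a0⌋}, Finset.card_le_two, fun a ha => ?_⟩
      have h1 := abs_le.1 (hA a ha a0 ha0)
      have h2 := abs_le.1 (hA a ha a1 ha1)
      have l1 : ⌊a0⌋ - 1 ≤ ⌊a⌋ := by
        rw [Int.le_floor]
        push_cast
        linarith [Int.floor_le a0]
      have l2 : ⌊a⌋ < ⌊a0⌋ + 1 := by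
        rw [Int.floor_lt]
        push_cast
        have h3 : (⌊a1⌋ : ℝ) + 1 ≤ ⌊a0⌋ := by exact_mod_cast hlt
        linarith [Int.lt_floor_add_one a1]
      rw [Finset.mem_insert, Finset.mem_singleton]
      omega
    · push Not at hlow
      refine ⟨{⌊a0⌋, ⌊a0⌋ + 1}, Finset.card_le_two, fun a ha => ?_⟩
      have h1 := abs_le.1 (hA a ha a0 ha0)
      have l1 := hlow a ha
      have l2 : ⌊a⌋ < ⌊a0⌋ + 2 := by
        rw [Int.floor_lt]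
        push_cast
        linarith [Int.lt_floor_add_one a0]
      rw [Finset.mem_insert, Finset.mem_singleton]
      omega
  · exact ⟨∅, by simp, fun a ha => (hne ⟨a, ha⟩).elim⟩

theorem k6b_hg_floor_near (a b : ℝ) (h : |a - b| ≤ 2) : |⌊a⌋ - ⌊b⌋| ≤ 2 := by
  have h1 := abs_le.1 h
  have l1 : ⌊a⌋ < ⌊b⌋ + 3 := by
    rw [Int.floor_lt]
    push_cast
    linarith [Int.lt_floor_add_one b]
  have l2 : ⌊b⌋ < ⌊a⌋ + 3 := by
    rw [Int.floor_lt]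
    push_cast
    linarith [Int.lt_floor_add_one a]
  rw [abs_le]
  constructor <;> omega

theorem k6b_hg_floor_eq (a b ξ : ℝ) (hξ : 0 < ξ) (h : ⌊a / ξ⌋ = ⌊b / ξ⌋) : |a - b| ≤ ξ := by
  have h1 := Int.abs_sub_lt_one_of_floor_eq_floor h
  rw [← sub_div, abs_div, abs_of_pos hξ, div_lt_one hξ] at h1
  exact h1.le

/-! ## C. Counting -/

theorem k6b_hg_count {Z : Type} [DecidableEq Z] (G : Finset ℤ) (cells : ℤ → Finset Z) (S : Finset (Z × ℤ)) (J : ℤ → Z → ℤ)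
    (hS : ∀ C ∈ G, ∀ z ∈ cells C, (z, J C z) ∈ S)
    (hJ : ∀ C ∈ G, ∀ C' ∈ G, ∀ z, z ∈ cells C → z ∈ cells C' → J C z = J C' z → |C - C'| ≤ 2) :
    ∑ C ∈ G, (cells C).card ≤ 5 * S.card := by
  rw [← Finset.card_sigma]
  refine Finset.card_le_mul_card_image_of_maps_to (f := fun p : (Σ _ : ℤ, Z) => (p.2, J p.1 p.2)) ?_ 5 ?_
  · rintro ⟨C, z⟩ h
    rw [Finset.mem_sigma] at h
    exact hS C h.1 z h.2
  · rintro ⟨z, y⟩ _
    by_cases hne : (Finset.filter (fun p : (Σ _ : ℤ, Z) => (p.2, J p.1 p.2) = (z, y)) (G.sigma cells)).Nonempty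
    · obtain ⟨⟨C0, z0⟩, h0⟩ := hne
      rw [Finset.mem_filter, Finset.mem_sigma, Prod.mk.injEq] at h0
      obtain ⟨⟨hC0, hz0⟩, rfl, hy0⟩ := h0
      have hcard : (Finset.Icc (C0 - 2) (C0 + 2)).card = 5 := by
        rw [Int.card_Icc]
        have : C0 + 2 + 1 - (C0 - 2) = 5 := by ring
        rw [this]; rfl
      rw [← hcard]
      refine Finset.card_le_card_of_injOn (fun p => p.1) ?_ ?_
      · rintro ⟨C, z⟩ h
        rw [Finset.mem_coe, Finset.mem_filter, Finset.mem_sigma, Prod.mk.injEq] at h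
        obtain ⟨⟨hC, hz⟩, h1, hy⟩ := h
        simp only at h1 hy hC hz
        subst h1
        have := abs_le.1 (hJ C hC C0 hC0 z hz hz0 (hy.trans hy0.symm))
        show C ∈ (Finset.Icc (C0 - 2) (C0 + 2) : Set ℤ)
        rw [Finset.mem_coe, Finset.mem_Icc]
        constructor <;> omega
      · rintro ⟨C, z⟩ h ⟨C', z'⟩ h' hCC
        rw [Finset.mem_coe, Finset.mem_filter, Prod.mk.injEq] at h h'
        simp only at hCC h h'
        subst hCC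
        rw [h.2.1, h'.2.1]
    · rw [Finset.not_nonempty_iff_eq_empty] at hne
      rw [hne]
      simp

/-! ## D. Pigeonhole -/

theorem k6b_hg_pigeon {ι : Type} (G : Finset ι) (f : ι → ℝ≥0∞) (h : 1 / 2 ≤ ∑ C ∈ G, f C) :
    ∃ C ∈ G, 0 < f C ∧ 1 ≤ 2 * ((G.filter fun C => 0 < f C).card : ℝ≥0∞) * f C := by
  classical
  have hsum : ∑ C ∈ G.filter (fun C => 0 < f C), f C = ∑ C ∈ G, f C := by
    refine Finset.sum_filter_of_ne fun C _ hC => pos_iff_ne_zero.2 hC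
  have hne : (G.filter fun C => 0 < f C).Nonempty := by
    by_contra hcon
    rw [Finset.not_nonempty_iff_eq_empty] at hcon
    rw [hcon, Finset.sum_empty] at hsum
    rw [← hsum] at h
    simp at h
  have hn0 : ((G.filter fun C => 0 < f C).card : ℝ≥0∞) ≠ 0 := by
    rw [Nat.cast_ne_zero]
    exact (Finset.card_pos.2 hne).ne'
  have h2n0 : 2 * ((G.filter fun C => 0 < f C).card : ℝ≥0∞) ≠ 0 := mul_ne_zero (by norm_num) hn0
  have h2nt : 2 * ((G.filter fun C => 0 < f C).card : ℝ≥0∞) ≠ ⊤ := ENNReal.mul_ne_top (by norm_num) (ENNReal.natCast_ne_top _)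
  have hle : ∑ _C ∈ G.filter (fun C => 0 < f C), (2 * ((G.filter fun C => 0 < f C).card : ℝ≥0∞))⁻¹ ≤ ∑ C ∈ G.filter (fun C => 0 < f C), f C := by
    rw [hsum, Finset.sum_const, nsmul_eq_mul]
    refine le_trans (le_of_eq ?_) h
    rw [ENNReal.mul_inv (Or.inl (by norm_num)) (Or.inl (by norm_num)), mul_left_comm,
      ENNReal.mul_inv_cancel hn0 (ENNReal.natCast_ne_top _), mul_one, one_div]
  obtain ⟨C, hC, hCle⟩ : ∃ C ∈ G.filter (fun C => 0 < f C), (2 * ((G.filter fun C => 0 < f C).card : ℝ≥0∞))⁻¹ ≤ f C := by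
    by_contra hcon
    push Not at hcon
    exact absurd hle (not_le.2 (ENNReal.sum_lt_sum_of_nonempty hne hcon))
  rw [Finset.mem_filter] at hC
  refine ⟨C, hC.1, hC.2, ?_⟩
  calc (1 : ℝ≥0∞) = 2 * ((G.filter fun C => 0 < f C).card : ℝ≥0∞) * (2 * ((G.filter fun C => 0 < f C).card : ℝ≥0∞))⁻¹ :=
        (ENNReal.mul_inv_cancel h2n0 h2nt).symm
    _ ≤ _ := by gcongr

/-! ## E. The prior weight of the lines of a family -/

theorem k6b_hg_prior {m : ℕ} (Y : k6b_Sw m) (hY : Y.WF) (F F' : Set (Y.Lam × ℝ)) (hF' : MeasurableSet F') (K1 : ℝ≥0∞)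
    (h : ∀ e ∈ F, 1 ≤ K1 * Y.durF F' e.1) : Y.nu {l | 0 < Y.durF F l} ≤ K1 * Y.mu F' := by
  have hsub : {l | 0 < Y.durF F l} ⊆ {l | 1 ≤ K1 * Y.durF F' l} := by
    intro l hl
    by_contra hcon
    have h1 : ∀ τ, (l, τ) ∉ F := fun τ hτ => hcon (h (l, τ) hτ)
    have h2 : Y.durF F l = 0 := by
      unfold k6b_Sw.durF
      simp [Set.indicator_of_notMem (h1 _)]
    rw [Set.mem_ofPred_eq, h2] at hl
    exact lt_irrefl _ hl
  have hmeas : Measurable fun l => K1 * Y.durF F' l := (k6b_pr_durF_meas Y hY hF').const_mul K1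
  calc Y.nu {l | 0 < Y.durF F l} ≤ Y.nu {l | 1 ≤ K1 * Y.durF F' l} := measure_mono hsub
    _ ≤ ∫⁻ l, K1 * Y.durF F' l ∂Y.nu := by
        have := mul_meas_ge_le_lintegral (μ := Y.nu) hmeas 1
        simpa using this
    _ = K1 * Y.mu F' := by
        rw [lintegral_const_mul _ (k6b_pr_durF_meas Y hY hF'), k6b_pr_mu_apply Y hY hF']

/-! ## F. Numerals -/

theorem k6b_hg_num1 : (1 / 2 : ℝ≥0∞) + (1 / 4 + 1 / 16 + 3 * (1 / 64)) ≤ 1 := by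
  have h2 : (1 / 2 : ℝ≥0∞) = ENNReal.ofReal (1 / 2) := by rw [ENNReal.ofReal_div_of_pos (by norm_num)]; simp
  have h4 : (1 / 4 : ℝ≥0∞) = ENNReal.ofReal (1 / 4) := by rw [ENNReal.ofReal_div_of_pos (by norm_num)]; simp
  have h16 : (1 / 16 : ℝ≥0∞) = ENNReal.ofReal (1 / 16) := by rw [ENNReal.ofReal_div_of_pos (by norm_num)]; simp
  have h64 : (1 / 64 : ℝ≥0∞) = ENNReal.ofReal (1 / 64) := by rw [ENNReal.ofReal_div_of_pos (by norm_num)]; simp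
  have h3 : (3 : ℝ≥0∞) = ENNReal.ofReal 3 := by simp
  rw [h2, h4, h16, h64, h3, ← ENNReal.ofReal_mul (by norm_num), ← ENNReal.ofReal_add (by norm_num) (by norm_num),
    ← ENNReal.ofReal_add (by norm_num) (by norm_num), ← ENNReal.ofReal_add (by norm_num) (by norm_num)]
  rw [← ENNReal.ofReal_one]
  apply ENNReal.ofReal_le_ofReal
  norm_num

theorem k6b_hg_half (a b t1 t2 : ℝ≥0∞) (h1 : 1 ≤ a + 3 * (1 / 64)) (h2 : a ≤ b + t1 + t2) (ht1 : t1 ≤ 1 / 4)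
    (ht2 : t2 ≤ 1 / 16) : 1 / 2 ≤ b := by
  have h3 : (1 / 2 : ℝ≥0∞) + (1 / 4 + 1 / 16 + 3 * (1 / 64)) ≤ b + (1 / 4 + 1 / 16 + 3 * (1 / 64)) := by
    refine k6b_hg_num1.trans (h1.trans ?_)
    calc a + 3 * (1 / 64) ≤ (b + t1 + t2) + 3 * (1 / 64) := by gcongr
      _ ≤ (b + 1 / 4 + 1 / 16) + 3 * (1 / 64) := by gcongr
      _ = _ := by ring
  exact (ENNReal.add_le_add_iff_right (by finiteness)).1 h3

theorem k6b_hg_eighth (x y : ℝ≥0∞) (h : (1 / 8 : ℝ≥0∞) * x ≤ 2 * y) : x ≤ 16 * y := by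
  calc x = 8 * (1 / 8 * x) := by
        rw [← mul_assoc, one_div, ENNReal.mul_inv_cancel (by norm_num) (by norm_num), one_mul]
    _ ≤ 8 * (2 * y) := by gcongr
    _ = 16 * y := by rw [← mul_assoc]; norm_num

theorem k6b_hg_quarter (x : ℝ≥0∞) (h : x ≤ 1) : ((2 : ℕ) : ℝ≥0∞) * (1 / 8) * x ≤ 1 / 4 := by
  have e : ((2 : ℕ) : ℝ≥0∞) * (1 / 8) = 1 / 4 := by
    have h8 : (1 / 8 : ℝ≥0∞) = ENNReal.ofReal (1 / 8) := by rw [ENNReal.ofReal_div_of_pos (by norm_num)]; simp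
    have h4 : (1 / 4 : ℝ≥0∞) = ENNReal.ofReal (1 / 4) := by rw [ENNReal.ofReal_div_of_pos (by norm_num)]; simp
    have h2 : ((2 : ℕ) : ℝ≥0∞) = ENNReal.ofReal 2 := by simp
    rw [h8, h4, h2, ← ENNReal.ofReal_mul (by norm_num)]
    norm_num
  rw [e]
  calc (1 / 4 : ℝ≥0∞) * x ≤ 1 / 4 * 1 := by gcongr
    _ = 1 / 4 := mul_one _

theorem k6b_hg_strip_num (m : ℕ) (hm : m ≤ 3) (hm2 : 2 ≤ m) : (1 / 1024 : ℝ≥0∞) * 32 ≤ ENNReal.ofReal (1 / (4 * m)) := by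
  have h1 : (1 / 1024 : ℝ≥0∞) = ENNReal.ofReal (1 / 1024) := by rw [ENNReal.ofReal_div_of_pos (by norm_num)]; simp
  have h2 : (32 : ℝ≥0∞) = ENNReal.ofReal 32 := by simp
  rw [h1, h2, ← ENNReal.ofReal_mul (by norm_num)]
  apply ENNReal.ofReal_le_ofReal
  have h3 : (m : ℝ) ≤ 3 := by exact_mod_cast hm
  have h0 : (2 : ℝ) ≤ m := by exact_mod_cast hm2
  rw [le_div_iff₀ (by linarith)]
  linarith

theorem k6b_hg_sixteenth (K : ℝ) (ν : ℝ≥0∞) (h : ν ≤ ENNReal.ofReal K) :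
    4 * ((1 : ℕ) : ℝ≥0∞) * ν / ENNReal.ofReal (64 * K) ≤ 1 / 16 := by
  apply ENNReal.div_le_of_le_mul
  have h16 : (1 / 16 : ℝ≥0∞) = ENNReal.ofReal (1 / 16) := by rw [ENNReal.ofReal_div_of_pos (by norm_num)]; simp
  rw [h16, ← ENNReal.ofReal_mul (by norm_num)]
  have e : (1 / 16 * (64 * K) : ℝ) = 4 * K := by ring
  rw [e, ENNReal.ofReal_mul (by norm_num)]
  simp only [Nat.cast_one, mul_one, ENNReal.ofReal_ofNat]
  gcongr

/-! ## G. Intercepts -/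

theorem k6b_hg_ic_close {m : ℕ} (Y : k6b_Sw m) (D : ℕ) (P : MvPolynomial (Fin m) ℝ) (ic : Y.Lam → ℝ) (K εP δ₁ δ₂ : ℝ)
    (hK : 1 ≤ K) (hPD : P.totalDegree ≤ D) (hPK : rmzNm P ≤ K)
    (hfit : ∀ l ∈ Y.Lg, ∀ τ ∈ Set.Icc (0 : ℝ) 1, |Y.x (l, τ) - eval (Y.pos (l, τ)) P - ic l| ≤ εP)
    (e e' : Y.Lam × ℝ) (he : e.1 ∈ Y.Lg) (he' : e'.1 ∈ Y.Lg) (hτ : e.2 ∈ Set.Icc (0 : ℝ) 1) (hτ' : e'.2 ∈ Set.Icc (0 : ℝ) 1)
    (hp : ‖Y.pos e‖ ≤ K) (hp' : ‖Y.pos e'‖ ≤ K) (hδ₁ : 0 ≤ δ₁) (hd : ∀ i, |Y.pos e i - Y.pos e' i| ≤ δ₁)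
    (hx : |Y.x e - Y.x e'| ≤ δ₂) :
    |ic e.1 - ic e'.1| ≤ 2 * εP + δ₂ + D * K ^ (D + 1) * δ₁ := by
  have h1 : |Y.x e - eval (Y.pos e) P - ic e.1| ≤ εP := hfit e.1 he e.2 hτ
  have h2 : |Y.x e' - eval (Y.pos e') P - ic e'.1| ≤ εP := hfit e'.1 he' e'.2 hτ'
  have h3 := k6b_hg_eval_sub D P hPD (Y.pos e) (Y.pos e') K δ₁ hK
    (fun i => (norm_le_pi_norm (Y.pos e) i).trans hp) (fun i => (norm_le_pi_norm (Y.pos e') i).trans hp') hd hδ₁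
  have h4 : (D : ℝ) * K ^ D * δ₁ * rmzNm P ≤ D * K ^ (D + 1) * δ₁ := by
    have h5 : (D : ℝ) * K ^ D * δ₁ * rmzNm P ≤ D * K ^ D * δ₁ * K :=
      mul_le_mul_of_nonneg_left hPK (by positivity)
    refine h5.trans (le_of_eq ?_)
    ring
  rw [abs_le] at h1 h2 h3 hx ⊢
  constructor <;> linarith [h1.1, h1.2, h2.1, h2.2, h3.1, h3.2, hx.1, hx.2]

/-- arithmetic of the smallness hypothesis -/
theorem k6b_hg_small (Dr X εP β ξ ρ₂ : ℝ) (hD : 0 ≤ Dr) (hX : 1 ≤ X) (hεP : 0 ≤ εP) (hβ : 0 ≤ β) (hξ : 0 ≤ ξ)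
    (h : (Dr + 2) * X * (εP + β + ξ) ≤ ρ₂) :
    2 * εP + β + Dr * X * β ≤ ρ₂ ∧ 2 * εP + ρ₂ + Dr * X * ξ ≤ 2 * ρ₂ := by
  have e : (Dr + 2) * X * (εP + β + ξ)
      = Dr * X * εP + 2 * (X * εP) + Dr * X * β + 2 * (X * β) + Dr * X * ξ + 2 * (X * ξ) := by ring
  have h1 : εP ≤ X * εP := by nlinarith
  have h2 : β ≤ X * β := by nlinarith
  have h3 : 0 ≤ X * ξ := by positivity
  have h4 : 0 ≤ Dr * X * εP := by positivity
  have h5 : 0 ≤ Dr * X * β := by positivity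
  have h6 : 0 ≤ Dr * X * ξ := by positivity
  have h7 : 0 ≤ X * β := by positivity
  constructor <;> linarith

/-! ## H. The assembly -/

theorem k6b_heavy_group_of (h0 : k6b_prune0_stmt) (hPR : k6b_prune_stmt) (hG1 : k6b_cells_stmt) :
    k6b_heavy_group_stmt := by
  classical
  intro m D ε hm hε
  have hm2 : 2 ≤ m := by rcases hm with rfl | rfl <;> norm_num
  have hm3 : m ≤ 3 := by rcases hm with rfl | rfl <;> norm_num
  obtain ⟨c₁, k₁, hc₁, HG⟩ := hG1 m ε hm2 hε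
  refine ⟨10 * c₁ * 128 ^ k₁ + D + 2, 2 * k₁ + D + 1, by positivity, ?_⟩
  intro Y T P ic K β pv εT ξ ρ₂ εP c0 Nc2 hK hξ hξ1 hρ hβ hεP hPD hPK hWF hCh hc0 hGeo hGrp hβξ hρ₂
  have hK0 : 0 < K := by linarith
  have hKD : 1 ≤ K ^ (D + 1) := one_le_pow₀ hK
  have hsmall : ((D : ℝ) + 2) * K ^ (D + 1) * (εP + β + ξ) ≤ ρ₂ := by
    refine le_trans ?_ hρ₂
    have h1 : (D : ℝ) + 2 ≤ 10 * c₁ * 128 ^ k₁ + D + 2 := by
      have : 0 ≤ 10 * c₁ * 128 ^ k₁ := by positivity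
      linarith
    have h2 : K ^ (D + 1) ≤ K ^ (2 * k₁ + D + 1) := pow_le_pow_right₀ hK (by omega)
    have h3 : 0 ≤ εP + β + ξ := by positivity
    gcongr
  obtain ⟨hsm1, hsm2⟩ := k6b_hg_small D (K ^ (D + 1)) εP β ξ ρ₂ (Nat.cast_nonneg D) hKD hεP hβ hξ.le hsmall
  -- PR0
  obtain ⟨F0, hF0m, hF0s, hF0L, hF0mass, hF0st⟩ := h0 m Y (1 / 64) hWF hCh.long_mass
  -- the labels
  obtain ⟨lab, hlab⟩ : ∃ lab : Y.Lam × ℝ → ℤ, ∀ e, lab e = ⌊ic e.1 / ρ₂⌋ := ⟨fun e => ⌊ic e.1 / ρ₂⌋, fun _ => rfl⟩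
  have hlabm : ∀ b, MeasurableSet (lab ⁻¹' {b}) := by
    intro b
    have h1 : Measurable fun e : Y.Lam × ℝ => ic e.1 / ρ₂ := (hGrp.ic_meas.comp measurable_fst).div_const _
    have h2 : Measurable lab := by
      have : lab = fun e : Y.Lam × ℝ => ⌊ic e.1 / ρ₂⌋ := funext hlab
      rw [this]
      exact h1.floor
    exact h2 (measurableSet_singleton b)
  have hclose : ∀ e ∈ F0, ∀ e' ∈ F0, ∀ δ₁ δ₂ : ℝ, 0 ≤ δ₁ → (∀ i, |Y.pos e i - Y.pos e' i| ≤ δ₁) → |Y.x e - Y.x e'| ≤ δ₂ →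
      |ic e.1 - ic e'.1| ≤ 2 * εP + δ₂ + D * K ^ (D + 1) * δ₁ := by
    intro e he e' he' δ₁ δ₂ hδ₁ hd hx
    exact k6b_hg_ic_close Y D P ic K εP δ₁ δ₂ hK hPD hPK hGrp.fit e e' (hF0L e he) (hF0L e' he') (hF0s he).2 (hF0s he').2
      (hGeo.box0 e (hF0s he)) (hGeo.box0 e' (hF0s he')) hδ₁ hd hx
  have hns : ∀ s, ∃ L : Finset ℤ, L.card ≤ 2 ∧ ∀ e ∈ F0, Y.st e = s → lab e ∈ L := by
    intro s
    obtain ⟨L, hL, hLm⟩ := k6b_hg_floor_two {a | ∃ e ∈ F0, Y.st e = s ∧ a = ic e.1 / ρ₂} (by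
      rintro a ⟨e, he, hs, rfl⟩ b ⟨e', he', hs', rfl⟩
      obtain ⟨c1, c2, -⟩ := hGeo.close e (hF0s he) e' (hF0s he') (hs.trans hs'.symm)
      have h1 := hclose e he e' he' β β hβ (fun i => (norm_le_pi_norm (Y.pos e - Y.pos e') i).trans c1) c2
      rw [← sub_div, abs_div, abs_of_pos hρ, div_le_one hρ]
      linarith)
    exact ⟨L, hL, fun e he hs => by rw [hlab]; exact hLm _ ⟨e, he, hs, rfl⟩⟩
  have hnl : ∀ l, ∃ L : Finset ℤ, L.card ≤ 1 ∧ ∀ τ, (l, τ) ∈ F0 → lab (l, τ) ∈ L := fun l =>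
    ⟨{⌊ic l / ρ₂⌋}, by simp, fun τ _ => by rw [hlab]; simp⟩
  obtain ⟨F1, F4, hF1m, hF4m, hF41, hF10, hmass, hfat, hdur, hhalf⟩ :=
    hPR m Y ℤ lab F0 2 1 (1 / 8) (ENNReal.ofReal (64 * K)) hWF hF0m hlabm hns hnl
  have hF40 : F4 ⊆ F0 := hF41.trans hF10
  -- the mass of `F4`
  have hF0le : Y.mu F0 ≤ 1 := by
    rw [← hWF.prob]; exact measure_mono (Set.subset_univ _)
  have hF4half : 1 / 2 ≤ Y.mu F4 :=
    k6b_hg_half _ _ _ _ hF0mass hmass (k6b_hg_quarter _ hF0le) (k6b_hg_sixteenth K _ hGrp.nu_le)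
  -- fat states
  have hfat32 : ∀ e ∈ F4, Y.mu (Y.stE (Y.st e)) ≤ 32 * Y.mu (F4 ∩ lab ⁻¹' {lab e} ∩ Y.stE (Y.st e)) := by
    intro e he
    have h1 := hF0st e (hF40 he)
    have h2 := k6b_hg_eighth _ _ (hfat e he)
    rw [Set.inter_right_comm] at h2
    calc Y.mu (Y.stE (Y.st e)) ≤ 2 * Y.mu (F0 ∩ Y.stE (Y.st e)) := h1
      _ ≤ 2 * (16 * Y.mu (F4 ∩ lab ⁻¹' {lab e} ∩ Y.stE (Y.st e))) := by gcongr
      _ = 32 * Y.mu (F4 ∩ lab ⁻¹' {lab e} ∩ Y.stE (Y.st e)) := by rw [← mul_assoc]; norm_num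
  -- the finitely many labels
  choose Ls hLs1 hLs2 using hns
  have hLab : ∀ e ∈ F4, lab e ∈ Finset.univ.biUnion Ls := fun e he =>
    Finset.mem_biUnion.2 ⟨Y.st e, Finset.mem_univ _, hLs2 _ e (hF40 he) rfl⟩
  have htot := k6b_pr_tot Y.mu hF4m hlabm (Finset.univ.biUnion Ls) hLab
  rw [htot] at hF4half
  obtain ⟨C, -, hCpos, hCbig⟩ := k6b_hg_pigeon _ (fun C => Y.mu (F4 ∩ lab ⁻¹' {C})) hF4half
  obtain ⟨Gp, hGp⟩ : ∃ Gp : Finset ℤ, Gp = (Finset.univ.biUnion Ls).filter fun C => 0 < Y.mu (F4 ∩ lab ⁻¹' {C}) := ⟨_, rfl⟩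
  rw [← hGp] at hCbig
  have hGpos : ∀ C ∈ Gp, 0 < Y.mu (F4 ∩ lab ⁻¹' {C}) := by
    intro C hC
    rw [hGp, Finset.mem_filter] at hC
    exact hC.2
  -- the cells
  obtain ⟨S, hScard, hSmem⟩ := hGrp.cells
  obtain ⟨bc, hbc⟩ : ∃ bc : Y.Lam × ℝ → (Fin m → ℤ), ∀ e, bc e = fun i => ⌊Y.pos e i / ξ⌋ := ⟨_, fun _ => rfl⟩
  obtain ⟨cellsOf, hcellsOf⟩ : ∃ cellsOf : ℤ → Finset (Fin m → ℤ),
      ∀ C z, z ∈ cellsOf C ↔ ∃ e ∈ F4 ∩ lab ⁻¹' {C}, bc e = z := by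
    refine ⟨fun C => (S.image Prod.fst).filter fun z => ∃ e ∈ F4 ∩ lab ⁻¹' {C}, bc e = z, fun C z => ?_⟩
    rw [Finset.mem_filter]
    refine ⟨fun h => h.2, fun h => ⟨?_, h⟩⟩
    obtain ⟨e, he, rfl⟩ := h
    rw [Finset.mem_image]
    exact ⟨_, hSmem e (hF0s (hF40 he.1)), by rw [hbc]⟩
  -- the prior weight of the lines of a group
  have hprior : ∀ C, 0 < Y.mu (F4 ∩ lab ⁻¹' {C}) →
      Y.nu {l | 0 < Y.durF (F4 ∩ lab ⁻¹' {C}) l} ≤ ENNReal.ofReal (128 * K) * Y.mu (F4 ∩ lab ⁻¹' {C}) := by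
    intro C hCp
    have h1 := k6b_hg_prior Y hWF (F4 ∩ lab ⁻¹' {C}) (F1 ∩ lab ⁻¹' {C}) (hF1m.inter (hlabm C)) (ENNReal.ofReal (64 * K)) (by
      rintro e ⟨he4, heC⟩
      have heC' : lab e = C := heC
      have := hdur e he4
      rwa [heC'] at this)
    obtain ⟨e, he4, heC⟩ : (F4 ∩ lab ⁻¹' {C}).Nonempty := by
      by_contra hcon
      rw [Set.not_nonempty_iff_eq_empty] at hcon
      have := hCp
      rw [hcon, measure_empty] at this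
      exact lt_irrefl _ this
    have heC' : lab e = C := heC
    have h2 := hhalf e he4
    rw [heC'] at h2
    calc Y.nu {l | 0 < Y.durF (F4 ∩ lab ⁻¹' {C}) l} ≤ ENNReal.ofReal (64 * K) * Y.mu (F1 ∩ lab ⁻¹' {C}) := h1
      _ ≤ ENNReal.ofReal (64 * K) * (2 * Y.mu (F4 ∩ lab ⁻¹' {C})) := by gcongr
      _ = ENNReal.ofReal (128 * K) * Y.mu (F4 ∩ lab ⁻¹' {C}) := by
          rw [← mul_assoc]
          congr 1
          have : (2 : ℝ≥0∞) = ENNReal.ofReal 2 := by simp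
          rw [this, ← ENNReal.ofReal_mul (by positivity)]
          congr 1
          ring
  -- G1 for every group of positive mass
  have hcells : ∀ C ∈ Gp, ξ ^ (-(m : ℝ) + ε) ≤ c₁ * (128 * K / (1 / K)) ^ k₁ * (cellsOf C).card := by
    intro C hC
    have hsubF0 : F4 ∩ lab ⁻¹' {C} ⊆ F0 := fun e he => hF40 he.1
    refine HG Y (F4 ∩ lab ⁻¹' {C}) (128 * K) ξ (1 / K) (cellsOf C) (by linarith) hξ hξ1 (by positivity)
      (by rw [div_le_one hK0]; exact hK) hWF (hF4m.inter (hlabm C)) (fun e he => hF0s (hsubF0 he)) (hGpos C hC)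
      ?_ ?_ ?_ hGrp.time ?_ ?_ ?_ ?_
    · intro e _
      exact (hGrp.g_le e).trans (ENNReal.ofReal_le_ofReal (by linarith))
    · intro e he
      exact (hGeo.box0 e (hF0s (hsubF0 he))).trans (by linarith)
    · intro l
      exact (hGeo.velb l).trans (by linarith)
    · intro e he e' he' hst
      exact (hGeo.close e (hF0s (hsubF0 he)) e' (hF0s (hsubF0 he')) hst).1.trans hβξ
    · intro s a ha
      by_cases hne : (F4 ∩ lab ⁻¹' {C} ∩ Y.stE s).Nonempty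
      · obtain ⟨e, ⟨he4, heC⟩, hes⟩ := hne
        have heC' : lab e = C := heC
        have hes' : Y.st e = s := hes
        have h1 := hfat32 e he4
        rw [heC', hes'] at h1
        calc Y.mu (F4 ∩ lab ⁻¹' {C} ∩ Y.stE s ∩ {e | |a ⬝ᵥ Y.vel e.1| ≤ 1 / K})
            ≤ Y.mu (Y.stE s ∩ {e | |a ⬝ᵥ Y.vel e.1| ≤ 1 / K}) :=
              measure_mono (Set.inter_subset_inter_left _ Set.inter_subset_right)
          _ ≤ c0 * Y.mu (Y.stE s) := hCh.strip s a ha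
          _ ≤ 1 / 1024 * (32 * Y.mu (F4 ∩ lab ⁻¹' {C} ∩ Y.stE s)) := by gcongr
          _ = 1 / 1024 * 32 * Y.mu (F4 ∩ lab ⁻¹' {C} ∩ Y.stE s) := by rw [mul_assoc]
          _ ≤ ENNReal.ofReal (1 / (4 * m)) * Y.mu (F4 ∩ lab ⁻¹' {C} ∩ Y.stE s) := by
              gcongr
              exact k6b_hg_strip_num m hm3 hm2
      · rw [Set.not_nonempty_iff_eq_empty] at hne
        rw [hne]
        simp
    · exact hprior C (hGpos C hC)
    · intro e he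
      rw [hcellsOf]
      exact ⟨e, he, hbc e⟩
  -- a joint cell pays for at most five groups
  have hex : ∀ C z, z ∈ cellsOf C → ∃ e : Y.Lam × ℝ, e ∈ F4 ∩ lab ⁻¹' {C} ∧ bc e = z := fun C z hz => by
    obtain ⟨e, he, hez⟩ := (hcellsOf C z).1 hz
    exact ⟨e, he, hez⟩
  obtain ⟨J, hJ⟩ : ∃ J : ℤ → (Fin m → ℤ) → ℤ, ∀ C z, z ∈ cellsOf C →
      ∃ e, e ∈ F4 ∩ lab ⁻¹' {C} ∧ bc e = z ∧ J C z = ⌊Y.x e / ρ₂⌋ := by
    refine ⟨fun C z => if h : z ∈ cellsOf C then ⌊Y.x (hex C z h).choose / ρ₂⌋ else 0, fun C z hz => ?_⟩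
    refine ⟨(hex C z hz).choose, (hex C z hz).choose_spec.1, (hex C z hz).choose_spec.2, ?_⟩
    simp only [dif_pos hz]
  have hcount : ∑ C ∈ Gp, (cellsOf C).card ≤ 5 * S.card := by
    refine k6b_hg_count Gp cellsOf S J ?_ ?_
    · intro C _ z hz
      obtain ⟨e, he, hez, hJe⟩ := hJ C z hz
      have := hSmem e (hF0s (hF40 he.1))
      rw [hJe, ← hez, hbc]
      exact this
    · intro C _ C' _ z hz hz' hJJ
      obtain ⟨e, he, hez, hJe⟩ := hJ C z hz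
      obtain ⟨e', he', hez', hJe'⟩ := hJ C' z hz'
      have hC : lab e = C := he.2
      have hC' : lab e' = C' := he'.2
      have hb : ∀ i, |Y.pos e i - Y.pos e' i| ≤ ξ := by
        intro i
        have h1 : bc e i = bc e' i := by rw [hez, hez']
        rw [hbc, hbc] at h1
        exact k6b_hg_floor_eq _ _ ξ hξ h1
      have hx : |Y.x e - Y.x e'| ≤ ρ₂ := k6b_hg_floor_eq _ _ ρ₂ hρ (by rw [← hJe, ← hJe', hJJ])
      have h1 := hclose e (hF40 he.1) e' (hF40 he'.1) ξ ρ₂ hξ.le hb hx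
      rw [← hC, ← hC', hlab, hlab]
      apply k6b_hg_floor_near
      rw [← sub_div, abs_div, abs_of_pos hρ, div_le_iff₀ hρ]
      linarith
  have hn : (Gp.card : ℝ) * ξ ^ (-(m : ℝ) + ε) ≤ c₁ * (128 * K / (1 / K)) ^ k₁ * (5 * Nc2) := by
    calc (Gp.card : ℝ) * ξ ^ (-(m : ℝ) + ε) = ∑ _C ∈ Gp, ξ ^ (-(m : ℝ) + ε) := by rw [Finset.sum_const, nsmul_eq_mul]
      _ ≤ ∑ C ∈ Gp, c₁ * (128 * K / (1 / K)) ^ k₁ * (cellsOf C).card := Finset.sum_le_sum hcells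
      _ = c₁ * (128 * K / (1 / K)) ^ k₁ * ((∑ C ∈ Gp, (cellsOf C).card : ℕ) : ℝ) := by
          rw [← Finset.mul_sum]; push_cast; rfl
      _ ≤ c₁ * (128 * K / (1 / K)) ^ k₁ * (5 * Nc2) := by
          have : ((∑ C ∈ Gp, (cellsOf C).card : ℕ) : ℝ) ≤ 5 * Nc2 := by
            have h1 : ∑ C ∈ Gp, (cellsOf C).card ≤ 5 * Nc2 := hcount.trans (Nat.mul_le_mul_left 5 hScard)
            exact_mod_cast h1
          gcongr
  have hfinal : 2 * (Gp.card : ℝ) ≤ (10 * c₁ * 128 ^ k₁ + D + 2) * K ^ (2 * k₁ + D + 1) * (Nc2 * ξ ^ ((m : ℝ) - ε)) := by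
    have hxi : ξ ^ (-(m : ℝ) + ε) * ξ ^ ((m : ℝ) - ε) = 1 := by
      rw [← Real.rpow_add hξ]
      have : -(m : ℝ) + ε + ((m : ℝ) - ε) = 0 := by ring
      rw [this, Real.rpow_zero]
    have hpos : 0 < ξ ^ ((m : ℝ) - ε) := Real.rpow_pos_of_pos hξ _
    have e1 : (128 * K / (1 / K)) ^ k₁ = 128 ^ k₁ * K ^ (2 * k₁) := by
      have : 128 * K / (1 / K) = 128 * K ^ 2 := by field_simp
      rw [this, mul_pow, ← pow_mul]
    have h1 : (Gp.card : ℝ) = (Gp.card : ℝ) * ξ ^ (-(m : ℝ) + ε) * ξ ^ ((m : ℝ) - ε) := by rw [mul_assoc, hxi, mul_one]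
    have h2 : (Gp.card : ℝ) ≤ c₁ * (128 ^ k₁ * K ^ (2 * k₁)) * (5 * Nc2) * ξ ^ ((m : ℝ) - ε) := by
      rw [h1, ← e1]
      exact mul_le_mul_of_nonneg_right hn hpos.le
    have h3 : K ^ (2 * k₁) ≤ K ^ (2 * k₁ + D + 1) := pow_le_pow_right₀ hK (by omega)
    calc 2 * (Gp.card : ℝ) ≤ 2 * (c₁ * (128 ^ k₁ * K ^ (2 * k₁)) * (5 * Nc2) * ξ ^ ((m : ℝ) - ε)) := by linarith
      _ = (10 * c₁ * 128 ^ k₁) * K ^ (2 * k₁) * (Nc2 * ξ ^ ((m : ℝ) - ε)) := by ring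
      _ ≤ (10 * c₁ * 128 ^ k₁ + D + 2) * K ^ (2 * k₁ + D + 1) * (Nc2 * ξ ^ ((m : ℝ) - ε)) := by
          have h4 : 10 * c₁ * 128 ^ k₁ ≤ 10 * c₁ * 128 ^ k₁ + D + 2 := by
            have : (0 : ℝ) ≤ D := Nat.cast_nonneg D
            linarith
          gcongr
  refine ⟨C, F1 ∩ lab ⁻¹' {C}, F4 ∩ lab ⁻¹' {C}, hF1m.inter (hlabm C), hF4m.inter (hlabm C),
    Set.inter_subset_inter_left _ hF41, fun e he => hF0s (hF10 he.1),
    fun e he => ⟨hF0L e (hF10 he.1), by rw [← hlab]; exact he.2⟩, ?_, ?_, ?_, hprior C hCpos⟩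
  · refine hCbig.trans ?_
    have h1 : (2 : ℝ≥0∞) * (Gp.card : ℝ≥0∞) = ENNReal.ofReal (2 * (Gp.card : ℝ)) := by
      rw [ENNReal.ofReal_mul (by norm_num), ENNReal.ofReal_natCast]
      simp
    rw [h1]
    gcongr
  · rintro e ⟨he4, heC⟩
    have heC' : lab e = C := heC
    have h1 := hfat32 e he4
    rw [heC'] at h1
    refine h1.trans ?_
    gcongr
    norm_num
  · rintro e ⟨he4, heC⟩
    have heC' : lab e = C := heC
    have := hdur e he4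
    rwa [heC'] at this

end

end Claimed.Agent.R252
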