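import Claimed.Agent.R252.S6b.SwitchDefs

/-!
# Row252, unit S6b, part C, leaf C1c: the Hessian of the height at `δ = 0`      (helper138)
`k6b_height_hess : k6b_height_hess_stmt`.  Chain rule for polynomials along lines (`k6b_hasDerivAt_line`); derivative of the height in the leg `j` at a point whose later legs vanish
(`k6b_height_hasDerivAt`, FTC, leg by leg); uniqueness of derivatives, twice.
-/

set_option autoImplicit false

namespace Claimed.Agent.R252

open MeasureTheory MvPolynomial
open scoped ENNReal BigOperators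

noncomputable section

/-- chain rule for a polynomial along a line -/
theorem k6b_hasDerivAt_line {m : ℕ} (P : MvPolynomial (Fin m) ℝ) (x w : Fin m → ℝ) (s0 : ℝ) :
    HasDerivAt (fun s : ℝ => eval (x + s • w) P) (∑ b, eval (x + s0 • w) (pderiv b P) * w b) s0 := by
  induction P using MvPolynomial.induction_on with
  | C a =>
    simp only [eval_C, pderiv_C, map_zero, zero_mul, Finset.sum_const_zero]
    exact hasDerivAt_const _ _
  | add p q hp hq =>
    simp only [map_add, add_mul, Finset.sum_add_distrib]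
    exact hp.add hq
  | mul_X p k hp =>
    have hX : HasDerivAt (fun s : ℝ => x k + s * w k) (w k) s0 := by
      simpa using ((hasDerivAt_id s0).mul_const (w k)).const_add (x k)
    have h := hp.mul hX
    have e : ∀ b, eval (x + s0 • w) (pderiv b (p * X k)) * w b
        = eval (x + s0 • w) (pderiv b p) * w b * (x k + s0 * w k) + (if b = k then eval (x + s0 • w) p * w k else 0) := by
      intro b
      rw [Derivation.leibniz, pderiv_X]
      by_cases hb : b = k
      · subst hb
        simp only [Pi.single_eq_same, smul_eq_mul, mul_one, map_add, map_mul, eval_X, Pi.add_apply, Pi.smul_apply, if_true]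
        ring
      · rw [Pi.single_eq_of_ne (Ne.symm hb), if_neg hb]
        simp only [smul_eq_mul, mul_zero, zero_add, map_mul, eval_X, Pi.add_apply, Pi.smul_apply, add_zero]
        ring
    simp_rw [e]
    rw [Finset.sum_add_distrib, Finset.sum_ite_eq' Finset.univ k, if_pos (Finset.mem_univ k), ← Finset.sum_mul]
    simp only [map_mul, eval_X, Pi.add_apply, Pi.smul_apply, smul_eq_mul]
    exact h

theorem k6b_continuous_leg {m : ℕ} (T : Fin m → MvPolynomial (Fin m) ℝ) (x w w' : Fin m → ℝ) :
    Continuous fun s : ℝ => k6b_fld T (x + s • w) ⬝ᵥ w' := by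
  unfold k6b_fld dotProduct
  refine continuous_finsetSum _ fun a _ => Continuous.mul ?_ continuous_const
  exact continuous_iff_continuousAt.2 fun s => (k6b_hasDerivAt_line (T a) x w s).continuousAt

theorem k6b_base_congr {m n : ℕ} (u0 : Fin m → ℝ) (v : Fin n → Fin m → ℝ) (δ δ' : Fin n → ℝ) (i : ℕ) (h : ∀ k : Fin n, (k : ℕ) < i → δ k = δ' k) :
    k6b_base u0 v δ i = k6b_base u0 v δ' i := by
  unfold k6b_base
  congr 1
  refine Finset.sum_congr rfl fun k _ => ?_
  split_ifs with hk
  · rw [h k hk]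
  · rfl

/-- the derivative of the height in the leg `j`, at a point whose later legs vanish -/
theorem k6b_height_hasDerivAt {m n : ℕ} (T : Fin m → MvPolynomial (Fin m) ℝ) (u0 : Fin m → ℝ) (v : Fin n → Fin m → ℝ) (δ0 : Fin n → ℝ) (j : Fin n)
    (h0 : ∀ k, j < k → δ0 k = 0) :
    HasDerivAt (fun t : ℝ => k6b_height T u0 v (δ0 + Pi.single j t)) (k6b_fld T (k6b_base u0 v δ0 j + δ0 j • v j) ⬝ᵥ v j) 0 := by
  unfold k6b_height
  have hk : ∀ k ∈ (Finset.univ : Finset (Fin n)),
      HasDerivAt (fun t : ℝ => ∫ s in (0 : ℝ)..((δ0 + Pi.single j t : Fin n → ℝ) k), k6b_fld T (k6b_base u0 v (δ0 + Pi.single j t) k + s • v k) ⬝ᵥ v k)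
        (if k = j then k6b_fld T (k6b_base u0 v δ0 j + δ0 j • v j) ⬝ᵥ v j else 0) 0 := by
    intro k _
    have hbase : ∀ t : ℝ, k ≤ j → k6b_base u0 v (δ0 + Pi.single j t) k = k6b_base u0 v δ0 k := by
      intro t hkj
      refine k6b_base_congr u0 v _ _ _ fun k' hk' => ?_
      have hne : k' ≠ j := fun hh => by
        subst hh
        exact absurd (Fin.le_def.1 hkj) (not_le.2 hk')
      rw [Pi.add_apply, Pi.single_eq_of_ne hne, add_zero]
    rcases lt_trichotomy k j with hlt | heq | hgt
    · rw [if_neg hlt.ne]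
      have e : (fun t : ℝ => ∫ s in (0 : ℝ)..((δ0 + Pi.single j t : Fin n → ℝ) k), k6b_fld T (k6b_base u0 v (δ0 + Pi.single j t) k + s • v k) ⬝ᵥ v k)
          = fun _ => ∫ s in (0 : ℝ)..(δ0 k), k6b_fld T (k6b_base u0 v δ0 k + s • v k) ⬝ᵥ v k := by
        funext t
        rw [hbase t hlt.le, Pi.add_apply, Pi.single_eq_of_ne hlt.ne, add_zero]
      rw [e]
      exact hasDerivAt_const _ _
    · subst heq
      rw [if_pos rfl]
      have e : (fun t : ℝ => ∫ s in (0 : ℝ)..((δ0 + Pi.single k t : Fin n → ℝ) k), k6b_fld T (k6b_base u0 v (δ0 + Pi.single k t) k + s • v k) ⬝ᵥ v k)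
          = fun t => ∫ s in (0 : ℝ)..(δ0 k + t), k6b_fld T (k6b_base u0 v δ0 k + s • v k) ⬝ᵥ v k := by
        funext t
        rw [hbase t le_rfl, Pi.add_apply, Pi.single_eq_same]
      rw [e]
      have hF := ((k6b_continuous_leg T (k6b_base u0 v δ0 k) (v k) (v k)).integral_hasStrictDerivAt 0 (δ0 k + 0)).hasDerivAt
      have := hF.comp_const_add (δ0 k) 0
      rwa [add_zero] at this
    · rw [if_neg hgt.ne']
      have e : (fun t : ℝ => ∫ s in (0 : ℝ)..((δ0 + Pi.single j t : Fin n → ℝ) k), k6b_fld T (k6b_base u0 v (δ0 + Pi.single j t) k + s • v k) ⬝ᵥ v k)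
          = fun _ => 0 := by
        funext t
        rw [Pi.add_apply, Pi.single_eq_of_ne hgt.ne', add_zero, h0 k hgt, intervalIntegral.integral_same]
      rw [e]
      exact hasDerivAt_const _ _
  have hs := HasDerivAt.fun_sum hk
  rwa [Finset.sum_ite_eq' Finset.univ j, if_pos (Finset.mem_univ j)] at hs

theorem k6b_base_single {m n : ℕ} (u0 : Fin m → ℝ) (v : Fin n → Fin m → ℝ) (i j : Fin n) (hij : i ≤ j) (s : ℝ) :
    k6b_base u0 v (Pi.single i s) j + (Pi.single i s : Fin n → ℝ) j • v j = u0 + s • v i := by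
  unfold k6b_base
  rcases hij.lt_or_eq with h | h
  · rw [Pi.single_eq_of_ne h.ne', zero_smul, add_zero]
    congr 1
    rw [Finset.sum_eq_single i]
    · rw [if_pos (Fin.lt_def.1 h), Pi.single_eq_same]
    · intro k _ hk
      rw [Pi.single_eq_of_ne hk, zero_smul, ite_self]
    · intro hh
      exact absurd (Finset.mem_univ i) hh
  · subst h
    rw [Pi.single_eq_same, add_assoc]
    congr 1
    rw [Finset.sum_eq_zero, zero_add]
    intro k _
    split_ifs with hk
    · have hne : k ≠ i := fun hh => by subst hh; exact lt_irrefl _ hk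
      rw [Pi.single_eq_of_ne hne, zero_smul]
    · rfl

theorem k6b_sum_single {n : ℕ} (f : Fin n → ℝ) (j : Fin n) : ∑ b, f b * (Pi.single j 1 : Fin n → ℝ) b = f j := by
  rw [Finset.sum_eq_single j]
  · rw [Pi.single_eq_same, mul_one]
  · intro b _ hb
    rw [Pi.single_eq_of_ne hb, mul_zero]
  · intro hh
    exact absurd (Finset.mem_univ j) hh

theorem k6b_smul_single {n : ℕ} (j : Fin n) (t : ℝ) : t • (Pi.single j 1 : Fin n → ℝ) = Pi.single j t := by
  rw [← Pi.single_smul, smul_eq_mul, mul_one]

/-- **C1c** -/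
theorem k6b_height_hess : k6b_height_hess_stmt := by
  intro m n T u0 v R hR i j hij
  have step1 : ∀ s : ℝ, eval (Pi.single i s) (pderiv j R) = k6b_fld T (u0 + s • v i) ⬝ᵥ v j := by
    intro s
    have h1 := k6b_hasDerivAt_line R (Pi.single i s) (Pi.single j 1) 0
    have h2 := k6b_height_hasDerivAt T u0 v (Pi.single i s) j (fun k hk => by rw [Pi.single_eq_of_ne (lt_of_le_of_lt hij hk).ne'])
    have e : (fun t : ℝ => eval (Pi.single i s + t • Pi.single j 1) R) = fun t => k6b_height T u0 v (Pi.single i s + Pi.single j t) := by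
      funext t
      rw [hR, k6b_smul_single]
    rw [e, k6b_sum_single, zero_smul, add_zero] at h1
    rw [k6b_base_single u0 v i j hij s] at h2
    exact h1.unique h2
  have h3 := k6b_hasDerivAt_line (pderiv j R) 0 (Pi.single i 1) 0
  have e3 : (fun s : ℝ => eval (0 + s • Pi.single i 1) (pderiv j R)) = fun s => k6b_fld T (u0 + s • v i) ⬝ᵥ v j := by
    funext s
    rw [zero_add, k6b_smul_single, step1]
  rw [e3, k6b_sum_single, zero_smul, add_zero] at h3
  have h4 : HasDerivAt (fun s : ℝ => k6b_fld T (u0 + s • v i) ⬝ᵥ v j) (∑ a, (∑ b, eval (u0 + (0 : ℝ) • v i) (pderiv b (T a)) * v i b) * v j a) 0 := by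
    unfold k6b_fld dotProduct
    exact HasDerivAt.fun_sum fun a _ => (k6b_hasDerivAt_line (T a) u0 (v i) 0).mul_const (v j a)
  rw [h3.unique h4, zero_smul, add_zero]
  exact Finset.sum_congr rfl fun a _ => Finset.sum_mul _ _ _

end

end Claimed.Agent.R252
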