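import Claimed.Agent.R252.S6b.SwitchDefs

/-!
# Row252, unit S6b, part C, leaf C1b: the accumulated height is a polynomial in the legs      (helper138)
`k6b_height_poly : k6b_height_poly_stmt`.  Each leg integrand is the evaluation at `(s, δ) = Fin.cons s δ` of a polynomial `k6b_legQ` in `n + 1` variables
(substitution of affine forms, `k6b_totalDegree_bind₁_le`); the primitive in `s`, taken at `s = δ i`, is `k6b_intP` (monomial by monomial).
-/

set_option autoImplicit false

namespace Claimed.Agent.R252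

open MeasureTheory MvPolynomial
open scoped ENNReal BigOperators

noncomputable section

/-- substitution of polynomials of degree `≤ 1` does not raise the total degree -/
theorem k6b_totalDegree_bind₁_le {σ τ : Type} (f : σ → MvPolynomial τ ℝ) (hf : ∀ i, (f i).totalDegree ≤ 1) (P : MvPolynomial σ ℝ) :
    (bind₁ f P).totalDegree ≤ P.totalDegree := by
  rw [bind₁, aeval_def, eval₂_eq]
  refine totalDegree_finsetSum_le fun d hd => ?_
  refine (totalDegree_mul _ _).trans ?_
  have h1 : (algebraMap ℝ (MvPolynomial τ ℝ) (coeff d P)).totalDegree = 0 := totalDegree_C _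
  rw [h1, zero_add]
  refine (totalDegree_finsetProd _ _).trans ?_
  calc ∑ i ∈ d.support, (f i ^ d i).totalDegree ≤ ∑ i ∈ d.support, d i :=
        Finset.sum_le_sum fun i _ => (totalDegree_pow _ _).trans (by nlinarith [hf i])
    _ ≤ P.totalDegree := le_totalDegree hd

/-- the primitive in the variable `0`, evaluated at the variable `i` -/
def k6b_intP {n : ℕ} (i : Fin n) (Q : MvPolynomial (Fin (n + 1)) ℝ) : MvPolynomial (Fin n) ℝ :=
  ∑ d ∈ Q.support, C (coeff d Q / ((d 0 : ℝ) + 1)) * (X i ^ (d 0 + 1) * ∏ j : Fin n, X j ^ d j.succ)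

theorem k6b_intP_totalDegree {n : ℕ} (i : Fin n) (Q : MvPolynomial (Fin (n + 1)) ℝ) : (k6b_intP i Q).totalDegree ≤ Q.totalDegree + 1 := by
  unfold k6b_intP
  refine totalDegree_finsetSum_le fun d hd => ?_
  refine (totalDegree_mul _ _).trans ?_
  rw [totalDegree_C, zero_add]
  refine (totalDegree_mul _ _).trans ?_
  have h1 : (X i ^ (d 0 + 1) : MvPolynomial (Fin n) ℝ).totalDegree = d 0 + 1 := totalDegree_X_pow _ _
  have h2 : (∏ j : Fin n, (X j : MvPolynomial (Fin n) ℝ) ^ d j.succ).totalDegree ≤ ∑ j : Fin n, d j.succ :=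
    (totalDegree_finsetProd _ _).trans (Finset.sum_le_sum fun j _ => (totalDegree_X_pow _ _).le)
  have h3 : d 0 + ∑ j : Fin n, d j.succ ≤ Q.totalDegree := by
    have := le_totalDegree hd
    rw [Finsupp.sum_fintype _ _ (fun _ => rfl), Fin.sum_univ_succ] at this
    exact this
  omega

theorem k6b_intP_eval {n : ℕ} (i : Fin n) (Q : MvPolynomial (Fin (n + 1)) ℝ) (δ : Fin n → ℝ) :
    eval δ (k6b_intP i Q) = ∫ s in (0 : ℝ)..(δ i), eval (Fin.cons s δ : Fin (n + 1) → ℝ) Q := by
  have e : ∀ s : ℝ, eval (Fin.cons s δ : Fin (n + 1) → ℝ) Q = ∑ d ∈ Q.support, coeff d Q * (s ^ d 0 * ∏ j : Fin n, δ j ^ d j.succ) := by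
    intro s
    rw [eval_eq']
    refine Finset.sum_congr rfl fun d _ => ?_
    rw [Fin.prod_univ_succ]
    simp only [Fin.cons_zero, Fin.cons_succ]
  simp_rw [e]
  rw [intervalIntegral.integral_finsetSum (fun d _ => Continuous.intervalIntegrable (by fun_prop) _ _)]
  unfold k6b_intP
  rw [map_sum]
  refine Finset.sum_congr rfl fun d _ => ?_
  rw [intervalIntegral.integral_const_mul, intervalIntegral.integral_mul_const, integral_pow]
  simp only [map_mul, eval_C, map_pow, eval_X, map_prod]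
  have : ((d 0 : ℝ) + 1) ≠ 0 := by positivity
  field_simp
  simp only [ne_eq, Nat.add_eq_zero_iff, one_ne_zero, and_false, not_false_eq_true, zero_pow, sub_zero]
  ring

/-- the affine forms `(s, δ) ↦ (base_i δ + s v_i)_b` -/
def k6b_legL {m n : ℕ} (u0 : Fin m → ℝ) (v : Fin n → Fin m → ℝ) (i : Fin n) (b : Fin m) : MvPolynomial (Fin (n + 1)) ℝ :=
  C (u0 b) + ∑ k : Fin n, (if (k : ℕ) < (i : ℕ) then C (v k b) * X k.succ else 0) + C (v i b) * X 0

theorem k6b_legL_totalDegree {m n : ℕ} (u0 : Fin m → ℝ) (v : Fin n → Fin m → ℝ) (i : Fin n) (b : Fin m) : (k6b_legL u0 v i b).totalDegree ≤ 1 := by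
  have hCX : ∀ (c : ℝ) (k : Fin (n + 1)), (C c * X k : MvPolynomial (Fin (n + 1)) ℝ).totalDegree ≤ 1 := by
    intro c k
    refine (totalDegree_mul _ _).trans ?_
    rw [totalDegree_C, totalDegree_X]
  unfold k6b_legL
  refine (totalDegree_add _ _).trans (max_le ((totalDegree_add _ _).trans (max_le ?_ ?_)) (hCX _ _))
  · rw [totalDegree_C]; exact Nat.zero_le _
  · refine totalDegree_finsetSum_le fun k _ => ?_
    split_ifs
    · exact hCX _ _
    · rw [totalDegree_zero]; exact Nat.zero_le _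

theorem k6b_legL_eval {m n : ℕ} (u0 : Fin m → ℝ) (v : Fin n → Fin m → ℝ) (i : Fin n) (b : Fin m) (δ : Fin n → ℝ) (s : ℝ) :
    eval (Fin.cons s δ : Fin (n + 1) → ℝ) (k6b_legL u0 v i b) = (k6b_base u0 v δ i + s • v i) b := by
  unfold k6b_legL k6b_base
  simp only [map_add, map_sum, eval_C, Pi.add_apply, Finset.sum_apply, Pi.smul_apply, smul_eq_mul, map_mul, eval_X, Fin.cons_zero]
  congr 1
  · congr 1
    refine Finset.sum_congr rfl fun k _ => ?_
    split_ifs
    · simp only [map_mul, eval_C, eval_X, Fin.cons_succ, Pi.smul_apply, smul_eq_mul]; ring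
    · simp
  · ring

/-- the integrand of the leg `i` as a polynomial in `(s, δ)` -/
def k6b_legQ {m n : ℕ} (T : Fin m → MvPolynomial (Fin m) ℝ) (u0 : Fin m → ℝ) (v : Fin n → Fin m → ℝ) (i : Fin n) : MvPolynomial (Fin (n + 1)) ℝ :=
  ∑ a : Fin m, C (v i a) * bind₁ (k6b_legL u0 v i) (T a)

theorem k6b_legQ_totalDegree {m n D : ℕ} (T : Fin m → MvPolynomial (Fin m) ℝ) (u0 : Fin m → ℝ) (v : Fin n → Fin m → ℝ) (i : Fin n)
    (hT : ∀ a, (T a).totalDegree ≤ D) : (k6b_legQ T u0 v i).totalDegree ≤ D := by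
  unfold k6b_legQ
  refine totalDegree_finsetSum_le fun a _ => ?_
  refine (totalDegree_mul _ _).trans ?_
  rw [totalDegree_C, zero_add]
  exact (k6b_totalDegree_bind₁_le _ (k6b_legL_totalDegree u0 v i) _).trans (hT a)

theorem k6b_legQ_eval {m n : ℕ} (T : Fin m → MvPolynomial (Fin m) ℝ) (u0 : Fin m → ℝ) (v : Fin n → Fin m → ℝ) (i : Fin n) (δ : Fin n → ℝ) (s : ℝ) :
    eval (Fin.cons s δ : Fin (n + 1) → ℝ) (k6b_legQ T u0 v i) = k6b_fld T (k6b_base u0 v δ i + s • v i) ⬝ᵥ v i := by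
  unfold k6b_legQ k6b_fld dotProduct
  rw [map_sum]
  refine Finset.sum_congr rfl fun a _ => ?_
  rw [map_mul, eval_C, mul_comm]
  congr 1
  have h := eval₂Hom_bind₁ (RingHom.id ℝ) (Fin.cons s δ : Fin (n + 1) → ℝ) (k6b_legL u0 v i) (T a)
  have e : (fun b => eval₂Hom (RingHom.id ℝ) (Fin.cons s δ : Fin (n + 1) → ℝ) (k6b_legL u0 v i b)) = k6b_base u0 v δ i + s • v i := by
    funext b
    exact k6b_legL_eval u0 v i b δ s
  rw [e] at h
  exact h

/-- **C1b** -/
theorem k6b_height_poly : k6b_height_poly_stmt := by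
  intro m n D T u0 v hT
  refine ⟨∑ i : Fin n, k6b_intP i (k6b_legQ T u0 v i), ?_, fun δ => ?_⟩
  · refine totalDegree_finsetSum_le fun i _ => ?_
    exact (k6b_intP_totalDegree i _).trans (Nat.add_le_add_right (k6b_legQ_totalDegree T u0 v i hT) 1)
  · unfold k6b_height
    rw [map_sum]
    refine Finset.sum_congr rfl fun i _ => ?_
    rw [k6b_intP_eval]
    simp_rw [k6b_legQ_eval]

end

end Claimed.Agent.R252
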