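import Claimed.Agent.R252.S6b.GroupDefs
import Claimed.Agent.R252.S6b.HeightHess

/-!
# Row252, unit S6b, part D, leaf P2: variation of `x - P(u)` along a long line      (helper250)
`k6b_line_var : k6b_line_var_stmt`.  FTC along the line (`k6b_hasDerivAt_line`), `Geo.fit`, and the value bound `rmz_mv_eval_le`.
-/

set_option autoImplicit false

namespace Claimed.Agent.R252

open MeasureTheory MvPolynomial
open scoped ENNReal BigOperators

noncomputable section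

/-- FTC for a polynomial along a line -/
theorem k6b_lv_ftc {m : ℕ} (P : MvPolynomial (Fin m) ℝ) (x w : Fin m → ℝ) (a b : ℝ) :
    ∫ s in a..b, k6b_fld (fun i => pderiv i P) (x + s • w) ⬝ᵥ w = eval (x + b • w) P - eval (x + a • w) P := by
  refine intervalIntegral.integral_eq_sub_of_hasDerivAt (f := fun s : ℝ => eval (x + s • w) P) (fun s _ => ?_)
    ((k6b_continuous_leg (fun i => pderiv i P) x w w).intervalIntegrable a b)
  exact k6b_hasDerivAt_line P x w s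

theorem k6b_lv_pderiv_deg {m : ℕ} (j : Fin m) (P : MvPolynomial (Fin m) ℝ) : (pderiv j P).totalDegree ≤ P.totalDegree := by
  unfold MvPolynomial.totalDegree
  refine Finset.sup_le fun μ hμ => ?_
  have h1 := rmz_pderiv_support P j μ hμ
  have h2 : (μ + Finsupp.single j 1).sum (fun _ e => e) ≤ P.support.sup fun s => s.sum fun _ e => e :=
    Finset.le_sup (f := fun s : Fin m →₀ ℕ => s.sum fun _ e => e) h1
  rw [Finsupp.sum_add_index' (fun _ => rfl) (fun _ _ _ => rfl), Finsupp.sum_single_index rfl] at h2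
  omega

/-- pointwise bound of the defect -/
theorem k6b_lv_point {m D : ℕ} (T : Fin m → MvPolynomial (Fin m) ℝ) (P : MvPolynomial (Fin m) ℝ) (K σ : ℝ) (hK : 1 ≤ K)
    (hT : ∀ i, (T i).totalDegree ≤ D) (hP : P.totalDegree ≤ D + 1) (hσ : ∀ i, rmzNm (pderiv i P - T i) ≤ σ)
    (u w : Fin m → ℝ) (hu : ‖u‖ ≤ K) (hw : ‖w‖ ≤ K) :
    |k6b_fld T u ⬝ᵥ w - k6b_fld (fun i => pderiv i P) u ⬝ᵥ w| ≤ m * (σ * K ^ (m * (D + 1)) * K) := by
  have hK0 : (0 : ℝ) ≤ K := le_trans zero_le_one hK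
  have e : k6b_fld T u ⬝ᵥ w - k6b_fld (fun i => pderiv i P) u ⬝ᵥ w = ∑ i, -(eval u (pderiv i P - T i)) * w i := by
    unfold k6b_fld dotProduct
    rw [← Finset.sum_sub_distrib]
    refine Finset.sum_congr rfl fun i _ => ?_
    rw [map_sub]; ring
  rw [e]
  refine (Finset.abs_sum_le_sum_abs _ _).trans ?_
  have h1 : ∀ i ∈ (Finset.univ : Finset (Fin m)), |-(eval u (pderiv i P - T i)) * w i| ≤ σ * K ^ (m * (D + 1)) * K := by
    intro i _
    rw [abs_mul, abs_neg]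
    have hd : ∀ j, (pderiv i P - T i).degreeOf j ≤ D + 1 := by
      intro j
      refine (degreeOf_le_totalDegree _ _).trans ((totalDegree_sub _ _).trans (max_le ?_ ((hT i).trans (Nat.le_succ _))))
      exact (k6b_lv_pderiv_deg i P).trans hP
    have h2 := rmz_mv_eval_le m (D + 1) (pderiv i P - T i) hd K hK u (fun j => (norm_le_pi_norm u j).trans hu)
    have h3 : |w i| ≤ K := (norm_le_pi_norm w i).trans hw
    have h4 : rmzNm (pderiv i P - T i) * K ^ (m * (D + 1)) ≤ σ * K ^ (m * (D + 1)) :=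
      mul_le_mul_of_nonneg_right (hσ i) (pow_nonneg hK0 _)
    exact mul_le_mul (h2.trans h4) h3 (abs_nonneg _) (le_trans (abs_nonneg _) (h2.trans h4))
  refine (Finset.sum_le_sum h1).trans ?_
  rw [Finset.sum_const, Finset.card_univ, Fintype.card_fin, nsmul_eq_mul]

theorem k6b_line_var : k6b_line_var_stmt := by
  intro m D
  refine ⟨m * (D + 1) + 1 + m, ?_⟩
  intro Y T P K β pv εT σ hK hσ0 hT hP hσ hG l hl τ₁ h₁ τ₂ h₂
  have hK0 : (0 : ℝ) ≤ K := le_trans zero_le_one hK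
  have hfit := hG.fit l hl τ₁ h₁ τ₂ h₂
  have hftc := k6b_lv_ftc P (Y.u0 l) (Y.vel l) τ₁ τ₂
  have hpos : ∀ τ, Y.pos (l, τ) = Y.u0 l + τ • Y.vel l := fun τ => rfl
  simp only [hpos] at hfit ⊢
  set I1 := ∫ τ in τ₁..τ₂, k6b_fld T (Y.u0 l + τ • Y.vel l) ⬝ᵥ Y.vel l with hI1
  set I2 := ∫ s in τ₁..τ₂, k6b_fld (fun i => pderiv i P) (Y.u0 l + s • Y.vel l) ⬝ᵥ Y.vel l with hI2
  set B : ℝ := m * (σ * K ^ (m * (D + 1)) * K) with hB
  have hdiff : |I1 - I2| ≤ B := by
    rw [hI1, hI2, ← intervalIntegral.integral_sub ((k6b_continuous_leg T _ _ _).intervalIntegrable _ _)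
      ((k6b_continuous_leg _ _ _ _).intervalIntegrable _ _)]
    have h := intervalIntegral.norm_integral_le_of_norm_le_const (a := τ₁) (b := τ₂) (C := B)
      (f := fun τ => k6b_fld T (Y.u0 l + τ • Y.vel l) ⬝ᵥ Y.vel l
        - k6b_fld (fun i => pderiv i P) (Y.u0 l + τ • Y.vel l) ⬝ᵥ Y.vel l) (fun τ hτ => by
        rw [Real.norm_eq_abs]
        have hτ' : τ ∈ Set.Icc (0 : ℝ) 1 := by
          have h5 : Set.uIoc τ₁ τ₂ ⊆ Set.uIcc τ₁ τ₂ := Set.uIoc_subset_uIcc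
          exact (Set.uIcc_subset_Icc h₁ h₂) (h5 hτ)
        exact k6b_lv_point T P K σ hK hT hP hσ _ _ (hG.box l hl τ hτ') (hG.velb l))
    rw [Real.norm_eq_abs] at h
    refine h.trans ?_
    have hB0 : 0 ≤ B := by rw [hB]; positivity
    have h6 : |τ₂ - τ₁| ≤ 1 := by
      rw [abs_le]; constructor <;> linarith [h₁.1, h₁.2, h₂.1, h₂.2]
    calc B * |τ₂ - τ₁| ≤ B * 1 := mul_le_mul_of_nonneg_left h6 hB0
      _ = B := mul_one _
  have hBc : B ≤ ((m * (D + 1) + 1 + m : ℕ) : ℝ) * K ^ (m * (D + 1) + 1 + m) * σ := by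
    have h7 : K ^ (m * (D + 1)) * K ≤ K ^ (m * (D + 1) + 1 + m) := by
      rw [← pow_succ]
      exact pow_le_pow_right₀ hK (Nat.le_add_right _ _)
    have h8 : (m : ℝ) ≤ ((m * (D + 1) + 1 + m : ℕ) : ℝ) := by
      exact_mod_cast Nat.le_add_left _ _
    calc B = (m : ℝ) * (K ^ (m * (D + 1)) * K) * σ := by rw [hB]; ring
      _ ≤ ((m * (D + 1) + 1 + m : ℕ) : ℝ) * K ^ (m * (D + 1) + 1 + m) * σ := by
        refine mul_le_mul_of_nonneg_right ?_ hσ0
        exact mul_le_mul h8 h7 (by positivity) (by positivity)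
  have e : (Y.x (l, τ₂) - eval (Y.u0 l + τ₂ • Y.vel l) P) - (Y.x (l, τ₁) - eval (Y.u0 l + τ₁ • Y.vel l) P)
      = (Y.x (l, τ₂) - Y.x (l, τ₁) - I1) + (I1 - I2) := by
    rw [hftc]; ring
  rw [e]
  exact (abs_add_le _ _).trans (add_le_add hfit (hdiff.trans hBc))

end

end Claimed.Agent.R252
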