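import Claimed.Agent.R252.S6b.SwitchDefs

/-!
# Row252, unit S6b, leaf C1a: where `|p'| ≥ θ` a polynomial spends little time in an interval.   (helper275)
Pieces: `A_k` = the points of the set with exactly `k` roots of `p'` to the left; `p` is injective on `A_k` (Rolle); area formula in one variable.
-/

set_option autoImplicit false

namespace Claimed.Agent.R252

open MeasureTheory Set
open scoped ENNReal BigOperators

noncomputable section

/-- one injective piece -/
theorem k6b_mp_piece (p : Polynomial ℝ) (θ c ρ : ℝ) (hθ : 0 < θ) (S : Set ℝ) (hS : MeasurableSet S)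
    (hinj : InjOn (fun s => p.eval s) S) (h1 : ∀ s ∈ S, θ ≤ |p.derivative.eval s|) (h2 : ∀ s ∈ S, |p.eval s - c| ≤ ρ) :
    volume S ≤ ENNReal.ofReal (2 * ρ / θ) := by
  have harea := lintegral_image_eq_lintegral_abs_deriv_mul (s := S) (f := fun s => p.eval s) (f' := fun s => p.derivative.eval s) hS
    (fun x _ => (p.hasDerivAt x).hasDerivWithinAt) hinj (fun _ => 1)
  simp only [mul_one, lintegral_one, Measure.restrict_apply MeasurableSet.univ, univ_inter] at harea
  have hsub : (fun s => p.eval s) '' S ⊆ Icc (c - ρ) (c + ρ) := by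
    rintro _ ⟨s, hs, rfl⟩
    have := abs_le.mp (h2 s hs)
    exact ⟨by linarith [this.1], by linarith [this.2]⟩
  have hup : volume ((fun s => p.eval s) '' S) ≤ ENNReal.ofReal (2 * ρ) := by
    refine (measure_mono hsub).trans (le_of_eq ?_)
    rw [Real.volume_Icc]
    congr 1
    ring
  have hlow : ENNReal.ofReal θ * volume S ≤ ∫⁻ x in S, ENNReal.ofReal |p.derivative.eval x| := by
    rw [← setLIntegral_const]
    exact setLIntegral_mono' hS fun x hx => ENNReal.ofReal_le_ofReal (h1 x hx)
  have h3 : ENNReal.ofReal θ * volume S ≤ ENNReal.ofReal (2 * ρ) := by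
    rw [← harea] at hlow
    exact hlow.trans hup
  rw [ENNReal.ofReal_div_of_pos hθ, ENNReal.le_div_iff_mul_le (Or.inl (by simpa using hθ)) (Or.inl ENNReal.ofReal_ne_top), mul_comm]
  exact h3

theorem k6b_mono_pieces : k6b_mono_pieces_stmt := by
  intro d p hd θ c ρ hθ hρ
  by_cases hp : p.derivative = 0
  · have : {s : ℝ | θ ≤ |p.derivative.eval s| ∧ |p.eval s - c| ≤ ρ} = ∅ := by
      ext s
      simp only [Set.mem_ofPred_eq, mem_empty_iff_false, iff_false, not_and, hp, Polynomial.eval_zero, abs_zero]
      intro h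
      exact absurd h (not_le.mpr hθ)
    rw [this, measure_empty]
    exact bot_le
  obtain ⟨Z, hZ⟩ : ∃ Z : Finset ℝ, Z = p.derivative.roots.toFinset := ⟨_, rfl⟩
  have hZmem : ∀ x, p.derivative.eval x = 0 → x ∈ Z := by
    intro x hx
    rw [hZ, Multiset.mem_toFinset, Polynomial.mem_roots hp]
    exact hx
  have hd0 : p.natDegree ≠ 0 := by
    intro h0
    apply hp
    rw [Polynomial.eq_C_of_natDegree_eq_zero h0, Polynomial.derivative_C]
  have hZcard : Z.card < d := by
    calc Z.card ≤ Multiset.card p.derivative.roots := by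
          rw [hZ]
          exact Multiset.toFinset_card_le _
      _ ≤ p.derivative.natDegree := Polynomial.card_roots' _
      _ < p.natDegree := Polynomial.natDegree_derivative_lt hd0
      _ ≤ d := hd
  obtain ⟨cnt, hcnt⟩ : ∃ cnt : ℝ → ℕ, cnt = fun s => (Z.filter fun r => r < s).card := ⟨_, rfl⟩
  have hmono : Monotone cnt := by
    intro s s' hss
    rw [hcnt]
    exact Finset.card_le_card fun r hr => by
      rw [Finset.mem_filter] at hr ⊢
      exact ⟨hr.1, lt_of_lt_of_le hr.2 hss⟩
  have hmeas : Measurable cnt := hmono.measurable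
  obtain ⟨A, hA⟩ : ∃ A : Set ℝ, A = {s : ℝ | θ ≤ |p.derivative.eval s| ∧ |p.eval s - c| ≤ ρ} := ⟨_, rfl⟩
  have hAmeas : MeasurableSet A := by
    rw [hA]
    have c1 : Continuous fun s : ℝ => |p.derivative.eval s| := (Polynomial.continuous _).abs
    have c2 : Continuous fun s : ℝ => |p.eval s - c| := ((Polynomial.continuous _).sub continuous_const).abs
    exact (measurableSet_le measurable_const c1.measurable).inter (measurableSet_le c2.measurable measurable_const)
  rw [← hA]
  have hcover : A ⊆ ⋃ k ∈ Finset.range d, A ∩ cnt ⁻¹' {k} := by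
    intro s hs
    simp only [mem_iUnion, Finset.mem_range, mem_inter_iff, mem_preimage, mem_singleton_iff, exists_prop]
    refine ⟨cnt s, lt_of_le_of_lt ?_ hZcard, hs, rfl⟩
    rw [hcnt]
    exact Finset.card_le_card (Finset.filter_subset _ _)
  have hpiece : ∀ k, volume (A ∩ cnt ⁻¹' {k}) ≤ ENNReal.ofReal (2 * ρ / θ) := by
    intro k
    refine k6b_mp_piece p θ c ρ hθ _ (hAmeas.inter (hmeas (measurableSet_singleton k))) ?_ ?_ ?_
    · -- injectivity by Rolle
      have key : ∀ s ∈ A ∩ cnt ⁻¹' {k}, ∀ s' ∈ A ∩ cnt ⁻¹' {k}, s < s' → p.eval s ≠ p.eval s' := by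
        intro s hs s' hs' hlt heq
        obtain ⟨x, hx, hx0⟩ := exists_hasDerivAt_eq_zero (f := fun s => p.eval s) (f' := fun s => p.derivative.eval s) hlt
          (Polynomial.continuous p).continuousOn heq fun x _ => p.hasDerivAt x
        have e1 : cnt s = k := hs.2
        have e2 : cnt s' = k := hs'.2
        have hlt' : cnt s < cnt s' := by
          rw [hcnt]
          refine Finset.card_lt_card ⟨fun r hr => ?_, fun hsub => ?_⟩
          · rw [Finset.mem_filter] at hr ⊢
            exact ⟨hr.1, hr.2.trans hlt⟩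
          · have := hsub (Finset.mem_filter.mpr ⟨hZmem x hx0, hx.2⟩)
            exact absurd (Finset.mem_filter.mp this).2 (not_lt.mpr hx.1.le)
        omega
      intro s hs s' hs' heq
      rcases lt_trichotomy s s' with h | h | h
      · exact absurd heq (key s hs s' hs' h)
      · exact h
      · exact absurd heq.symm (key s' hs' s hs h)
    · intro s hs
      have := hs.1
      rw [hA] at this
      exact this.1
    · intro s hs
      have := hs.1
      rw [hA] at this
      exact this.2
  calc volume A ≤ volume (⋃ k ∈ Finset.range d, A ∩ cnt ⁻¹' {k}) := measure_mono hcover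
    _ ≤ ∑ k ∈ Finset.range d, volume (A ∩ cnt ⁻¹' {k}) := measure_biUnion_finset_le _ _
    _ ≤ ∑ _k ∈ Finset.range d, ENNReal.ofReal (2 * ρ / θ) := Finset.sum_le_sum fun k _ => hpiece k
    _ = ENNReal.ofReal (2 * d * ρ / θ) := by
        rw [Finset.sum_const, Finset.card_range, nsmul_eq_mul, ← ENNReal.ofReal_natCast, ← ENNReal.ofReal_mul (Nat.cast_nonneg d)]
        congr 1
        ring

end

end Claimed.Agent.R252
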