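import Claimed.Agent.R252.S6b.GroupDefs

/-!
# Row252, unit S6b, part D, leaf P1: the polynomial potential of a polynomial field with small curl      (helper147)

`P = ∑_i x_i J(T_i)`, `J` = division of the coefficient of `x^μ` by `|μ| + 1`.   Coefficientwise:
`∂_j P - T_j = J (∑_i x_i (∂_j T_i - ∂_i T_j))`.
-/

set_option autoImplicit false

namespace Claimed.Agent.R252

open MvPolynomial
open scoped BigOperators

noncomputable section

theorem k6b_pt_Nm_eq_sum {σ : Type} (P : MvPolynomial σ ℝ) (S : Finset (σ →₀ ℕ)) (h : P.support ⊆ S) :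
    rmzNm P = ∑ μ ∈ S, |P.coeff μ| := by
  unfold rmzNm
  refine Finset.sum_subset h fun μ _ hμ => ?_
  rw [MvPolynomial.notMem_support_iff.1 hμ, abs_zero]

theorem k6b_pt_Nm_le_of_coeff {σ : Type} (A B : MvPolynomial σ ℝ) (h : ∀ μ, |A.coeff μ| ≤ |B.coeff μ|) :
    rmzNm A ≤ rmzNm B := by
  have hs : A.support ⊆ B.support := by
    intro μ hμ
    rw [MvPolynomial.mem_support_iff] at hμ ⊢
    intro h0
    have := h μ
    rw [h0, abs_zero] at this
    exact hμ (abs_eq_zero.1 (le_antisymm this (abs_nonneg _)))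
  rw [k6b_pt_Nm_eq_sum A _ hs]
  exact Finset.sum_le_sum fun μ _ => h μ

theorem k6b_pt_Nm_add_le {σ : Type} (A B : MvPolynomial σ ℝ) : rmzNm (A + B) ≤ rmzNm A + rmzNm B := by
  classical
  rw [k6b_pt_Nm_eq_sum (A + B) _ MvPolynomial.support_add, k6b_pt_Nm_eq_sum A _ Finset.subset_union_left,
    k6b_pt_Nm_eq_sum B _ (Finset.subset_union_right (s₁ := A.support)), ← Finset.sum_add_distrib]
  refine Finset.sum_le_sum fun μ _ => ?_
  rw [MvPolynomial.coeff_add]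
  exact abs_add_le _ _

theorem k6b_pt_Nm_zero {σ : Type} : rmzNm (0 : MvPolynomial σ ℝ) = 0 := by
  unfold rmzNm
  simp

theorem k6b_pt_Nm_sum_le {σ ι : Type} (s : Finset ι) (f : ι → MvPolynomial σ ℝ) :
    rmzNm (∑ i ∈ s, f i) ≤ ∑ i ∈ s, rmzNm (f i) := by
  classical
  induction s using Finset.induction_on with
  | empty => simp [k6b_pt_Nm_zero]
  | insert a s ha ih =>
    rw [Finset.sum_insert ha, Finset.sum_insert ha]
    exact (k6b_pt_Nm_add_le _ _).trans (by linarith)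

theorem k6b_pt_Nm_X_mul {σ : Type} (i : σ) (Q : MvPolynomial σ ℝ) : rmzNm (X i * Q) = rmzNm Q := by
  unfold rmzNm
  rw [MvPolynomial.support_X_mul, Finset.sum_map]
  refine Finset.sum_congr rfl fun μ _ => ?_
  rw [addLeftEmbedding_apply, MvPolynomial.coeff_X_mul]

/-- division of the coefficient of `x^μ` by `|μ| + 1` -/
def k6b_ptJ {m : ℕ} (Q : MvPolynomial (Fin m) ℝ) : MvPolynomial (Fin m) ℝ :=
  ∑ μ ∈ Q.support, monomial μ (Q.coeff μ / ((∑ i, (μ i : ℝ)) + 1))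

theorem k6b_pt_coeff_J {m : ℕ} (Q : MvPolynomial (Fin m) ℝ) (ν : Fin m →₀ ℕ) :
    (k6b_ptJ Q).coeff ν = Q.coeff ν / ((∑ i, (ν i : ℝ)) + 1) := by
  classical
  unfold k6b_ptJ
  rw [MvPolynomial.coeff_sum]
  simp only [MvPolynomial.coeff_monomial]
  rw [Finset.sum_ite_eq']
  split_ifs with h
  · rfl
  · rw [MvPolynomial.notMem_support_iff.1 h, zero_div]

theorem k6b_pt_den_ge {m : ℕ} (ν : Fin m →₀ ℕ) : (1 : ℝ) ≤ (∑ i, (ν i : ℝ)) + 1 := by
  have : (0 : ℝ) ≤ ∑ i, (ν i : ℝ) := Finset.sum_nonneg fun _ _ => Nat.cast_nonneg _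
  linarith

theorem k6b_pt_abs_div_le {m : ℕ} (x : ℝ) (ν : Fin m →₀ ℕ) : |x / ((∑ i, (ν i : ℝ)) + 1)| ≤ |x| := by
  have h1 := k6b_pt_den_ge ν
  rw [abs_div, abs_of_pos (by linarith : (0 : ℝ) < (∑ i, (ν i : ℝ)) + 1)]
  exact div_le_self (abs_nonneg _) h1

theorem k6b_pt_Nm_J_le {m : ℕ} (Q : MvPolynomial (Fin m) ℝ) : rmzNm (k6b_ptJ Q) ≤ rmzNm Q :=
  k6b_pt_Nm_le_of_coeff _ _ fun μ => by
    rw [k6b_pt_coeff_J]
    exact k6b_pt_abs_div_le _ _

theorem k6b_pt_supp_J {m : ℕ} (Q : MvPolynomial (Fin m) ℝ) : (k6b_ptJ Q).support ⊆ Q.support := by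
  intro μ hμ
  rw [MvPolynomial.mem_support_iff] at hμ ⊢
  intro h0
  apply hμ
  rw [k6b_pt_coeff_J, h0, zero_div]

/-- the potential -/
def k6b_ptP {m : ℕ} (T : Fin m → MvPolynomial (Fin m) ℝ) : MvPolynomial (Fin m) ℝ := ∑ i, X i * k6b_ptJ (T i)

theorem k6b_pt_d_add {m : ℕ} (ν : Fin m →₀ ℕ) (j : Fin m) :
    ∑ l, (((ν + Finsupp.single j 1 : Fin m →₀ ℕ) l : ℕ) : ℝ) = (∑ l, (ν l : ℝ)) + 1 := by
  classical
  simp only [Finsupp.add_apply, Nat.cast_add, Finset.sum_add_distrib, Finsupp.single_apply]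
  simp

theorem k6b_pt_term {m : ℕ} (T : Fin m → MvPolynomial (Fin m) ℝ) (j i : Fin m) (μ : Fin m →₀ ℕ) :
    (X i * k6b_ptJ (T i)).coeff (μ + Finsupp.single j 1) * ((μ j : ℝ) + 1) * ((∑ l, (μ l : ℝ)) + 1)
      - (if i = j then (μ j : ℝ) + 1 else (μ i : ℝ)) * (T j).coeff μ = (X i * k6b_curlP T i j).coeff μ := by
  classical
  have hd := k6b_pt_den_ge μ
  by_cases hij : i = j
  · subst hij
    have h0 : k6b_curlP T i i = 0 := by unfold k6b_curlP; exact sub_self _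
    rw [h0, mul_zero, MvPolynomial.coeff_zero, if_pos rfl, add_comm μ, MvPolynomial.coeff_X_mul, k6b_pt_coeff_J]
    field_simp
    ring
  · rw [if_neg hij]
    by_cases hμ : μ i = 0
    · rw [MvPolynomial.coeff_X_mul', MvPolynomial.coeff_X_mul', if_neg, if_neg, hμ]
      · simp
      · simpa using hμ
      · simp [hμ, Ne.symm hij]
    · obtain ⟨ν, rfl⟩ : ∃ ν, μ = Finsupp.single i 1 + ν := by
        refine ⟨μ - Finsupp.single i 1, ?_⟩
        rw [add_tsub_cancel_of_le]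
        rw [Finsupp.single_le_iff]
        omega
      rw [add_assoc, MvPolynomial.coeff_X_mul, MvPolynomial.coeff_X_mul, k6b_pt_coeff_J, k6b_pt_d_add]
      unfold k6b_curlP
      rw [MvPolynomial.coeff_sub, MvPolynomial.coeff_pderiv, MvPolynomial.coeff_pderiv, add_comm (Finsupp.single i 1) ν,
        k6b_pt_d_add]
      have e1 : (((ν + Finsupp.single i 1 : Fin m →₀ ℕ) j : ℕ) : ℝ) = (ν j : ℝ) := by
        simp [hij]
      have e2 : (((ν + Finsupp.single i 1 : Fin m →₀ ℕ) i : ℕ) : ℝ) = (ν i : ℝ) + 1 := by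
        simp
      rw [e1, e2]
      have hν := k6b_pt_den_ge ν
      have : (∑ l, (ν l : ℝ)) + 1 + 1 ≠ 0 := by linarith
      field_simp

theorem k6b_pt_sum_w {m : ℕ} (j : Fin m) (μ : Fin m →₀ ℕ) :
    ∑ i, (if i = j then (μ j : ℝ) + 1 else (μ i : ℝ)) = (∑ l, (μ l : ℝ)) + 1 := by
  classical
  have : ∀ i, (if i = j then (μ j : ℝ) + 1 else (μ i : ℝ)) = (μ i : ℝ) + if i = j then 1 else 0 := by
    intro i
    split_ifs with h
    · rw [h]
    · rw [add_zero]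
  simp only [this, Finset.sum_add_distrib]
  simp

theorem k6b_pt_coeff {m : ℕ} (T : Fin m → MvPolynomial (Fin m) ℝ) (j : Fin m) (μ : Fin m →₀ ℕ) :
    (pderiv j (k6b_ptP T) - T j).coeff μ = (∑ i, X i * k6b_curlP T i j).coeff μ / ((∑ l, (μ l : ℝ)) + 1) := by
  have hd := k6b_pt_den_ge μ
  rw [eq_div_iff (by linarith), MvPolynomial.coeff_sum, MvPolynomial.coeff_sub, MvPolynomial.coeff_pderiv]
  unfold k6b_ptP
  rw [MvPolynomial.coeff_sum]
  simp only [← k6b_pt_term]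
  rw [Finset.sum_sub_distrib, ← Finset.sum_mul, ← Finset.sum_mul, ← Finset.sum_mul, k6b_pt_sum_w]
  ring

theorem k6b_potential : k6b_potential_stmt := by
  intro m D T σ hD hσ
  refine ⟨k6b_ptP T, ?_, ?_, fun j => ?_⟩
  · unfold k6b_ptP
    refine MvPolynomial.totalDegree_finsetSum_le fun i _ => ?_
    refine (MvPolynomial.totalDegree_mul _ _).trans ?_
    rw [MvPolynomial.totalDegree_X]
    have := (MvPolynomial.totalDegree_le_of_support_subset (k6b_pt_supp_J (T i))).trans (hD i)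
    omega
  · unfold k6b_ptP
    refine (k6b_pt_Nm_sum_le _ _).trans (Finset.sum_le_sum fun i _ => ?_)
    rw [k6b_pt_Nm_X_mul]
    exact k6b_pt_Nm_J_le _
  · have h1 : rmzNm (pderiv j (k6b_ptP T) - T j) ≤ rmzNm (∑ i, X i * k6b_curlP T i j) :=
      k6b_pt_Nm_le_of_coeff _ _ fun μ => by
        rw [k6b_pt_coeff]
        exact k6b_pt_abs_div_le _ _
    refine h1.trans ((k6b_pt_Nm_sum_le _ _).trans ?_)
    calc ∑ i, rmzNm (X i * k6b_curlP T i j) ≤ ∑ _i : Fin m, σ :=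
          Finset.sum_le_sum fun i _ => by rw [k6b_pt_Nm_X_mul]; exact hσ i j
      _ = m * σ := by simp

end

end Claimed.Agent.R252
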