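import Claimed.Agent.R252.S6b.GroupDefs

/-!
# Row252, unit S6b, part D: the pruning toolbox and the first pruning `k6b_prune0`      (helper247)

Abstract toolbox (`k6b_pr_*`): a measurable set `E`, a key `κ` with measurable fibres and finitely many values `J` on `E`.
* `k6b_pr_meas`, `k6b_pr_sum`: `{e ∈ E | e ∈ G (κ e)}` is measurable, its measure is the sum over the keys;
* `k6b_pr_del`: deletion of the keys which lost more than half from `E` to `E'` costs at most `μ (E \ E')`;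
* `k6b_pr_mu_apply`: `Y.mu A = ∫⁻ l, Y.durF A l ∂Y.nu` (Fubini).
-/

set_option autoImplicit false

namespace Claimed.Agent.R252

open MeasureTheory
open scoped ENNReal BigOperators

section kit

variable {Ω I : Type*} [MeasurableSpace Ω]

theorem k6b_pr_eq (E : Set Ω) (κ : Ω → I) (J : Finset I) (hJ : ∀ e ∈ E, κ e ∈ J) (G : I → Set Ω) :
    {e | e ∈ E ∧ e ∈ G (κ e)} = ⋃ i ∈ J, E ∩ κ ⁻¹' {i} ∩ G i := by
  ext e
  simp only [Set.mem_setOf_eq, Set.mem_iUnion, Set.mem_inter_iff, Set.mem_preimage,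
    Set.mem_singleton_iff, exists_prop]
  constructor
  · rintro ⟨h1, h2⟩
    exact ⟨κ e, hJ e h1, ⟨h1, rfl⟩, h2⟩
  · rintro ⟨i, _, ⟨h1, rfl⟩, h2⟩
    exact ⟨h1, h2⟩

theorem k6b_pr_meas {E : Set Ω} (hE : MeasurableSet E) {κ : Ω → I} (hκ : ∀ i, MeasurableSet (κ ⁻¹' {i}))
    (J : Finset I) (hJ : ∀ e ∈ E, κ e ∈ J) {G : I → Set Ω} (hG : ∀ i, MeasurableSet (G i)) :
    MeasurableSet {e | e ∈ E ∧ e ∈ G (κ e)} := by
  rw [k6b_pr_eq E κ J hJ G]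
  exact Finset.measurableSet_biUnion _ fun i _ => (hE.inter (hκ i)).inter (hG i)

theorem k6b_pr_sum (μ : Measure Ω) {E : Set Ω} (hE : MeasurableSet E) {κ : Ω → I}
    (hκ : ∀ i, MeasurableSet (κ ⁻¹' {i})) (J : Finset I) (hJ : ∀ e ∈ E, κ e ∈ J) {G : I → Set Ω}
    (hG : ∀ i, MeasurableSet (G i)) :
    μ {e | e ∈ E ∧ e ∈ G (κ e)} = ∑ i ∈ J, μ (E ∩ κ ⁻¹' {i} ∩ G i) := by
  rw [k6b_pr_eq E κ J hJ G]
  refine measure_biUnion_finset ?_ fun i _ => (hE.inter (hκ i)).inter (hG i)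
  intro i _ j _ hij
  rw [Function.onFun, Set.disjoint_left]
  rintro e ⟨⟨_, h1⟩, _⟩ ⟨⟨_, h2⟩, _⟩
  exact hij (h1.symm.trans h2)

/-- total mass = sum over the keys -/
theorem k6b_pr_tot (μ : Measure Ω) {E : Set Ω} (hE : MeasurableSet E) {κ : Ω → I}
    (hκ : ∀ i, MeasurableSet (κ ⁻¹' {i})) (J : Finset I) (hJ : ∀ e ∈ E, κ e ∈ J) :
    μ E = ∑ i ∈ J, μ (E ∩ κ ⁻¹' {i}) := by
  have h := k6b_pr_sum μ hE hκ J hJ (G := fun _ => Set.univ) (fun _ => MeasurableSet.univ)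
  simp only [Set.mem_univ, and_true, Set.setOf_mem_eq, Set.inter_univ] at h
  exact h

/-- keep the good keys: measurability -/
theorem k6b_pr_keep_meas {E : Set Ω} (hE : MeasurableSet E) {κ : Ω → I} (hκ : ∀ i, MeasurableSet (κ ⁻¹' {i}))
    (J : Finset I) (hJ : ∀ e ∈ E, κ e ∈ J) (P : I → Prop) :
    MeasurableSet {e | e ∈ E ∧ P (κ e)} :=
  k6b_pr_meas hE hκ J hJ (G := fun i => {_e | P i}) (fun _ => MeasurableSet.const _)

/-- keep the good keys: a bound for the mass -/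
theorem k6b_pr_keep_le (μ : Measure Ω) {E : Set Ω} (hE : MeasurableSet E) {κ : Ω → I}
    (hκ : ∀ i, MeasurableSet (κ ⁻¹' {i})) (J : Finset I) (hJ : ∀ e ∈ E, κ e ∈ J) (P : I → Prop)
    (c : I → ℝ≥0∞) (hc : ∀ i ∈ J, P i → μ (E ∩ κ ⁻¹' {i}) ≤ c i) :
    μ {e | e ∈ E ∧ P (κ e)} ≤ ∑ i ∈ J, c i := by
  have h := k6b_pr_sum μ hE hκ J hJ (G := fun i => {_e | P i}) (fun _ => MeasurableSet.const _)
  refine (le_of_eq h).trans (Finset.sum_le_sum fun i hi => ?_)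
  by_cases hP : P i
  · exact (measure_mono Set.inter_subset_left).trans (hc i hi hP)
  · have : E ∩ κ ⁻¹' {i} ∩ {_e | P i} = ∅ := by
      ext e
      simp [hP]
    rw [this, measure_empty]
    exact zero_le

/-- the fibre of a kept key is kept entirely -/
theorem k6b_pr_keep_fib (E : Set Ω) (κ : Ω → I) (P : I → Prop) (i : I) (hi : P i) :
    {e | e ∈ E ∧ P (κ e)} ∩ κ ⁻¹' {i} = E ∩ κ ⁻¹' {i} := by
  ext e
  simp only [Set.mem_inter_iff, Set.mem_setOf_eq, Set.mem_preimage, Set.mem_singleton_iff]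
  constructor
  · rintro ⟨⟨h1, _⟩, h2⟩
    exact ⟨h1, h2⟩
  · rintro ⟨h1, h2⟩
    exact ⟨⟨h1, by rw [h2]; exact hi⟩, h2⟩

theorem k6b_pr_half {a c : ℝ≥0∞} (h : ¬ a + c ≤ 2 * a) : a ≤ c := by
  by_contra hc
  apply h
  rw [two_mul]
  exact add_le_add le_rfl (not_le.1 hc).le

/-- **deletion of the keys which lost more than half from `E` to `E'`** -/
theorem k6b_pr_del (μ : Measure Ω) {E E' : Set Ω} (hE : MeasurableSet E) (hE' : MeasurableSet E')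
    (hsub : E' ⊆ E) {κ : Ω → I} (hκ : ∀ i, MeasurableSet (κ ⁻¹' {i})) (J : Finset I)
    (hJ : ∀ e ∈ E, κ e ∈ J) :
    MeasurableSet {e | e ∈ E' ∧ μ (E ∩ κ ⁻¹' {κ e}) ≤ 2 * μ (E' ∩ κ ⁻¹' {κ e})} ∧
      μ (E' \ {e | e ∈ E' ∧ μ (E ∩ κ ⁻¹' {κ e}) ≤ 2 * μ (E' ∩ κ ⁻¹' {κ e})}) ≤ μ (E \ E') := by
  have hJ' : ∀ e ∈ E', κ e ∈ J := fun e he => hJ e (hsub he)
  refine ⟨k6b_pr_keep_meas hE' hκ J hJ' (fun i => μ (E ∩ κ ⁻¹' {i}) ≤ 2 * μ (E' ∩ κ ⁻¹' {i})), ?_⟩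
  have h1 : E' \ {e | e ∈ E' ∧ μ (E ∩ κ ⁻¹' {κ e}) ≤ 2 * μ (E' ∩ κ ⁻¹' {κ e})}
      = {e | e ∈ E' ∧ ¬ μ (E ∩ κ ⁻¹' {κ e}) ≤ 2 * μ (E' ∩ κ ⁻¹' {κ e})} := by
    ext e
    simp only [Set.mem_diff, Set.mem_setOf_eq, not_and]
    constructor
    · rintro ⟨h1, h2⟩
      exact ⟨h1, h2 h1⟩
    · rintro ⟨h1, h2⟩
      exact ⟨h1, fun _ => h2⟩
  rw [h1, k6b_pr_tot μ (hE.diff hE') hκ J (fun e he => hJ e he.1)]
  refine k6b_pr_keep_le μ hE' hκ J hJ' (fun i => ¬ μ (E ∩ κ ⁻¹' {i}) ≤ 2 * μ (E' ∩ κ ⁻¹' {i})) _ ?_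
  intro i _ hi
  apply k6b_pr_half
  intro h
  apply hi
  refine le_trans (le_of_eq ?_) h
  have h2 : E ∩ κ ⁻¹' {i} = (E' ∩ κ ⁻¹' {i}) ∪ (E \ E') ∩ κ ⁻¹' {i} := by
    rw [← Set.union_inter_distrib_right, Set.union_diff_cancel hsub]
  rw [h2]
  refine measure_union ?_ ((hE.diff hE').inter (hκ i))
  rw [Set.disjoint_left]
  rintro e ⟨h3, _⟩ ⟨⟨_, h4⟩, _⟩
  exact h4 h3

end kit

section sw

variable {m : ℕ} (Y : k6b_Sw m)

theorem k6b_pr_ind_meas (hY : Y.WF) {A : Set (Y.Lam × ℝ)} (hA : MeasurableSet A) :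
    Measurable (A.indicator Y.g) := hY.g_meas.indicator hA

theorem k6b_pr_durF_meas (hY : Y.WF) {A : Set (Y.Lam × ℝ)} (hA : MeasurableSet A) :
    Measurable (Y.durF A) := by
  unfold k6b_Sw.durF
  exact (k6b_pr_ind_meas Y hY hA).lintegral_prod_right'

/-- Fubini -/
theorem k6b_pr_mu_apply (hY : Y.WF) {A : Set (Y.Lam × ℝ)} (hA : MeasurableSet A) :
    Y.mu A = ∫⁻ l, Y.durF A l ∂Y.nu := by
  haveI := hY.fin
  unfold k6b_Sw.mu k6b_Sw.durF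
  rw [withDensity_apply _ hA, ← lintegral_indicator hA,
    lintegral_prod _ (k6b_pr_ind_meas Y hY hA).aemeasurable]

theorem k6b_pr_sup_meas (hY : Y.WF) : MeasurableSet Y.sup := by
  unfold k6b_Sw.sup
  exact (hY.g_meas (measurableSet_singleton 0).compl).inter (measurable_snd measurableSet_Icc)

theorem k6b_pr_sup_compl (hY : Y.WF) : Y.mu Y.supᶜ = 0 := by
  rw [k6b_pr_mu_apply Y hY (k6b_pr_sup_meas Y hY).compl]
  have h : ∀ l, Y.durF Y.supᶜ l = 0 := by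
    intro l
    unfold k6b_Sw.durF
    rw [setLIntegral_congr_fun measurableSet_Icc (g := fun _ => 0), lintegral_zero]
    intro τ hτ
    by_cases h0 : Y.g (l, τ) = 0
    · by_cases hm : (l, τ) ∈ Y.supᶜ
      · simp only [Set.indicator_of_mem hm, h0]
      · simp only [Set.indicator_of_notMem hm]
    · have hm : (l, τ) ∉ Y.supᶜ := fun hh => hh ⟨h0, hτ⟩
      simp only [Set.indicator_of_notMem hm]
  simp only [h, lintegral_zero]

/-- **PR0** -/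
theorem k6b_prune0 : k6b_prune0_stmt := by
  intro m Y η hY hη
  have hst : ∀ s, MeasurableSet (Y.st ⁻¹' {s}) := hY.st_meas
  have hLg : MeasurableSet {e : Y.Lam × ℝ | e.1 ∈ Y.Lg} := measurable_fst hY.Lg_meas
  obtain ⟨E', hE'def⟩ : ∃ E' : Set (Y.Lam × ℝ), E' = Y.sup ∩ {e | e.1 ∈ Y.Lg} := ⟨_, rfl⟩
  have hE' : MeasurableSet E' := by rw [hE'def]; exact (k6b_pr_sup_meas Y hY).inter hLg
  obtain ⟨hm, hl⟩ := k6b_pr_del Y.mu MeasurableSet.univ hE' (Set.subset_univ _) hst Finset.univ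
    (fun _ _ => Finset.mem_univ _)
  have hloss : Y.mu (Set.univ \ E') ≤ η := by
    have h1 : Set.univ \ E' ⊆ Y.supᶜ ∪ {e | e.1 ∉ Y.Lg} := by
      intro e he
      rw [hE'def] at he
      by_cases h : e ∈ Y.sup
      · right
        intro h2
        exact he.2 ⟨h, h2⟩
      · left
        exact h
    calc Y.mu (Set.univ \ E') ≤ Y.mu (Y.supᶜ ∪ {e | e.1 ∉ Y.Lg}) := measure_mono h1
      _ ≤ Y.mu Y.supᶜ + Y.mu {e | e.1 ∉ Y.Lg} := measure_union_le _ _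
      _ ≤ 0 + η := add_le_add (le_of_eq (k6b_pr_sup_compl Y hY)) hη
      _ = η := zero_add _
  refine ⟨_, hm, ?_, ?_, ?_, ?_⟩
  · intro e he
    have := he.1
    rw [hE'def] at this
    exact this.1
  · intro e he
    have := he.1
    rw [hE'def] at this
    exact this.2
  · obtain ⟨F0, hF0⟩ : ∃ F0 : Set (Y.Lam × ℝ), F0 = {e | e ∈ E' ∧
        Y.mu (Set.univ ∩ Y.st ⁻¹' {Y.st e}) ≤ 2 * Y.mu (E' ∩ Y.st ⁻¹' {Y.st e})} := ⟨_, rfl⟩
    rw [← hF0] at hm hl ⊢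
    have h1 : Y.mu Set.univ ≤ Y.mu E' + Y.mu (Set.univ \ E') := by
      rw [← Set.compl_eq_univ_diff, measure_add_measure_compl hE']
    have hsub : F0 ⊆ E' := by rw [hF0]; exact fun e he => he.1
    have h2 : Y.mu E' ≤ Y.mu F0 + Y.mu (E' \ F0) := by
      rw [measure_add_diff hm.nullMeasurableSet, Set.union_eq_self_of_subset_left hsub]
    rw [hY.prob] at h1
    calc (1 : ℝ≥0∞) ≤ Y.mu E' + Y.mu (Set.univ \ E') := h1
      _ ≤ (Y.mu F0 + η) + η := add_le_add (h2.trans (add_le_add le_rfl (hl.trans hloss))) hloss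
      _ ≤ Y.mu F0 + 3 * η := by
          rw [add_assoc, ← two_mul]
          gcongr
          norm_num
  · intro e he
    have h1 := he.2
    rw [Set.univ_inter] at h1
    have h2 := k6b_pr_keep_fib E' Y.st
      (fun s => Y.mu (Set.univ ∩ Y.st ⁻¹' {s}) ≤ 2 * Y.mu (E' ∩ Y.st ⁻¹' {s})) (Y.st e) he.2
    unfold k6b_Sw.stE
    rw [h2]
    exact h1

end sw

end Claimed.Agent.R252
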