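import Claimed.Agent.R252.S6b.Form

/-!
# Row252, unit S6b, leaf L-252-S6b-T2: `k6b_rank2` (a quadratic form which is small at five points of an exact conic is close to a multiple of the conic).      (helper287)
Plan T2 of `R252/S6b/TensorDefs.lean`: normal form (frame of `p 0, p 1, p 2`), the three mixed coefficients `x`, `κ`, the cross product identity `k6b_r2_cross`, scalar core `k6b_r2_core`.
-/

set_option autoImplicit false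

namespace Claimed.Agent.R252

open MvPolynomial

theorem k6b_r2_hom0 {P : MvPolynomial (Fin 3) ℝ} (h : P.IsHomogeneous 0) : P = C (coeff 0 P) := by
  rw [← totalDegree_eq_zero_iff_eq_C, totalDegree_zero_iff_isHomogeneous]
  exact h

theorem k6b_r2_repr {F : MvPolynomial (Fin 3) ℝ} (h : F.IsHomogeneous 2) :
    ∃ N : Matrix (Fin 3) (Fin 3) ℝ, F = k6b_qf N ∧ ∀ i j, |N i j| ≤ rmzNm F := by
  have h1 : ∀ j, (pderiv j F).IsHomogeneous 1 := fun j => k6b_hom_pderiv h j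
  have h0 : ∀ i j, (pderiv i (pderiv j F)).IsHomogeneous 0 := fun i j => k6b_hom_pderiv (h1 j) i
  refine ⟨fun i j => coeff 0 (pderiv i (pderiv j F)) / 2, ?_, ?_⟩
  · have e2 : C (2 : ℝ) * F = ∑ j, X j * pderiv j F := by
      have := k6b_euler h
      simpa using this
    have e1 : ∀ j, pderiv j F = ∑ i, X i * pderiv i (pderiv j F) := fun j => by
      have := k6b_euler (h1 j)
      simpa using this
    have hC : (C (2 : ℝ) : MvPolynomial (Fin 3) ℝ) ≠ 0 := by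
      rw [Ne, C_eq_zero]
      norm_num
    have e3 : ∀ j, X j * pderiv j F
        = ∑ i, C (2 : ℝ) * (C (coeff 0 (pderiv i (pderiv j F)) / 2) * X i * X j) := by
      intro j
      conv_lhs => rw [e1 j]
      rw [Finset.mul_sum]
      refine Finset.sum_congr rfl fun i _ => ?_
      conv_lhs => rw [k6b_r2_hom0 (h0 i j)]
      rw [← mul_assoc (C 2), ← mul_assoc (C 2), ← C_mul]
      have : (2 : ℝ) * (coeff 0 (pderiv i (pderiv j F)) / 2) = coeff 0 (pderiv i (pderiv j F)) := by ring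
      rw [this]
      ring
    refine mul_left_cancel₀ hC ?_
    rw [e2, Finset.sum_congr rfl fun j _ => e3 j, Finset.sum_comm]
    unfold k6b_qf
    simp only [Finset.mul_sum]
  · intro i j
    have e : rmzNm (pderiv i (pderiv j F)) = |coeff 0 (pderiv i (pderiv j F))| := by
      conv_lhs => rw [k6b_r2_hom0 (h0 i j)]
      exact k6b_nm_C _
    have b1 := k6b_nm_pderiv (h1 j) i
    have b2 := k6b_nm_pderiv h j
    show |coeff 0 (pderiv i (pderiv j F)) / 2| ≤ rmzNm F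
    rw [abs_div, ← e, abs_of_pos (by norm_num : (0 : ℝ) < 2)]
    push_cast at b1 b2
    linarith

theorem k6b_r2_expand (N : Matrix (Fin 3) (Fin 3) ℝ) (x : Fin 3 → ℝ) :
    eval x (k6b_qf N) = N 0 0 * x 0 ^ 2 + N 1 1 * x 1 ^ 2 + N 2 2 * x 2 ^ 2 + (N 1 2 + N 2 1) * (x 1 * x 2)
      + (N 0 2 + N 2 0) * (x 0 * x 2) + (N 0 1 + N 1 0) * (x 0 * x 1) := by
  rw [k6b_qf_eval]
  simp only [dotProduct, Matrix.mulVec, Fin.sum_univ_three]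
  ring

theorem k6b_r2_sym {F : MvPolynomial (Fin 3) ℝ} (h : F.IsHomogeneous 2) :
    ∃ M : Matrix (Fin 3) (Fin 3) ℝ, M.IsSymm ∧ F = k6b_qf M ∧ ∀ i j, |M i j| ≤ rmzNm F := by
  obtain ⟨N, hN, hb⟩ := k6b_r2_repr h
  refine ⟨Matrix.of fun i j => (N i j + N j i) / 2, ?_, ?_, ?_⟩
  · refine Matrix.IsSymm.ext fun i j => ?_
    show (N j i + N i j) / 2 = (N i j + N j i) / 2
    ring
  · rw [hN]
    refine MvPolynomial.funext fun x => ?_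
    rw [k6b_r2_expand, k6b_r2_expand]
    simp only [Matrix.of_apply]
    ring
  · intro i j
    show |(N i j + N j i) / 2| ≤ rmzNm F
    rw [abs_div, abs_of_pos (by norm_num : (0 : ℝ) < 2)]
    have := abs_add_le (N i j) (N j i)
    have := hb i j
    have := hb j i
    linarith

theorem k6b_r2_qf_sub (M K : Matrix (Fin 3) (Fin 3) ℝ) (lam : ℝ) :
    k6b_qf M - C lam * k6b_qf K = k6b_qf (Matrix.of fun i j => M i j - lam * K i j) := by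
  refine MvPolynomial.funext fun x => ?_
  rw [map_sub, map_mul, eval_C, k6b_r2_expand, k6b_r2_expand, k6b_r2_expand]
  simp only [Matrix.of_apply]
  ring

theorem k6b_r2_det (a b c : Fin 3 → ℝ) : (k6b_frame a b c).det
    = a 0 * b 1 * c 2 - a 0 * c 1 * b 2 - b 0 * a 1 * c 2 + b 0 * c 1 * a 2 + c 0 * a 1 * b 2 - c 0 * b 1 * a 2 := by
  simp only [k6b_frame, Matrix.det_fin_three, Matrix.transpose_apply, Matrix.of_apply, Matrix.cons_val_zero,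
    Matrix.cons_val_one, Matrix.cons_val]


theorem k6b_r2_cross (u0 u1 u2 v0 v1 v2 z0 z1 z2 : ℝ) :
    ((u1 * v2 - u2 * v1) ^ 2 + (u2 * v0 - u0 * v2) ^ 2 + (u0 * v1 - u1 * v0) ^ 2) * z0
      = (z0 * (u1 * v2 - u2 * v1) + z1 * (u2 * v0 - u0 * v2) + z2 * (u0 * v1 - u1 * v0)) * (u1 * v2 - u2 * v1)
        + (z0 * u0 + z1 * u1 + z2 * u2) * (v1 * (u0 * v1 - u1 * v0) - v2 * (u2 * v0 - u0 * v2))
        + (z0 * v0 + z1 * v1 + z2 * v2) * ((u2 * v0 - u0 * v2) * u2 - (u0 * v1 - u1 * v0) * u1) ∧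
    ((u1 * v2 - u2 * v1) ^ 2 + (u2 * v0 - u0 * v2) ^ 2 + (u0 * v1 - u1 * v0) ^ 2) * z1
      = (z0 * (u1 * v2 - u2 * v1) + z1 * (u2 * v0 - u0 * v2) + z2 * (u0 * v1 - u1 * v0)) * (u2 * v0 - u0 * v2)
        + (z0 * u0 + z1 * u1 + z2 * u2) * (v2 * (u1 * v2 - u2 * v1) - v0 * (u0 * v1 - u1 * v0))
        + (z0 * v0 + z1 * v1 + z2 * v2) * ((u0 * v1 - u1 * v0) * u0 - (u1 * v2 - u2 * v1) * u2) ∧
    ((u1 * v2 - u2 * v1) ^ 2 + (u2 * v0 - u0 * v2) ^ 2 + (u0 * v1 - u1 * v0) ^ 2) * z2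
      = (z0 * (u1 * v2 - u2 * v1) + z1 * (u2 * v0 - u0 * v2) + z2 * (u0 * v1 - u1 * v0)) * (u0 * v1 - u1 * v0)
        + (z0 * u0 + z1 * u1 + z2 * u2) * (v0 * (u2 * v0 - u0 * v2) - v1 * (u1 * v2 - u2 * v1))
        + (z0 * v0 + z1 * v1 + z2 * v2) * ((u1 * v2 - u2 * v1) * u1 - (u2 * v0 - u0 * v2) * u0) := by
  refine ⟨by ring, by ring, by ring⟩

theorem k6b_r2_abs2 {p q r s P Q : ℝ} (hp : |p| ≤ P) (hq : |q| ≤ Q) (hr : |r| ≤ P) (hs : |s| ≤ Q) :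
    |p * q - r * s| ≤ 2 * (P * Q) := by
  have hP : 0 ≤ P := (abs_nonneg p).trans hp
  have h1 : |p * q| ≤ P * Q := by
    rw [abs_mul]
    exact mul_le_mul hp hq (abs_nonneg _) hP
  have h2 : |r * s| ≤ P * Q := by
    rw [abs_mul]
    exact mul_le_mul hr hs (abs_nonneg _) hP
  have := abs_sub (p * q) (r * s)
  linarith

theorem k6b_r2_comp {B ε N2 w s t c1 c2 : ℝ} (hB : 1 ≤ B) (hε : 0 ≤ ε) (h : N2 * w = s * c1 + t * c2)
    (hs : |s| ≤ 4 * B ^ 2 * ε) (ht : |t| ≤ 4 * B ^ 2 * ε) (hc1 : |c1| ≤ 4 * B ^ 6) (hc2 : |c2| ≤ 4 * B ^ 6)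
    (hN : 1 ≤ B ^ 6 * N2) : |w| ≤ 32 * B ^ 14 * ε := by
  have hB0 : 0 < B := by linarith
  have hN0 : 0 ≤ N2 := by
    by_contra hneg
    push Not at hneg
    have : B ^ 6 * N2 < 0 := mul_neg_of_pos_of_neg (by positivity) hneg
    linarith
  have h1 : |s * c1| ≤ 4 * B ^ 2 * ε * (4 * B ^ 6) := by
    rw [abs_mul]
    exact mul_le_mul hs hc1 (abs_nonneg _) (by positivity)
  have h2 : |t * c2| ≤ 4 * B ^ 2 * ε * (4 * B ^ 6) := by
    rw [abs_mul]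
    exact mul_le_mul ht hc2 (abs_nonneg _) (by positivity)
  have h3 : N2 * |w| ≤ 32 * B ^ 8 * ε := by
    have e : N2 * |w| = |s * c1 + t * c2| := by rw [← h, abs_mul, abs_of_nonneg hN0]
    rw [e]
    have := abs_add_le (s * c1) (t * c2)
    nlinarith
  calc |w| = 1 * |w| := (one_mul _).symm
    _ ≤ B ^ 6 * N2 * |w| := mul_le_mul_of_nonneg_right hN (abs_nonneg _)
    _ = B ^ 6 * (N2 * |w|) := by ring
    _ ≤ B ^ 6 * (32 * B ^ 8 * ε) := mul_le_mul_of_nonneg_left h3 (by positivity)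
    _ = 32 * B ^ 14 * ε := by ring

theorem k6b_r2_core {B ε μ : ℝ} (hB : 1 ≤ B) (hε : 0 ≤ ε)
    {a0 a1 a2 b0 b1 b2 x0 x1 x2 k0 k1 k2 : ℝ}
    (ha0 : |a0| ≤ B) (ha1 : |a1| ≤ B) (ha2 : |a2| ≤ B) (hb0 : |b0| ≤ B) (hb1 : |b1| ≤ B) (hb2 : |b2| ≤ B)
    (la0 : 1 ≤ B * |a0|) (lb0 : 1 ≤ B * |b0|) (lm0 : 1 ≤ B * |a2 * b1 - a1 * b2|)
    (hs : |x0 * (a1 * a2) + x1 * (a0 * a2) + x2 * (a0 * a1)| ≤ 4 * B ^ 2 * ε)
    (ht : |x0 * (b1 * b2) + x1 * (b0 * b2) + x2 * (b0 * b1)| ≤ 4 * B ^ 2 * ε)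
    (hk1 : k0 * (a1 * a2) + k1 * (a0 * a2) + k2 * (a0 * a1) = 0)
    (hk2 : k0 * (b1 * b2) + k1 * (b0 * b2) + k2 * (b0 * b1) = 0)
    (hx0 : |x0| ≤ μ) (hx1 : |x1| ≤ μ) (hx2 : |x2| ≤ μ)
    (hkb1 : |k1| ≤ 2 * B) (hkb2 : |k2| ≤ 2 * B) (hdet : 1 ≤ B * |k0 * k1 * k2 / 4|) :
    ∃ lam : ℝ, |x0 - lam * k0| ≤ 32 * B ^ 14 * ε ∧ |x1 - lam * k1| ≤ 32 * B ^ 14 * ε ∧
      |x2 - lam * k2| ≤ 32 * B ^ 14 * ε ∧ |lam| ≤ 6 * B ^ 10 * μ := by
  have hB0 : 0 < B := by linarith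
  have hμ : 0 ≤ μ := (abs_nonneg _).trans hx0
  have hmul : ∀ {p q : ℝ}, |p| ≤ B → |q| ≤ B → |p * q| ≤ B ^ 2 := by
    intro p q hp hq
    rw [abs_mul, pow_two]
    exact mul_le_mul hp hq (abs_nonneg _) hB0.le
  have hn0eq : (a0 * a2) * (b0 * b1) - (a0 * a1) * (b0 * b2) = a0 * b0 * (a2 * b1 - a1 * b2) := by ring
  obtain ⟨u0, hu0⟩ : ∃ u0, u0 = a1 * a2 := ⟨_, rfl⟩
  obtain ⟨u1, hu1⟩ : ∃ u1, u1 = a0 * a2 := ⟨_, rfl⟩
  obtain ⟨u2, hu2⟩ : ∃ u2, u2 = a0 * a1 := ⟨_, rfl⟩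
  obtain ⟨v0, hv0⟩ : ∃ v0, v0 = b1 * b2 := ⟨_, rfl⟩
  obtain ⟨v1, hv1⟩ : ∃ v1, v1 = b0 * b2 := ⟨_, rfl⟩
  obtain ⟨v2, hv2⟩ : ∃ v2, v2 = b0 * b1 := ⟨_, rfl⟩
  rw [← hu0, ← hu1, ← hu2] at hs hk1
  rw [← hv0, ← hv1, ← hv2] at ht hk2
  rw [← hu1, ← hu2, ← hv1, ← hv2] at hn0eq
  have bu0 : |u0| ≤ B ^ 2 := hu0 ▸ hmul ha1 ha2
  have bu1 : |u1| ≤ B ^ 2 := hu1 ▸ hmul ha0 ha2
  have bu2 : |u2| ≤ B ^ 2 := hu2 ▸ hmul ha0 ha1
  have bv0 : |v0| ≤ B ^ 2 := hv0 ▸ hmul hb1 hb2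
  have bv1 : |v1| ≤ B ^ 2 := hv1 ▸ hmul hb0 hb2
  have bv2 : |v2| ≤ B ^ 2 := hv2 ▸ hmul hb0 hb1
  have idx := k6b_r2_cross u0 u1 u2 v0 v1 v2 x0 x1 x2
  have idk := k6b_r2_cross u0 u1 u2 v0 v1 v2 k0 k1 k2
  rw [hk1, hk2] at idk
  obtain ⟨n0, hn0⟩ : ∃ n0, n0 = u1 * v2 - u2 * v1 := ⟨_, rfl⟩
  obtain ⟨n1, hn1⟩ : ∃ n1, n1 = u2 * v0 - u0 * v2 := ⟨_, rfl⟩
  obtain ⟨n2, hn2⟩ : ∃ n2, n2 = u0 * v1 - u1 * v0 := ⟨_, rfl⟩
  rw [← hn0, ← hn1, ← hn2] at idx idk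
  rw [← hn0] at hn0eq
  have e4 : 2 * (B ^ 2 * B ^ 2) = 2 * B ^ 4 := by ring
  have bn0 : |n0| ≤ 2 * B ^ 4 := by rw [hn0, ← e4]; exact k6b_r2_abs2 bu1 bv2 bu2 bv1
  have bn1 : |n1| ≤ 2 * B ^ 4 := by rw [hn1, ← e4]; exact k6b_r2_abs2 bu2 bv0 bu0 bv2
  have bn2 : |n2| ≤ 2 * B ^ 4 := by rw [hn2, ← e4]; exact k6b_r2_abs2 bu0 bv1 bu1 bv0
  have ln0 : 1 ≤ B ^ 3 * |n0| := by
    have e : B ^ 3 * |n0| = (B * |a0|) * (B * |b0|) * (B * |a2 * b1 - a1 * b2|) := by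
      rw [hn0eq, abs_mul, abs_mul]
      ring
    rw [e]
    exact one_le_mul_of_one_le_of_one_le (one_le_mul_of_one_le_of_one_le la0 lb0) lm0
  have hn0pos : 0 < |n0| := by
    by_contra h
    have h0 : |n0| = 0 := le_antisymm (not_lt.1 h) (abs_nonneg _)
    rw [h0, mul_zero] at ln0
    linarith only [ln0]
  obtain ⟨N2, hN2⟩ : ∃ N2, N2 = n0 ^ 2 + n1 ^ 2 + n2 ^ 2 := ⟨_, rfl⟩
  rw [← hN2] at idx idk
  have hN2ge : |n0| ^ 2 ≤ N2 := by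
    rw [hN2, sq_abs]
    exact le_add_of_le_of_nonneg (le_add_of_nonneg_right (sq_nonneg n1)) (sq_nonneg n2)
  have lN2 : 1 ≤ B ^ 6 * N2 := by
    have h1 : 1 ≤ (B ^ 3 * |n0|) ^ 2 := one_le_pow₀ ln0
    have h2 : (B ^ 3 * |n0|) ^ 2 = B ^ 6 * |n0| ^ 2 := by ring
    rw [h2] at h1
    exact h1.trans (mul_le_mul_of_nonneg_left hN2ge (by positivity))
  obtain ⟨D, hD⟩ : ∃ D, D = k0 * n0 + k1 * n1 + k2 * n2 := ⟨_, rfl⟩
  obtain ⟨P, hP⟩ : ∃ P, P = x0 * n0 + x1 * n1 + x2 * n2 := ⟨_, rfl⟩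
  rw [← hD] at idk
  rw [← hP] at idx
  simp only [zero_mul, add_zero] at idk
  obtain ⟨idk0, idk1, idk2⟩ := idk
  obtain ⟨idx0, idx1, idx2⟩ := idx
  have lk0 : 1 ≤ B ^ 3 * |k0| := by
    have e : |k0 * k1 * k2 / 4| = |k0| * |k1| * |k2| / 4 := by
      rw [abs_div, abs_mul, abs_mul, abs_of_pos (by norm_num : (0 : ℝ) < 4)]
    rw [e] at hdet
    have h1 : |k0| * |k1| * |k2| ≤ |k0| * (2 * B) * (2 * B) :=
      mul_le_mul (mul_le_mul_of_nonneg_left hkb1 (abs_nonneg _)) hkb2 (abs_nonneg _) (by positivity)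
    have h2 : B * (|k0| * |k1| * |k2| / 4) ≤ B * (|k0| * (2 * B) * (2 * B) / 4) :=
      mul_le_mul_of_nonneg_left (by linarith only [h1]) hB0.le
    calc (1 : ℝ) ≤ B * (|k0| * |k1| * |k2| / 4) := hdet
      _ ≤ B * (|k0| * (2 * B) * (2 * B) / 4) := h2
      _ = B ^ 3 * |k0| := by ring
  have lD : 1 ≤ B ^ 6 * |D| := by
    have h1 : |D| * |n0| = N2 * |k0| := by
      rw [← abs_mul, ← idk0, abs_mul, abs_of_nonneg ((sq_nonneg _).trans hN2ge)]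
    have h2 : |n0| * |k0| ≤ |D| := by
      have h3 : (|n0| * |k0|) * |n0| ≤ |D| * |n0| := by
        rw [h1]
        calc |n0| * |k0| * |n0| = |n0| ^ 2 * |k0| := by ring
          _ ≤ N2 * |k0| := mul_le_mul_of_nonneg_right hN2ge (abs_nonneg _)
      exact le_of_mul_le_mul_right h3 hn0pos
    calc (1 : ℝ) ≤ (B ^ 3 * |n0|) * (B ^ 3 * |k0|) := one_le_mul_of_one_le_of_one_le ln0 lk0
      _ = B ^ 6 * (|n0| * |k0|) := by ring
      _ ≤ B ^ 6 * |D| := mul_le_mul_of_nonneg_left h2 (by positivity)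
  have hD0 : D ≠ 0 := by
    intro h
    rw [h, abs_zero, mul_zero] at lD
    linarith only [lD]
  have hlam : P / D * D = P := div_mul_cancel₀ P hD0
  have e6 : 2 * (B ^ 2 * (2 * B ^ 4)) = 4 * B ^ 6 := by ring
  have e6' : 2 * (2 * B ^ 4 * B ^ 2) = 4 * B ^ 6 := by ring
  refine ⟨P / D, ?_, ?_, ?_, ?_⟩
  · refine k6b_r2_comp hB hε (N2 := N2) (c1 := v1 * n2 - v2 * n1) (c2 := n1 * u2 - n2 * u1) ?_ hs ht ?_ ?_ lN2
    · calc N2 * (x0 - P / D * k0) = N2 * x0 - P / D * (N2 * k0) := by ring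
        _ = N2 * x0 - (P / D * D) * n0 := by rw [idk0]; ring
        _ = _ := by rw [hlam, idx0]; ring
    · rw [← e6]; exact k6b_r2_abs2 bv1 bn2 bv2 bn1
    · rw [← e6']; exact k6b_r2_abs2 bn1 bu2 bn2 bu1
  · refine k6b_r2_comp hB hε (N2 := N2) (c1 := v2 * n0 - v0 * n2) (c2 := n2 * u0 - n0 * u2) ?_ hs ht ?_ ?_ lN2
    · calc N2 * (x1 - P / D * k1) = N2 * x1 - P / D * (N2 * k1) := by ring
        _ = N2 * x1 - (P / D * D) * n1 := by rw [idk1]; ring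
        _ = _ := by rw [hlam, idx1]; ring
    · rw [← e6]; exact k6b_r2_abs2 bv2 bn0 bv0 bn2
    · rw [← e6']; exact k6b_r2_abs2 bn2 bu0 bn0 bu2
  · refine k6b_r2_comp hB hε (N2 := N2) (c1 := v0 * n1 - v1 * n0) (c2 := n0 * u1 - n1 * u0) ?_ hs ht ?_ ?_ lN2
    · calc N2 * (x2 - P / D * k2) = N2 * x2 - P / D * (N2 * k2) := by ring
        _ = N2 * x2 - (P / D * D) * n2 := by rw [idk2]; ring
        _ = _ := by rw [hlam, idx2]; ring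
    · rw [← e6]; exact k6b_r2_abs2 bv0 bn1 bv1 bn0
    · rw [← e6']; exact k6b_r2_abs2 bn0 bu1 bn1 bu0
  · have hPb : |P| ≤ 6 * B ^ 4 * μ := by
      have t0 : |x0 * n0| ≤ μ * (2 * B ^ 4) := by
        rw [abs_mul]; exact mul_le_mul hx0 bn0 (abs_nonneg _) hμ
      have t1 : |x1 * n1| ≤ μ * (2 * B ^ 4) := by
        rw [abs_mul]; exact mul_le_mul hx1 bn1 (abs_nonneg _) hμ
      have t2 : |x2 * n2| ≤ μ * (2 * B ^ 4) := by
        rw [abs_mul]; exact mul_le_mul hx2 bn2 (abs_nonneg _) hμ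
      rw [hP]
      have s1 := abs_add_le (x0 * n0 + x1 * n1) (x2 * n2)
      have s2 := abs_add_le (x0 * n0) (x1 * n1)
      linarith only [s1, s2, t0, t1, t2]
    calc |P / D| = |P / D| * 1 := (mul_one _).symm
      _ ≤ |P / D| * (B ^ 6 * |D|) := mul_le_mul_of_nonneg_left lD (abs_nonneg _)
      _ = B ^ 6 * |P / D * D| := by rw [abs_mul]; ring
      _ = B ^ 6 * |P| := by rw [hlam]
      _ ≤ B ^ 6 * (6 * B ^ 4 * μ) := mul_le_mul_of_nonneg_left hPb (by positivity)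
      _ = 6 * B ^ 10 * μ := by ring


theorem k6b_r2_inv_le {B t : ℝ} (hB : 0 < B) (h : B⁻¹ ≤ t) : 1 ≤ B * t := by
  have := mul_le_mul_of_nonneg_left h hB.le
  rwa [mul_inv_cancel₀ hB.ne'] at this

/-- the mixed part of a quadratic form with small diagonal, at a bounded point -/
theorem k6b_r2_mixed {B ε : ℝ} (hB : 1 ≤ B) (hε : 0 ≤ ε) {M : Matrix (Fin 3) (Fin 3) ℝ} (hM : M.IsSymm) {a : Fin 3 → ℝ}
    (ha : ∀ j, |a j| ≤ B) (d0 : |M 0 0| ≤ ε) (d1 : |M 1 1| ≤ ε) (d2 : |M 2 2| ≤ ε) (hv : |eval a (k6b_qf M)| ≤ ε) :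
    |2 * M 1 2 * (a 1 * a 2) + 2 * M 0 2 * (a 0 * a 2) + 2 * M 0 1 * (a 0 * a 1)| ≤ 4 * B ^ 2 * ε := by
  have hB0 : 0 < B := by linarith
  rw [k6b_r2_expand, hM.apply 1 2, hM.apply 0 2, hM.apply 0 1] at hv
  have hd : ∀ {m x : ℝ}, |m| ≤ ε → |x| ≤ B → |m * x ^ 2| ≤ ε * B ^ 2 := by
    intro m x hm hx
    rw [abs_mul, abs_pow]
    exact mul_le_mul hm (pow_le_pow_left₀ (abs_nonneg _) hx 2) (by positivity) hε
  have t0 := hd d0 (ha 0)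
  have t1 := hd d1 (ha 1)
  have t2 := hd d2 (ha 2)
  have e : 2 * M 1 2 * (a 1 * a 2) + 2 * M 0 2 * (a 0 * a 2) + 2 * M 0 1 * (a 0 * a 1)
      = (M 0 0 * a 0 ^ 2 + M 1 1 * a 1 ^ 2 + M 2 2 * a 2 ^ 2 + (M 1 2 + M 1 2) * (a 1 * a 2)
        + (M 0 2 + M 0 2) * (a 0 * a 2) + (M 0 1 + M 0 1) * (a 0 * a 1))
        - M 0 0 * a 0 ^ 2 - M 1 1 * a 1 ^ 2 - M 2 2 * a 2 ^ 2 := by ring
  rw [e]
  have hB2 : 1 ≤ B ^ 2 := one_le_pow₀ hB
  have hεB : ε ≤ ε * B ^ 2 := le_mul_of_one_le_right hε hB2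
  rw [abs_le] at hv t0 t1 t2 ⊢
  constructor <;> linarith [hv.1, hv.2, t0.1, t0.2, t1.1, t1.2, t2.1, t2.2]

theorem k6b_r2_single0 (M : Matrix (Fin 3) (Fin 3) ℝ) : eval (Pi.single 0 1 : Fin 3 → ℝ) (k6b_qf M) = M 0 0 := by
  rw [k6b_r2_expand]
  simp

theorem k6b_r2_single1 (M : Matrix (Fin 3) (Fin 3) ℝ) : eval (Pi.single 1 1 : Fin 3 → ℝ) (k6b_qf M) = M 1 1 := by
  rw [k6b_r2_expand]
  simp

theorem k6b_r2_single2 (M : Matrix (Fin 3) (Fin 3) ℝ) : eval (Pi.single 2 1 : Fin 3 → ℝ) (k6b_qf M) = M 2 2 := by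
  rw [k6b_r2_expand]
  simp

/-- the statement in the normal form -/
theorem k6b_r2_normal {B ε : ℝ} (hB : 1 ≤ B) {y : Fin 5 → Fin 3 → ℝ} {K : Matrix (Fin 3) (Fin 3) ℝ}
    {F : MvPolynomial (Fin 3) ℝ} (hy : k6b_GP 5 B y) (hK : k6b_Conic 5 B K y) (h0 : y 0 = Pi.single 0 1)
    (h1 : y 1 = Pi.single 1 1) (h2 : y 2 = Pi.single 2 1) (hF : F.IsHomogeneous 2) (hv : ∀ i, |eval (y i) F| ≤ ε) :
    ∃ lam : ℝ, rmzNm (F - C lam * k6b_qf K) ≤ 144 * B ^ 14 * ε ∧ |lam| ≤ 12 * B ^ 10 * rmzNm F := by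
  have hB0 : 0 < B := by linarith
  have hε : 0 ≤ ε := (abs_nonneg _).trans (hv 0)
  obtain ⟨M, hMs, hFM, hMb⟩ := k6b_r2_sym hF
  rw [hFM] at hv
  have d0 : |M 0 0| ≤ ε := by have := hv 0; rwa [h0, k6b_r2_single0] at this
  have d1 : |M 1 1| ≤ ε := by have := hv 1; rwa [h1, k6b_r2_single1] at this
  have d2 : |M 2 2| ≤ ε := by have := hv 2; rwa [h2, k6b_r2_single2] at this
  have z0 : K 0 0 = 0 := by have := hK.zero 0; rwa [h0, k6b_r2_single0] at this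
  have z1 : K 1 1 = 0 := by have := hK.zero 1; rwa [h1, k6b_r2_single1] at this
  have z2 : K 2 2 = 0 := by have := hK.zero 2; rwa [h2, k6b_r2_single2] at this
  have la0 : 1 ≤ B * |y 3 0| := by
    have := hy.det 3 1 2 (by decide) (by decide) (by decide)
    rw [h1, h2, k6b_r2_det] at this
    simp at this
    exact k6b_r2_inv_le hB0 this
  have lb0 : 1 ≤ B * |y 4 0| := by
    have := hy.det 4 1 2 (by decide) (by decide) (by decide)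
    rw [h1, h2, k6b_r2_det] at this
    simp at this
    exact k6b_r2_inv_le hB0 this
  have lm0 : 1 ≤ B * |y 3 2 * y 4 1 - y 3 1 * y 4 2| := by
    have := hy.det 0 3 4 (by decide) (by decide) (by decide)
    rw [h0, k6b_r2_det] at this
    simp at this
    rw [abs_sub_comm] at this
    have e : y 4 1 * y 3 2 - y 3 1 * y 4 2 = y 3 2 * y 4 1 - y 3 1 * y 4 2 := by ring
    rw [e] at this
    exact k6b_r2_inv_le hB0 this
  have hs := k6b_r2_mixed hB hε hMs (hy.bd 3) d0 d1 d2 (hv 3)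
  have ht := k6b_r2_mixed hB hε hMs (hy.bd 4) d0 d1 d2 (hv 4)
  have hk : ∀ i, 2 * K 1 2 * (y i 1 * y i 2) + 2 * K 0 2 * (y i 0 * y i 2) + 2 * K 0 1 * (y i 0 * y i 1) = 0 := by
    intro i
    have := hK.zero i
    rw [k6b_r2_expand, hK.symm.apply 1 2, hK.symm.apply 0 2, hK.symm.apply 0 1, z0, z1, z2] at this
    linarith
  have hx : ∀ i j, |2 * M i j| ≤ 2 * rmzNm F := by
    intro i j
    rw [abs_mul, abs_of_pos (by norm_num : (0 : ℝ) < 2)]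
    linarith [hMb i j]
  have hkb : ∀ i j, |2 * K i j| ≤ 2 * B := by
    intro i j
    rw [abs_mul, abs_of_pos (by norm_num : (0 : ℝ) < 2)]
    linarith [hK.bd i j]
  have hdet : 1 ≤ B * |2 * K 1 2 * (2 * K 0 2) * (2 * K 0 1) / 4| := by
    have := hK.det
    rw [Matrix.det_fin_three, hK.symm.apply 1 2, hK.symm.apply 0 2, hK.symm.apply 0 1, z0, z1, z2] at this
    have e : 2 * K 1 2 * (2 * K 0 2) * (2 * K 0 1) / 4
        = 0 * 0 * 0 - 0 * K 1 2 * K 1 2 - K 0 1 * K 0 1 * 0 + K 0 1 * K 1 2 * K 0 2 + K 0 2 * K 0 1 * K 1 2 - K 0 2 * 0 * K 0 2 := by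
      ring
    rw [e]
    exact k6b_r2_inv_le hB0 this
  obtain ⟨lam, c0, c1, c2, cl⟩ := k6b_r2_core hB hε (hy.bd 3 0) (hy.bd 3 1) (hy.bd 3 2) (hy.bd 4 0) (hy.bd 4 1) (hy.bd 4 2)
    la0 lb0 lm0 hs ht (hk 3) (hk 4) (hx 1 2) (hx 0 2) (hx 0 1) (hkb 0 2) (hkb 0 1) hdet
  refine ⟨lam, ?_, by linarith⟩
  rw [hFM, k6b_r2_qf_sub]
  have hbig : ε ≤ 16 * B ^ 14 * ε := by
    have : 1 ≤ B ^ 14 := one_le_pow₀ hB
    nlinarith
  have hoff : ∀ {m k : ℝ}, |2 * m - lam * (2 * k)| ≤ 32 * B ^ 14 * ε → |m - lam * k| ≤ 16 * B ^ 14 * ε := by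
    intro m k h
    have e : 2 * m - lam * (2 * k) = 2 * (m - lam * k) := by ring
    rw [e, abs_mul, abs_of_pos (by norm_num : (0 : ℝ) < 2)] at h
    linarith
  have hent : ∀ i j, |(Matrix.of fun i j => M i j - lam * K i j) i j| ≤ 16 * B ^ 14 * ε := by
    intro i j
    simp only [Matrix.of_apply]
    fin_cases i <;> fin_cases j
    · show |M 0 0 - lam * K 0 0| ≤ _
      rw [z0, mul_zero, sub_zero]; exact d0.trans hbig
    · exact hoff c2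
    · exact hoff c1
    · show |M 1 0 - lam * K 1 0| ≤ _
      rw [hMs.apply 0 1, hK.symm.apply 0 1]; exact hoff c2
    · show |M 1 1 - lam * K 1 1| ≤ _
      rw [z1, mul_zero, sub_zero]; exact d1.trans hbig
    · exact hoff c0
    · show |M 2 0 - lam * K 2 0| ≤ _
      rw [hMs.apply 0 2, hK.symm.apply 0 2]; exact hoff c1
    · show |M 2 1 - lam * K 2 1| ≤ _
      rw [hMs.apply 1 2, hK.symm.apply 1 2]; exact hoff c0
    · show |M 2 2 - lam * K 2 2| ≤ _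
      rw [z2, mul_zero, sub_zero]; exact d2.trans hbig
  refine (k6b_qf_norm _ _ hent).trans (le_of_eq ?_)
  ring

theorem k6b_rank2 : k6b_rank2_stmt := by
  obtain ⟨c, hc1, hc2⟩ : ∃ c : ℕ, 62 ≤ c ∧ ((36 * 144 * 9 ^ 14 : ℝ)) ≤ c :=
    ⟨36 * 144 * 9 ^ 14, by norm_num, by norm_num⟩
  refine ⟨c, fun A ε p Q F hA hp hQ hF hv => ?_⟩
  have hA1 : 1 ≤ A := by linarith
  have hA0 : 0 < A := by linarith
  have hε : 0 ≤ ε := (abs_nonneg _).trans (hv 0)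
  obtain ⟨g1, g2, g3, g4, g5, g6, g7, -⟩ := k6b_GP_frame hA hp 0 1 2 (by decide) (by decide) (by decide)
  have hQ' := k6b_Conic_frame hA hp hQ 0 1 2 (by decide) (by decide) (by decide)
  obtain ⟨G, hG⟩ : ∃ G, G = k6b_frame (p 0) (p 1) (p 2) := ⟨_, rfl⟩
  rw [← hG] at g1 g2 g3 g4 g5 g6 g7 hQ'
  have hB : 1 ≤ 9 * A ^ 4 := by
    have : 1 ≤ A ^ 4 := one_le_pow₀ hA1
    linarith
  have hF' := k6b_sub_hom G hF
  have hv' : ∀ i, |eval (G⁻¹.mulVec (p i)) (k6b_sub G F)| ≤ ε := by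
    intro i
    rw [k6b_sub_eval, Matrix.mulVec_mulVec, g7, Matrix.one_mulVec]
    exact hv i
  obtain ⟨lam, h1, h2⟩ := k6b_r2_normal hB g1 hQ' g2 g3 g4 hF' hv'
  have hpow : ∀ k : ℕ, k ≤ 62 → A ^ k ≤ A ^ c := fun k hk => pow_le_pow_right₀ hA1 (hk.trans hc1)
  refine ⟨lam, ?_, ?_⟩
  · have hC : k6b_sub G⁻¹ (C lam) = C lam := by
      unfold k6b_sub
      exact bind₁_C_right _ _
    have e : F - C lam * k6b_qf Q = k6b_sub G⁻¹ (k6b_sub G F - C lam * k6b_qf (G.transpose * Q * G)) := by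
      rw [← k6b_sub_qf, map_sub, map_mul, k6b_sub_comp, k6b_sub_comp, g7, k6b_sub_one, k6b_sub_one, hC]
    have hhom : (k6b_sub G F - C lam * k6b_qf (G.transpose * Q * G)).IsHomogeneous 2 := by
      refine hF'.sub ?_
      have := (isHomogeneous_C (Fin 3) lam).mul (k6b_qf_hom (G.transpose * Q * G))
      simpa using this
    rw [e]
    calc rmzNm (k6b_sub G⁻¹ (k6b_sub G F - C lam * k6b_qf (G.transpose * Q * G)))
        ≤ (3 * (2 * A ^ 3)) ^ 2 * rmzNm (k6b_sub G F - C lam * k6b_qf (G.transpose * Q * G)) :=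
          k6b_sub_norm G⁻¹ hhom (2 * A ^ 3) g6
      _ ≤ (3 * (2 * A ^ 3)) ^ 2 * (144 * (9 * A ^ 4) ^ 14 * ε) := mul_le_mul_of_nonneg_left h1 (by positivity)
      _ = (36 * 144 * 9 ^ 14) * A ^ 62 * ε := by ring
      _ ≤ c * A ^ c * ε := by
          refine mul_le_mul_of_nonneg_right ?_ hε
          exact mul_le_mul hc2 (hpow 62 le_rfl) (by positivity) (by positivity)
  · have hn := k6b_sub_norm G hF A g5
    have hF0 := rmz_Nm_nonneg F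
    calc |lam| ≤ 12 * (9 * A ^ 4) ^ 10 * rmzNm (k6b_sub G F) := h2
      _ ≤ 12 * (9 * A ^ 4) ^ 10 * ((3 * A) ^ 2 * rmzNm F) := mul_le_mul_of_nonneg_left hn (by positivity)
      _ = (12 * 9 ^ 11) * A ^ 42 * rmzNm F := by ring
      _ ≤ c * A ^ c * rmzNm F := by
          refine mul_le_mul_of_nonneg_right ?_ hF0
          refine mul_le_mul (le_trans (by norm_num) hc2) (hpow 42 (by norm_num)) (by positivity) (by positivity)

end Claimed.Agent.R252
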