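import Claimed.Agent.R252.S6b.Form

/-!
# Row252, unit S6b, leaf L-252-S6b-T3: `k6b_rank3 : k6b_rank3_stmt`      (helper250)

Route (no normal form, no coefficients).  `ℓ(a,b)(x) = det (x,a,b)`.  For every `i : Fin 7` the cubic
`G_i = ℓ(p_{i+1},p_{i+2}) ℓ(p_{i+3},p_{i+4}) ℓ(p_{i+5},p_{i+6})` (indices mod 7) vanishes at `p_j`, `j ≠ i`,
and `|G_i(p_i)| ≥ A⁻³`.  The ten cubics `G_i`, `q x_j` are linearly independent, the space of ternary
cubics has dimension `≤ 10`: so `F = ∑ a_i G_i + q L`, `a_i = F(p_i)/G_i(p_i)`.  The norm of `L` is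
bounded by the gradient trick `∂_j(qL)(p_i) = ∂_j q(p_i) L(p_i)`.
-/

set_option autoImplicit false

namespace Claimed.Agent.R252

open MvPolynomial

/-! ## the dimension of the space of ternary cubics -/

theorem k6b_r3_finrank :
    Module.Finite ℝ (homogeneousSubmodule (Fin 3) ℝ 3) ∧
      Module.finrank ℝ (homogeneousSubmodule (Fin 3) ℝ 3) ≤ 10 := by
  set Φ : homogeneousSubmodule (Fin 3) ℝ 3 →ₗ[ℝ] (↥(Finset.Nat.antidiagonalTuple 3 3) → ℝ) :=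
    LinearMap.pi fun t => (lcoeff ℝ (Finsupp.equivFunOnFinite.symm t.1)) ∘ₗ Submodule.subtype _ with hΦ
  have hinj : Function.Injective Φ := by
    rw [← LinearMap.ker_eq_bot, LinearMap.ker_eq_bot']
    rintro ⟨F, hF⟩ h0
    rw [mem_homogeneousSubmodule] at hF
    ext m
    by_contra hm
    have hm' : coeff m F ≠ 0 := by simpa using hm
    have hdeg : m.degree = 3 := by
      have := hF hm'
      rw [Finsupp.degree_eq_weight_one]
      exact this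
    have hmem : (⇑m : Fin 3 → ℕ) ∈ Finset.Nat.antidiagonalTuple 3 3 := by
      rw [Finset.Nat.mem_antidiagonalTuple]
      rw [Finsupp.degree_eq_sum] at hdeg
      exact hdeg
    have := congrFun h0 ⟨_, hmem⟩
    apply hm'
    simpa [hΦ, lcoeff] using this
  refine ⟨Module.Finite.of_injective Φ hinj, ?_⟩
  refine (LinearMap.finrank_le_finrank_of_injective hinj).trans ?_
  rw [Module.finrank_fintype_fun_eq_card, Fintype.card_coe]
  decide

/-! ## lines -/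

/-- the linear form `x ↦ det (x, a, b)` -/
noncomputable def k6b_r3_line (a b : Fin 3 → ℝ) : MvPolynomial (Fin 3) ℝ :=
  C (a 1 * b 2 - a 2 * b 1) * X 0 + C (a 2 * b 0 - a 0 * b 2) * X 1 + C (a 0 * b 1 - a 1 * b 0) * X 2

theorem k6b_r3_line_eqns_cite : True := by
  have := @k6b_r3_line.eq_1
  trivial

theorem k6b_r3_line_eval (a b x : Fin 3 → ℝ) : eval x (k6b_r3_line a b) = (k6b_frame x a b).det := by
  simp [k6b_r3_line, k6b_frame, Matrix.det_fin_three]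
  ring

theorem k6b_r3_line_eval_left (a b : Fin 3 → ℝ) : eval a (k6b_r3_line a b) = 0 := by
  simp [k6b_r3_line]
  ring

theorem k6b_r3_line_eval_right (a b : Fin 3 → ℝ) : eval b (k6b_r3_line a b) = 0 := by
  simp [k6b_r3_line]
  ring

theorem k6b_r3_line_hom (a b : Fin 3 → ℝ) : (k6b_r3_line a b).IsHomogeneous 1 :=
  ((isHomogeneous_C_mul_X _ _).add (isHomogeneous_C_mul_X _ _)).add (isHomogeneous_C_mul_X _ _)

theorem k6b_r3_line_norm (a b : Fin 3 → ℝ) (A : ℝ) (ha : ∀ j, |a j| ≤ A) (hb : ∀ j, |b j| ≤ A) :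
    rmzNm (k6b_r3_line a b) ≤ 6 * A ^ 2 := by
  have hA : 0 ≤ A := (abs_nonneg _).trans (ha 0)
  have key : ∀ i j k l : Fin 3, |a i * b j - a k * b l| ≤ 2 * A ^ 2 := by
    intro i j k l
    have h1 : |a i * b j| ≤ A * A := by
      rw [abs_mul]; exact mul_le_mul (ha i) (hb j) (abs_nonneg _) hA
    have h2 : |a k * b l| ≤ A * A := by
      rw [abs_mul]; exact mul_le_mul (ha k) (hb l) (abs_nonneg _) hA
    calc |a i * b j - a k * b l| ≤ |a i * b j| + |a k * b l| := abs_sub _ _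
      _ ≤ 2 * A ^ 2 := by nlinarith
  unfold k6b_r3_line
  refine (k6b_nm_add _ _).trans ?_
  have h3 := k6b_nm_add (C (a 1 * b 2 - a 2 * b 1) * X 0 : MvPolynomial (Fin 3) ℝ) (C (a 2 * b 0 - a 0 * b 2) * X 1)
  rw [rmz_Nm_C_mul, rmz_Nm_C_mul, k6b_nm_X, k6b_nm_X] at h3
  rw [rmz_Nm_C_mul, k6b_nm_X]
  linarith [key 1 2 2 1, key 2 0 0 2, key 0 1 1 0]

/-! ## the Lagrange cubics -/

/-- the product of the three lines through the six other points -/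
noncomputable def k6b_r3_lag (p : Fin 7 → Fin 3 → ℝ) (i : Fin 7) : MvPolynomial (Fin 3) ℝ :=
  k6b_r3_line (p (i + 1)) (p (i + 2)) * k6b_r3_line (p (i + 3)) (p (i + 4)) * k6b_r3_line (p (i + 5)) (p (i + 6))

theorem k6b_r3_lag_eqns_cite : True := by
  have := @k6b_r3_lag.eq_1
  trivial

theorem k6b_r3_lag_hom (p : Fin 7 → Fin 3 → ℝ) (i : Fin 7) : (k6b_r3_lag p i).IsHomogeneous 3 :=
  ((k6b_r3_line_hom _ _).mul (k6b_r3_line_hom _ _)).mul (k6b_r3_line_hom _ _)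

theorem k6b_r3_lag_norm {A : ℝ} {p : Fin 7 → Fin 3 → ℝ} (h : k6b_GP 7 A p) (i : Fin 7) :
    rmzNm (k6b_r3_lag p i) ≤ 216 * A ^ 6 := by
  have h1 : ∀ a b : Fin 7, rmzNm (k6b_r3_line (p a) (p b)) ≤ 6 * A ^ 2 := fun a b =>
    k6b_r3_line_norm _ _ A (h.bd a) (h.bd b)
  have h0 : ∀ P : MvPolynomial (Fin 3) ℝ, 0 ≤ rmzNm P := rmz_Nm_nonneg
  have hA2 : (0 : ℝ) ≤ 6 * A ^ 2 := by positivity
  unfold k6b_r3_lag
  calc rmzNm (k6b_r3_line (p (i + 1)) (p (i + 2)) * k6b_r3_line (p (i + 3)) (p (i + 4)) * k6b_r3_line (p (i + 5)) (p (i + 6)))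
      ≤ rmzNm (k6b_r3_line (p (i + 1)) (p (i + 2)) * k6b_r3_line (p (i + 3)) (p (i + 4))) * rmzNm (k6b_r3_line (p (i + 5)) (p (i + 6))) :=
        k6b_nm_mul _ _
    _ ≤ (rmzNm (k6b_r3_line (p (i + 1)) (p (i + 2))) * rmzNm (k6b_r3_line (p (i + 3)) (p (i + 4)))) * rmzNm (k6b_r3_line (p (i + 5)) (p (i + 6))) :=
        mul_le_mul_of_nonneg_right (k6b_nm_mul _ _) (h0 _)
    _ ≤ (6 * A ^ 2 * (6 * A ^ 2)) * (6 * A ^ 2) :=
        mul_le_mul (mul_le_mul (h1 _ _) (h1 _ _) (h0 _) hA2) (h1 _ _) (h0 _) (by positivity)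
    _ = 216 * A ^ 6 := by ring

theorem k6b_r3_lag_eval_ne (p : Fin 7 → Fin 3 → ℝ) (i j : Fin 7) (hij : j ≠ i) : eval (p j) (k6b_r3_lag p i) = 0 := by
  have hc : j = i + 1 ∨ j = i + 2 ∨ j = i + 3 ∨ j = i + 4 ∨ j = i + 5 ∨ j = i + 6 := by
    revert i j; decide
  unfold k6b_r3_lag
  rw [map_mul, map_mul]
  rcases hc with rfl | rfl | rfl | rfl | rfl | rfl
  · rw [k6b_r3_line_eval_left]; ring
  · rw [k6b_r3_line_eval_right]; ring
  · rw [k6b_r3_line_eval_left]; ring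
  · rw [k6b_r3_line_eval_right]; ring
  · rw [k6b_r3_line_eval_left]; ring
  · rw [k6b_r3_line_eval_right]; ring

theorem k6b_r3_lag_eval_self {A : ℝ} {p : Fin 7 → Fin 3 → ℝ} (hA : 0 < A) (h : k6b_GP 7 A p) (i : Fin 7) :
    (A ^ 3)⁻¹ ≤ |eval (p i) (k6b_r3_lag p i)| := by
  have hi : 0 ≤ A⁻¹ := (inv_pos.2 hA).le
  have hne : ∀ i : Fin 7, i ≠ i + 1 ∧ i + 1 ≠ i + 2 ∧ i ≠ i + 2 ∧ i ≠ i + 3 ∧ i + 3 ≠ i + 4 ∧ i ≠ i + 4 ∧
      i ≠ i + 5 ∧ i + 5 ≠ i + 6 ∧ i ≠ i + 6 := by decide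
  obtain ⟨e1, e2, e3, e4, e5, e6, e7, e8, e9⟩ := hne i
  have h1 : A⁻¹ ≤ |(k6b_frame (p i) (p (i + 1)) (p (i + 2))).det| := h.det _ _ _ e1 e2 e3
  have h2 : A⁻¹ ≤ |(k6b_frame (p i) (p (i + 3)) (p (i + 4))).det| := h.det _ _ _ e4 e5 e6
  have h3 : A⁻¹ ≤ |(k6b_frame (p i) (p (i + 5)) (p (i + 6))).det| := h.det _ _ _ e7 e8 e9
  unfold k6b_r3_lag
  rw [map_mul, map_mul, k6b_r3_line_eval, k6b_r3_line_eval, k6b_r3_line_eval, abs_mul, abs_mul]
  calc (A ^ 3)⁻¹ = A⁻¹ * A⁻¹ * A⁻¹ := by rw [← inv_pow]; ring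
    _ ≤ _ := mul_le_mul (mul_le_mul h1 h2 hi (abs_nonneg _)) h3 hi (by positivity)

/-! ## the decomposition -/

theorem k6b_r3_qf_ne_zero {A : ℝ} {Q : Matrix (Fin 3) (Fin 3) ℝ} {p : Fin 7 → Fin 3 → ℝ} (hA : 2 ≤ A)
    (h : k6b_GP 7 A p) (hQ : k6b_Conic 7 A Q p) : k6b_qf Q ≠ 0 := by
  intro h0
  obtain ⟨j, hj⟩ := k6b_conic_grad_low hA h hQ (by norm_num) 0
  rw [h0, map_zero, map_zero, abs_zero] at hj
  have : (0 : ℝ) < (18 * A ^ 6)⁻¹ := by positivity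
  linarith

/-- the ten cubics -/
noncomputable def k6b_r3_ten (Q : Matrix (Fin 3) (Fin 3) ℝ) (p : Fin 7 → Fin 3 → ℝ) :
    Fin 7 ⊕ Fin 3 → MvPolynomial (Fin 3) ℝ :=
  Sum.elim (k6b_r3_lag p) fun j => k6b_qf Q * X j

theorem k6b_r3_ten_eqns_cite : True := by
  have := @k6b_r3_ten.eq_1
  trivial

theorem k6b_r3_ten_sum (Q : Matrix (Fin 3) (Fin 3) ℝ) (p : Fin 7 → Fin 3 → ℝ) (g : Fin 7 ⊕ Fin 3 → ℝ) :
    ∑ i, g i • k6b_r3_ten Q p i
      = ∑ i, C (g (Sum.inl i)) * k6b_r3_lag p i + k6b_qf Q * ∑ j, C (g (Sum.inr j)) * X j := by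
  rw [Fintype.sum_sum_type, Finset.mul_sum]
  congr 1
  · refine Finset.sum_congr rfl fun i _ => ?_
    rw [smul_eq_C_mul]
    rfl
  · refine Finset.sum_congr rfl fun j _ => ?_
    rw [smul_eq_C_mul]
    show C (g (Sum.inr j)) * (k6b_qf Q * X j) = _
    ring

/-- evaluation of a combination at a point of the family -/
theorem k6b_r3_comb_eval {A : ℝ} {Q : Matrix (Fin 3) (Fin 3) ℝ} {p : Fin 7 → Fin 3 → ℝ} (hQ : k6b_Conic 7 A Q p)
    (a : Fin 7 → ℝ) (L : MvPolynomial (Fin 3) ℝ) (k : Fin 7) :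
    eval (p k) (∑ i, C (a i) * k6b_r3_lag p i + k6b_qf Q * L) = a k * eval (p k) (k6b_r3_lag p k) := by
  rw [map_add, map_mul, hQ.zero k, zero_mul, add_zero, map_sum, Finset.sum_eq_single k]
  · rw [map_mul, eval_C]
  · intro i _ hik
    rw [map_mul, k6b_r3_lag_eval_ne p i k (Ne.symm hik), mul_zero]
  · intro hk
    exact absurd (Finset.mem_univ k) hk

theorem k6b_r3_ten_indep {A : ℝ} {Q : Matrix (Fin 3) (Fin 3) ℝ} {p : Fin 7 → Fin 3 → ℝ} (hA : 2 ≤ A)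
    (h : k6b_GP 7 A p) (hQ : k6b_Conic 7 A Q p) : LinearIndependent ℝ (k6b_r3_ten Q p) := by
  have hA0 : 0 < A := by linarith
  rw [Fintype.linearIndependent_iff]
  intro g hg
  rw [k6b_r3_ten_sum] at hg
  have hl : ∀ k, g (Sum.inl k) = 0 := by
    intro k
    have h1 := k6b_r3_comb_eval hQ (fun i => g (Sum.inl i)) (∑ j, C (g (Sum.inr j)) * X j) k
    rw [hg, map_zero] at h1
    have h2 := k6b_r3_lag_eval_self hA0 h k
    have h3 : (0 : ℝ) < (A ^ 3)⁻¹ := by positivity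
    have h4 : eval (p k) (k6b_r3_lag p k) ≠ 0 := by
      intro h0
      rw [h0, abs_zero] at h2
      linarith
    rcases mul_eq_zero.1 h1.symm with h5 | h5
    · exact h5
    · exact absurd h5 h4
  have hr0 : ∑ j, C (g (Sum.inr j)) * X j = (0 : MvPolynomial (Fin 3) ℝ) := by
    simp only [hl, map_zero, zero_mul, Finset.sum_const_zero, zero_add] at hg
    rcases mul_eq_zero.1 hg with h5 | h5
    · exact absurd h5 (k6b_r3_qf_ne_zero hA h hQ)
    · exact h5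
  have hr : ∀ k, g (Sum.inr k) = 0 := by
    intro k
    have := congrArg (eval (Pi.single k (1 : ℝ))) hr0
    rw [map_zero, map_sum, Finset.sum_eq_single k] at this
    · simpa using this
    · intro j _ hjk
      simp [hjk]
    · intro hk
      exact absurd (Finset.mem_univ k) hk
  rintro (i | j)
  · exact hl i
  · exact hr j

theorem k6b_r3_decomp {A : ℝ} {Q : Matrix (Fin 3) (Fin 3) ℝ} {p : Fin 7 → Fin 3 → ℝ} (hA : 2 ≤ A)
    (h : k6b_GP 7 A p) (hQ : k6b_Conic 7 A Q p) {F : MvPolynomial (Fin 3) ℝ} (hF : F.IsHomogeneous 3) :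
    ∃ (a : Fin 7 → ℝ) (b : Fin 3 → ℝ),
      F = ∑ i, C (a i) * k6b_r3_lag p i + k6b_qf Q * ∑ j, C (b j) * X j := by
  obtain ⟨hfin, hrk⟩ := k6b_r3_finrank
  have hind := k6b_r3_ten_indep hA h hQ
  have hle : Submodule.span ℝ (Set.range (k6b_r3_ten Q p)) ≤ homogeneousSubmodule (Fin 3) ℝ 3 := by
    rw [Submodule.span_le]
    rintro _ ⟨i | j, rfl⟩
    · exact k6b_r3_lag_hom p i
    · exact (k6b_qf_hom Q).mul (isHomogeneous_X _ _)
  have hcard : Module.finrank ℝ (Submodule.span ℝ (Set.range (k6b_r3_ten Q p))) = 10 := by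
    rw [finrank_span_eq_card hind]
    rfl
  have heq := Submodule.eq_of_le_of_finrank_le hle (by rw [hcard]; exact hrk)
  have hmem : F ∈ Submodule.span ℝ (Set.range (k6b_r3_ten Q p)) := by
    rw [heq]
    exact hF
  obtain ⟨g, hg⟩ := (Submodule.mem_span_range_iff_exists_fun ℝ).1 hmem
  rw [k6b_r3_ten_sum] at hg
  exact ⟨fun i => g (Sum.inl i), fun j => g (Sum.inr j), hg.symm⟩

/-! ## the estimates -/

theorem k6b_r3_poly_le {A : ℝ} (hA : 1 ≤ A) (a b c : ℕ) (ha : a ≤ c) (hb : b ≤ c) :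
    (a : ℝ) * A ^ b ≤ (c : ℝ) * A ^ c :=
  mul_le_mul (by exact_mod_cast ha) (pow_le_pow_right₀ hA hb) (by positivity) (by positivity)

/-- the coefficients of the Lagrange part -/
theorem k6b_r3_coef {A : ℝ} {Q : Matrix (Fin 3) (Fin 3) ℝ} {p : Fin 7 → Fin 3 → ℝ} (hA : 2 ≤ A)
    (h : k6b_GP 7 A p) (hQ : k6b_Conic 7 A Q p) {F L : MvPolynomial (Fin 3) ℝ} {a : Fin 7 → ℝ}
    (hF : F = ∑ i, C (a i) * k6b_r3_lag p i + k6b_qf Q * L) (k : Fin 7) :
    |a k| ≤ A ^ 3 * |eval (p k) F| := by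
  have hA0 : 0 < A := by linarith
  have h1 := k6b_r3_comb_eval hQ a L k
  rw [← hF] at h1
  have h2 := k6b_r3_lag_eval_self hA0 h k
  rw [h1, abs_mul]
  have h3 : (0 : ℝ) < A ^ 3 := by positivity
  have h4 : 1 ≤ A ^ 3 * |eval (p k) (k6b_r3_lag p k)| := by
    have := mul_le_mul_of_nonneg_left h2 h3.le
    rwa [mul_inv_cancel₀ h3.ne'] at this
  calc |a k| = |a k| * 1 := (mul_one _).symm
    _ ≤ |a k| * (A ^ 3 * |eval (p k) (k6b_r3_lag p k)|) := mul_le_mul_of_nonneg_left h4 (abs_nonneg _)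
    _ = A ^ 3 * (|a k| * |eval (p k) (k6b_r3_lag p k)|) := by ring

/-- the norm of the Lagrange part -/
theorem k6b_r3_lagpart {A M : ℝ} {p : Fin 7 → Fin 3 → ℝ} (h : k6b_GP 7 A p) (a : Fin 7 → ℝ)
    (ha : ∀ k, |a k| ≤ M) : rmzNm (∑ i, C (a i) * k6b_r3_lag p i) ≤ 1512 * A ^ 6 * M := by
  have hM : 0 ≤ M := (abs_nonneg _).trans (ha 0)
  refine (k6b_nm_sum _ _).trans ?_
  calc ∑ i, rmzNm (C (a i) * k6b_r3_lag p i) ≤ ∑ _i : Fin 7, M * (216 * A ^ 6) := by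
        refine Finset.sum_le_sum fun i _ => ?_
        rw [rmz_Nm_C_mul]
        exact mul_le_mul (ha i) (k6b_r3_lag_norm h i) (rmz_Nm_nonneg _) hM
    _ = 1512 * A ^ 6 * M := by
        rw [Finset.sum_const, Finset.card_univ, Fintype.card_fin, nsmul_eq_mul]
        push_cast
        ring

/-- a linear factor of a cubic `q L` is controlled by the cubic -/
theorem k6b_r3_factor {A : ℝ} {Q : Matrix (Fin 3) (Fin 3) ℝ} {p : Fin 7 → Fin 3 → ℝ} (hA : 2 ≤ A)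
    (h : k6b_GP 7 A p) (hQ : k6b_Conic 7 A Q p) {L : MvPolynomial (Fin 3) ℝ} (hL : L.IsHomogeneous 1) :
    rmzNm L ≤ 972 * A ^ 11 * rmzNm (k6b_qf Q * L) := by
  have hA0 : 0 < A := by linarith
  have hhom : (k6b_qf Q * L).IsHomogeneous (2 + 1) := (k6b_qf_hom Q).mul hL
  have hval : ∀ i, |eval (p i) L| ≤ 54 * A ^ 8 * rmzNm (k6b_qf Q * L) := by
    intro i
    obtain ⟨j, hj⟩ := k6b_conic_grad_low hA h hQ (by norm_num) i
    have h1 : eval (p i) (pderiv j (k6b_qf Q * L)) = eval (p i) (pderiv j (k6b_qf Q)) * eval (p i) L := by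
      rw [pderiv_mul, map_add, map_mul, map_mul, hQ.zero i]
      ring
    have h2 : |eval (p i) (pderiv j (k6b_qf Q * L))| ≤ 3 * rmzNm (k6b_qf Q * L) * A ^ 2 := by
      refine (k6b_hom_eval_le (k6b_hom_pderiv hhom j) (p i) A (h.bd i)).trans ?_
      refine mul_le_mul_of_nonneg_right ?_ (by positivity)
      have := k6b_nm_pderiv hhom j
      push_cast at this
      linarith
    rw [h1, abs_mul] at h2
    have h3 : (0 : ℝ) < 18 * A ^ 6 := by positivity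
    have h4 : 1 ≤ 18 * A ^ 6 * |eval (p i) (pderiv j (k6b_qf Q))| := by
      have := mul_le_mul_of_nonneg_left hj h3.le
      rwa [mul_inv_cancel₀ h3.ne'] at this
    calc |eval (p i) L| = 1 * |eval (p i) L| := (one_mul _).symm
      _ ≤ (18 * A ^ 6 * |eval (p i) (pderiv j (k6b_qf Q))|) * |eval (p i) L| :=
          mul_le_mul_of_nonneg_right h4 (abs_nonneg _)
      _ = 18 * A ^ 6 * (|eval (p i) (pderiv j (k6b_qf Q))| * |eval (p i) L|) := by ring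
      _ ≤ 18 * A ^ 6 * (3 * rmzNm (k6b_qf Q * L) * A ^ 2) := mul_le_mul_of_nonneg_left h2 h3.le
      _ = 54 * A ^ 8 * rmzNm (k6b_qf Q * L) := by ring
  have hGP : k6b_GP 3 A (p ∘ Fin.castLE (by norm_num : 3 ≤ 7)) :=
    k6b_GP_comp h _ (Fin.castLE_injective _)
  have := k6b_lin_of_vals hA hGP hL (fun i => hval _)
  calc rmzNm L ≤ 18 * A ^ 3 * (54 * A ^ 8 * rmzNm (k6b_qf Q * L)) := this
    _ = 972 * A ^ 11 * rmzNm (k6b_qf Q * L) := by ring

/-- **T3** -/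
theorem k6b_rank3 : k6b_rank3_stmt := by
  refine ⟨1470636, ?_⟩
  intro A ε p Q F hA h hQ hF hv
  have hA0 : 0 < A := by linarith
  have hA1 : 1 ≤ A := by linarith
  have hε : 0 ≤ ε := (abs_nonneg _).trans (hv 0)
  obtain ⟨a, b, hdec⟩ := k6b_r3_decomp hA h hQ hF
  set L : MvPolynomial (Fin 3) ℝ := ∑ j, C (b j) * X j with hLdef
  have hL : L.IsHomogeneous 1 := IsHomogeneous.sum _ _ _ fun j _ => isHomogeneous_C_mul_X _ _
  have hcoef := k6b_r3_coef hA h hQ hdec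
  have hA3 : (0 : ℝ) ≤ A ^ 3 := by positivity
  refine ⟨L, hL, ?_, ?_⟩
  · have e1 : F - k6b_qf Q * L = ∑ i, C (a i) * k6b_r3_lag p i := by
      rw [hdec]; ring
    rw [e1]
    have h1 := k6b_r3_lagpart h a (M := A ^ 3 * ε) fun k =>
      (hcoef k).trans (mul_le_mul_of_nonneg_left (hv k) hA3)
    have h2 := k6b_r3_poly_le hA1 1512 9 1470636 (by norm_num) (by norm_num)
    calc rmzNm (∑ i, C (a i) * k6b_r3_lag p i) ≤ 1512 * A ^ 6 * (A ^ 3 * ε) := h1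
      _ = ((1512 : ℕ) : ℝ) * A ^ 9 * ε := by push_cast; ring
      _ ≤ ((1470636 : ℕ) : ℝ) * A ^ 1470636 * ε := mul_le_mul_of_nonneg_right h2 hε
  · have hN : 0 ≤ rmzNm F := rmz_Nm_nonneg F
    have h1 := k6b_r3_lagpart h a (M := A ^ 3 * (rmzNm F * A ^ 3)) fun k =>
      (hcoef k).trans (mul_le_mul_of_nonneg_left (k6b_hom_eval_le hF (p k) A (h.bd k)) hA3)
    have e2 : k6b_qf Q * L = F - ∑ i, C (a i) * k6b_r3_lag p i := by
      rw [hdec]; ring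
    have h3 : rmzNm (k6b_qf Q * L) ≤ 1513 * A ^ 12 * rmzNm F := by
      rw [e2]
      refine (k6b_nm_sub _ _).trans ?_
      have h4 : (1 : ℝ) ≤ A ^ 12 := one_le_pow₀ hA1
      calc rmzNm F + rmzNm (∑ i, C (a i) * k6b_r3_lag p i)
          ≤ rmzNm F + 1512 * A ^ 6 * (A ^ 3 * (rmzNm F * A ^ 3)) := by linarith
        _ = 1 * rmzNm F + 1512 * A ^ 12 * rmzNm F := by ring
        _ ≤ A ^ 12 * rmzNm F + 1512 * A ^ 12 * rmzNm F := by
            have := mul_le_mul_of_nonneg_right h4 hN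
            linarith
        _ = 1513 * A ^ 12 * rmzNm F := by ring
    have h5 := k6b_r3_factor hA h hQ hL
    have h6 := k6b_r3_poly_le hA1 1470636 23 1470636 le_rfl (by norm_num)
    calc rmzNm L ≤ 972 * A ^ 11 * rmzNm (k6b_qf Q * L) := h5
      _ ≤ 972 * A ^ 11 * (1513 * A ^ 12 * rmzNm F) := mul_le_mul_of_nonneg_left h3 (by positivity)
      _ = ((1470636 : ℕ) : ℝ) * A ^ 23 * rmzNm F := by push_cast; ring
      _ ≤ ((1470636 : ℕ) : ℝ) * A ^ 1470636 * rmzNm F := mul_le_mul_of_nonneg_right h6 hN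

end Claimed.Agent.R252
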