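import Claimed.Agent.R252.S6b.Form

/-!
# Row252, unit S6b, leaf L-252-S6b-T4: rank four, kernel `ℝ q²` (from T2, T3)      (helper250)

`∂_j F = q L_j + E_j` (T3);  Euler: `4 F = q H + E`, `H = ∑ x_j L_j`, `E = ∑ x_j E_j`;  differentiate and evaluate at
`p_i`: `∂_k q(p_i) H(p_i) = 4 ∂_k F(p_i) - ∂_k E(p_i)`;  `k6b_conic_grad_low`;  T2 for `H` at five of the points.
-/

set_option autoImplicit false

namespace Claimed.Agent.R252

open MvPolynomial

theorem k6b_r4_const (c2 c3 : ℕ) (A : ℝ) (hA : 2 ≤ A) :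
    (1 / 4 : ℝ) * (9 * A * (((c2 : ℝ) * A ^ c2) * (18 * A ^ 6 * (4 + 12 * ((c3 : ℝ) * A ^ c3) * A ^ 3)))
        + 3 * ((c3 : ℝ) * A ^ c3))
      ≤ ((486 * (c2 + 1) * (c3 + 1) + 10 : ℕ) : ℝ) * A ^ (486 * (c2 + 1) * (c3 + 1) + 10) ∧
    3 * ((c2 : ℝ) * A ^ c2) * ((c3 : ℝ) * A ^ c3)
      ≤ ((486 * (c2 + 1) * (c3 + 1) + 10 : ℕ) : ℝ) * A ^ (486 * (c2 + 1) * (c3 + 1) + 10) := by
  have hA1 : (1 : ℝ) ≤ A := by linarith
  have hA0 : (0 : ℝ) < A := by linarith
  have hexp : c2 + c3 + 10 ≤ 486 * (c2 + 1) * (c3 + 1) + 10 := by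
    have e : 486 * (c2 + 1) * (c3 + 1) = 486 * (c2 * c3) + 486 * c2 + 486 * c3 + 486 := by ring
    rw [e]
    omega
  have hp : A ^ (c2 + c3 + 10) ≤ A ^ (486 * (c2 + 1) * (c3 + 1) + 10) := pow_le_pow_right₀ hA1 hexp
  set P : ℝ := A ^ (c2 + c3 + 10) with hP
  have hP0 : 0 < P := by positivity
  have h1 : A ^ (c2 + 7) ≤ P := pow_le_pow_right₀ hA1 (by omega)
  have h2 : A ^ c3 ≤ P := pow_le_pow_right₀ hA1 (by omega)
  have h3 : A ^ (c2 + c3) ≤ P := pow_le_pow_right₀ hA1 (by omega)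
  have hc2 : (0 : ℝ) ≤ c2 := Nat.cast_nonneg _
  have hc3 : (0 : ℝ) ≤ c3 := Nat.cast_nonneg _
  have hbig : (486 * ((c2 : ℝ) + 1) * ((c3 : ℝ) + 1) + 10) * P
      ≤ ((486 * (c2 + 1) * (c3 + 1) + 10 : ℕ) : ℝ) * A ^ (486 * (c2 + 1) * (c3 + 1) + 10) := by
    push_cast
    exact mul_le_mul_of_nonneg_left hp (by positivity)
  constructor
  · refine le_trans ?_ hbig
    have e1 : (1 / 4 : ℝ) * (9 * A * (((c2 : ℝ) * A ^ c2) * (18 * A ^ 6 * (4 + 12 * ((c3 : ℝ) * A ^ c3) * A ^ 3)))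
        + 3 * ((c3 : ℝ) * A ^ c3))
        = 162 * c2 * A ^ (c2 + 7) + 486 * (c2 * c3) * P + 3 / 4 * c3 * A ^ c3 := by
      rw [hP, pow_add, pow_add, pow_add]; ring
    rw [e1]
    have g1 : 162 * (c2 : ℝ) * A ^ (c2 + 7) ≤ 162 * c2 * P := mul_le_mul_of_nonneg_left h1 (by positivity)
    have g2 : 3 / 4 * (c3 : ℝ) * A ^ c3 ≤ 3 / 4 * c3 * P := mul_le_mul_of_nonneg_left h2 (by positivity)
    have g3 : 0 ≤ (c2 : ℝ) * P := by positivity
    have g4 : 0 ≤ (c3 : ℝ) * P := by positivity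
    nlinarith
  · refine le_trans ?_ hbig
    have e1 : 3 * ((c2 : ℝ) * A ^ c2) * ((c3 : ℝ) * A ^ c3) = 3 * (c2 * c3) * A ^ (c2 + c3) := by
      rw [pow_add]; ring
    rw [e1]
    have g1 : 3 * ((c2 : ℝ) * c3) * A ^ (c2 + c3) ≤ 3 * (c2 * c3) * P := mul_le_mul_of_nonneg_left h3 (by positivity)
    have g3 : 0 ≤ (c2 : ℝ) * P := by positivity
    have g4 : 0 ≤ (c3 : ℝ) * P := by positivity
    have g5 : 0 ≤ (c2 : ℝ) * c3 * P := by positivity
    nlinarith

theorem k6b_rank4_of : k6b_rank2_stmt → k6b_rank3_stmt → k6b_rank4_stmt := by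
  rintro ⟨c2, h2⟩ ⟨c3, h3⟩
  refine ⟨486 * (c2 + 1) * (c3 + 1) + 10, ?_⟩
  intro A ε p Q F hA hGP hC hF hd
  have hA0 : (0 : ℝ) < A := by linarith
  have hε : 0 ≤ ε := le_trans (abs_nonneg _) (hd 0 0)
  obtain ⟨hconst1, hconst2⟩ := k6b_r4_const c2 c3 A hA
  set q := k6b_qf Q with hq
  set K2 : ℝ := (c2 : ℝ) * A ^ c2 with hK2
  set K3 : ℝ := (c3 : ℝ) * A ^ c3 with hK3
  have hK20 : 0 ≤ K2 := by positivity
  have hK30 : 0 ≤ K3 := by positivity
  have hN : 0 ≤ rmzNm F := rmz_Nm_nonneg F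
  have hqh : q.IsHomogeneous 2 := k6b_qf_hom Q
  have hF' : F.IsHomogeneous (3 + 1) := hF
  have hG : ∀ j, (pderiv j F).IsHomogeneous 3 := fun j => k6b_hom_pderiv hF' j
  have h3' : ∀ j, ∃ L : MvPolynomial (Fin 3) ℝ, L.IsHomogeneous 1 ∧
      rmzNm (pderiv j F - q * L) ≤ K3 * ε ∧ rmzNm L ≤ K3 * rmzNm (pderiv j F) := fun j =>
    h3 A ε p Q (pderiv j F) hA hGP hC (hG j) (fun i => hd i j)
  choose L hLh hLe hLn using h3'
  set H : MvPolynomial (Fin 3) ℝ := ∑ j, X j * L j with hH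
  set E : MvPolynomial (Fin 3) ℝ := ∑ j, X j * (pderiv j F - q * L j) with hE
  have hHh : H.IsHomogeneous 2 :=
    IsHomogeneous.sum _ _ _ fun j _ => (isHomogeneous_X ℝ j).mul (hLh j)
  have hEh : E.IsHomogeneous (3 + 1) :=
    IsHomogeneous.sum _ _ _ fun j _ => by
      have h1 : (pderiv j F - q * L j).IsHomogeneous 3 := (hG j).sub (hqh.mul (hLh j))
      have := (isHomogeneous_X ℝ j).mul h1
      rwa [add_comm] at this
  -- Euler
  have heul : C (4 : ℝ) * F = q * H + E := by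
    have := k6b_euler hF
    push_cast at this
    rw [this, hH, hE, Finset.mul_sum, ← Finset.sum_add_distrib]
    refine Finset.sum_congr rfl fun j _ => ?_
    ring
  -- norms
  have hEn : rmzNm E ≤ 3 * (K3 * ε) := by
    refine (k6b_nm_sum _ _).trans ?_
    calc ∑ j, rmzNm (X j * (pderiv j F - q * L j)) ≤ ∑ _j : Fin 3, K3 * ε := by
          refine Finset.sum_le_sum fun j _ => ?_
          refine (k6b_nm_mul _ _).trans ?_
          rw [k6b_nm_X, one_mul]
          exact hLe j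
      _ = 3 * (K3 * ε) := by
          rw [Finset.sum_const, Finset.card_univ, Fintype.card_fin, nsmul_eq_mul]
          push_cast
          ring
  have hHn : rmzNm H ≤ 12 * K3 * rmzNm F := by
    refine (k6b_nm_sum _ _).trans ?_
    calc ∑ j, rmzNm (X j * L j) ≤ ∑ _j : Fin 3, K3 * (4 * rmzNm F) := by
          refine Finset.sum_le_sum fun j _ => ?_
          refine (k6b_nm_mul _ _).trans ?_
          rw [k6b_nm_X, one_mul]
          refine (hLn j).trans (mul_le_mul_of_nonneg_left ?_ hK30)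
          have := k6b_nm_pderiv hF j
          push_cast at this
          exact this
      _ = 12 * K3 * rmzNm F := by
          rw [Finset.sum_const, Finset.card_univ, Fintype.card_fin, nsmul_eq_mul]
          push_cast
          ring
  -- values of H
  set ε' : ℝ := 18 * A ^ 6 * (4 + 12 * K3 * A ^ 3) * ε with hε'
  have hHv : ∀ i, |eval (p i) H| ≤ ε' := by
    intro i
    obtain ⟨k, hk⟩ := k6b_conic_grad_low hA hGP hC (by norm_num) i
    have e1 : 4 * eval (p i) (pderiv k F) = eval (p i) (pderiv k q) * eval (p i) H + eval (p i) (pderiv k E) := by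
      have := congrArg (fun P => eval (p i) (pderiv k P)) heul
      simp only [pderiv_mul, map_add, map_mul, pderiv_C, eval_C, map_zero, hC.zero i, hq] at this
      rw [hq]
      linarith
    have e2 : |eval (p i) (pderiv k E)| ≤ 12 * K3 * A ^ 3 * ε := by
      refine (k6b_hom_eval_le (k6b_hom_pderiv hEh k) (p i) A (hGP.bd i)).trans ?_
      have h1 := k6b_nm_pderiv hEh k
      push_cast at h1
      have h2 : rmzNm (pderiv k E) ≤ 12 * (K3 * ε) := by linarith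
      calc rmzNm (pderiv k E) * A ^ 3 ≤ 12 * (K3 * ε) * A ^ 3 := mul_le_mul_of_nonneg_right h2 (by positivity)
        _ = 12 * K3 * A ^ 3 * ε := by ring
    have e3 : |eval (p i) (pderiv k q)| * |eval (p i) H| ≤ (4 + 12 * K3 * A ^ 3) * ε := by
      rw [← abs_mul]
      have : eval (p i) (pderiv k q) * eval (p i) H = 4 * eval (p i) (pderiv k F) - eval (p i) (pderiv k E) := by
        linarith
      rw [this]
      calc |4 * eval (p i) (pderiv k F) - eval (p i) (pderiv k E)|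
          ≤ |4 * eval (p i) (pderiv k F)| + |eval (p i) (pderiv k E)| := abs_sub _ _
        _ ≤ 4 * ε + 12 * K3 * A ^ 3 * ε := by
            rw [abs_mul, abs_of_pos (by norm_num : (0 : ℝ) < 4)]
            linarith [hd i k]
        _ = (4 + 12 * K3 * A ^ 3) * ε := by ring
    have h3p : (0 : ℝ) < 18 * A ^ 6 := by positivity
    have h4 : 1 ≤ 18 * A ^ 6 * |eval (p i) (pderiv k q)| := by
      have := mul_le_mul_of_nonneg_left hk h3p.le
      rwa [mul_inv_cancel₀ h3p.ne'] at this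
    calc |eval (p i) H| = 1 * |eval (p i) H| := (one_mul _).symm
      _ ≤ (18 * A ^ 6 * |eval (p i) (pderiv k q)|) * |eval (p i) H| :=
          mul_le_mul_of_nonneg_right h4 (abs_nonneg _)
      _ = 18 * A ^ 6 * (|eval (p i) (pderiv k q)| * |eval (p i) H|) := by ring
      _ ≤ 18 * A ^ 6 * ((4 + 12 * K3 * A ^ 3) * ε) := mul_le_mul_of_nonneg_left e3 h3p.le
      _ = ε' := by rw [hε']; ring
  -- T2
  obtain ⟨lam, hl1, hl2⟩ := h2 A ε' (p ∘ Fin.castLE (by norm_num : 5 ≤ 7)) Q H hA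
    (k6b_GP_comp hGP _ (Fin.castLE_injective _)) (k6b_Conic_comp hC _) hHh (fun i => hHv _)
  refine ⟨lam / 4, ?_, ?_⟩
  · have e4 : F - C (lam / 4) * q ^ 2 = C (1 / 4 : ℝ) * (q * (H - C lam * q) + E) := by
      have e5 : F = C (1 / 4 : ℝ) * (C (4 : ℝ) * F) := by
        rw [← mul_assoc, ← C_mul]
        norm_num
      have e6 : (C (lam / 4) : MvPolynomial (Fin 3) ℝ) = C (1 / 4 : ℝ) * C lam := by
        rw [← C_mul]
        congr 1
        ring
      rw [e6]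
      nth_rewrite 1 [e5]
      rw [heul]
      ring
    rw [e4, rmz_Nm_C_mul, abs_of_pos (by norm_num : (0 : ℝ) < 1 / 4)]
    have hqn : rmzNm q ≤ 9 * A := k6b_qf_norm Q A hC.bd
    have e7 : rmzNm (q * (H - C lam * q) + E) ≤ 9 * A * (K2 * ε') + 3 * (K3 * ε) := by
      refine (k6b_nm_add _ _).trans (add_le_add ?_ hEn)
      refine (k6b_nm_mul _ _).trans ?_
      exact mul_le_mul hqn hl1 (rmz_Nm_nonneg _) (by positivity)
    calc 1 / 4 * rmzNm (q * (H - C lam * q) + E) ≤ 1 / 4 * (9 * A * (K2 * ε') + 3 * (K3 * ε)) :=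
          mul_le_mul_of_nonneg_left e7 (by norm_num)
      _ = (1 / 4 * (9 * A * (K2 * (18 * A ^ 6 * (4 + 12 * K3 * A ^ 3))) + 3 * K3)) * ε := by
          rw [hε']; ring
      _ ≤ _ := mul_le_mul_of_nonneg_right hconst1 hε
  · rw [abs_div, abs_of_pos (by norm_num : (0 : ℝ) < 4)]
    calc |lam| / 4 ≤ K2 * rmzNm H / 4 := by
          exact div_le_div_of_nonneg_right hl2 (by norm_num)
      _ ≤ K2 * (12 * K3 * rmzNm F) / 4 := by
          exact div_le_div_of_nonneg_right (mul_le_mul_of_nonneg_left hHn hK20) (by norm_num)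
      _ = 3 * K2 * K3 * rmzNm F := by ring
      _ ≤ _ := mul_le_mul_of_nonneg_right hconst2 hN

end Claimed.Agent.R252
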