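import Claimed.Agent.R252.S6b.Form

/-!
# Row252, unit S6b, leaf L-252-S6b-T5: rank five, trivial kernel (from T4)
-/

set_option autoImplicit false

namespace Claimed.Agent.R252

open MvPolynomial

/-- second derivative of `q² L` at a zero of `q` -/
theorem k6b_r5_dd (q L : MvPolynomial (Fin 3) ℝ) (x : Fin 3 → ℝ) (j : Fin 3)
    (hq : eval x q = 0) :
    eval x (pderiv j (pderiv j (q ^ 2 * L))) = 2 * (eval x (pderiv j q)) ^ 2 * eval x L := by
  simp only [pow_two, pderiv_mul, map_add, map_mul, hq]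
  ring

theorem k6b_r5_const (c4 : ℕ) (A : ℝ) (hA : 2 ≤ A) :
    (1 / 5 : ℝ) * ((9 * A) ^ 2 * (18 * A ^ 3 * (162 * A ^ 12 * (5 + 60 * ((c4 : ℝ) * A ^ c4) * A ^ 3)))
      + 3 * ((c4 : ℝ) * A ^ c4))
      ≤ ((20000000 * (c4 + 1) + 20 : ℕ) : ℝ) * A ^ (20000000 * (c4 + 1) + 20) := by
  have hA1 : (1 : ℝ) ≤ A := by linarith
  have hA0 : (0 : ℝ) < A := by linarith
  have hp : A ^ (c4 + 20) ≤ A ^ (20000000 * (c4 + 1) + 20) :=
    pow_le_pow_right₀ hA1 (by omega)
  have h17 : A ^ 17 ≤ A ^ (c4 + 20) := pow_le_pow_right₀ hA1 (by omega)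
  have hc4 : A ^ c4 ≤ A ^ (c4 + 20) := pow_le_pow_right₀ hA1 (by omega)
  have hP : 0 < A ^ (c4 + 20) := by positivity
  have hc0 : (0 : ℝ) ≤ c4 := Nat.cast_nonneg _
  have e1 : (9 * A) ^ 2 * (18 * A ^ 3 * (162 * A ^ 12 * (5 + 60 * ((c4 : ℝ) * A ^ c4) * A ^ 3)))
      = 1180980 * A ^ 17 + 14171760 * c4 * A ^ (c4 + 20) := by
    rw [pow_add]; ring
  rw [e1]
  push_cast
  have h1 : (20000000 * ((c4 : ℝ) + 1) + 20) * A ^ (c4 + 20)
      ≤ (20000000 * ((c4 : ℝ) + 1) + 20) * A ^ (20000000 * (c4 + 1) + 20) :=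
    mul_le_mul_of_nonneg_left hp (by positivity)
  refine le_trans ?_ h1
  have h2 : (c4 : ℝ) * A ^ c4 ≤ c4 * A ^ (c4 + 20) := mul_le_mul_of_nonneg_left hc4 hc0
  have h3 : 0 ≤ (c4 : ℝ) * A ^ (c4 + 20) := by positivity
  nlinarith

theorem k6b_rank5_of : k6b_rank4_stmt → k6b_rank5_stmt := by
  rintro ⟨c4, h4⟩
  refine ⟨20000000 * (c4 + 1) + 20, ?_⟩
  intro A ε p Q F hA hGP hC hF hdd
  have hA0 : (0 : ℝ) < A := by linarith
  have hε : 0 ≤ ε := le_trans (abs_nonneg _) (hdd 0 0 0)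
  set q := k6b_qf Q with hq
  set K : ℝ := (c4 : ℝ) * A ^ c4 with hK
  have hK0 : 0 ≤ K := by positivity
  have hqh : q.IsHomogeneous 2 := k6b_qf_hom Q
  have hG : ∀ k, (pderiv k F).IsHomogeneous 4 := fun k => k6b_hom_pderiv hF k
  have h4' : ∀ k, ∃ lam : ℝ, rmzNm (pderiv k F - C lam * q ^ 2) ≤ K * ε := by
    intro k
    obtain ⟨lam, h1, _⟩ := h4 A ε p Q (pderiv k F) hA hGP hC (hG k) (fun i j => hdd i j k)
    exact ⟨lam, h1⟩
  choose lam hlam using h4'
  set E : Fin 3 → MvPolynomial (Fin 3) ℝ := fun k => pderiv k F - C (lam k) * q ^ 2 with hE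
  set L : MvPolynomial (Fin 3) ℝ := ∑ k, C (lam k) * X k with hL
  set EE : MvPolynomial (Fin 3) ℝ := ∑ k, X k * E k with hEE
  have hEuler : C (5 : ℝ) * F = q ^ 2 * L + EE := by
    have h := k6b_euler hF
    push_cast at h
    rw [h, hL, hEE, Finset.mul_sum, ← Finset.sum_add_distrib]
    refine Finset.sum_congr rfl fun k _ => ?_
    simp only [hE]
    ring
  have hq2h : (q ^ 2).IsHomogeneous 4 := by
    have := hqh.pow 2
    simpa using this
  have hEh : ∀ k, (E k).IsHomogeneous 4 := by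
    intro k
    refine (hG k).sub ?_
    have := (isHomogeneous_C (Fin 3) (lam k)).mul hq2h
    simpa using this
  have hEEh : EE.IsHomogeneous 5 := by
    refine IsHomogeneous.sum _ _ _ fun k _ => ?_
    have := (isHomogeneous_X ℝ k).mul (hEh k)
    simpa using this
  have hLh : L.IsHomogeneous 1 := by
    refine IsHomogeneous.sum _ _ _ fun k _ => ?_
    have := (isHomogeneous_C (Fin 3) (lam k)).mul (isHomogeneous_X ℝ k)
    simpa using this
  have hEEn : rmzNm EE ≤ 3 * (K * ε) := by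
    refine le_trans (k6b_nm_sum _ _) ?_
    have : ∀ k ∈ (Finset.univ : Finset (Fin 3)), rmzNm (X k * E k) ≤ K * ε := by
      intro k _
      refine le_trans (k6b_nm_mul _ _) ?_
      rw [k6b_nm_X, one_mul]
      exact hlam k
    refine le_trans (Finset.sum_le_sum this) ?_
    simp
  -- second derivatives of `EE`
  have hEEdd : ∀ i j, |eval (p i) (pderiv j (pderiv j EE))| ≤ 60 * K * A ^ 3 * ε := by
    intro i j
    have h1 : (pderiv j EE).IsHomogeneous 4 := k6b_hom_pderiv hEEh j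
    have h2 : (pderiv j (pderiv j EE)).IsHomogeneous 3 := k6b_hom_pderiv h1 j
    have n1 : rmzNm (pderiv j EE) ≤ 5 * rmzNm EE := by
      have := k6b_nm_pderiv hEEh j
      simpa using this
    have n2 : rmzNm (pderiv j (pderiv j EE)) ≤ 4 * rmzNm (pderiv j EE) := by
      have := k6b_nm_pderiv h1 j
      simpa using this
    have n3 : rmzNm (pderiv j (pderiv j EE)) ≤ 60 * (K * ε) := by linarith
    refine le_trans (k6b_hom_eval_le h2 (p i) A (hGP.bd i)) ?_
    have hA3 : 0 ≤ A ^ 3 := by positivity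
    calc rmzNm (pderiv j (pderiv j EE)) * A ^ 3 ≤ 60 * (K * ε) * A ^ 3 :=
          mul_le_mul_of_nonneg_right n3 hA3
      _ = 60 * K * A ^ 3 * ε := by ring
  -- values of `L`
  have hLv : ∀ i, |eval (p i) L| ≤ 162 * A ^ 12 * (5 + 60 * K * A ^ 3) * ε := by
    intro i
    obtain ⟨j, hj⟩ := k6b_conic_grad_low hA hGP hC (by norm_num) i
    have hz : eval (p i) q = 0 := hC.zero i
    have h1 := k6b_r5_dd q L (p i) j hz
    have h2 : eval (p i) (pderiv j (pderiv j (C (5 : ℝ) * F)))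
        = 5 * eval (p i) (pderiv j (pderiv j F)) := by
      simp
    rw [hEuler, map_add, map_add, map_add, h1] at h2
    have h3 : |2 * (eval (p i) (pderiv j q)) ^ 2 * eval (p i) L| ≤ (5 + 60 * K * A ^ 3) * ε := by
      have : 2 * (eval (p i) (pderiv j q)) ^ 2 * eval (p i) L
          = 5 * eval (p i) (pderiv j (pderiv j F)) - eval (p i) (pderiv j (pderiv j EE)) := by
        linarith
      rw [this]
      refine le_trans (abs_sub _ _) ?_
      rw [abs_mul]
      have a1 := hdd i j j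
      have a2 := hEEdd i j
      have : |(5 : ℝ)| = 5 := by norm_num
      rw [this]
      linarith
    set g := eval (p i) (pderiv j q) with hg
    have hg2 : (18 * A ^ 6)⁻¹ ^ 2 ≤ g ^ 2 := by
      rw [← sq_abs g]
      exact pow_le_pow_left₀ (by positivity) hj 2
    rw [abs_mul, abs_mul, abs_of_nonneg (by norm_num : (0 : ℝ) ≤ 2),
      abs_of_nonneg (sq_nonneg g)] at h3
    have h4 : 2 * (18 * A ^ 6)⁻¹ ^ 2 * |eval (p i) L| ≤ (5 + 60 * K * A ^ 3) * ε := by
      refine le_trans ?_ h3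
      exact mul_le_mul_of_nonneg_right (by linarith) (abs_nonneg _)
    have h5 : 2 * (18 * A ^ 6)⁻¹ ^ 2 = (162 * A ^ 12)⁻¹ := by
      field_simp
      ring
    rw [h5] at h4
    have hpos : (0 : ℝ) < 162 * A ^ 12 := by positivity
    have h6 : |eval (p i) L| ≤ 162 * A ^ 12 * ((5 + 60 * K * A ^ 3) * ε) := by
      rw [inv_mul_le_iff₀ hpos] at h4
      exact h4
    linarith
  have hf : Function.Injective (Fin.castLE (by norm_num : 3 ≤ 7)) := Fin.castLE_injective _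
  have hGP3 : k6b_GP 3 A (p ∘ Fin.castLE (by norm_num : 3 ≤ 7)) := k6b_GP_comp hGP _ hf
  have hLn : rmzNm L ≤ 18 * A ^ 3 * (162 * A ^ 12 * (5 + 60 * K * A ^ 3) * ε) :=
    k6b_lin_of_vals hA hGP3 hLh (fun i => hLv _)
  have hqn : rmzNm (q ^ 2) ≤ (9 * A) ^ 2 := by
    refine le_trans (k6b_nm_pow _ _) ?_
    exact pow_le_pow_left₀ (rmz_Nm_nonneg _) (k6b_qf_norm Q A hC.bd) 2
  have hFn : rmzNm F ≤ (1 / 5 : ℝ) * ((9 * A) ^ 2 * (18 * A ^ 3 * (162 * A ^ 12 * (5 + 60 * K * A ^ 3) * ε))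
      + 3 * (K * ε)) := by
    have h1 : rmzNm (C (5 : ℝ) * F) = 5 * rmzNm F := by
      rw [rmz_Nm_C_mul]; norm_num
    have h2 : rmzNm (C (5 : ℝ) * F) ≤ (9 * A) ^ 2 * (18 * A ^ 3 * (162 * A ^ 12 * (5 + 60 * K * A ^ 3) * ε))
        + 3 * (K * ε) := by
      rw [hEuler]
      refine le_trans (k6b_nm_add _ _) (add_le_add ?_ hEEn)
      refine le_trans (k6b_nm_mul _ _) ?_
      exact mul_le_mul hqn hLn (rmz_Nm_nonneg _) (by positivity)
    linarith
  refine le_trans hFn ?_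
  have hc := k6b_r5_const c4 A hA
  have := mul_le_mul_of_nonneg_right hc hε
  refine le_trans (le_of_eq ?_) this
  rw [hK]
  ring

end Claimed.Agent.R252
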