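import Claimed.Agent.R252.S6b.RealConicAux

/-!
# Row252, unit S6b, leaf L-252-S6b-T6: the real conic (`k6b_real_conic`)

(a) determinant bound through the normal form, (b) the points are moved along a coordinate
`j ≠ 0` by the intermediate value theorem, (c) general position of the moved points.
All constants are powers of `A` (`A ≥ 2` absorbs the numerical factors); `c = 500`.
-/

set_option autoImplicit false

namespace Claimed.Agent.R252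

open MvPolynomial

theorem k6b_rc_mul_entry (M N : Matrix (Fin 3) (Fin 3) ℝ) (m n : ℝ) (hM : ∀ i j, |M i j| ≤ m)
    (hN : ∀ i j, |N i j| ≤ n) (i j : Fin 3) : |(M * N) i j| ≤ 3 * (m * n) := by
  rw [Matrix.mul_apply, Fin.sum_univ_three]
  have hm : 0 ≤ m := le_trans (abs_nonneg _) (hM 0 0)
  have t : ∀ k, |M i k * N k j| ≤ m * n := fun k => by
    rw [abs_mul]; exact mul_le_mul (hM i k) (hN k j) (abs_nonneg _) hm
  have := abs_add_three (M i 0 * N 0 j) (M i 1 * N 1 j) (M i 2 * N 2 j)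
  linarith [t 0, t 1, t 2]

theorem k6b_rc_pow_eps {A ε : ℝ} {n : ℕ} (hA : 2 ≤ A) (hε0 : 0 ≤ ε) (hε : A ^ n * ε ≤ 1) (m : ℕ)
    (hm : m ≤ n) : A ^ m * ε ≤ 1 :=
  le_trans (mul_le_mul_of_nonneg_right (pow_le_pow_right₀ (by linarith) hm) hε0) hε

theorem k6b_rc_det_nf {A ε : ℝ} (Q : Matrix (Fin 3) (Fin 3) ℝ) (hQ : Q.IsSymm)
    (y : Fin 7 → Fin 3 → ℝ) (hA : 2 ≤ A) (hGP : k6b_GP 7 (A ^ 8) y)
    (hy0 : y 0 = Pi.single 0 1) (hy1 : y 1 = Pi.single 1 1) (hy2 : y 2 = Pi.single 2 1)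
    (hb : ∀ i j, |Q i j| ≤ A ^ 7) (hlow : ∃ i j, 1 ≤ A ^ 13 * |Q i j|)
    (hq : ∀ i, |eval (y i) (k6b_qf Q)| ≤ ε) (hε : A ^ 229 * ε ≤ 1) :
    1 ≤ A ^ 213 * |Q.det| := by
  have hA0 : (0 : ℝ) < A := by linarith
  have hA1 : (1 : ℝ) ≤ A := by linarith
  have hε0 : 0 ≤ ε := le_trans (abs_nonneg _) (hq 0)
  have hd0 : |Q 0 0| ≤ ε := by
    have := hq 0
    rw [k6b_rc_qf_expl Q hQ, hy0] at this
    simpa using this
  have hd1 : |Q 1 1| ≤ ε := by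
    have := hq 1
    rw [k6b_rc_qf_expl Q hQ, hy1] at this
    simpa using this
  have hd2 : |Q 2 2| ≤ ε := by
    have := hq 2
    rw [k6b_rc_qf_expl Q hQ, hy2] at this
    simpa using this
  have low : ∀ i j k, i ≠ j → j ≠ k → i ≠ k →
      1 ≤ A ^ 8 * |(k6b_frame (y i) (y j) (y k)).det| := by
    intro i j k h1 h2 h3
    have := hGP.det i j k h1 h2 h3
    rwa [inv_le_iff_one_le_mul₀' (by positivity)] at this
  have lc0 : ∀ k : Fin 7, k ≠ 1 → k ≠ 2 → 1 ≤ A ^ 8 * |y k 0| := by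
    intro k h1 h2
    have := low k 1 2 h1 (by decide) h2
    rw [k6b_rc_frame_det, hy1, hy2] at this
    simpa using this
  have lc1 : ∀ k : Fin 7, k ≠ 0 → k ≠ 2 → 1 ≤ A ^ 8 * |y k 1| := by
    intro k h1 h2
    have := low 0 k 2 (Ne.symm h1) h2 (by decide)
    rw [k6b_rc_frame_det, hy0, hy2] at this
    simpa using this
  have lc2 : ∀ k : Fin 7, k ≠ 0 → k ≠ 1 → 1 ≤ A ^ 8 * |y k 2| := by
    intro k h1 h2
    have := low 0 1 k (by decide) (Ne.symm h2) (Ne.symm h1)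
    rw [k6b_rc_frame_det, hy0, hy1] at this
    simpa using this
  have m0 : 1 ≤ A ^ 8 * |y 3 2 * y 4 1 - y 3 1 * y 4 2| := by
    have := low 0 3 4 (by decide) (by decide) (by decide)
    rw [k6b_rc_frame_det, hy0] at this
    have e : y 3 2 * y 4 1 - y 3 1 * y 4 2 = -(y 3 1 * y 4 2 - y 4 1 * y 3 2) := by ring
    rw [e, abs_neg]
    simpa using this
  have m1 : 1 ≤ A ^ 8 * |y 3 0 * y 4 2 - y 3 2 * y 4 0| := by
    have := low 3 1 4 (by decide) (by decide) (by decide)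
    rw [k6b_rc_frame_det, hy1] at this
    have e : y 3 0 * y 4 2 - y 3 2 * y 4 0 = y 3 0 * y 4 2 - y 4 0 * y 3 2 := by ring
    rw [e]
    simpa using this
  have m2 : 1 ≤ A ^ 8 * |y 3 1 * y 4 0 - y 3 0 * y 4 1| := by
    have := low 3 4 2 (by decide) (by decide) (by decide)
    rw [k6b_rc_frame_det, hy2] at this
    have e : y 3 1 * y 4 0 - y 3 0 * y 4 1 = -(y 3 0 * y 4 1 - y 4 0 * y 3 1) := by ring
    rw [e, abs_neg]
    simpa using this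
  have hdiag : ∀ d : ℝ, |d| ≤ ε → ¬ (1 ≤ A ^ 13 * |d|) := by
    intro d hd h1
    have h2 : A ^ 13 * |d| ≤ A ^ 13 * ε := mul_le_mul_of_nonneg_left hd (pow_nonneg hA0.le _)
    have h3 : A ^ 14 * ε ≤ 1 := k6b_rc_pow_eps hA hε0 hε 14 (by norm_num)
    have h4 : 2 * (A ^ 13 * ε) ≤ A * (A ^ 13 * ε) :=
      mul_le_mul_of_nonneg_right hA (mul_nonneg (pow_nonneg hA0.le _) hε0)
    have h5 : A * (A ^ 13 * ε) = A ^ 14 * ε := by ring
    linarith
  have hk : 1 ≤ A ^ 13 * |Q 1 2| ∨ 1 ≤ A ^ 13 * |Q 0 2| ∨ 1 ≤ A ^ 13 * |Q 0 1| := by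
    obtain ⟨i, j, hij⟩ := hlow
    fin_cases i <;> fin_cases j
    · exact absurd hij (hdiag _ hd0)
    · exact Or.inr (Or.inr hij)
    · exact Or.inr (Or.inl hij)
    · refine Or.inr (Or.inr ?_)
      rw [← hQ.apply 0 1]; exact hij
    · exact absurd hij (hdiag _ hd1)
    · exact Or.inl hij
    · refine Or.inr (Or.inl ?_)
      rw [← hQ.apply 0 2]; exact hij
    · refine Or.inl ?_
      rw [← hQ.apply 1 2]; exact hij
    · exact absurd hij (hdiag _ hd2)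
  have hqu := hq 3
  have hqv := hq 4
  rw [k6b_rc_qf_expl Q hQ] at hqu hqv
  obtain ⟨k0, k1, k2⟩ := k6b_rc_core hA hd0 hd1 hd2 (hGP.bd 3 0) (hGP.bd 3 1) (hGP.bd 3 2)
    (hGP.bd 4 0) (hGP.bd 4 1) (hGP.bd 4 2)
    (lc0 3 (by decide) (by decide)) (lc1 3 (by decide) (by decide)) (lc2 3 (by decide) (by decide))
    (lc0 4 (by decide) (by decide)) (lc1 4 (by decide) (by decide)) (lc2 4 (by decide) (by decide))
    m0 m1 m2 hqu hqv hk (k6b_rc_pow_eps hA hε0 hε 72 (by norm_num))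
  have hε1 : ε ≤ 1 := by
    have := k6b_rc_pow_eps hA hε0 hε 0 (by norm_num)
    simpa using this
  rw [k6b_rc_det_symm Q hQ]
  generalize Q 0 0 = d0 at *
  generalize Q 1 1 = d1 at *
  generalize Q 2 2 = d2 at *
  have b0 := hb 1 2
  have b1 := hb 0 2
  have b2 := hb 0 1
  generalize Q 1 2 = κ0 at *
  generalize Q 0 2 = κ1 at *
  generalize Q 0 1 = κ2 at *
  have hprod : 1 ≤ A ^ 213 * |κ0 * κ1 * κ2| := by
    have := one_le_mul_of_one_le_of_one_le (one_le_mul_of_one_le_of_one_le k0 k1) k2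
    rw [abs_mul, abs_mul]
    calc (1 : ℝ) ≤ A ^ 71 * |κ0| * (A ^ 71 * |κ1|) * (A ^ 71 * |κ2|) := this
      _ = A ^ 213 * (|κ0| * |κ1| * |κ2|) := by ring
  have t0 : |d0 * d1 * d2| ≤ ε := by
    rw [abs_mul, abs_mul]
    calc |d0| * |d1| * |d2| ≤ ε * 1 * 1 :=
          mul_le_mul (mul_le_mul hd0 (hd1.trans hε1) (abs_nonneg _) hε0) (hd2.trans hε1)
            (abs_nonneg _) (by positivity)
      _ = ε := by ring
  have t : ∀ d κ : ℝ, |d| ≤ ε → |κ| ≤ A ^ 7 → |d * κ ^ 2| ≤ ε * A ^ 14 := by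
    intro d κ hd hκ
    rw [abs_mul, abs_pow]
    calc |d| * |κ| ^ 2 ≤ ε * (A ^ 7) ^ 2 :=
          mul_le_mul hd (pow_le_pow_left₀ (abs_nonneg _) hκ 2) (by positivity) hε0
      _ = ε * A ^ 14 := by ring
  have t1 := t d0 κ0 hd0 b0
  have t2 := t d1 κ1 hd1 b1
  have t3 := t d2 κ2 hd2 b2
  have hlow2 : 2 * |κ0 * κ1 * κ2| - (ε + 3 * (ε * A ^ 14))
      ≤ |d0 * d1 * d2 + 2 * (κ0 * κ1 * κ2) - d0 * κ0 ^ 2 - d1 * κ1 ^ 2 - d2 * κ2 ^ 2| := by
    have e : 2 * (κ0 * κ1 * κ2) = (d0 * d1 * d2 + 2 * (κ0 * κ1 * κ2) - d0 * κ0 ^ 2 - d1 * κ1 ^ 2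
        - d2 * κ2 ^ 2) - d0 * d1 * d2 + d0 * κ0 ^ 2 + d1 * κ1 ^ 2 + d2 * κ2 ^ 2 := by ring
    have h2 : |2 * (κ0 * κ1 * κ2)| = 2 * |κ0 * κ1 * κ2| := by
      rw [abs_mul]; norm_num
    rw [← h2]
    generalize d0 * d1 * d2 + 2 * (κ0 * κ1 * κ2) - d0 * κ0 ^ 2 - d1 * κ1 ^ 2 - d2 * κ2 ^ 2 = D at *
    rw [e]
    generalize d0 * d1 * d2 = x0 at *
    generalize d0 * κ0 ^ 2 = x1 at *
    generalize d1 * κ1 ^ 2 = x2 at *
    generalize d2 * κ2 ^ 2 = x3 at *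
    have a1 := abs_add_le (D - x0 + x1 + x2) x3
    have a2 := abs_add_le (D - x0 + x1) x2
    have a3 := abs_add_le (D - x0) x1
    have a4 := abs_sub D x0
    linarith
  have hsm : A ^ 213 * (ε + 3 * (ε * A ^ 14)) ≤ 1 := by
    have h14 : (1 : ℝ) ≤ A ^ 14 := one_le_pow₀ hA1
    have h2 : (4 : ℝ) ≤ A ^ 2 := by nlinarith
    have h3 : ε + 3 * (ε * A ^ 14) ≤ A ^ 16 * ε := by
      have e : A ^ 16 * ε = A ^ 2 * (A ^ 14 * ε) := by ring
      have h4 : 4 * (A ^ 14 * ε) ≤ A ^ 2 * (A ^ 14 * ε) :=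
        mul_le_mul_of_nonneg_right h2 (mul_nonneg (pow_nonneg hA0.le _) hε0)
      have h5 : ε ≤ A ^ 14 * ε := le_mul_of_one_le_left hε0 h14
      rw [e]
      linarith
    calc A ^ 213 * (ε + 3 * (ε * A ^ 14)) ≤ A ^ 213 * (A ^ 16 * ε) :=
          mul_le_mul_of_nonneg_left h3 (pow_nonneg hA0.le _)
      _ = A ^ 229 * ε := by ring
      _ ≤ 1 := hε
  have := mul_le_mul_of_nonneg_left hlow2 (pow_nonneg hA0.le 213)
  have e2 : A ^ 213 * (2 * |κ0 * κ1 * κ2| - (ε + 3 * (ε * A ^ 14)))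
      = 2 * (A ^ 213 * |κ0 * κ1 * κ2|) - A ^ 213 * (ε + 3 * (ε * A ^ 14)) := by ring
  linarith

theorem k6b_rc_det {A ε : ℝ} {p : Fin 7 → Fin 3 → ℝ} {Q : Matrix (Fin 3) (Fin 3) ℝ}
    (hA : 2 ≤ A) (hGP : k6b_GP 7 A p) (hQ : Q.IsSymm) (hQb : ∀ i j, |Q i j| ≤ A)
    (hQlow : ∃ i j, A⁻¹ ≤ |Q i j|) (hq : ∀ i, |eval (p i) (k6b_qf Q)| ≤ ε)
    (hε : A ^ 229 * ε ≤ 1) : 1 ≤ A ^ 225 * |Q.det| := by
  have hA0 : (0 : ℝ) < A := by linarith
  have hA1 : (1 : ℝ) ≤ A := by linarith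
  have hp : ∀ n : ℕ, (2 : ℝ) ^ n ≤ A ^ n := fun n => pow_le_pow_left₀ (by norm_num) hA n
  obtain ⟨hGPy, hy0, hy1, hy2, hGb, hHb, hGH, hHG⟩ :=
    k6b_GP_frame hA hGP 0 1 2 (by decide) (by decide) (by decide)
  set G := k6b_frame (p 0) (p 1) (p 2) with hG
  set H := G⁻¹ with hH
  set Q' := G.transpose * Q * G with hQ'
  have hQ's : Q'.IsSymm := by
    unfold Matrix.IsSymm
    rw [hQ', Matrix.transpose_mul, Matrix.transpose_mul, Matrix.transpose_transpose, hQ.eq,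
      Matrix.mul_assoc]
  have hval : ∀ i, eval (H.mulVec (p i)) (k6b_qf Q') = eval (p i) (k6b_qf Q) := by
    intro i
    rw [hQ', ← k6b_sub_qf, k6b_sub_eval, Matrix.mulVec_mulVec, hGH, Matrix.one_mulVec]
  have hGtb : ∀ i j, |G.transpose i j| ≤ A := fun i j => hGb j i
  have hHtb : ∀ i j, |H.transpose i j| ≤ 2 * A ^ 3 := fun i j => hHb j i
  have hQ'b : ∀ i j, |Q' i j| ≤ A ^ 7 := by
    intro i j
    have h1 := k6b_rc_mul_entry (G.transpose * Q) G _ _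
      (k6b_rc_mul_entry G.transpose Q A A hGtb hQb) hGb i j
    refine le_trans h1 ?_
    have h4 := hp 4
    norm_num at h4
    calc 3 * (3 * (A * A) * A) = 9 * A ^ 3 := by ring
      _ ≤ A ^ 4 * A ^ 3 := mul_le_mul_of_nonneg_right (by linarith) (by positivity)
      _ = A ^ 7 := by ring
  have hQQ : H.transpose * Q' * H = Q := by
    rw [hQ']
    calc H.transpose * (G.transpose * Q * G) * H = (G * H).transpose * Q * (G * H) := by
          rw [Matrix.transpose_mul]; simp only [Matrix.mul_assoc]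
      _ = Q := by rw [hGH]; simp
  have hQ'low : ∃ i j, 1 ≤ A ^ 13 * |Q' i j| := by
    by_contra hcon
    push Not at hcon
    have hb : ∀ i j, |Q' i j| ≤ (A ^ 13)⁻¹ := by
      intro i j
      have := (hcon i j).le
      rw [mul_comm] at this
      rwa [← one_div, le_div_iff₀ (pow_pos hA0 _)]
    obtain ⟨i, j, hij⟩ := hQlow
    have h1 := k6b_rc_mul_entry (H.transpose * Q') H _ _
      (k6b_rc_mul_entry H.transpose Q' _ _ hHtb hb) hHb i j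
    rw [hQQ] at h1
    have h2 : A⁻¹ ≤ 3 * (3 * (2 * A ^ 3 * (A ^ 13)⁻¹) * (2 * A ^ 3)) := le_trans hij h1
    have h3 : 3 * (3 * (2 * A ^ 3 * (A ^ 13)⁻¹) * (2 * A ^ 3)) = 36 * (A ^ 7)⁻¹ := by
      field_simp
      norm_num
    have h4 : A⁻¹ = A ^ 6 * (A ^ 7)⁻¹ := by
      field_simp
    rw [h3, h4] at h2
    have h5 : A ^ 6 ≤ 36 := le_of_mul_le_mul_right h2 (by positivity)
    have h6 := hp 6
    norm_num at h6
    linarith
  have h98 : 9 * A ^ 4 ≤ A ^ 8 := by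
    have h4 := hp 4
    norm_num at h4
    calc 9 * A ^ 4 ≤ A ^ 4 * A ^ 4 := mul_le_mul_of_nonneg_right (by linarith) (by positivity)
      _ = A ^ 8 := by ring
  have hnf := k6b_rc_det_nf Q' hQ's _ hA (k6b_GP_mono hGPy (by positivity) h98) hy0 hy1 hy2 hQ'b
    hQ'low (fun i => by rw [hval]; exact hq i) hε
  have hdd : Q'.det = G.det ^ 2 * Q.det := by
    rw [hQ', Matrix.det_mul, Matrix.det_mul, Matrix.det_transpose]; ring
  have hGd : |G.det| ≤ A ^ 6 := by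
    refine le_trans (k6b_det_le G A hGb) ?_
    have h3 := hp 3
    norm_num at h3
    calc 6 * A ^ 3 ≤ A ^ 3 * A ^ 3 := mul_le_mul_of_nonneg_right (by linarith) (by positivity)
      _ = A ^ 6 := by ring
  rw [hdd, abs_mul, abs_pow] at hnf
  have h7 : |G.det| ^ 2 ≤ (A ^ 6) ^ 2 := pow_le_pow_left₀ (abs_nonneg _) hGd 2
  calc (1 : ℝ) ≤ A ^ 213 * (|G.det| ^ 2 * |Q.det|) := hnf
    _ ≤ A ^ 213 * ((A ^ 6) ^ 2 * |Q.det|) :=
        mul_le_mul_of_nonneg_left (mul_le_mul_of_nonneg_right h7 (abs_nonneg _))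
          (pow_nonneg hA0.le _)
    _ = A ^ 225 * |Q.det| := by ring

theorem k6b_rc_point {A ε : ℝ} (Q : Matrix (Fin 3) (Fin 3) ℝ) (hQ : Q.IsSymm) (x : Fin 3 → ℝ)
    (hA : 2 ≤ A) (hQb : ∀ i j, |Q i j| ≤ A) (hd : 1 ≤ A ^ 225 * |Q.det|) (hx0 : x 0 = 1)
    (hx : ∀ j, |x j| ≤ A) (hq : |eval x (k6b_qf Q)| ≤ ε) (hε : A ^ 465 * ε ≤ 1) :
    ∃ x' : Fin 3 → ℝ, x' 0 = 1 ∧ eval x' (k6b_qf Q) = 0 ∧ ∀ j, |x' j - x j| ≤ A ^ 232 * ε := by
  have hA0 : (0 : ℝ) < A := by linarith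
  have hε0 : 0 ≤ ε := le_trans (abs_nonneg _) hq
  obtain ⟨j, hj0, hj⟩ := k6b_rc_grad Q x hA hQb hd hx0 hx hq
    (k6b_rc_pow_eps hA hε0 hε 229 (by norm_num))
  set g := 2 * Q.mulVec x j with hg
  have hg2 : 2 ≤ A ^ 232 * |g| := by
    rw [hg, abs_mul]
    have : |(2 : ℝ)| = 2 := by norm_num
    rw [this]
    linarith
  have hgpos : 0 < |g| := by
    by_contra h0
    have : |g| = 0 := le_antisymm (not_lt.mp h0) (abs_nonneg _)
    rw [this] at hg2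
    norm_num at hg2
  have hg0 : g ≠ 0 := abs_pos.mp hgpos
  have hcond : 4 * |Q j j| * |eval x (k6b_qf Q)| ≤ g ^ 2 := by
    have h1 : 4 * |Q j j| * |eval x (k6b_qf Q)| ≤ 4 * A * ε :=
      mul_le_mul (mul_le_mul_of_nonneg_left (hQb j j) (by norm_num)) hq (abs_nonneg _)
        (by positivity)
    have h2 : (2 : ℝ) ^ 2 ≤ (A ^ 232 * |g|) ^ 2 := pow_le_pow_left₀ (by norm_num) hg2 2
    have h3 : (A ^ 232 * |g|) ^ 2 = A ^ 464 * g ^ 2 := by
      rw [mul_pow, sq_abs]; ring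
    have h4 : A ^ 464 * (4 * A * ε) = 4 * (A ^ 465 * ε) := by ring
    have h5 : A ^ 464 * (4 * A * ε) ≤ A ^ 464 * g ^ 2 := by
      rw [h4, ← h3]; linarith
    exact le_trans h1 (le_of_mul_le_mul_left h5 (pow_pos hA0 _))
  obtain ⟨t, ht, hroot⟩ := k6b_rc_ivt _ g (Q j j) hg0 hcond
  have ht' : |t| ≤ A ^ 232 * ε := by
    refine le_trans ht ?_
    rw [div_le_iff₀ hgpos]
    calc 2 * |eval x (k6b_qf Q)| ≤ 2 * ε := by linarith
      _ ≤ (A ^ 232 * |g|) * ε := mul_le_mul_of_nonneg_right hg2 hε0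
      _ = A ^ 232 * ε * |g| := by ring
  refine ⟨Function.update x j (x j + t), ?_, ?_, ?_⟩
  · rw [Function.update_of_ne (Ne.symm hj0)]
    exact hx0
  · rw [k6b_rc_move Q hQ]
    exact hroot
  · intro k
    by_cases hk : k = j
    · subst hk
      simpa using ht'
    · rw [Function.update_of_ne hk]
      simp only [sub_self, abs_zero]
      exact mul_nonneg (pow_nonneg hA0.le _) hε0

theorem k6b_real_conic : k6b_real_conic_stmt := by
  refine ⟨500, ?_⟩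
  intro A ε p Q hA hGP hp0 hQ hQb hQlow hq hε
  have hA0 : (0 : ℝ) < A := by linarith
  have hA1 : (1 : ℝ) ≤ A := by linarith
  have hε0 : 0 ≤ ε := le_trans (abs_nonneg _) (hq 0)
  have hε' : A ^ 500 * ε ≤ 1 := by
    refine le_trans ?_ hε
    have : 0 ≤ A ^ 500 * ε := mul_nonneg (pow_nonneg hA0.le _) hε0
    push_cast
    nlinarith
  have hdet : 1 ≤ A ^ 225 * |Q.det| :=
    k6b_rc_det hA hGP hQ hQb hQlow hq (k6b_rc_pow_eps hA hε0 hε' 229 (by norm_num))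
  have hmove : ∀ i, ∃ x' : Fin 3 → ℝ, x' 0 = 1 ∧ eval x' (k6b_qf Q) = 0 ∧
      ∀ j, |x' j - p i j| ≤ A ^ 232 * ε := fun i =>
    k6b_rc_point Q hQ (p i) hA hQb hdet (hp0 i) (hGP.bd i) (hq i)
      (k6b_rc_pow_eps hA hε0 hε' 465 (by norm_num))
  choose p' h1 h2 h3 using hmove
  refine ⟨?_, p', h1, h2, ?_, ?_⟩
  · rw [inv_le_iff_one_le_mul₀' (by positivity)]
    refine le_trans hdet ?_
    refine mul_le_mul_of_nonneg_right ?_ (abs_nonneg _)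
    have : A ^ 225 ≤ A ^ 500 := pow_le_pow_right₀ hA1 (by norm_num)
    have h0 : 0 ≤ A ^ 500 := pow_nonneg hA0.le _
    push_cast
    nlinarith
  · intro i j
    refine le_trans (h3 i j) ?_
    refine mul_le_mul_of_nonneg_right ?_ hε0
    have : A ^ 232 ≤ A ^ 500 := pow_le_pow_right₀ hA1 (by norm_num)
    have h0 : 0 ≤ A ^ 500 := pow_nonneg hA0.le _
    push_cast
    nlinarith
  · refine k6b_rc_GP_pert hA hGP h3 (mul_nonneg (pow_nonneg hA0.le _) hε0) ?_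
    have h7 : (84 : ℝ) ≤ A ^ 7 := by
      have := pow_le_pow_left₀ (by norm_num : (0 : ℝ) ≤ 2) hA 7
      norm_num at this
      linarith
    calc 84 * A ^ 3 * (A ^ 232 * ε) = 84 * (A ^ 235 * ε) := by ring
      _ ≤ A ^ 7 * (A ^ 235 * ε) :=
          mul_le_mul_of_nonneg_right h7 (mul_nonneg (pow_nonneg hA0.le _) hε0)
      _ = A ^ 242 * ε := by ring
      _ ≤ 1 := k6b_rc_pow_eps hA hε0 hε' 242 (by norm_num)

end Claimed.Agent.R252
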