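import Claimed.Agent.R252.S6b.Jet
import Claimed.Agent.R252.S6b.Rank2
import Claimed.Agent.R252.S6b.Rank3
import Claimed.Agent.R252.S6b.Rank4
import Claimed.Agent.R252.S6b.Rank5
import Claimed.Agent.R252.S6b.RealConic

/-!
# Row252, unit S6b, leaf L-252-S6b-R3: the exact-conic kernels restore `R` (`k6b_restore_R_of`).      helper253
-/

set_option autoImplicit false

namespace Claimed.Agent.R252

open MvPolynomial
open scoped BigOperators

/-- Lipschitz bound for a form -/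
theorem k6b_hom_lip {F : MvPolynomial (Fin 3) ℝ} {r : ℕ} (h : F.IsHomogeneous (r + 1)) (x y : Fin 3 → ℝ) (B η : ℝ)
    (hx : ∀ i, |x i| ≤ B) (hy : ∀ i, |y i| ≤ B) (hxy : ∀ i, |x i - y i| ≤ η) :
    |eval x F - eval y F| ≤ 3 * (r + 1) * rmzNm F * B ^ r * η := by
  have hB : 0 ≤ B := (abs_nonneg _).trans (hx 0)
  have hη : 0 ≤ η := (abs_nonneg _).trans (hxy 0)
  have hder : ∀ s : ℝ, HasDerivAt (fun t : ℝ => eval (y + t • (x - y)) F) (eval (y + s • (x - y)) (k6b_dP (x - y) F)) s :=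
    fun s => k6b_dP_hasDerivAt F y (x - y) s
  obtain ⟨c, hc, hslope⟩ := exists_hasDerivAt_eq_slope (fun t : ℝ => eval (y + t • (x - y)) F)
    (fun s => eval (y + s • (x - y)) (k6b_dP (x - y) F)) (zero_lt_one)
    (fun s _ => (hder s).continuousAt.continuousWithinAt) (fun s _ => hder s)
  have e1 : y + (1 : ℝ) • (x - y) = x := by simp
  have e0 : y + (0 : ℝ) • (x - y) = y := by simp
  simp only [e1, e0, sub_zero, div_one] at hslope
  rw [← hslope]
  unfold k6b_dP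
  rw [map_sum]
  have hz : ∀ i, |(y + c • (x - y)) i| ≤ B := by
    intro i
    have e : (y + c • (x - y)) i = (1 - c) * y i + c * x i := by
      simp only [Pi.add_apply, Pi.smul_apply, Pi.sub_apply, smul_eq_mul]
      ring
    rw [e]
    have h1 := abs_le.1 (hx i)
    have h2 := abs_le.1 (hy i)
    have hc0 : 0 ≤ c := hc.1.le
    have hc1 : 0 ≤ 1 - c := by linarith [hc.2]
    rw [abs_le]
    constructor <;> nlinarith
  calc |∑ j, eval (y + c • (x - y)) (C ((x - y) j) * pderiv j F)|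
      ≤ ∑ j, |eval (y + c • (x - y)) (C ((x - y) j) * pderiv j F)| := Finset.abs_sum_le_sum_abs _ _
    _ ≤ ∑ _j : Fin 3, η * (((r + 1 : ℕ) : ℝ) * rmzNm F * B ^ r) := by
        refine Finset.sum_le_sum fun j _ => ?_
        rw [map_mul, eval_C, abs_mul]
        have h1 := k6b_hom_eval_le (k6b_hom_pderiv h j) _ B hz
        have h2 := k6b_nm_pderiv h j
        have h3 : rmzNm (pderiv j F) * B ^ r ≤ ((r + 1 : ℕ) : ℝ) * rmzNm F * B ^ r := by gcongr
        exact mul_le_mul (hxy j) (h1.trans h3) (abs_nonneg _) hη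
    _ = 3 * (r + 1) * rmzNm F * B ^ r * η := by
        rw [Finset.sum_const, nsmul_eq_mul]
        simp only [Finset.card_univ, Fintype.card_fin]
        push_cast
        ring

theorem k6b_single_norm_le (j : Fin 3) : ‖(Pi.single j (1 : ℝ) : Fin 3 → ℝ)‖ ≤ 1 := by
  rw [pi_norm_le_iff_of_nonneg zero_le_one]
  intro i
  by_cases h : i = j
  · subst h
    simp
  · rw [Pi.single_eq_of_ne h]
    simp

/-- all partial derivatives of order `≤ 5` are bounded by `KR` -/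
theorem k6b_pd_bound (Dl : MvPolynomial (Fin 3) ℝ) (R : k6b_Sheet 3) (u : Fin 3 → ℝ) (KR : ℝ)
    (hK : ∀ vs : List (Fin 3 → ℝ), vs.length ≤ 5 → (∀ x ∈ vs, ‖x‖ ≤ 1) → |(vs.foldr (k6b_Sheet.dv Dl) R).val Dl u| ≤ KR)
    (k : ℕ) (hk : k ≤ 5) (I : Fin k → Fin 3) : |(k6b_pd Dl R I).val Dl u| ≤ KR := by
  unfold k6b_pd
  refine hK _ (by rw [List.length_ofFn]; exact hk) ?_
  intro x hx
  rw [List.mem_ofFn] at hx
  obtain ⟨i, rfl⟩ := hx
  exact k6b_single_norm_le _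

theorem k6b_jet_norm5 (Dl : MvPolynomial (Fin 3) ℝ) (R : k6b_Sheet 3) (u : Fin 3 → ℝ) (KR : ℝ)
    (hK : ∀ vs : List (Fin 3 → ℝ), vs.length ≤ 5 → (∀ x ∈ vs, ‖x‖ ≤ 1) → |(vs.foldr (k6b_Sheet.dv Dl) R).val Dl u| ≤ KR)
    (k : ℕ) (hk : k ≤ 5) : rmzNm (k6b_jet Dl R k u) ≤ 3 ^ k * KR := by
  have := k6b_jet_norm Dl R k u KR (k6b_pd_bound Dl R u KR hK k hk)
  exact_mod_cast this

/-- transfer of a cubic test from `v` to `v'` -/
theorem k6b_cubic_transfer {G : MvPolynomial (Fin 3) ℝ} (hG : G.IsHomogeneous 3) (x y : Fin 3 → ℝ) (B η KR εR : ℝ)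
    (hx : ∀ i, |x i| ≤ B) (hy : ∀ i, |y i| ≤ B) (hxy : ∀ i, |x i - y i| ≤ η) (hn : rmzNm G ≤ 4860 * KR)
    (he : |eval y G| ≤ 20 * εR) : |eval x G| ≤ 20 * εR + 43740 * KR * B ^ 2 * η := by
  have hB : 0 ≤ B := (abs_nonneg _).trans (hx 0)
  have hη : 0 ≤ η := (abs_nonneg _).trans (hxy 0)
  have h1 := k6b_hom_lip (r := 2) hG x y B η hx hy hxy
  have h2 : 3 * ((2 : ℕ) + 1 : ℝ) * rmzNm G * B ^ 2 * η ≤ 3 * ((2 : ℕ) + 1 : ℝ) * (4860 * KR) * B ^ 2 * η := by gcongr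
  have h3 : |eval x G| ≤ |eval x G - eval y G| + |eval y G| := by
    have := abs_add_le (eval x G - eval y G) (eval y G)
    simpa using this
  have h4 : 3 * ((2 : ℕ) + 1 : ℝ) * (4860 * KR) * B ^ 2 * η = 43740 * KR * B ^ 2 * η := by
    push_cast
    ring
  linarith


theorem k6b_shift_eval (P : MvPolynomial (Fin 3) ℝ) (u y : Fin 3 → ℝ) :
    eval y (bind₁ (fun i => X i - C (u i)) P) = eval (y - u) P := by
  induction P using MvPolynomial.induction_on with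
  | C c => simp
  | add p q hp hq => simp [hp, hq]
  | mul_X p i hp => simp [hp]

theorem k6b_shift_lin_deg {L : MvPolynomial (Fin 3) ℝ} (hL : L.IsHomogeneous 1) (u : Fin 3 → ℝ) :
    (bind₁ (fun i => X i - C (u i)) L).totalDegree ≤ 1 := by
  obtain ⟨l, rfl⟩ := k6b_lin_form hL
  simp only [map_sum, map_mul, bind₁_X_right, bind₁_C_right]
  refine totalDegree_finsetSum_le fun j _ => ?_
  refine (totalDegree_mul _ _).trans ?_
  rw [totalDegree_C, zero_add]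
  refine (totalDegree_sub _ _).trans ?_
  rw [totalDegree_X, totalDegree_C]
  simp

/-- the core of R3 with abstract constants -/
theorem k6b_restore_core (Dl : MvPolynomial (Fin 3) ℝ) (R : k6b_Sheet 3) (uc : Fin 3 → ℝ) (r B T KR εR η : ℝ)
    (v v' : Fin 7 → Fin 3 → ℝ) (Q : Matrix (Fin 3) (Fin 3) ℝ)
    (hr : 0 < r) (hr1 : r ≤ 1) (hpos : ∀ u ∈ Metric.closedBall uc r, 0 < eval u Dl) (hT : 0 ≤ T) (hKR : 0 ≤ KR)
    (hεR : 0 ≤ εR)
    (hv : ∀ i j, |v i j| ≤ B) (hv' : ∀ i j, |v' i j| ≤ B) (hvv : ∀ i j, |v' i j - v i j| ≤ η)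
    (h3 : ∀ (ε : ℝ) (F : MvPolynomial (Fin 3) ℝ), F.IsHomogeneous 3 → (∀ i, |eval (v' i) F| ≤ ε) →
      ∃ L : MvPolynomial (Fin 3) ℝ, L.IsHomogeneous 1 ∧ rmzNm (F - k6b_qf Q * L) ≤ T * ε ∧ rmzNm L ≤ T * rmzNm F)
    (h4 : ∀ (ε : ℝ) (F : MvPolynomial (Fin 3) ℝ), F.IsHomogeneous 4 → (∀ i j, |eval (v' i) (pderiv j F)| ≤ ε) →
      ∃ lam : ℝ, rmzNm (F - C lam * k6b_qf Q ^ 2) ≤ T * ε ∧ |lam| ≤ T * rmzNm F)
    (h5 : ∀ (ε : ℝ) (F : MvPolynomial (Fin 3) ℝ), F.IsHomogeneous 5 →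
      (∀ i j k, |eval (v' i) (pderiv j (pderiv k F))| ≤ ε) → rmzNm F ≤ T * ε)
    (hK : ∀ vs : List (Fin 3 → ℝ), vs.length ≤ 5 → (∀ x ∈ vs, ‖x‖ ≤ 1) →
      ∀ u ∈ Metric.closedBall uc r, |(vs.foldr (k6b_Sheet.dv Dl) R).val Dl u| ≤ KR)
    (hε : ∀ i, ∀ vs : List (Fin 3 → ℝ), vs.length ≤ 2 → (∀ x ∈ vs, ‖x‖ ≤ 1) →
      ∀ u ∈ Metric.closedBall uc r,
        |(vs.foldr (k6b_Sheet.dv Dl) (((k6b_Sheet.dv Dl (v i))^[3]) R)).val Dl u| ≤ εR) :
    ∃ (R2 L1 : MvPolynomial (Fin 3) ℝ) (lam0 : ℝ), R2.totalDegree ≤ 2 ∧ L1.totalDegree ≤ 1 ∧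
      |lam0| ≤ T * (81 * KR) ∧ (∀ u ∈ Metric.closedBall uc r, |eval u L1| ≤ T * (27 * KR)) ∧
      ∀ u ∈ Metric.closedBall uc r,
        |R.val Dl u - eval u R2 - eval (u - uc) (k6b_qf Q) * eval u L1
            - lam0 * eval (u - uc) (k6b_qf Q) ^ 2| ≤ 3 * (T * (20 * εR + 43740 * KR * B ^ 2 * η)) := by
  have hη : 0 ≤ η := (abs_nonneg _).trans (hvv 0 0)
  obtain ⟨ε', hε'⟩ : ∃ ε' : ℝ, ε' = 20 * εR + 43740 * KR * B ^ 2 * η := ⟨_, rfl⟩
  rw [← hε']
  have hε'0 : 0 ≤ ε' := by rw [hε']; positivity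
  have hKu : ∀ u ∈ Metric.closedBall uc r, ∀ vs : List (Fin 3 → ℝ), vs.length ≤ 5 → (∀ x ∈ vs, ‖x‖ ≤ 1) →
      |(vs.foldr (k6b_Sheet.dv Dl) R).val Dl u| ≤ KR := fun u hu vs h1 h2 => hK vs h1 h2 u hu
  -- the three tests at the moved points
  have t3 : ∀ u ∈ Metric.closedBall uc r, ∀ i, |eval (v' i) (k6b_jet Dl R 3 u)| ≤ ε' := by
    intro u hu i
    rw [hε']
    refine k6b_cubic_transfer (k6b_jet_hom Dl R 3 u) (v' i) (v i) B η KR εR (hv' i) (hv i) (hvv i) ?_ ?_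
    · have := k6b_jet_norm5 Dl R u KR (hKu u hu) 3 (by norm_num)
      linarith
    · rw [k6b_jet_eval]
      have := hε i [] (by simp) (by simp) u hu
      simp only [List.foldr_nil] at this
      linarith
  have t4 : ∀ u ∈ Metric.closedBall uc r, ∀ i j, |eval (v' i) (pderiv j (k6b_jet Dl R 4 u))| ≤ ε' := by
    intro u hu i j
    rw [hε']
    refine k6b_cubic_transfer (k6b_hom_pderiv (r := 3) (k6b_jet_hom Dl R 4 u) j) (v' i) (v i) B η KR εR (hv' i) (hv i)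
      (hvv i) ?_ ?_
    · have h1 := k6b_jet_norm5 Dl R u KR (hKu u hu) 4 (by norm_num)
      have h2 := k6b_nm_pderiv (k6b_jet_hom Dl R 4 u) j
      push_cast at h2
      linarith
    · rw [show (4 : ℕ) = 3 + 1 from rfl, k6b_jet_pderiv, map_mul, eval_C, k6b_jet_eval, k6b_iter_dv_comm, abs_mul]
      have := hε i [Pi.single j 1] (by simp) (by
        intro x hx
        rw [List.mem_singleton] at hx
        rw [hx]
        exact k6b_single_norm_le j) u hu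
      simp only [List.foldr_cons, List.foldr_nil] at this
      have e : |((3 : ℕ) : ℝ) + 1| = 4 := by norm_num
      rw [e]
      linarith
  have t5 : ∀ u ∈ Metric.closedBall uc r, ∀ i j k,
      |eval (v' i) (pderiv j (pderiv k (k6b_jet Dl R 5 u)))| ≤ ε' := by
    intro u hu i j k
    rw [hε']
    have hom4 : (pderiv k (k6b_jet Dl R 5 u)).IsHomogeneous 4 := k6b_hom_pderiv (r := 4) (k6b_jet_hom Dl R 5 u) k
    refine k6b_cubic_transfer (k6b_hom_pderiv (r := 3) hom4 j) (v' i) (v i) B η KR εR (hv' i) (hv i)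
      (hvv i) ?_ ?_
    · have h1 := k6b_jet_norm5 Dl R u KR (hKu u hu) 5 (by norm_num)
      have h2 := k6b_nm_pderiv (k6b_jet_hom Dl R 5 u) k
      have h3 := k6b_nm_pderiv hom4 j
      push_cast at h2 h3
      linarith
    · rw [show (5 : ℕ) = (3 + 1) + 1 from rfl, k6b_jet_pderiv, pderiv_C_mul, k6b_jet_pderiv, map_mul, map_mul, eval_C,
        eval_C, k6b_jet_eval, k6b_iter_dv_comm, k6b_iter_dv_comm, abs_mul, abs_mul]
      have := hε i [Pi.single j 1, Pi.single k 1] (by simp) (by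
        intro x hx
        simp only [List.mem_cons, List.not_mem_nil, or_false] at hx
        rcases hx with hx | hx
        · rw [hx]; exact k6b_single_norm_le j
        · rw [hx]; exact k6b_single_norm_le k) u hu
      simp only [List.foldr_cons, List.foldr_nil] at this
      have e1 : |(((3 + 1 : ℕ) : ℕ) : ℝ) + 1| = 5 := by norm_num
      have e2 : |((3 : ℕ) : ℝ) + 1| = 4 := by norm_num
      rw [e1, e2]
      linarith
  have huc : uc ∈ Metric.closedBall uc r := Metric.mem_closedBall_self hr.le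
  have n5 : ∀ u ∈ Metric.closedBall uc r, rmzNm (k6b_jet Dl R 5 u) ≤ T * ε' := fun u hu =>
    h5 ε' _ (k6b_jet_hom Dl R 5 u) (t5 u hu)
  obtain ⟨L, hL, hE3, hLn⟩ := h3 ε' _ (k6b_jet_hom Dl R 3 uc) (t3 uc huc)
  obtain ⟨lam, hE4, hlam⟩ := h4 ε' _ (k6b_jet_hom Dl R 4 uc) (t4 uc huc)
  have hJ6 := (k6b_jet_calc 3 Dl R 0 uc).2.2.2.2.2 2
  have hx1 : ∀ u ∈ Metric.closedBall uc r, ∀ i, |(u - uc) i| ≤ 1 := by
    intro u hu i
    rw [Metric.mem_closedBall, dist_eq_norm] at hu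
    have := norm_le_pi_norm (u - uc) i
    rw [Real.norm_eq_abs] at this
    linarith
  refine ⟨k6b_tay Dl R 2 uc, C (1 / 6) * bind₁ (fun i => X i - C (uc i)) L, lam / 24, hJ6.1, ?_, ?_, ?_, ?_⟩
  · refine (totalDegree_mul _ _).trans ?_
    rw [totalDegree_C, zero_add]
    exact k6b_shift_lin_deg hL uc
  · have h1 := k6b_jet_norm5 Dl R uc KR (hKu uc huc) 4 (by norm_num)
    rw [abs_div]
    have e : |(24 : ℝ)| = 24 := by norm_num
    rw [e]
    have h2 : T * rmzNm (k6b_jet Dl R 4 uc) ≤ T * (3 ^ 4 * KR) := by gcongr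
    have h3 : 0 ≤ |lam| := abs_nonneg _
    rw [div_le_iff₀ (by norm_num)]
    have h4 : 0 ≤ T * (81 * KR) := by positivity
    nlinarith
  · intro u hu
    rw [map_mul, eval_C, k6b_shift_eval, abs_mul]
    have h1 := k6b_hom_eval_le hL (u - uc) 1 (hx1 u hu)
    have h2 := k6b_jet_norm5 Dl R uc KR (hKu uc huc) 3 (by norm_num)
    have h3 : T * rmzNm (k6b_jet Dl R 3 uc) ≤ T * (3 ^ 3 * KR) := by gcongr
    have e : |(1 / 6 : ℝ)| = 1 / 6 := by norm_num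
    rw [e]
    have h4 : 0 ≤ |eval (u - uc) L| := abs_nonneg _
    rw [one_pow, mul_one] at h1
    nlinarith
  · intro u hu
    obtain ⟨x, hx⟩ : ∃ x, x = u - uc := ⟨_, rfl⟩
    have hux : uc + x = u := by rw [hx]; simp
    have hxi : ∀ i, |x i| ≤ 1 := by rw [hx]; exact hx1 u hu
    have seg : ∀ s ∈ Set.Icc (0 : ℝ) 1, uc + s • x ∈ Metric.closedBall uc r := by
      intro s hs
      rw [Metric.mem_closedBall, dist_eq_norm] at hu ⊢
      have e : uc + s • x - uc = s • x := by simp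
      rw [e, norm_smul, Real.norm_eq_abs, abs_of_nonneg hs.1, hx]
      calc s * ‖u - uc‖ ≤ 1 * r := mul_le_mul hs.2 hu (norm_nonneg _) zero_le_one
        _ = r := one_mul _
    have tay := k6b_sq_taylor Dl R uc x 4 (T * ε') (fun s hs => hpos _ (seg s hs)) (by
      intro s hs
      rw [← k6b_jet_eval]
      have h1 := k6b_hom_eval_le (k6b_jet_hom Dl R 5 (uc + s • x)) x 1 hxi
      rw [one_pow, mul_one] at h1
      exact h1.trans (n5 _ (seg s hs)))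
    have hJ6u := hJ6.2 u
    rw [← hx] at hJ6u
    rw [hux, Finset.sum_range_succ, Finset.sum_range_succ, ← hJ6u, ← k6b_jet_eval, ← k6b_jet_eval] at tay
    rw [map_mul, eval_C, k6b_shift_eval, ← hx]
    have hom3 : (k6b_jet Dl R 3 uc - k6b_qf Q * L).IsHomogeneous 3 :=
      (k6b_jet_hom Dl R 3 uc).sub ((k6b_qf_hom Q).mul hL)
    have hom4 : (k6b_jet Dl R 4 uc - C lam * k6b_qf Q ^ 2).IsHomogeneous 4 := by
      refine (k6b_jet_hom Dl R 4 uc).sub ?_
      have h1 := (isHomogeneous_C (Fin 3) lam).mul ((k6b_qf_hom Q).pow 2)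
      simpa using h1
    have b3 := k6b_hom_eval_le hom3 x 1 hxi
    have b4 := k6b_hom_eval_le hom4 x 1 hxi
    rw [one_pow, mul_one, map_sub, map_mul] at b3
    rw [one_pow, mul_one, map_sub, map_mul, eval_C, map_pow] at b4
    have b3' := b3.trans hE3
    have b4' := b4.trans hE4
    have hTε : 0 ≤ T * ε' := by positivity
    have f3 : ((3 : ℕ).factorial : ℝ) = 6 := by norm_num [Nat.factorial]
    have f4 : ((4 : ℕ).factorial : ℝ) = 24 := by norm_num [Nat.factorial]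
    have f5 : (((4 + 1 : ℕ)).factorial : ℝ) = 120 := by norm_num [Nat.factorial]
    rw [f3, f4, f5] at tay
    rw [abs_le] at tay b3' b4' ⊢
    constructor <;> nlinarith [tay.1, tay.2, b3'.1, b3'.2, b4'.1, b4'.2]


theorem k6b_nat_le_pow {A : ℝ} (hA : 2 ≤ A) (c : ℕ) : (c : ℝ) ≤ A ^ c := by
  have h1 : (c : ℝ) ≤ 2 ^ c := by exact_mod_cast (Nat.lt_two_pow_self (n := c)).le
  exact h1.trans (pow_le_pow_left₀ (by norm_num) hA c)

theorem k6b_cpow_le {A : ℝ} (hA : 2 ≤ A) (b c t : ℕ) (hb : 1 ≤ b) (h : 2 * b * c ≤ t) :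
    (c : ℝ) * (A ^ b) ^ c ≤ A ^ t := by
  have hA1 : 1 ≤ A := by linarith
  have h1 : (c : ℝ) ≤ A ^ (b * c) :=
    (k6b_nat_le_pow hA c).trans (pow_le_pow_right₀ hA1 (Nat.le_mul_of_pos_left c hb))
  calc (c : ℝ) * (A ^ b) ^ c ≤ A ^ (b * c) * (A ^ b) ^ c := by gcongr
    _ = A ^ (2 * b * c) := by rw [← pow_mul, ← pow_add]; congr 1; ring
    _ ≤ A ^ t := pow_le_pow_right₀ hA1 h

theorem k6b_restore_R : k6b_restore_R_stmt := by
  intro D
  obtain ⟨c3, h3⟩ := k6b_rank3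
  obtain ⟨c4, h4⟩ := k6b_rank4_of k6b_rank2 k6b_rank3
  obtain ⟨c5, h5⟩ := k6b_rank5_of (k6b_rank4_of k6b_rank2 k6b_rank3)
  obtain ⟨c6, h6⟩ := k6b_real_conic
  obtain ⟨b, hb⟩ : ∃ b : ℕ, b = 227 := ⟨_, rfl⟩
  obtain ⟨t, ht⟩ : ∃ t : ℕ, t = 2 * b * (c3 + c4 + c5) := ⟨_, rfl⟩
  obtain ⟨c, hc⟩ : ∃ c : ℕ, c = t + 2 * b + 2 * c6 + 18 + 229 := ⟨_, rfl⟩
  refine ⟨c, ?_⟩
  intro Dl R uc r A KR εR εq v Q _ hr hr1 hpos hA hKR hεR hGP hv0 hQs hQb hQlow hq hsmall hK hε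
  have hA1 : 1 ≤ A := by linarith
  have hA0 : 0 < A := by linarith
  have hεq : 0 ≤ εq := (abs_nonneg _).trans (hq 0)
  have hpw : ∀ a a' : ℕ, a ≤ a' → A ^ a ≤ A ^ a' := fun a a' h => pow_le_pow_right₀ hA1 h
  have hc1 : (1 : ℝ) ≤ c := by
    rw [hc]
    push_cast
    have : (0 : ℝ) ≤ (t : ℝ) + 2 * b + 2 * c6 := by positivity
    linarith
  have hAc : ∀ a : ℕ, a ≤ c → A ^ a ≤ c * A ^ c := by
    intro a ha
    have h1 := hpw a c ha
    have h2 : 0 ≤ A ^ c := by positivity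
    nlinarith
  -- smallness
  have hs6 : (c6 : ℝ) * A ^ c6 * εq ≤ 1 := by
    refine le_trans ?_ hsmall
    have h1 : (c6 : ℝ) ≤ c := by
      rw [hc]
      push_cast
      have : (0 : ℝ) ≤ (t : ℝ) + 2 * b + c6 := by positivity
      linarith
    have h2 := hpw c6 c (by rw [hc]; omega)
    gcongr
  have hs229 : A ^ 229 * εq ≤ 1 := by
    refine le_trans ?_ hsmall
    have := hAc 229 (by rw [hc]; omega)
    gcongr
  have hdet := k6b_rc_det hA hGP hQs hQb hQlow hq hs229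
  obtain ⟨-, v', hv'0, hv'q, hvv, hGP'⟩ := h6 A εq v Q hA hGP hv0 hQs hQb hQlow hq hs6
  obtain ⟨B, hB⟩ : ∃ B : ℝ, B = A ^ b := ⟨_, rfl⟩
  have hAB : A ≤ B := by
    rw [hB]
    calc A = A ^ 1 := (pow_one A).symm
      _ ≤ A ^ b := hpw 1 b (by rw [hb]; norm_num)
  have h2AB : 2 * A ≤ B := by
    rw [hB]
    calc 2 * A ≤ A * A := by gcongr
      _ = A ^ 2 := by ring
      _ ≤ A ^ b := hpw 2 b (by rw [hb]; norm_num)
  have hB2 : 2 ≤ B := hA.trans hAB
  have hGPB : k6b_GP 7 B v' := k6b_GP_mono hGP' (by positivity) h2AB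
  have hCon : k6b_Conic 7 B Q v' := by
    refine ⟨hQs, fun i j => (hQb i j).trans hAB, ?_, hv'q⟩
    rw [inv_le_iff_one_le_mul₀' (by linarith)]
    refine hdet.trans ?_
    have : A ^ 225 ≤ B := by rw [hB]; exact hpw 225 b (by rw [hb]; norm_num)
    gcongr
  obtain ⟨T, hT⟩ : ∃ T : ℝ, T = A ^ t := ⟨_, rfl⟩
  have hT0 : 0 ≤ T := by rw [hT]; positivity
  have hb1 : 1 ≤ b := by rw [hb]; norm_num
  have hc3T : (c3 : ℝ) * B ^ c3 ≤ T := by
    rw [hB, hT]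
    exact k6b_cpow_le hA b c3 t hb1 (by rw [ht]; nlinarith)
  have hc4T : (c4 : ℝ) * B ^ c4 ≤ T := by
    rw [hB, hT]
    exact k6b_cpow_le hA b c4 t hb1 (by rw [ht]; nlinarith)
  have hc5T : (c5 : ℝ) * B ^ c5 ≤ T := by
    rw [hB, hT]
    exact k6b_cpow_le hA b c5 t hb1 (by rw [ht]; nlinarith)
  obtain ⟨R2, L1, lam0, d1, d2, g1, g2, g3⟩ := k6b_restore_core Dl R uc r B T KR εR ((c6 : ℝ) * A ^ c6 * εq) v v' Q hr hr1
    hpos hT0 hKR hεR (fun i j => (hGP.bd i j).trans hAB) hGPB.bd hvv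
    (by
      intro ε F hF htest
      have hε0 : 0 ≤ ε := (abs_nonneg _).trans (htest 0)
      obtain ⟨L, l1, l2, l3⟩ := h3 B ε v' Q F hB2 hGPB hCon hF htest
      refine ⟨L, l1, l2.trans (by gcongr), l3.trans ?_⟩
      have := rmz_Nm_nonneg F
      gcongr)
    (by
      intro ε F hF htest
      have hε0 : 0 ≤ ε := (abs_nonneg _).trans (htest 0 0)
      obtain ⟨lam, l2, l3⟩ := h4 B ε v' Q F hB2 hGPB hCon hF htest
      refine ⟨lam, l2.trans (by gcongr), l3.trans ?_⟩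
      have := rmz_Nm_nonneg F
      gcongr)
    (by
      intro ε F hF htest
      have hε0 : 0 ≤ ε := (abs_nonneg _).trans (htest 0 0 0)
      exact (h5 B ε v' Q F hB2 hGPB hCon hF htest).trans (by gcongr))
    hK hε
  have hp : ∀ k : ℕ, (2 : ℝ) ^ k ≤ A ^ k := fun k => pow_le_pow_left₀ (by norm_num) hA k
  have hT81 : T * 81 ≤ c * A ^ c := by
    refine le_trans ?_ (hAc (t + 7) (by rw [hc]; omega))
    rw [hT, pow_add]
    have := hp 7
    norm_num at this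
    have h0 : 0 ≤ A ^ t := by positivity
    nlinarith
  refine ⟨R2, L1, lam0, d1, d2, ?_, ?_, ?_⟩
  · refine g1.trans ?_
    calc T * (81 * KR) = T * 81 * KR := by ring
      _ ≤ c * A ^ c * KR := by gcongr
  · intro u hu
    refine (g2 u hu).trans ?_
    calc T * (27 * KR) ≤ T * (81 * KR) := by gcongr; norm_num
      _ = T * 81 * KR := by ring
      _ ≤ c * A ^ c * KR := by gcongr
  · intro u hu
    refine (g3 u hu).trans ?_
    have k1 : 3 * T * 20 ≤ c * A ^ c := by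
      refine le_trans ?_ (hAc (t + 6) (by rw [hc]; omega))
      rw [hT, pow_add]
      have := hp 6
      norm_num at this
      have h0 : 0 ≤ A ^ t := by positivity
      nlinarith
    have k2 : 3 * T * 43740 * B ^ 2 * ((c6 : ℝ) * A ^ c6) ≤ c * A ^ c := by
      refine le_trans ?_ (hAc (t + 2 * b + 2 * c6 + 18) (by rw [hc]; omega))
      have h18 := hp 18
      norm_num at h18
      have h6' := k6b_nat_le_pow hA c6
      calc 3 * T * 43740 * B ^ 2 * ((c6 : ℝ) * A ^ c6) = 131220 * (T * B ^ 2 * ((c6 : ℝ) * A ^ c6)) := by ring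
        _ ≤ A ^ 18 * (T * B ^ 2 * (A ^ c6 * A ^ c6)) := by
            have : (131220 : ℝ) ≤ A ^ 18 := by linarith
            gcongr
        _ = A ^ (t + 2 * b + 2 * c6 + 18) := by
            rw [hT, hB]
            ring
    calc 3 * (T * (20 * εR + 43740 * KR * B ^ 2 * ((c6 : ℝ) * A ^ c6 * εq)))
        = (3 * T * 20) * εR + (3 * T * 43740 * B ^ 2 * ((c6 : ℝ) * A ^ c6)) * (KR * εq) := by ring
      _ ≤ (c * A ^ c) * εR + (c * A ^ c) * (KR * εq) := by gcongr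
      _ = c * A ^ c * (εR + KR * εq) := by ring

theorem k6b_restore_R_of : k6b_jet_stmt → k6b_restore_R_stmt := fun _ => k6b_restore_R

end Claimed.Agent.R252
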