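import Claimed.Agent.R252.S6b.V2Defs

/-!
# Row252, unit S6b, part F, leaves W2, N1, N2      (helper250)
`k6b_root_near : k6b_root_near_stmt`, `k6b_Pnew_bounds : k6b_Pnew_bounds_stmt`, `k6b_time_ext : k6b_time_ext_stmt`.
-/

set_option autoImplicit false

namespace Claimed.Agent.R252

open MeasureTheory MvPolynomial
open scoped ENNReal BigOperators

noncomputable section

/-! ## W2 -/

theorem k6b_root_near : k6b_root_near_stmt := by
  intro Pst Φ u w y sg
  constructor
  · unfold k6b_disc k6b_QW.dw k6b_QW.dww k6b_QW.ev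
    simp only [map_sub, map_mul, map_pow, eval_C]
    ring
  · intro hsg hpos hD hy hdy
    set s := √(eval u (k6b_disc Pst Φ)) with hs
    have hs0 : 0 ≤ s := Real.sqrt_nonneg _
    have e1 : Pst.ev u w - eval u Φ = (w - y) * (Pst.dw u w + Pst.dw u y) / 2 := by
      rw [← hy]
      unfold k6b_QW.dw k6b_QW.ev
      ring
    have h2 : |Pst.dw u w| ≤ |Pst.dw u w + Pst.dw u y| := by
      rw [hdy]
      rcases hsg with h | h
      · rw [h] at hpos ⊢
        rw [one_mul] at hpos ⊢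
        rw [abs_of_pos hpos, abs_of_pos (by linarith)]
        linarith
      · rw [h] at hpos ⊢
        have hneg : Pst.dw u w < 0 := by linarith
        rw [abs_of_neg hneg, abs_of_neg (by linarith)]
        linarith
    rw [e1, abs_div, abs_mul, abs_two]
    have := mul_le_mul_of_nonneg_left h2 (abs_nonneg (w - y))
    linarith

/-! ## N1 -/

theorem k6b_pn_ev (Ps : k6b_QW) (Lp R2 L1 : MvPolynomial (Fin 3) ℝ) (lam0 a S w : ℝ) (u : Fin 3 → ℝ) :
    (k6b_Pnew Ps Lp R2 L1 lam0 a S).ev u w = Ps.ev u w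
      - a * (eval u R2 + (w - eval u Lp) * S⁻¹ * eval u L1 + lam0 * ((w - eval u Lp) * S⁻¹) ^ 2) := by
  unfold k6b_Pnew k6b_QW.ev
  simp only [map_sub, map_mul, map_add, map_pow, eval_C]
  ring

theorem k6b_pn_dw (Ps : k6b_QW) (Lp R2 L1 : MvPolynomial (Fin 3) ℝ) (lam0 a S w : ℝ) (u : Fin 3 → ℝ) :
    (k6b_Pnew Ps Lp R2 L1 lam0 a S).dw u w - Ps.dw u w
      = -(a * S⁻¹ * (eval u L1 + 2 * lam0 * ((w - eval u Lp) * S⁻¹))) := by
  unfold k6b_Pnew k6b_QW.dw
  simp only [map_sub, map_mul, eval_C]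
  ring

theorem k6b_pn_quad (Ps : k6b_QW) (Lp R2 L1 : MvPolynomial (Fin 3) ℝ) (lam0 a S : ℝ) (hPs : Ps.Quad) (hLp : Lp.totalDegree ≤ 1)
    (hR2 : R2.totalDegree ≤ 2) (hL1 : L1.totalDegree ≤ 1) : (k6b_Pnew Ps Lp R2 L1 lam0 a S).Quad := by
  have hC : ∀ (c : ℝ) (P : MvPolynomial (Fin 3) ℝ) (d : ℕ), P.totalDegree ≤ d → (C c * P).totalDegree ≤ d := by
    intro c P d h
    refine (totalDegree_mul _ _).trans ?_
    rw [totalDegree_C, zero_add]
    exact h
  constructor
  · show (Ps.c0 - C a * (R2 - C S⁻¹ * Lp * L1 + C (lam0 * S⁻¹ ^ 2) * Lp ^ 2)).totalDegree ≤ 2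
    refine (totalDegree_sub _ _).trans (max_le hPs.d0 (hC _ _ _ ?_))
    refine (totalDegree_add _ _).trans (max_le ?_ (hC _ _ _ ?_))
    · refine (totalDegree_sub _ _).trans (max_le hR2 ?_)
      rw [mul_assoc]
      refine hC _ _ _ ((totalDegree_mul _ _).trans ?_)
      omega
    · refine (totalDegree_pow _ _).trans ?_
      omega
  · show (Ps.c1 - C a * (C S⁻¹ * L1 - C (2 * lam0 * S⁻¹ ^ 2) * Lp)).totalDegree ≤ 1
    refine (totalDegree_sub _ _).trans (max_le hPs.d1 (hC _ _ _ ?_))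
    exact (totalDegree_sub _ _).trans (max_le (hC _ _ _ hL1) (hC _ _ _ hLp))

theorem k6b_Pnew_bounds : k6b_Pnew_bounds_stmt := by
  intro Ps Lp R2 L1 lam0 a S K A δw εH εR qv y w u hPs hLp hR2 hL1 ha hS hK hA hδ hεH hwy hdw hdww hlam hL1v hqv hH hR
  have hA0 : 0 ≤ A := le_trans zero_le_one hA
  set Hp : ℝ := (w - eval u Lp) * S⁻¹ with hHp
  set t : ℝ := εH + δw / S with ht
  have ht0 : 0 ≤ t := by positivity
  have hHq : |Hp - qv| ≤ t := by
    have e : Hp - qv = (w - y) / S + ((y - eval u Lp) / S - qv) := by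
      rw [hHp]; field_simp; ring
    rw [e]
    refine (abs_add_le _ _).trans ?_
    have h1 : |(w - y) / S| ≤ δw / S := by
      rw [abs_div, abs_of_pos hS]
      exact div_le_div_of_nonneg_right hwy hS.le
    rw [ht]; linarith
  have hHpA : |Hp| ≤ A + t := by
    have e : Hp = qv + (Hp - qv) := by ring
    rw [e]
    exact (abs_add_le _ _).trans (add_le_add hqv hHq)
  refine ⟨k6b_pn_quad Ps Lp R2 L1 lam0 a S hPs hLp hR2 hL1, ?_, ?_, ?_⟩
  · rw [k6b_pn_ev]
    set err : ℝ := Ps.ev u y / a - eval u R2 - qv * eval u L1 - lam0 * qv ^ 2 with herr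
    have e : Ps.ev u w - a * (eval u R2 + Hp * eval u L1 + lam0 * Hp ^ 2)
        = (Ps.ev u w - Ps.ev u y) + a * err + a * ((qv - Hp) * (eval u L1 + lam0 * (qv + Hp))) := by
      rw [herr]; field_simp; ring
    rw [e]
    have h1 : |Ps.ev u w - Ps.ev u y| ≤ K * δw + K / a * δw ^ 2 := by
      have e1 : Ps.ev u w - Ps.ev u y = Ps.dw u w * (w - y) - Ps.dww / 2 * (w - y) ^ 2 := by
        unfold k6b_QW.ev k6b_QW.dw k6b_QW.dww; ring
      rw [e1]
      refine (abs_sub _ _).trans ?_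
      have h2 : |Ps.dw u w * (w - y)| ≤ K * δw := by
        rw [abs_mul]; exact mul_le_mul hdw hwy (abs_nonneg _) hK
      have h3 : |Ps.dww / 2 * (w - y) ^ 2| ≤ K / a * δw ^ 2 := by
        rw [abs_mul, abs_div, abs_two, abs_pow]
        have h4 : |w - y| ^ 2 ≤ δw ^ 2 := pow_le_pow_left₀ (abs_nonneg _) hwy 2
        have h5 : |Ps.dww| / 2 ≤ K / a := by
          have : 0 ≤ |Ps.dww| := abs_nonneg _
          linarith
        exact mul_le_mul h5 h4 (by positivity) (by positivity)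
      linarith
    have h2 : |a * err| ≤ a * εR := by
      rw [abs_mul, abs_of_pos ha]; exact mul_le_mul_of_nonneg_left hR ha.le
    have h3 : |a * ((qv - Hp) * (eval u L1 + lam0 * (qv + Hp)))| ≤ a * A * t * (1 + 2 * A + t) := by
      rw [abs_mul, abs_of_pos ha, abs_mul]
      have h4 : |qv - Hp| ≤ t := by rw [abs_sub_comm]; exact hHq
      have h5 : |eval u L1 + lam0 * (qv + Hp)| ≤ A * (1 + 2 * A + t) := by
        refine (abs_add_le _ _).trans ?_
        have h6 : |lam0 * (qv + Hp)| ≤ A * (2 * A + t) := by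
          rw [abs_mul]
          refine mul_le_mul hlam ?_ (abs_nonneg _) hA0
          refine (abs_add_le _ _).trans ?_
          linarith
        linarith
      have h7 := mul_le_mul h4 h5 (abs_nonneg _) ht0
      calc a * (|qv - Hp| * |eval u L1 + lam0 * (qv + Hp)|) ≤ a * (t * (A * (1 + 2 * A + t))) :=
            mul_le_mul_of_nonneg_left h7 ha.le
        _ = a * A * t * (1 + 2 * A + t) := by ring
    refine (abs_add_le _ _).trans ?_
    refine (add_le_add (abs_add_le _ _) le_rfl).trans ?_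
    linarith
  · rw [k6b_pn_dw, abs_neg, abs_mul, abs_mul, abs_of_pos ha, abs_of_pos (inv_pos.2 hS), ← div_eq_mul_inv]
    refine mul_le_mul_of_nonneg_left ?_ (by positivity)
    refine (abs_add_le _ _).trans ?_
    have h6 : |2 * lam0 * Hp| ≤ 2 * A * (A + t) := by
      rw [abs_mul, abs_mul, abs_two]
      exact mul_le_mul (by linarith) hHpA (abs_nonneg _) (by positivity)
    have : A + εH + δw / S = A + t := by rw [ht]; ring
    rw [this]
    linarith
  · have e : (k6b_Pnew Ps Lp R2 L1 lam0 a S).dww = Ps.dww - 2 * a * lam0 / S ^ 2 := by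
      unfold k6b_Pnew k6b_QW.dww
      simp only
      field_simp
    rw [e]
    refine (abs_sub _ _).trans ?_
    have h1 : |2 * a * lam0 / S ^ 2| ≤ 2 * a * A / S ^ 2 := by
      rw [abs_div, abs_mul, abs_mul, abs_two, abs_of_pos ha, abs_of_pos (by positivity : (0 : ℝ) < S ^ 2)]
      refine div_le_div_of_nonneg_right ?_ (by positivity)
      exact mul_le_mul_of_nonneg_left hlam (by positivity)
    linarith

/-! ## N2 -/

theorem k6b_te_one (p : Polynomial ℝ) (hp : p.natDegree ≤ 2) (θ M : ℝ) (hθ : 0 < θ) (hθ1 : θ ≤ 1) (W : Set ℝ)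
    (hW : W ⊆ Set.Icc (0 : ℝ) 1) (hvol : ENNReal.ofReal θ ≤ volume W) (hM : ∀ τ ∈ W, |p.eval τ| ≤ M) (τ : ℝ)
    (hτ : τ ∈ Set.Icc (0 : ℝ) 1) : |p.eval τ| ≤ ((432 : ℕ) : ℝ) * (1 / θ) ^ 432 * M := by
  have h1 := rmz_one 2 p hp θ M hθ W hW hvol hM
  have h2 := rmz_eval_le p 2 hp 1 τ le_rfl (by rw [abs_of_nonneg hτ.1]; exact hτ.2)
  rw [one_pow, mul_one] at h2
  have hne : W.Nonempty := by
    by_contra hcon
    rw [Set.not_nonempty_iff_eq_empty] at hcon
    rw [hcon, measure_empty, nonpos_iff_eq_zero, ENNReal.ofReal_eq_zero] at hvol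
    linarith
  obtain ⟨τ0, hτ0⟩ := hne
  have hM0 : 0 ≤ M := le_trans (abs_nonneg _) (hM τ0 hτ0)
  have h3 : rmzC 2 θ ≤ ((432 : ℕ) : ℝ) * (1 / θ) ^ 432 := by
    unfold rmzC
    have h4 : (1 : ℝ) ≤ 1 / θ := by rw [le_div_iff₀ hθ]; linarith
    have h5 : (1 / θ) ^ 2 ≤ (1 / θ) ^ 432 := pow_le_pow_right₀ h4 (by norm_num)
    have e : (((2 : ℕ) : ℝ) + 1) * (4 * (((2 : ℕ) : ℝ) + 1) / θ) ^ 2 = 432 * (1 / θ) ^ 2 := by
      push_cast; field_simp; norm_num
    rw [e]
    push_cast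
    linarith
  exact h2.trans (h1.trans (mul_le_mul_of_nonneg_right h3 hM0))

theorem k6b_time_ext : k6b_time_ext_stmt := by
  refine ⟨432, ?_⟩
  intro Q u0 v w0 w1 θ M M' W hQ hθ hθ1 hW hvol hM hM' τ hτ
  obtain ⟨p0, hp0, he0⟩ := rmz_line 3 Q.c0 u0 v
  obtain ⟨p1, hp1, he1⟩ := rmz_line 3 Q.c1 u0 v
  have hline : ∀ t : ℝ, u0 + t • v = fun i => u0 i + t * v i := fun t => rfl
  set lw : Polynomial ℝ := Polynomial.C w0 + Polynomial.X * Polynomial.C w1 with hlw
  have hlwd : lw.natDegree ≤ 1 := by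
    refine (Polynomial.natDegree_add_le _ _).trans (max_le (by simp) ?_)
    exact (Polynomial.natDegree_mul_C_le _ _).trans Polynomial.natDegree_X_le
  have hlwe : ∀ t, lw.eval t = w0 + t * w1 := by
    intro t
    rw [hlw, Polynomial.eval_add, Polynomial.eval_C, Polynomial.eval_mul, Polynomial.eval_X, Polynomial.eval_C]
  have hp0' : p0.natDegree ≤ 2 := hp0.trans hQ.d0
  have hp1' : p1.natDegree ≤ 1 := hp1.trans hQ.d1
  constructor
  · set p : Polynomial ℝ := p0 + p1 * lw + Polynomial.C Q.c2 * lw ^ 2 with hp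
    have hpd : p.natDegree ≤ 2 := by
      refine (Polynomial.natDegree_add_le _ _).trans (max_le ((Polynomial.natDegree_add_le _ _).trans (max_le hp0' ?_)) ?_)
      · refine Polynomial.natDegree_mul_le.trans ?_
        omega
      · refine (Polynomial.natDegree_C_mul_le _ _).trans ((Polynomial.natDegree_pow_le).trans ?_)
        omega
    have hpe : ∀ t, Q.ev (u0 + t • v) (w0 + t * w1) = p.eval t := by
      intro t
      unfold k6b_QW.ev
      rw [hline, he0, he1, hp]
      simp [hlwe]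
    rw [hpe]
    exact k6b_te_one p hpd θ M hθ hθ1 W hW hvol (fun t ht => by rw [← hpe]; exact hM t ht) τ hτ
  · set p : Polynomial ℝ := p1 + Polynomial.C (2 * Q.c2) * lw with hp
    have hpd : p.natDegree ≤ 2 := by
      refine (Polynomial.natDegree_add_le _ _).trans (max_le (hp1'.trans (by norm_num)) ?_)
      exact (Polynomial.natDegree_C_mul_le _ _).trans (hlwd.trans (by norm_num))
    have hpe : ∀ t, Q.dw (u0 + t • v) (w0 + t * w1) = p.eval t := by
      intro t
      unfold k6b_QW.dw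
      rw [hline, he1, hp]
      simp [hlwe]
    rw [hpe]
    exact k6b_te_one p hpd θ M' hθ hθ1 W hW hvol (fun t ht => by rw [← hpe]; exact hM' t ht) τ hτ

end

end Claimed.Agent.R252
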