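import Claimed.Agent.R252.S6b.SwitchDefs

/-!
# Row252, unit S6b, part C, leaf C3: the simulation error along an admissible path      (helper32; prefix `k6b_sim_`)

`theorem k6b_simulate : k6b_simulate_stmt`.   Deterministic induction on the switches.   PAPER-FREE.
* Lipschitz bound of a polynomial from its coefficient norm (`k6b_sim_eval_lip`), bounds of `F(u,w) = T(u)·w`;
* one leg (`k6b_sim_leg`): `∫_{τ◇}^{τ} F(pos σ, V) dσ` against `∫_0^{τ - t} F(b + s v, v) ds`;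
* the induction (`k6b_sim_ind`), the constants (`k6b_sim_const`).
-/

set_option autoImplicit false

namespace Claimed.Agent.R252

open MeasureTheory MvPolynomial
open scoped ENNReal BigOperators

noncomputable section

/-! ## 1. Polynomials -/

/-- products of nearby bounded factors -/
theorem k6b_sim_prod_sub {ι : Type} (s : Finset ι) (f g : ι → ℝ) (B ε : ℝ) (hB : 1 ≤ B) (hε : 0 ≤ ε)
    (hf : ∀ i ∈ s, |f i| ≤ B) (hg : ∀ i ∈ s, |g i| ≤ B) (hfg : ∀ i ∈ s, |f i - g i| ≤ ε) :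
    |∏ i ∈ s, f i - ∏ i ∈ s, g i| ≤ s.card * B ^ s.card * ε := by
  classical
  induction s using Finset.induction_on with
  | empty => simp
  | insert a s ha ih =>
    rw [Finset.prod_insert ha, Finset.prod_insert ha, Finset.card_insert_of_notMem ha]
    have h1 := ih (fun i hi => hf i (Finset.mem_insert_of_mem hi)) (fun i hi => hg i (Finset.mem_insert_of_mem hi))
      (fun i hi => hfg i (Finset.mem_insert_of_mem hi))
    have h2 : |∏ i ∈ s, g i| ≤ B ^ s.card := by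
      rw [Finset.abs_prod]
      calc ∏ i ∈ s, |g i| ≤ ∏ _i ∈ s, B :=
            Finset.prod_le_prod (fun i _ => abs_nonneg _) (fun i hi => hg i (Finset.mem_insert_of_mem hi))
        _ = B ^ s.card := by rw [Finset.prod_const]
    have e : f a * ∏ i ∈ s, f i - g a * ∏ i ∈ s, g i
        = f a * (∏ i ∈ s, f i - ∏ i ∈ s, g i) + (f a - g a) * ∏ i ∈ s, g i := by ring
    have hB0 : 0 ≤ B := by linarith
    have hBk : 0 ≤ B ^ s.card := pow_nonneg hB0 _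
    rw [e]
    calc |f a * (∏ i ∈ s, f i - ∏ i ∈ s, g i) + (f a - g a) * ∏ i ∈ s, g i|
        ≤ |f a| * |∏ i ∈ s, f i - ∏ i ∈ s, g i| + |f a - g a| * |∏ i ∈ s, g i| := by
          rw [← abs_mul, ← abs_mul]
          exact abs_add_le _ _
      _ ≤ B * (s.card * B ^ s.card * ε) + ε * B ^ s.card :=
          add_le_add (mul_le_mul (hf a (Finset.mem_insert_self a s)) h1 (abs_nonneg _) hB0)
            (mul_le_mul (hfg a (Finset.mem_insert_self a s)) h2 (abs_nonneg _) hε)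
      _ ≤ ((s.card + 1 : ℕ) : ℝ) * B ^ (s.card + 1) * ε := by
          have h3 : ε * B ^ s.card ≤ ε * (B ^ s.card * B) :=
            mul_le_mul_of_nonneg_left (le_mul_of_one_le_right hBk hB) hε
          push_cast
          rw [pow_succ]
          nlinarith

theorem k6b_sim_pow_sub (a : ℕ) (p q L : ℝ) (hL : 1 ≤ L) (hp : |p| ≤ L) (hq : |q| ≤ L) :
    |p ^ a - q ^ a| ≤ a * L ^ a * |p - q| := by
  have h := k6b_sim_prod_sub (Finset.range a) (fun _ => p) (fun _ => q) L |p - q| hL (abs_nonneg _)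
    (fun _ _ => hp) (fun _ _ => hq) (fun _ _ => le_rfl)
  simpa [Finset.prod_const, Finset.card_range] using h

/-- Lipschitz bound of a polynomial on a box, from the coefficient norm -/
theorem k6b_sim_eval_lip (n d : ℕ) (P : MvPolynomial (Fin n) ℝ) (hP : ∀ i, P.degreeOf i ≤ d) (L η : ℝ) (hL : 1 ≤ L)
    (x y : Fin n → ℝ) (hx : ∀ i, |x i| ≤ L) (hy : ∀ i, |y i| ≤ L) (hxy : ∀ i, |x i - y i| ≤ η) (hη : 0 ≤ η) :
    |eval x P - eval y P| ≤ rmzNm P * (n * (L ^ d) ^ n * (d * L ^ d * η)) := by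
  rw [MvPolynomial.eval_eq', MvPolynomial.eval_eq', ← Finset.sum_sub_distrib]
  unfold rmzNm
  rw [Finset.sum_mul]
  refine (Finset.abs_sum_le_sum_abs _ _).trans (Finset.sum_le_sum fun a ha => ?_)
  rw [← mul_sub, abs_mul]
  refine mul_le_mul_of_nonneg_left ?_ (abs_nonneg _)
  have hL0 : 0 ≤ L := by linarith
  have had : ∀ i, a i ≤ d := fun i => (MvPolynomial.monomial_le_degreeOf i ha).trans (hP i)
  have hpow : ∀ (z : ℝ) (i : Fin n), |z| ≤ L → |z ^ a i| ≤ L ^ d := by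
    intro z i hz
    rw [abs_pow]
    exact (pow_le_pow_left₀ (abs_nonneg _) hz _).trans (pow_le_pow_right₀ hL (had i))
  have h := k6b_sim_prod_sub (Finset.univ : Finset (Fin n)) (fun i => x i ^ a i) (fun i => y i ^ a i) (L ^ d)
    (d * L ^ d * η) (one_le_pow₀ hL) (by positivity) (fun i _ => hpow _ i (hx i)) (fun i _ => hpow _ i (hy i))
    (fun i _ => by
      refine (k6b_sim_pow_sub (a i) (x i) (y i) L hL (hx i) (hy i)).trans ?_
      have h1 : ((a i : ℕ) : ℝ) ≤ d := by exact_mod_cast had i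
      have h2 : L ^ a i ≤ L ^ d := pow_le_pow_right₀ hL (had i)
      exact mul_le_mul (mul_le_mul h1 h2 (pow_nonneg hL0 _) (Nat.cast_nonneg _)) (hxy i) (abs_nonneg _)
        (by positivity))
  simpa [Finset.card_univ, Fintype.card_fin] using h

/-- a dot product against a bounded vector -/
theorem k6b_sim_dot_le {m : ℕ} (a w : Fin m → ℝ) (A : ℝ) (ha : ∀ i, |a i| ≤ A) : |a ⬝ᵥ w| ≤ m * A * ‖w‖ := by
  unfold dotProduct
  refine (Finset.abs_sum_le_sum_abs _ _).trans ?_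
  calc ∑ i, |a i * w i| ≤ ∑ _i : Fin m, A * ‖w‖ := by
        refine Finset.sum_le_sum fun i _ => ?_
        rw [abs_mul]
        have h1 : |w i| ≤ ‖w‖ := by
          rw [← Real.norm_eq_abs]
          exact norm_le_pi_norm w i
        exact mul_le_mul (ha i) h1 (abs_nonneg _) ((abs_nonneg _).trans (ha i))
    _ = m * A * ‖w‖ := by
        rw [Finset.sum_const, Finset.card_univ, Fintype.card_fin, nsmul_eq_mul]
        ring

theorem k6b_sim_abs_le_norm {m : ℕ} (u : Fin m → ℝ) (i : Fin m) : |u i| ≤ ‖u‖ := by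
  rw [← Real.norm_eq_abs]
  exact norm_le_pi_norm u i

section field

variable {m : ℕ} (T : Fin m → MvPolynomial (Fin m) ℝ)

theorem k6b_sim_F_bd (D : ℕ) (K L : ℝ) (hL : 1 ≤ L) (hdeg : ∀ i, (T i).totalDegree ≤ D) (hnm : ∀ i, rmzNm (T i) ≤ K)
    (u w : Fin m → ℝ) (hu : ‖u‖ ≤ L) : |k6b_fld T u ⬝ᵥ w| ≤ m * (K * L ^ (m * D)) * ‖w‖ := by
  refine k6b_sim_dot_le _ w _ fun i => ?_
  refine (rmz_mv_eval_le m D (T i) (fun j => rmz_degreeOf_le _ _ (hdeg i) j) L hL u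
    (fun j => (k6b_sim_abs_le_norm u j).trans hu)).trans ?_
  exact mul_le_mul_of_nonneg_right (hnm i) (by positivity)

theorem k6b_sim_F_lip (D : ℕ) (K L : ℝ) (hL : 1 ≤ L) (hdeg : ∀ i, (T i).totalDegree ≤ D) (hnm : ∀ i, rmzNm (T i) ≤ K)
    (u u' w : Fin m → ℝ) (hu : ‖u‖ ≤ L) (hu' : ‖u'‖ ≤ L) :
    |k6b_fld T u ⬝ᵥ w - k6b_fld T u' ⬝ᵥ w| ≤ m * (K * (m * (L ^ D) ^ m * (D * L ^ D))) * ‖u - u'‖ * ‖w‖ := by
  rw [← sub_dotProduct]
  have h := k6b_sim_dot_le (k6b_fld T u - k6b_fld T u') w (K * (m * (L ^ D) ^ m * (D * L ^ D * ‖u - u'‖))) fun i => by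
    refine (k6b_sim_eval_lip m D (T i) (fun j => rmz_degreeOf_le _ _ (hdeg i) j) L ‖u - u'‖ hL u u'
      (fun j => (k6b_sim_abs_le_norm u j).trans hu) (fun j => (k6b_sim_abs_le_norm u' j).trans hu')
      (fun j => k6b_sim_abs_le_norm (u - u') j) (norm_nonneg _)).trans ?_
    exact mul_le_mul_of_nonneg_right (hnm i) (by positivity)
  refine h.trans (le_of_eq ?_)
  ring

theorem k6b_sim_F_cont (b v w : Fin m → ℝ) : Continuous fun s : ℝ => k6b_fld T (b + s • v) ⬝ᵥ w := by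
  unfold dotProduct k6b_fld
  refine continuous_finsetSum _ fun i _ => ?_
  exact ((MvPolynomial.continuous_eval (T i)).comp (by fun_prop)).mul continuous_const

end field

/-! ## 2. One leg -/

theorem k6b_sim_leg {m : ℕ} (T : Fin m → MvPolynomial (Fin m) ℝ) (M Lp L K β pv e : ℝ)
    (hM : 0 ≤ M) (hLp : 0 ≤ Lp) (he0 : 0 ≤ e)
    (hFb : ∀ u w : Fin m → ℝ, ‖u‖ ≤ L → |k6b_fld T u ⬝ᵥ w| ≤ M * ‖w‖)
    (hFl : ∀ u u' w : Fin m → ℝ, ‖u‖ ≤ L → ‖u'‖ ≤ L →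
      |k6b_fld T u ⬝ᵥ w - k6b_fld T u' ⬝ᵥ w| ≤ Lp * ‖u - u'‖ * ‖w‖)
    (U V v b : Fin m → ℝ) (t τd τ : ℝ) (ht : t ∈ Set.Icc (0 : ℝ) 1) (hτd : τd ∈ Set.Icc (0 : ℝ) 1)
    (hτ : τ ∈ Set.Icc (0 : ℝ) 1) (hbox : ∀ σ ∈ Set.Icc (0 : ℝ) 1, ‖U + σ • V‖ ≤ K) (hV : ‖V‖ ≤ K)
    (hVv : ‖V - v‖ ≤ pv) (htd : |τd - t| ≤ β)
    (he : ∀ s : ℝ, |s| ≤ 1 → ‖(U + (t + s) • V) - (b + s • v)‖ ≤ e) (hq : K + e ≤ L) :
    |(∫ σ in τd..τ, k6b_fld T (U + σ • V) ⬝ᵥ V) - ∫ s in (0 : ℝ)..(τ - t), k6b_fld T (b + s • v) ⬝ᵥ v|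
      ≤ β * (M * K) + (Lp * e * K + M * pv) := by
  have hc1 : Continuous fun σ : ℝ => k6b_fld T (U + σ • V) ⬝ᵥ V := k6b_sim_F_cont T U V V
  have hc2 : Continuous fun s : ℝ => k6b_fld T (b + s • v) ⬝ᵥ v := k6b_sim_F_cont T b v v
  have hc3 : Continuous fun s : ℝ => k6b_fld T (U + (t + s) • V) ⬝ᵥ V :=
    hc1.comp (continuous_const.add continuous_id)
  have hK0 : 0 ≤ K := (norm_nonneg _).trans hV
  have hKL : K ≤ L := by linarith
  have hsplit : ∫ σ in τd..τ, k6b_fld T (U + σ • V) ⬝ᵥ V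
      = (∫ σ in τd..t, k6b_fld T (U + σ • V) ⬝ᵥ V) + ∫ σ in t..τ, k6b_fld T (U + σ • V) ⬝ᵥ V :=
    (intervalIntegral.integral_add_adjacent_intervals (hc1.intervalIntegrable _ _)
      (hc1.intervalIntegrable _ _)).symm
  have hshift : ∫ σ in t..τ, k6b_fld T (U + σ • V) ⬝ᵥ V
      = ∫ s in (0 : ℝ)..(τ - t), k6b_fld T (U + (t + s) • V) ⬝ᵥ V := by
    rw [intervalIntegral.integral_comp_add_left (fun σ => k6b_fld T (U + σ • V) ⬝ᵥ V) t]
    simp
  rw [hsplit, hshift, add_sub_assoc,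
    ← intervalIntegral.integral_sub (hc3.intervalIntegrable _ _) (hc2.intervalIntegrable _ _)]
  refine (abs_add_le _ _).trans (add_le_add ?_ ?_)
  · have h := intervalIntegral.norm_integral_le_of_norm_le_const (a := τd) (b := t) (C := M * K)
      (f := fun σ : ℝ => k6b_fld T (U + σ • V) ⬝ᵥ V) (fun σ hσ => by
        have h1 : σ ∈ Set.Icc (0 : ℝ) 1 := Set.uIcc_subset_Icc hτd ht (Set.uIoc_subset_uIcc hσ)
        rw [Real.norm_eq_abs]
        exact (hFb _ V ((hbox σ h1).trans hKL)).trans (mul_le_mul_of_nonneg_left hV hM))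
    rw [Real.norm_eq_abs] at h
    refine h.trans ?_
    rw [mul_comm, abs_sub_comm]
    exact mul_le_mul_of_nonneg_right htd (mul_nonneg hM hK0)
  · have h := intervalIntegral.norm_integral_le_of_norm_le_const (a := 0) (b := τ - t) (C := Lp * e * K + M * pv)
      (f := fun s : ℝ => k6b_fld T (U + (t + s) • V) ⬝ᵥ V - k6b_fld T (b + s • v) ⬝ᵥ v) (fun s hs => by
        rw [Set.mem_uIoc] at hs
        have h1 : t + s ∈ Set.Icc (0 : ℝ) 1 := by
          rcases hs with hs | hs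
          · exact ⟨by linarith [ht.1, hs.1], by linarith [hτ.2, hs.2]⟩
          · exact ⟨by linarith [hτ.1, hs.1], by linarith [ht.2, hs.2]⟩
        have h2 : |s| ≤ 1 := by
          rw [abs_le]
          rcases hs with hs | hs
          · exact ⟨by linarith [hs.1], by linarith [hτ.2, ht.1, hs.2]⟩
          · exact ⟨by linarith [hτ.1, ht.2, hs.1], by linarith [hs.2]⟩
        have hp : ‖U + (t + s) • V‖ ≤ K := hbox _ h1
        have hpq := he s h2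
        have hqn : ‖b + s • v‖ ≤ L := by
          have e1 : b + s • v = (U + (t + s) • V) - ((U + (t + s) • V) - (b + s • v)) := by abel
          rw [e1]
          exact (norm_sub_le _ _).trans (by linarith)
        have e2 : k6b_fld T (U + (t + s) • V) ⬝ᵥ V - k6b_fld T (b + s • v) ⬝ᵥ v
            = (k6b_fld T (U + (t + s) • V) ⬝ᵥ V - k6b_fld T (b + s • v) ⬝ᵥ V)
              + k6b_fld T (b + s • v) ⬝ᵥ (V - v) := by
          rw [dotProduct_sub]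
          ring
        rw [Real.norm_eq_abs, e2]
        refine (abs_add_le _ _).trans (add_le_add ?_ ?_)
        · refine (hFl _ _ V (hp.trans hKL) hqn).trans ?_
          exact mul_le_mul (mul_le_mul_of_nonneg_left hpq hLp) hV (norm_nonneg _) (mul_nonneg hLp he0)
        · exact (hFb _ _ hqn).trans (mul_le_mul_of_nonneg_left hVv hM))
    rw [Real.norm_eq_abs] at h
    refine h.trans ?_
    have h3 : |τ - t - 0| ≤ 1 := by
      rw [sub_zero, abs_le]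
      exact ⟨by linarith [hτ.1, ht.2], by linarith [hτ.2, ht.1]⟩
    have h4 : 0 ≤ Lp * e * K + M * pv :=
      add_nonneg (mul_nonneg (mul_nonneg hLp he0) hK0) (mul_nonneg hM ((norm_nonneg _).trans hVv))
    calc (Lp * e * K + M * pv) * |τ - t - 0| ≤ (Lp * e * K + M * pv) * 1 := mul_le_mul_of_nonneg_left h3 h4
      _ = Lp * e * K + M * pv := mul_one _

/-! ## 3. Partial sums, events -/

theorem k6b_sim_psum_succ {n : ℕ} {E : Type} [AddCommMonoid E] (f : Fin n → E) (i : ℕ) (hi : i < n) :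
    (∑ k : Fin n, if (k : ℕ) < i + 1 then f k else 0) = (∑ k : Fin n, if (k : ℕ) < i then f k else 0) + f ⟨i, hi⟩ := by
  have h : ∀ k : Fin n, (if (k : ℕ) < i + 1 then f k else 0)
      = (if (k : ℕ) < i then f k else 0) + (if k = ⟨i, hi⟩ then f k else 0) := by
    intro k
    by_cases h1 : (k : ℕ) < i
    · have h2 : k ≠ ⟨i, hi⟩ := by
        intro h3
        rw [h3] at h1
        exact lt_irrefl _ h1
      rw [if_pos h1, if_pos (Nat.lt_succ_of_lt h1), if_neg h2, add_zero]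
    · by_cases h2 : k = ⟨i, hi⟩
      · rw [if_neg h1, if_pos h2, zero_add, if_pos]
        rw [h2]
        exact Nat.lt_succ_self i
      · have h3 : ¬ (k : ℕ) < i + 1 := by
          intro h4
          exact h2 (Fin.ext (le_antisymm (Nat.lt_succ_iff.1 h4) (not_lt.1 h1)))
        rw [if_neg h1, if_neg h2, if_neg h3, add_zero]
  rw [Finset.sum_congr rfl fun k _ => h k, Finset.sum_add_distrib, Finset.sum_ite_eq' Finset.univ (⟨i, hi⟩ : Fin n) f,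
    if_pos (Finset.mem_univ _)]

theorem k6b_sim_psum_full {n : ℕ} {E : Type} [AddCommMonoid E] (f : Fin n → E) :
    (∑ k : Fin n, if (k : ℕ) < n then f k else 0) = ∑ k, f k :=
  Finset.sum_congr rfl fun k _ => if_pos k.2

theorem k6b_sim_psum_zero {n : ℕ} {E : Type} [AddCommMonoid E] (f : Fin n → E) :
    (∑ k : Fin n, if (k : ℕ) < 0 then f k else 0) = 0 :=
  Finset.sum_eq_zero fun _ _ => if_neg (Nat.not_lt_zero _)

theorem k6b_sim_base_zero {m n : ℕ} (u0 : Fin m → ℝ) (v : Fin n → Fin m → ℝ) (δ : Fin n → ℝ) :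
    k6b_base u0 v δ 0 = u0 := by
  unfold k6b_base
  rw [k6b_sim_psum_zero (fun k => δ k • v k), add_zero]

theorem k6b_sim_base_succ {m n : ℕ} (u0 : Fin m → ℝ) (v : Fin n → Fin m → ℝ) (δ : Fin n → ℝ) (i : ℕ) (hi : i < n) :
    k6b_base u0 v δ (i + 1) = k6b_base u0 v δ i + δ ⟨i, hi⟩ • v ⟨i, hi⟩ := by
  unfold k6b_base
  rw [k6b_sim_psum_succ (fun k => δ k • v k) i hi, add_assoc]

theorem k6b_sim_evt_zero {m n : ℕ} (Y : k6b_Sw m) (e0 : Y.Lam × ℝ) (π : Fin n → Y.Lam × ℝ × ℝ) :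
    Y.evt e0 π 0 = e0 := by
  unfold k6b_Sw.evt
  rw [dif_neg]
  exact fun h => lt_irrefl _ h.1

theorem k6b_sim_evt_succ {m n : ℕ} (Y : k6b_Sw m) (e0 : Y.Lam × ℝ) (π : Fin n → Y.Lam × ℝ × ℝ) (i : ℕ) (hi : i < n) :
    Y.evt e0 π (i + 1) = ((π ⟨i, hi⟩).1, (π ⟨i, hi⟩).2.2) := by
  unfold k6b_Sw.evt
  rw [dif_pos ⟨Nat.succ_pos i, hi⟩]
  rfl

theorem k6b_sim_evt_sup {m n : ℕ} (Y : k6b_Sw m) (e0 : Y.Lam × ℝ) (π : Fin n → Y.Lam × ℝ × ℝ) (hA : Y.Adm e0 π)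
    (i : ℕ) (hi : i ≤ n) : Y.evt e0 π i ∈ Y.sup := by
  cases i with
  | zero =>
    rw [k6b_sim_evt_zero]
    exact hA.start
  | succ j =>
    rw [k6b_sim_evt_succ Y e0 π j hi]
    exact hA.en _

/-! ## 4. The induction -/

theorem k6b_sim_ind {m n : ℕ} (Y : k6b_Sw m) (T : Fin m → MvPolynomial (Fin m) ℝ) (M Lp L K β pv εT : ℝ)
    (hK : 1 ≤ K) (hβ0 : 0 ≤ β) (hpv0 : 0 ≤ pv) (hM : 0 ≤ M) (hLp : 0 ≤ Lp)
    (hFb : ∀ u w : Fin m → ℝ, ‖u‖ ≤ L → |k6b_fld T u ⬝ᵥ w| ≤ M * ‖w‖)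
    (hFl : ∀ u u' w : Fin m → ℝ, ‖u‖ ≤ L → ‖u'‖ ≤ L →
      |k6b_fld T u ⬝ᵥ w - k6b_fld T u' ⬝ᵥ w| ≤ Lp * ‖u - u'‖ * ‖w‖)
    (hG : Y.Geo T K β pv εT) (hL : K + ((n : ℝ) + 1) * (2 * K * (β + pv)) ≤ L)
    (e0 : Y.Lam × ℝ) (π : Fin n → Y.Lam × ℝ × ℝ) (hA : Y.Adm e0 π)
    (v : Fin n → Fin m → ℝ) (hv : v = fun i => Y.cen (Y.bin (π i).1))
    (δ : Fin n → ℝ) (hδ : δ = fun i => (π i).2.2 - (Y.evt e0 π i).2)
    (leg : Fin n → ℝ)
    (hleg : leg = fun i : Fin n => ∫ s in (0 : ℝ)..(δ i), k6b_fld T (k6b_base (Y.pos e0) v δ i + s • v i) ⬝ᵥ v i) :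
    ∀ i : ℕ, i ≤ n →
      ‖Y.pos (Y.evt e0 π i) - k6b_base (Y.pos e0) v δ i‖ ≤ i * (2 * K * (β + pv)) ∧
      |Y.x (Y.evt e0 π i) - (Y.x e0 + ∑ k : Fin n, if (k : ℕ) < i then leg k else 0)|
        ≤ i * (εT + β + (β * (M * K) + (Lp * (((n : ℝ) + 1) * (2 * K * (β + pv))) * K + M * pv))) := by
  obtain ⟨A, hAd⟩ : ∃ A : ℝ, A = 2 * K * (β + pv) := ⟨_, rfl⟩
  rw [← hAd] at hL ⊢
  have hA0 : 0 ≤ A := by rw [hAd]; positivity
  have hA1 : (1 + K) * β + pv ≤ A := by rw [hAd]; nlinarith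
  intro i
  induction i with
  | zero =>
    intro _
    rw [k6b_sim_evt_zero, k6b_sim_base_zero, k6b_sim_psum_zero]
    simp
  | succ i ih =>
    intro hi
    have hi' : i < n := hi
    obtain ⟨ih1, ih2⟩ := ih hi'.le
    obtain ⟨k, hk⟩ : ∃ k : Fin n, k = ⟨i, hi'⟩ := ⟨_, rfl⟩
    have hki : (k : ℕ) = i := by rw [hk]
    have hS := (hA.sw k).1
    have hst := (hA.sw k).2
    rw [hki] at hst
    have hE := k6b_sim_evt_sup Y e0 π hA i hi'.le
    have hE' := hA.en k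
    obtain ⟨c1, c2, c3⟩ := hG.close _ hS _ hE hst
    obtain ⟨E, hEd⟩ : ∃ E, E = Y.evt e0 π i := ⟨_, rfl⟩
    rw [← hEd] at ih1 ih2 hE c1 c2 c3
    obtain ⟨b, hb⟩ : ∃ b, b = k6b_base (Y.pos e0) v δ i := ⟨_, rfl⟩
    rw [← hb] at ih1
    have hδk : δ k = (π k).2.2 - E.2 := by rw [hδ, hEd, ← hki]
    have hvk : v k = Y.cen (Y.bin (π k).1) := by rw [hv]
    have hlegk : leg k = ∫ s in (0 : ℝ)..((π k).2.2 - E.2), k6b_fld T (b + s • v k) ⬝ᵥ v k := by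
      rw [hleg, hb]
      show ∫ s in (0 : ℝ)..(δ k), k6b_fld T (k6b_base (Y.pos e0) v δ k + s • v k) ⬝ᵥ v k = _
      rw [hδk, hki]
    obtain ⟨U, hU⟩ : ∃ U, U = Y.u0 (π k).1 := ⟨_, rfl⟩
    obtain ⟨V, hV⟩ : ∃ V, V = Y.vel (π k).1 := ⟨_, rfl⟩
    have hpos : ∀ σ : ℝ, Y.pos ((π k).1, σ) = U + σ • V := fun σ => by rw [hU, hV]; rfl
    have hVK : ‖V‖ ≤ K := by rw [hV]; exact hG.velb _
    have hVv : ‖V - v k‖ ≤ pv := by rw [hV, hvk]; exact hG.bins _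
    rw [hpos] at c1
    have c3' : |(π k).2.1 - E.2| ≤ β := c3
    have hiA : (i : ℝ) * A + A ≤ ((n : ℝ) + 1) * A := by
      have : (i : ℝ) ≤ n := by exact_mod_cast hi'.le
      nlinarith
    have he : ∀ s : ℝ, |s| ≤ 1 → ‖(U + (E.2 + s) • V) - (b + s • v k)‖ ≤ i * A + A := by
      intro s hs
      have e1 : (U + (E.2 + s) • V) - (b + s • v k)
          = (U + (π k).2.1 • V - Y.pos E) + (Y.pos E - b) + (E.2 - (π k).2.1) • V + s • (V - v k) := by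
        module
      rw [e1]
      have n1 : ‖(E.2 - (π k).2.1) • V‖ ≤ β * K := by
        rw [norm_smul, Real.norm_eq_abs, abs_sub_comm]
        exact mul_le_mul c3' hVK (norm_nonneg _) hβ0
      have n2 : ‖s • (V - v k)‖ ≤ pv := by
        rw [norm_smul, Real.norm_eq_abs]
        calc |s| * ‖V - v k‖ ≤ 1 * pv := mul_le_mul hs hVv (norm_nonneg _) zero_le_one
          _ = pv := one_mul _
      have n3 := norm_add_le ((U + (π k).2.1 • V - Y.pos E) + (Y.pos E - b) + (E.2 - (π k).2.1) • V) (s • (V - v k))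
      have n4 := norm_add_le ((U + (π k).2.1 • V - Y.pos E) + (Y.pos E - b)) ((E.2 - (π k).2.1) • V)
      have n5 := norm_add_le (U + (π k).2.1 • V - Y.pos E) (Y.pos E - b)
      linarith
    have hτ1 : (π k).2.2 ∈ Set.Icc (0 : ℝ) 1 := hE'.2
    have hτd1 : (π k).2.1 ∈ Set.Icc (0 : ℝ) 1 := hS.2
    have ht1 : E.2 ∈ Set.Icc (0 : ℝ) 1 := hE.2
    have hs1 : |(π k).2.2 - E.2| ≤ 1 := by
      rw [abs_le]
      exact ⟨by linarith [hτ1.1, ht1.2], by linarith [hτ1.2, ht1.1]⟩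
    rw [k6b_sim_evt_succ Y e0 π i hi', k6b_sim_base_succ _ _ _ i hi', k6b_sim_psum_succ leg i hi', ← hk, ← hb]
    constructor
    · rw [hpos, hδk]
      have h1 := he _ hs1
      have e2 : E.2 + ((π k).2.2 - E.2) = (π k).2.2 := by ring
      rw [e2] at h1
      push_cast
      linarith
    · have hfit := hG.fit (π k).1 (hA.lg k) (π k).2.1 hτd1 (π k).2.2 hτ1
      simp only [hpos] at hfit
      rw [← hV] at hfit
      have hlg := k6b_sim_leg T M Lp L K β pv (((n : ℝ) + 1) * A) hM hLp (by positivity) hFb hFl U V (v k) b E.2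
        (π k).2.1 (π k).2.2 ht1 hτd1 hτ1 (fun σ hσ => by rw [← hpos]; exact hG.box _ (hA.lg k) σ hσ) hVK hVv c3'
        (fun s hs => (he s hs).trans hiA) hL
      rw [← hlegk] at hlg
      obtain ⟨I1, hI1⟩ : ∃ I1 : ℝ, I1 = ∫ σ in (π k).2.1..(π k).2.2, k6b_fld T (U + σ • V) ⬝ᵥ V := ⟨_, rfl⟩
      rw [← hI1] at hfit hlg
      obtain ⟨Sm, hSm⟩ : ∃ Sm : ℝ, Sm = ∑ k : Fin n, if (k : ℕ) < i then leg k else 0 := ⟨_, rfl⟩
      rw [← hSm] at ih2 ⊢
      have e3 : Y.x ((π k).1, (π k).2.2) - (Y.x e0 + (Sm + leg k))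
          = (Y.x E - (Y.x e0 + Sm)) + (Y.x ((π k).1, (π k).2.2) - Y.x ((π k).1, (π k).2.1) - I1)
            + (Y.x ((π k).1, (π k).2.1) - Y.x E) + (I1 - leg k) := by ring
      rw [e3]
      have a1 := abs_add_le ((Y.x E - (Y.x e0 + Sm)) + (Y.x ((π k).1, (π k).2.2) - Y.x ((π k).1, (π k).2.1) - I1)
            + (Y.x ((π k).1, (π k).2.1) - Y.x E)) (I1 - leg k)
      have a2 := abs_add_le ((Y.x E - (Y.x e0 + Sm)) + (Y.x ((π k).1, (π k).2.2) - Y.x ((π k).1, (π k).2.1) - I1))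
            (Y.x ((π k).1, (π k).2.1) - Y.x E)
      have a3 := abs_add_le (Y.x E - (Y.x e0 + Sm)) (Y.x ((π k).1, (π k).2.2) - Y.x ((π k).1, (π k).2.1) - I1)
      push_cast
      linarith

/-! ## 5. The constants -/

theorem k6b_sim_const (m n D : ℕ) (K a : ℝ) (hK : 1 ≤ K) (ha : a = 4 * n + 5) :
    1 + (m * (K * (a * K) ^ (m * D))) * K
        + 2 * ((n : ℝ) + 1) * (m * (K * (m * ((a * K) ^ D) ^ m * (D * (a * K) ^ D)))) * K ^ 2
        + m * (K * (a * K) ^ (m * D))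
      ≤ ((1 + 2 * m * (4 * n + 5) ^ (m * D) + 2 * (n + 1) * m ^ 2 * D * (4 * n + 5) ^ (m * D + D) : ℕ) : ℝ)
          * K ^ (m * D + D + 3) := by
  have ha0 : 0 ≤ a := by rw [ha]; positivity
  have hp : ∀ j : ℕ, j ≤ m * D + D + 3 → K ^ j ≤ K ^ (m * D + D + 3) := fun j hj => pow_le_pow_right₀ hK hj
  have e1 : (m * (K * (a * K) ^ (m * D))) * K = (m * a ^ (m * D)) * K ^ (m * D + 2) := by
    rw [mul_pow]; ring
  have e2 : 2 * ((n : ℝ) + 1) * (m * (K * (m * ((a * K) ^ D) ^ m * (D * (a * K) ^ D)))) * K ^ 2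
      = (2 * ((n : ℝ) + 1) * m ^ 2 * D * a ^ (m * D + D)) * K ^ (m * D + D + 3) := by
    rw [mul_pow]; ring
  have e3 : (m : ℝ) * (K * (a * K) ^ (m * D)) = (m * a ^ (m * D)) * K ^ (m * D + 1) := by
    rw [mul_pow]; ring
  rw [e1, e2, e3]
  have h0 : (1 : ℝ) ≤ K ^ (m * D + D + 3) := one_le_pow₀ hK
  have h1 : ((m : ℝ) * a ^ (m * D)) * K ^ (m * D + 2) ≤ (m * a ^ (m * D)) * K ^ (m * D + D + 3) :=
    mul_le_mul_of_nonneg_left (hp _ (by omega)) (by positivity)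
  have h3 : ((m : ℝ) * a ^ (m * D)) * K ^ (m * D + 1) ≤ (m * a ^ (m * D)) * K ^ (m * D + D + 3) :=
    mul_le_mul_of_nonneg_left (hp _ (by omega)) (by positivity)
  push_cast
  rw [← ha]
  nlinarith

/-- **C3** -/
theorem k6b_simulate : k6b_simulate_stmt := by
  intro m n D
  obtain ⟨c0, hc0⟩ : ∃ c0 : ℕ,
      c0 = 1 + 2 * m * (4 * n + 5) ^ (m * D) + 2 * (n + 1) * m ^ 2 * D * (4 * n + 5) ^ (m * D + D) := ⟨_, rfl⟩
  obtain ⟨e, he⟩ : ∃ e : ℕ, e = m * D + D + 3 := ⟨_, rfl⟩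
  refine ⟨n * c0 + e + 2 * n, ?_⟩
  intro Y T K β pv εT hK hβ0 hβ1 hpv0 hpv1 hε hdeg hnm hG e0 π hA
  obtain ⟨a, ha⟩ : ∃ a : ℝ, a = 4 * n + 5 := ⟨_, rfl⟩
  have hK0 : 0 ≤ K := by linarith
  have ha1 : 1 ≤ a := by
    rw [ha]
    have : (0 : ℝ) ≤ n := Nat.cast_nonneg n
    linarith
  have hL1 : 1 ≤ a * K := by nlinarith
  have hcst := k6b_sim_const m n D K a hK ha
  rw [← hc0, ← he] at hcst
  obtain ⟨M, hMd⟩ : ∃ M : ℝ, M = m * (K * (a * K) ^ (m * D)) := ⟨_, rfl⟩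
  obtain ⟨Lp, hLpd⟩ : ∃ Lp : ℝ, Lp = m * (K * (m * ((a * K) ^ D) ^ m * (D * (a * K) ^ D))) := ⟨_, rfl⟩
  rw [← hMd, ← hLpd] at hcst
  have hM : 0 ≤ M := by rw [hMd]; positivity
  have hLp : 0 ≤ Lp := by rw [hLpd]; positivity
  have hFb : ∀ u w : Fin m → ℝ, ‖u‖ ≤ a * K → |k6b_fld T u ⬝ᵥ w| ≤ M * ‖w‖ := fun u w hu => by
    rw [hMd]
    exact k6b_sim_F_bd T D K (a * K) hL1 hdeg hnm u w hu
  have hFl : ∀ u u' w : Fin m → ℝ, ‖u‖ ≤ a * K → ‖u'‖ ≤ a * K →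
      |k6b_fld T u ⬝ᵥ w - k6b_fld T u' ⬝ᵥ w| ≤ Lp * ‖u - u'‖ * ‖w‖ := fun u u' w hu hu' => by
    rw [hLpd]
    exact k6b_sim_F_lip T D K (a * K) hL1 hdeg hnm u u' w hu hu'
  have hn0 : (0 : ℝ) ≤ n := Nat.cast_nonneg n
  have hL : K + ((n : ℝ) + 1) * (2 * K * (β + pv)) ≤ a * K := by
    rw [ha]
    have h1 : 2 * K * (β + pv) ≤ 2 * K * 2 := mul_le_mul_of_nonneg_left (by linarith) (by positivity)
    have h2 : ((n : ℝ) + 1) * (2 * K * (β + pv)) ≤ ((n : ℝ) + 1) * (2 * K * 2) :=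
      mul_le_mul_of_nonneg_left h1 (by positivity)
    nlinarith
  obtain ⟨k1, k2⟩ := k6b_sim_ind Y T M Lp (a * K) K β pv εT hK hβ0 hpv0 hM hLp hFb hFl hG hL e0 π hA _ rfl _ rfl _ rfl
    n le_rfl
  rw [k6b_sim_psum_full] at k2
  obtain ⟨c, hc⟩ : ∃ c : ℕ, c = n * c0 + e + 2 * n := ⟨_, rfl⟩
  rw [← hc]
  have hce : e ≤ c := by rw [hc]; omega
  have hc1 : c ≠ 0 := by rw [hc, he]; omega
  have hKc : K ≤ K ^ c := le_self_pow₀ hK hc1
  have hKe : K ^ e ≤ K ^ c := pow_le_pow_right₀ hK hce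
  have hKc0 : 0 ≤ K ^ c := pow_nonneg hK0 _
  constructor
  · refine k1.trans ?_
    have h1 : (2 * n : ℝ) ≤ c := by
      rw [hc]
      push_cast
      have : (0 : ℝ) ≤ (n : ℝ) * c0 + e := by positivity
      linarith
    calc (n : ℝ) * (2 * K * (β + pv)) = (2 * n) * K * (β + pv) := by ring
      _ ≤ c * K ^ c * (β + pv) :=
          mul_le_mul_of_nonneg_right (mul_le_mul h1 hKc hK0 (Nat.cast_nonneg _)) (by positivity)
  · refine le_trans k2 ?_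
    obtain ⟨σ, hσ⟩ : ∃ σ : ℝ, σ = β + pv + εT := ⟨_, rfl⟩
    rw [← hσ]
    have hσ0 : 0 ≤ σ := by rw [hσ]; positivity
    have t0 : εT + β ≤ σ * 1 := by rw [hσ]; linarith
    have t1 : β * (M * K) ≤ σ * (M * K) := mul_le_mul_of_nonneg_right (by rw [hσ]; linarith) (by positivity)
    have t2 : Lp * (((n : ℝ) + 1) * (2 * K * (β + pv))) * K ≤ σ * (2 * ((n : ℝ) + 1) * Lp * K ^ 2) := by
      calc Lp * (((n : ℝ) + 1) * (2 * K * (β + pv))) * K = (β + pv) * (2 * ((n : ℝ) + 1) * Lp * K ^ 2) := by ring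
        _ ≤ σ * (2 * ((n : ℝ) + 1) * Lp * K ^ 2) :=
            mul_le_mul_of_nonneg_right (by rw [hσ]; linarith) (by positivity)
    have t3 : M * pv ≤ σ * M := by
      rw [mul_comm]
      exact mul_le_mul_of_nonneg_right (by rw [hσ]; linarith) hM
    have t4 : εT + β + (β * (M * K) + (Lp * (((n : ℝ) + 1) * (2 * K * (β + pv))) * K + M * pv))
        ≤ σ * (c0 * K ^ e) := by
      have t5 : σ * (1 + M * K + 2 * ((n : ℝ) + 1) * Lp * K ^ 2 + M) ≤ σ * (c0 * K ^ e) :=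
        mul_le_mul_of_nonneg_left hcst hσ0
      linarith
    have h2 : ((n : ℝ) * c0) ≤ c := by
      rw [hc]
      push_cast
      have : (0 : ℝ) ≤ (e : ℝ) + 2 * n := by positivity
      linarith
    calc (n : ℝ) * (εT + β + (β * (M * K) + (Lp * (((n : ℝ) + 1) * (2 * K * (β + pv))) * K + M * pv)))
        ≤ n * (σ * (c0 * K ^ e)) := mul_le_mul_of_nonneg_left t4 hn0
      _ = ((n : ℝ) * c0) * K ^ e * σ := by ring
      _ ≤ c * K ^ c * σ :=
          mul_le_mul_of_nonneg_right (mul_le_mul h2 hKe (pow_nonneg hK0 _) (Nat.cast_nonneg _)) hσ0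

end

end Claimed.Agent.R252
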