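import Claimed.Agent.R252.S6b.EntryDefs

/-!
# Row252, unit S6b, leaf E0: change of variables for the switching system of a packet   (helper260; prefix `k6b_sc_`)

`k6b_sw_cov : k6b_sw_cov_stmt`.
-/

set_option autoImplicit false

namespace Claimed.Agent.R252

open MeasureTheory MvPolynomial
open scoped ENNReal BigOperators

noncomputable section

variable {j : ℕ}

/-! ## 1. the block -/

theorem k6b_sc_H_pos {D : K6aDat j} (Pk : K6aPk D) : 0 < Pk.H := by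
  unfold K6aPk.H k6aW
  positivity

theorem k6b_sc_H_mul {D : K6aDat j} (Pk : K6aPk D) : Pk.H * 2 ^ Pk.lev = 1 := by
  unfold K6aPk.H k6aW
  rw [← mul_pow]
  norm_num

theorem k6b_sc_norm_phys {D : K6aDat j} (Pk : K6aPk D) (q : Pk.Q) (e : D.L × ℝ) :
    k6b_norm Pk q (k6b_phys Pk q e) = e := by
  have hH := (k6b_sc_H_pos Pk).ne'
  unfold k6b_norm k6b_phys
  ext
  · rfl
  · simp only
    field_simp
    ring

theorem k6b_sc_phys_norm {D : K6aDat j} (Pk : K6aPk D) (q : Pk.Q) (e : D.L × ℝ) :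
    k6b_phys Pk q (k6b_norm Pk q e) = e := by
  have hH := (k6b_sc_H_pos Pk).ne'
  unfold k6b_norm k6b_phys
  ext
  · rfl
  · simp only
    field_simp
    ring

theorem k6b_sc_phys_meas {D : K6aDat j} (Pk : K6aPk D) (q : Pk.Q) : Measurable (k6b_phys Pk q) := by
  unfold k6b_phys
  fun_prop

theorem k6b_sc_norm_meas {D : K6aDat j} (Pk : K6aPk D) (q : Pk.Q) : Measurable (k6b_norm Pk q) := by
  unfold k6b_norm
  fun_prop

/-- a time `t0 + H τ` of the block has `τ ∈ [0, 1)` -/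
theorem k6b_sc_blk {D : K6aDat j} (Pk : K6aPk D) (q : Pk.Q) (τ : ℝ) :
    k6b_t0 Pk q + Pk.H * τ ∈ Pk.blk q ↔ τ ∈ Set.Ico (0 : ℝ) 1 := by
  have h1 : (k6b_t0 Pk q + Pk.H * τ) * 2 ^ Pk.lev = (Pk.iv q : ℝ) + τ := by
    unfold k6b_t0
    have := k6b_sc_H_mul Pk
    linear_combination ((Pk.iv q : ℝ) + τ) * this
  unfold K6aPk.blk k6aBin
  rw [Set.mem_ofPred_eq, h1, Int.floor_eq_iff, Set.mem_Ico]
  constructor
  · rintro ⟨h2, h3⟩
    exact ⟨by linarith, by linarith⟩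
  · rintro ⟨h2, h3⟩
    exact ⟨by linarith, by linarith⟩

/-! ## 2. position -/

theorem k6b_sc_pos (D : K6aDat j) (Pk : K6aPk D) (q : Pk.Q) (zc : ℝ × (Fin j → ℝ))
    (Es : Set (D.L × ℝ)) (nb nv : ℕ) (Kl : ℝ) (M : ℤ) (e : D.L × ℝ) :
    (k6b_swOf D Pk q zc Es nb nv Kl M).pos e = k6aU Pk.H zc (D.base (k6b_phys Pk q e)) := by
  have hH := (k6b_sc_H_pos Pk).ne'
  show k6aU Pk.H zc (k6b_t0 Pk q, D.y e.1 (k6b_t0 Pk q)) + e.2 • (Fin.cons 1 (D.V e.1) : Fin (j + 1) → ℝ) = _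
  unfold k6aU K6aDat.base k6b_phys K6aDat.y
  funext i
  refine Fin.cases ?_ (fun a => ?_) i
  · simp only [Pi.add_apply, Pi.smul_apply, Fin.cons_zero, smul_eq_mul]
    field_simp
    ring
  · simp only [Pi.add_apply, Pi.smul_apply, Fin.cons_succ, smul_eq_mul]
    field_simp
    ring

/-! ## 3. the density -/

/-- the constant value of the density -/
def k6b_sc_c {D : K6aDat j} (Pk : K6aPk D) (q : Pk.Q) (Es : Set (D.L × ℝ)) : ℝ≥0∞ :=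
  ENNReal.ofReal Pk.H * Pk.νQ q / D.prior Es

theorem k6b_sc_g_apply (D : K6aDat j) (Pk : K6aPk D) (q : Pk.Q) (zc : ℝ × (Fin j → ℝ))
    (Es : Set (D.L × ℝ)) (nb nv : ℕ) (Kl : ℝ) (M : ℤ) (e : D.L × ℝ) :
    (k6b_swOf D Pk q zc Es nb nv Kl M).g e
      = (k6b_phys Pk q ⁻¹' Es).indicator (fun _ => k6b_sc_c Pk q Es) e := by
  by_cases h : k6b_phys Pk q e ∈ Es
  · rw [Set.indicator_of_mem (show e ∈ k6b_phys Pk q ⁻¹' Es from h)]
    exact if_pos h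
  · rw [Set.indicator_of_notMem (show e ∉ k6b_phys Pk q ⁻¹' Es from h)]
    exact if_neg h

theorem k6b_sc_g (D : K6aDat j) (Pk : K6aPk D) (q : Pk.Q) (zc : ℝ × (Fin j → ℝ))
    (Es : Set (D.L × ℝ)) (nb nv : ℕ) (Kl : ℝ) (M : ℤ) :
    ((k6b_swOf D Pk q zc Es nb nv Kl M).g : D.L × ℝ → ℝ≥0∞)
      = (k6b_phys Pk q ⁻¹' Es).indicator fun _ => k6b_sc_c Pk q Es :=
  funext (k6b_sc_g_apply D Pk q zc Es nb nv Kl M)

theorem k6b_sc_prior_fin (D : K6aDat j) {K : ℝ} (hD : D.WF K) : IsFiniteMeasure D.prior := by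
  have := hD.prob
  unfold K6aDat.prior
  infer_instance

theorem k6b_sc_c_ne (D : K6aDat j) {K : ℝ} (hD : D.WF K) (Pk : K6aPk D) (q : Pk.Q)
    (Es : Set (D.L × ℝ)) (hν : Pk.νQ q ≠ 0) : k6b_sc_c Pk q Es ≠ 0 := by
  have := k6b_sc_prior_fin D hD
  unfold k6b_sc_c
  rw [ENNReal.div_ne_zero]
  refine ⟨mul_ne_zero ?_ hν, measure_ne_top _ _⟩
  rw [Ne, ENNReal.ofReal_eq_zero, not_le]
  exact k6b_sc_H_pos Pk

/-! ## 4. slices -/

/-- the slice in normalised time is the preimage of the slice in physical time -/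
theorem k6b_sc_slice {D : K6aDat j} (Pk : K6aPk D) (q : Pk.Q) (Es F : Set (D.L × ℝ)) (l : D.L) :
    volume {τ : ℝ | (l, τ) ∈ F ∧ k6b_phys Pk q (l, τ) ∈ Es}
      = ENNReal.ofReal Pk.H⁻¹ * volume {t : ℝ | (l, t) ∈ Es ∧ k6b_norm Pk q (l, t) ∈ F} := by
  have hH := k6b_sc_H_pos Pk
  have h1 : {τ : ℝ | (l, τ) ∈ F ∧ k6b_phys Pk q (l, τ) ∈ Es}
      = (fun τ => Pk.H * τ) ⁻¹' ((fun s => k6b_t0 Pk q + s) ⁻¹'
        {t : ℝ | (l, t) ∈ Es ∧ k6b_norm Pk q (l, t) ∈ F}) := by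
    ext τ
    simp only [Set.mem_ofPred_eq, Set.mem_preimage]
    have h2 : k6b_norm Pk q (l, k6b_t0 Pk q + Pk.H * τ) = (l, τ) := k6b_sc_norm_phys Pk q (l, τ)
    rw [h2]
    exact and_comm
  rw [h1, Real.volume_preimage_mul_left hH.ne', measure_preimage_add, abs_of_pos (inv_pos.2 hH)]

theorem k6b_sc_slice_meas {D : K6aDat j} (Pk : K6aPk D) (q : Pk.Q) {Es F : Set (D.L × ℝ)}
    (hEs : MeasurableSet Es) (hF : MeasurableSet F) (l : D.L) :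
    MeasurableSet {τ : ℝ | (l, τ) ∈ F ∧ k6b_phys Pk q (l, τ) ∈ Es} :=
  (measurable_prodMk_left hF).inter
    (((k6b_sc_phys_meas Pk q).comp measurable_prodMk_left) hEs)

theorem k6b_sc_slice_sub {D : K6aDat j} (Pk : K6aPk D) (q : Pk.Q) {Es : Set (D.L × ℝ)}
    (hinc : Es ⊆ Pk.inc q) (F : Set (D.L × ℝ)) (l : D.L) :
    {τ : ℝ | (l, τ) ∈ F ∧ k6b_phys Pk q (l, τ) ∈ Es} ⊆ Set.Icc (0 : ℝ) 1 := by
  rintro τ ⟨-, h⟩
  have h1 := ((k6b_sc_blk Pk q τ).1 (hinc h).2)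
  exact ⟨h1.1, h1.2.le⟩

/-! ## 5. weighted duration -/

theorem k6b_sc_cH {D : K6aDat j} (Pk : K6aPk D) (q : Pk.Q) (Es : Set (D.L × ℝ)) :
    k6b_sc_c Pk q Es * ENNReal.ofReal Pk.H⁻¹ = Pk.νQ q / D.prior Es := by
  have hH := k6b_sc_H_pos Pk
  unfold k6b_sc_c
  rw [div_eq_mul_inv, div_eq_mul_inv]
  calc ENNReal.ofReal Pk.H * Pk.νQ q * (D.prior Es)⁻¹ * ENNReal.ofReal Pk.H⁻¹
      = (ENNReal.ofReal Pk.H * ENNReal.ofReal Pk.H⁻¹) * (Pk.νQ q * (D.prior Es)⁻¹) := by ring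
    _ = Pk.νQ q * (D.prior Es)⁻¹ := by
        rw [← ENNReal.ofReal_mul hH.le, mul_inv_cancel₀ hH.ne', ENNReal.ofReal_one, one_mul]

theorem k6b_sc_dur0 {D : K6aDat j} (Pk : K6aPk D) (q : Pk.Q) {Es : Set (D.L × ℝ)}
    (hEs : MeasurableSet Es) (hinc : Es ⊆ Pk.inc q) {F : Set (D.L × ℝ)} (hF : MeasurableSet F)
    (l : D.L) :
    ∫⁻ τ in Set.Icc (0 : ℝ) 1,
        F.indicator ((k6b_phys Pk q ⁻¹' Es).indicator fun _ => k6b_sc_c Pk q Es) (l, τ)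
      = Pk.νQ q / D.prior Es * volume {t | (l, t) ∈ Es ∧ k6b_norm Pk q (l, t) ∈ F} := by
  have h1 : (fun τ : ℝ => F.indicator ((k6b_phys Pk q ⁻¹' Es).indicator fun _ => k6b_sc_c Pk q Es) (l, τ))
      = {τ : ℝ | (l, τ) ∈ F ∧ k6b_phys Pk q (l, τ) ∈ Es}.indicator fun _ => k6b_sc_c Pk q Es := by
    funext τ
    rw [Set.indicator_indicator]
    rfl
  rw [h1, lintegral_indicator_const (k6b_sc_slice_meas Pk q hEs hF l),
    Measure.restrict_apply (k6b_sc_slice_meas Pk q hEs hF l),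
    Set.inter_eq_left.2 (k6b_sc_slice_sub Pk q hinc F l), k6b_sc_slice, ← mul_assoc, k6b_sc_cH]

theorem k6b_sc_durF (D : K6aDat j) (Pk : K6aPk D) (q : Pk.Q) (zc : ℝ × (Fin j → ℝ))
    {Es : Set (D.L × ℝ)} (nb nv : ℕ) (Kl : ℝ) (M : ℤ) (hEs : MeasurableSet Es)
    (hinc : Es ⊆ Pk.inc q) {F : Set (D.L × ℝ)} (hF : MeasurableSet F) (l : D.L) :
    (k6b_swOf D Pk q zc Es nb nv Kl M).durF F l =
      Pk.νQ q / D.prior Es * volume {t | (l, t) ∈ Es ∧ k6b_norm Pk q (l, t) ∈ F} := by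
  unfold k6b_Sw.durF
  rw [k6b_sc_g]
  exact k6b_sc_dur0 Pk q hEs hinc hF l

/-! ## 6. the law -/

theorem k6b_sc_mu_eq (D : K6aDat j) (Pk : K6aPk D) (q : Pk.Q) (zc : ℝ × (Fin j → ℝ))
    (Es : Set (D.L × ℝ)) (nb nv : ℕ) (Kl : ℝ) (M : ℤ) :
    ((k6b_swOf D Pk q zc Es nb nv Kl M).mu : Measure (D.L × ℝ))
      = (((Pk.νQ q)⁻¹ • D.ν.restrict (Pk.asg q)).prod (volume.restrict (Set.Icc (0 : ℝ) 1))).withDensity
        ((k6b_phys Pk q ⁻¹' Es).indicator fun _ => k6b_sc_c Pk q Es) :=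
  congrArg (Measure.withDensity
    (((Pk.νQ q)⁻¹ • D.ν.restrict (Pk.asg q)).prod (volume.restrict (Set.Icc (0 : ℝ) 1))))
    (k6b_sc_g D Pk q zc Es nb nv Kl M)

theorem k6b_sc_prior_apply (D : K6aDat j) {K : ℝ} (hD : D.WF K) {G : Set (D.L × ℝ)}
    (hG : MeasurableSet G) (h01 : G ⊆ Set.univ ×ˢ Set.Icc (0 : ℝ) 1) :
    D.prior G = ∫⁻ l, volume {t | (l, t) ∈ G} ∂D.ν := by
  have := hD.prob
  unfold K6aDat.prior
  rw [Measure.prod_apply hG]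
  refine lintegral_congr fun l => ?_
  have h1 : Prod.mk l ⁻¹' G ⊆ Set.Icc (0 : ℝ) 1 := fun t ht => (h01 ht).2
  rw [Measure.restrict_apply (measurable_prodMk_left hG), Set.inter_eq_left.2 h1]
  rfl

theorem k6b_sc_mu (D : K6aDat j) {K : ℝ} (hD : D.WF K) (Pk : K6aPk D) (q : Pk.Q)
    (zc : ℝ × (Fin j → ℝ)) {Es : Set (D.L × ℝ)} (nb nv : ℕ) (Kl : ℝ) (M : ℤ)
    (hEs : MeasurableSet Es) (hasg : MeasurableSet (Pk.asg q)) (hinc : Es ⊆ Pk.inc q)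
    (h01 : Es ⊆ Set.univ ×ˢ Set.Icc (0 : ℝ) 1) (hν : Pk.νQ q ≠ 0) {F : Set (D.L × ℝ)}
    (hF : MeasurableSet F) :
    (k6b_swOf D Pk q zc Es nb nv Kl M).mu F = D.prior (Es ∩ k6b_norm Pk q ⁻¹' F) / D.prior Es := by
  have := hD.prob
  have hνt : Pk.νQ q ≠ ⊤ := measure_ne_top _ _
  have hg : Measurable ((k6b_phys Pk q ⁻¹' Es).indicator fun _ => k6b_sc_c Pk q Es) :=
    measurable_const.indicator ((k6b_sc_phys_meas Pk q) hEs)
  have hG : MeasurableSet (Es ∩ k6b_norm Pk q ⁻¹' F) := hEs.inter ((k6b_sc_norm_meas Pk q) hF)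
  have h1 : (k6b_swOf D Pk q zc Es nb nv Kl M).mu F
      = ((((Pk.νQ q)⁻¹ • D.ν.restrict (Pk.asg q)).prod (volume.restrict (Set.Icc (0 : ℝ) 1))).withDensity
        ((k6b_phys Pk q ⁻¹' Es).indicator fun _ => k6b_sc_c Pk q Es)) F :=
    congrArg (fun μ : Measure (D.L × ℝ) => μ F) (k6b_sc_mu_eq D Pk q zc Es nb nv Kl M)
  have h2 : ∀ l : D.L, ∫⁻ τ in Set.Icc (0 : ℝ) 1,
        F.indicator ((k6b_phys Pk q ⁻¹' Es).indicator fun _ => k6b_sc_c Pk q Es) (l, τ)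
      = Pk.νQ q / D.prior Es * volume {t | (l, t) ∈ Es ∩ k6b_norm Pk q ⁻¹' F} := fun l =>
    k6b_sc_dur0 Pk q hEs hinc hF l
  have hm : Measurable fun l : D.L => volume {t : ℝ | (l, t) ∈ Es ∩ k6b_norm Pk q ⁻¹' F} :=
    measurable_measure_prodMk_left hG
  have h3 : ∫⁻ l in Pk.asg q, volume {t : ℝ | (l, t) ∈ Es ∩ k6b_norm Pk q ⁻¹' F} ∂D.ν
      = ∫⁻ l, volume {t : ℝ | (l, t) ∈ Es ∩ k6b_norm Pk q ⁻¹' F} ∂D.ν := by
    rw [← lintegral_indicator hasg]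
    refine lintegral_congr fun l => ?_
    by_cases hl : l ∈ Pk.asg q
    · rw [Set.indicator_of_mem hl]
    · rw [Set.indicator_of_notMem hl]
      have : {t : ℝ | (l, t) ∈ Es ∩ k6b_norm Pk q ⁻¹' F} = ∅ := by
        ext t
        simp only [Set.mem_ofPred_eq, Set.mem_empty_iff_false, iff_false]
        exact fun h => hl (hinc h.1).1
      rw [this, measure_empty]
  rw [h1, withDensity_apply _ hF, ← lintegral_indicator hF,
    lintegral_prod _ (hg.indicator hF).aemeasurable, lintegral_congr h2, lintegral_smul_measure, lintegral_const_mul _ hm, h3,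
    ← k6b_sc_prior_apply D hD hG (Set.inter_subset_left.trans h01), smul_eq_mul, div_eq_mul_inv,
    div_eq_mul_inv]
  calc (Pk.νQ q)⁻¹ * (Pk.νQ q * (D.prior Es)⁻¹ * D.prior (Es ∩ k6b_norm Pk q ⁻¹' F))
      = ((Pk.νQ q)⁻¹ * Pk.νQ q) * (D.prior (Es ∩ k6b_norm Pk q ⁻¹' F) * (D.prior Es)⁻¹) := by ring
    _ = _ := by rw [ENNReal.inv_mul_cancel hν hνt, one_mul]

/-! ## 7. the support -/

theorem k6b_sc_sup (D : K6aDat j) {K : ℝ} (hD : D.WF K) (Pk : K6aPk D) (q : Pk.Q)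
    (zc : ℝ × (Fin j → ℝ)) {Es : Set (D.L × ℝ)} (nb nv : ℕ) (Kl : ℝ) (M : ℤ)
    (hinc : Es ⊆ Pk.inc q) (hν : Pk.νQ q ≠ 0) (e : D.L × ℝ) :
    e ∈ (k6b_swOf D Pk q zc Es nb nv Kl M).sup ↔ k6b_phys Pk q e ∈ Es := by
  show ((k6b_swOf D Pk q zc Es nb nv Kl M).g e ≠ 0 ∧ e.2 ∈ Set.Icc (0 : ℝ) 1) ↔ _
  rw [k6b_sc_g_apply]
  constructor
  · rintro ⟨h, -⟩
    by_contra h'
    exact h (Set.indicator_of_notMem (show e ∉ k6b_phys Pk q ⁻¹' Es from h') _)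
  · intro h
    refine ⟨?_, ?_⟩
    · rw [Set.indicator_of_mem (show e ∈ k6b_phys Pk q ⁻¹' Es from h)]
      exact k6b_sc_c_ne D hD Pk q Es hν
    · have h1 := (k6b_sc_blk Pk q e.2).1 (hinc h).2
      exact ⟨h1.1, h1.2.le⟩

/-- **E0** -/
theorem k6b_sw_cov : k6b_sw_cov_stmt := by
  intro j D Pk q zc Es nb nv Kl K M hD hEs hasg hinc h01 hν _
  exact ⟨k6b_sc_pos D Pk q zc Es nb nv Kl M,
    fun F hF => k6b_sc_mu D hD Pk q zc nb nv Kl M hEs hasg hinc h01 hν hF,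
    fun F l hF => k6b_sc_durF D Pk q zc nb nv Kl M hEs hinc hF l,
    k6b_sc_sup D hD Pk q zc nb nv Kl M hinc hν⟩

end

end Claimed.Agent.R252
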