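import Claimed.Agent.R252.S6b.SqLine

/-!
# ROW 252, unit S6b, the square-root sheet kit, file 4: SHEETS ON A CUBE      (statement Q2: helper295, VERBATIM; architect of the proof helper112)

`Q = Metric.closedBall uc r` (sup norm of `Fin n → ℝ`) `= Set.Icc (uc - r) (uc + r)`.
1. `k6b_sq_sup`: `|F| ≤ ε` on `E ⊆ Q`, `|E| ≥ θ |Q|`  ⟹  `|F| ≤ c (κ/θ)^c ε` on `Q`  (`rmz_slicing` on the unit cube + Q1 with `j = 0` on the axis-parallel segments).
2. `k6b_sq_step`: `|G| ≤ S` on `Q`  ⟹  `|∂_v G| r ≤ c κ^c S` on `Q` for `‖v‖ ≤ 1`  (`∂_v = ∑ v_i ∂_{e_i}`; Q1 with `j = 1`, `θ = 1` on the FULL axis-parallel segment of `Q` through the point.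
   A line in a general direction through a corner of `Q` may leave `Q` at once on both sides: only axis directions are used).
3. `k6b_sq_list`: induction on the list (the degrees grow: `k6b_Sheet.Deg.foldr`).
-/

set_option autoImplicit false

namespace Claimed.Agent.R252

open MvPolynomial MeasureTheory

/-! ### constants -/

theorem k6b_cR_mono {c c' : ℕ} (h : c ≤ c') {R : ℝ} (hR : 1 ≤ R) : (c : ℝ) * R ^ c ≤ (c' : ℝ) * R ^ c' :=
  mul_le_mul (by exact_mod_cast h) (pow_le_pow_right₀ hR h) (by positivity) (by positivity)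

theorem k6b_cR_mul (c₁ c₂ : ℕ) {R : ℝ} (hR : 1 ≤ R) :
    ((c₁ : ℝ) * R ^ c₁) * ((c₂ : ℝ) * R ^ c₂) ≤ ((c₁ * c₂ + c₁ + c₂ : ℕ) : ℝ) * R ^ (c₁ * c₂ + c₁ + c₂) := by
  have e : ((c₁ : ℝ) * R ^ c₁) * ((c₂ : ℝ) * R ^ c₂) = ((c₁ * c₂ : ℕ) : ℝ) * R ^ (c₁ + c₂) := by
    push_cast
    rw [pow_add]
    ring
  rw [e]
  exact mul_le_mul (by exact_mod_cast (by omega : c₁ * c₂ ≤ c₁ * c₂ + c₁ + c₂)) (pow_le_pow_right₀ hR (by omega)) (by positivity) (by positivity)

/-! ### LEAF L-252-SQ-PROD -/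

/-- PLAN: `κ / (θ / 2^(j+1)) = 2^(j+1) (κ/θ) ≤ 2^n (κ/θ)`; every factor is `≤ c₁ (2^n)^c₁ (κ/θ)^c₁`; `Finset.prod_le_prod`, `Finset.prod_const`, `Finset.card_range`:
the product is `≤ (c₁ 2^(n c₁))^n (κ/θ)^(c₁ n)`;  `c = (c₁ * 2^(n * c₁))^n + c₁ * n`. -/
theorem k6b_prod_bound (n c₁ : ℕ) : ∃ c : ℕ, ∀ κ θ : ℝ, 1 ≤ κ → 0 < θ → θ ≤ 1 →
    ∏ j ∈ Finset.range n, ((c₁ : ℝ) * (κ / (θ / 2 ^ (j + 1))) ^ c₁) ≤ c * (κ / θ) ^ c := by
  refine ⟨(c₁ * (2 ^ n) ^ c₁) ^ n + c₁ * n, ?_⟩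
  intro κ θ hκ hθ hθ1
  have hκR : κ ≤ κ / θ := by
    rw [le_div_iff₀ hθ]
    nlinarith
  have hR : 1 ≤ κ / θ := hκ.trans hκR
  have h1 : ∀ j ∈ Finset.range n, ((c₁ : ℝ) * (κ / (θ / 2 ^ (j + 1))) ^ c₁) ≤ (c₁ : ℝ) * (2 ^ n) ^ c₁ * (κ / θ) ^ c₁ := by
    intro j hj
    have e : κ / (θ / 2 ^ (j + 1)) = 2 ^ (j + 1) * (κ / θ) := by
      field_simp
    have h2 : (2 : ℝ) ^ (j + 1) ≤ 2 ^ n := pow_le_pow_right₀ (by norm_num) (Finset.mem_range.1 hj)
    rw [e, mul_pow, mul_assoc]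
    refine mul_le_mul_of_nonneg_left ?_ (by positivity)
    exact mul_le_mul_of_nonneg_right (pow_le_pow_left₀ (by positivity) h2 _) (by positivity)
  refine (Finset.prod_le_prod (fun j _ => by positivity) h1).trans ?_
  rw [Finset.prod_const, Finset.card_range, mul_pow, ← pow_mul (κ / θ)]
  have h3 : ((c₁ : ℝ) * (2 ^ n) ^ c₁) ^ n ≤ (((c₁ * (2 ^ n) ^ c₁) ^ n + c₁ * n : ℕ) : ℝ) := by
    push_cast
    have : (0 : ℝ) ≤ (c₁ : ℝ) * n := by positivity
    linarith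
  exact mul_le_mul h3 (pow_le_pow_right₀ hR (by omega)) (by positivity) (by positivity)

/-! ### LEAF L-252-SQ-SUP -/

theorem k6b_mem_ball {n : ℕ} (uc u : Fin n → ℝ) {r : ℝ} (hr : 0 ≤ r) :
    u ∈ Metric.closedBall uc r ↔ ∀ i, uc i - r ≤ u i ∧ u i ≤ uc i + r := by
  rw [Metric.mem_closedBall, dist_pi_le_iff hr]
  refine forall_congr' fun i => ?_
  rw [Real.dist_eq, abs_le]
  constructor
  · rintro ⟨h1, h2⟩
    constructor <;> linarith
  · rintro ⟨h1, h2⟩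
    constructor <;> linarith

/-- PLAN.  `c₁` from `k6b_sq_line n D 0`, `c` from `k6b_prod_bound n c₁`.  `φ x = fun i => (uc i - r) + ((uc i + r) - (uc i - r)) * x i` maps `Icc 0 1` onto `Q = Icc (uc - r) (uc + r)`
(`closedBall_pi`, `Real.closedBall_eq_Icc`, or `dist_pi_le_iff`, `Real.dist_eq`, `abs_le`).  `Φ = F.val Dl ∘ φ` is measurable (`k6b_Sheet.measurable_val`, `measurable_pi_iff`).
`rmz_slicing n Φ _ (fun θ' => c₁ * (κ / θ') ^ c₁) hline θ ε`:
* `hline i x θ' e`: `θ' ≤ 1` because the set is contained in `Icc 0 1` (`Real.volume_Icc`); `φ (update x i t) = φ (update x i 0) + t • Pi.single i (2 r)`; Q1 with `u = φ (update x i 0)`, `v = Pi.single i (2 r)`, `a = 0`, `b = 1`,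
  `E = {t ∈ Icc 0 1 | |Φ (update x i t)| ≤ e}` (measurable), `j = 0`.
* `hvol`: `rmz_box_vol (uc - r) (uc + r) _ E`: `volume E = volume Q * volume (φ ⁻¹' E)`, `volume Q = ofReal ((2 r)^n)` (`Real.volume_Icc_pi`, `Finset.prod_const`), and `φ ⁻¹' E ⊆ {x ∈ Icc 0 1 | |Φ x| ≤ ε}`. -/
theorem k6b_sq_sup (n D : ℕ) : ∃ c : ℕ, ∀ (Dl : MvPolynomial (Fin n) ℝ) (F : k6b_Sheet n)
    (uc : Fin n → ℝ) (r κ θ ε Δ0 : ℝ) (E : Set (Fin n → ℝ)),
    F.Deg D Dl → 0 < r → 1 ≤ κ → 0 < θ → θ ≤ 1 → 0 < Δ0 →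
    (∀ u ∈ Metric.closedBall uc r, Δ0 / κ ≤ eval u Dl ∧ eval u Dl ≤ κ * Δ0) →
    MeasurableSet E → E ⊆ Metric.closedBall uc r →
    ENNReal.ofReal (θ * (2 * r) ^ n) ≤ volume E →
    (∀ u ∈ E, |F.val Dl u| ≤ ε) →
    ∀ u ∈ Metric.closedBall uc r, |F.val Dl u| ≤ c * (κ / θ) ^ c * ε := by
  obtain ⟨c₁, h₁⟩ := k6b_sq_line n D 0
  obtain ⟨c, hc⟩ := k6b_prod_bound n c₁
  refine ⟨c, ?_⟩
  intro Dl F uc r κ θ ε Δ0 E hdeg hr hκ hθ hθ1 hΔ0 hDl _ hE hvol hε u hu
  obtain ⟨a, ha⟩ : ∃ a : Fin n → ℝ, ∀ i, a i = uc i - r := ⟨fun i => uc i - r, fun _ => rfl⟩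
  obtain ⟨b, hb⟩ : ∃ b : Fin n → ℝ, ∀ i, b i = uc i + r := ⟨fun i => uc i + r, fun _ => rfl⟩
  have hba : ∀ i, b i - a i = 2 * r := fun i => by rw [ha, hb]; ring
  have hab : ∀ i, a i < b i := fun i => by have := hba i; linarith
  obtain ⟨φ, hφ⟩ : ∃ φ : (Fin n → ℝ) → (Fin n → ℝ), ∀ x, φ x = fun i => a i + (b i - a i) * x i := ⟨_, fun _ => rfl⟩
  have hφi : ∀ x i, φ x i = uc i - r + 2 * r * x i := fun x i => by
    rw [hφ]
    show a i + (b i - a i) * x i = _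
    rw [hba, ha]
  have hφball : ∀ x, φ x ∈ Metric.closedBall uc r ↔ x ∈ Set.Icc (0 : Fin n → ℝ) 1 := by
    intro x
    rw [k6b_mem_ball uc _ hr.le, Set.mem_Icc, Pi.le_def, Pi.le_def, ← forall_and]
    refine forall_congr' fun i => ?_
    rw [hφi]
    simp only [Pi.zero_apply, Pi.one_apply]
    constructor
    · rintro ⟨h1, h2⟩
      constructor
      · by_contra hneg
        push Not at hneg
        have := mul_neg_of_pos_of_neg (by linarith : 0 < 2 * r) hneg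
        linarith
      · by_contra hneg
        push Not at hneg
        have := mul_lt_mul_of_pos_left hneg (by linarith : 0 < 2 * r)
        linarith
    · rintro ⟨h1, h2⟩
      constructor
      · have := mul_nonneg (by linarith : 0 ≤ 2 * r) h1
        linarith
      · have := mul_le_mul_of_nonneg_left h2 (by linarith : 0 ≤ 2 * r)
        linarith
  have hΦm : Measurable fun x => F.val Dl (φ x) := by
    refine (F.measurable_val Dl).comp ?_
    rw [measurable_pi_iff]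
    intro i
    have e : (fun x => φ x i) = fun x : Fin n → ℝ => uc i - r + 2 * r * x i := funext fun x => hφi x i
    rw [e]
    exact ((measurable_pi_apply i).const_mul _).const_add _
  have hε0 : 0 ≤ ε := by
    have hne : E.Nonempty := by
      by_contra hcon
      rw [Set.not_nonempty_iff_eq_empty] at hcon
      rw [hcon, measure_empty, nonpos_iff_eq_zero, ENNReal.ofReal_eq_zero] at hvol
      have : 0 < θ * (2 * r) ^ n := by positivity
      linarith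
    obtain ⟨t, ht⟩ := hne
    exact (abs_nonneg _).trans (hε t ht)
  have key := rmz_slicing n (fun x => F.val Dl (φ x)) hΦm (fun θ' => (c₁ : ℝ) * (κ / θ') ^ c₁)
    (by
      intro i x θ' e hx hθ' hv t ht
      have hθ'1 : θ' ≤ 1 := by
        have h2 : ENNReal.ofReal θ' ≤ ENNReal.ofReal 1 := by
          refine hv.trans ((measure_mono (fun s hs => hs.1)).trans ?_)
          rw [Real.volume_Icc]
          simp
        exact (ENNReal.ofReal_le_ofReal_iff zero_le_one).1 h2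
      have hup : ∀ s : ℝ, φ (Function.update x i s) = φ (Function.update x i 0) + s • Pi.single i (2 * r) := by
        intro s
        funext j
        rw [Pi.add_apply, Pi.smul_apply, hφi, hφi]
        by_cases hj : j = i
        · subst hj
          simp only [Function.update_self, Pi.single_eq_same, smul_eq_mul]
          ring
        · simp only [Function.update_of_ne hj, Pi.single_eq_of_ne hj, smul_eq_mul]
          ring
      have hmem : ∀ s ∈ Set.Icc (0 : ℝ) 1, Function.update x i s ∈ Set.Icc (0 : Fin n → ℝ) 1 := by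
        intro s hs
        rw [Set.mem_Icc, Pi.le_def, Pi.le_def] at hx ⊢
        constructor
        · intro j
          by_cases hj : j = i
          · subst hj
            simpa using hs.1
          · simpa [Function.update_of_ne hj] using hx.1 j
        · intro j
          by_cases hj : j = i
          · subst hj
            simpa using hs.2
          · simpa [Function.update_of_ne hj] using hx.2 j
      have h3 := h₁ Dl F (φ (Function.update x i 0)) (Pi.single i (2 * r)) 0 1 κ θ' e Δ0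
        {s : ℝ | s ∈ Set.Icc (0 : ℝ) 1 ∧ |F.val Dl (φ (Function.update x i s))| ≤ e} hdeg zero_lt_one hκ hθ' hθ'1 hΔ0
        (fun s hs => by
          rw [← hup s]
          exact hDl _ ((hφball _).2 (hmem s hs)))
        (measurableSet_Icc.inter (measurableSet_le (hΦm.comp (measurable_update x)).abs measurable_const))
        (fun s hs => hs.1)
        (by rw [sub_zero, mul_one]; exact hv)
        (fun s hs => by
          rw [← hup s]
          exact hs.2)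
        0 le_rfl t ht
      rw [← hup t] at h3
      simpa using h3)
    θ ε hθ
    (by
      rw [rmz_box_vol a b hab E, mul_comm] at hvol
      have hv : volume (Set.Icc a b) = ENNReal.ofReal ((2 * r) ^ n) := by
        rw [Real.volume_Icc_pi, Finset.prod_congr rfl (fun i _ => by rw [hba i]), Finset.prod_const, Finset.card_univ,
          Fintype.card_fin, ENNReal.ofReal_pow (by linarith)]
      rw [hv, ENNReal.ofReal_mul (by positivity)] at hvol
      have hpos : 0 < (2 * r) ^ n := by positivity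
      have h4 := (ENNReal.mul_le_mul_iff_right (ENNReal.ofReal_pos.2 hpos).ne' ENNReal.ofReal_ne_top).1 hvol
      refine h4.trans (measure_mono ?_)
      intro s hs
      have hs' : φ s ∈ E := by rw [hφ]; exact hs
      exact ⟨(hφball s).1 (hE hs'), hε _ hs'⟩)
  obtain ⟨x, hx⟩ : ∃ x : Fin n → ℝ, φ x = u := by
    refine ⟨fun i => (u i - (uc i - r)) / (2 * r), ?_⟩
    funext i
    rw [hφi]
    field_simp
    ring
  have hx1 : x ∈ Set.Icc (0 : Fin n → ℝ) 1 := (hφball x).1 (by rw [hx]; exact hu)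
  have h5 := key x hx1
  rw [hx] at h5
  exact h5.trans (mul_le_mul_of_nonneg_right (hc κ θ hκ hθ hθ1) hε0)

/-! ### LEAF L-252-SQ-STEP -/

/-- PLAN.  `c₁` from `k6b_sq_line n D 1`, `c = n * c₁ + c₁`.  For `u ∈ Q` and an axis `i`: Q1 with `u`, `v = Pi.single i 1`, `a = uc i - r - u i`, `b = uc i + r - u i` (`b - a = 2 r`, `0 ∈ [a,b]`), `θ = 1`, `E = Icc a b`
(`Real.volume_Icc`), `ε = S`, `j = 1`, `s = 0`:  `u + s • Pi.single i 1 ∈ Q` for `s ∈ [a,b]` (`dist_pi_le_iff`, `Real.dist_eq`, `abs_le`; `Pi.single_apply`).  So `|(G.dv Dl e_i).val u| * (2 r) ≤ c₁ κ^c₁ S`.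
`k6b_Sheet.val_dv_sum`, `Finset.abs_sum_le_sum_abs`, `|v i| ≤ ‖v‖ ≤ 1` (`norm_le_pi_norm`), `Finset.sum_const`, `Finset.card_univ`, `Fintype.card_fin`; `k6b_cR_mono`. -/
theorem k6b_sq_step (n D : ℕ) : ∃ c : ℕ, ∀ (Dl : MvPolynomial (Fin n) ℝ) (G : k6b_Sheet n)
    (uc : Fin n → ℝ) (r κ S Δ0 : ℝ),
    G.Deg D Dl → 0 < r → 1 ≤ κ → 0 < Δ0 →
    (∀ u ∈ Metric.closedBall uc r, Δ0 / κ ≤ eval u Dl ∧ eval u Dl ≤ κ * Δ0) →
    (∀ u ∈ Metric.closedBall uc r, |G.val Dl u| ≤ S) →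
    ∀ v : Fin n → ℝ, ‖v‖ ≤ 1 → ∀ u ∈ Metric.closedBall uc r, |(G.dv Dl v).val Dl u| * r ≤ c * κ ^ c * S := by
  obtain ⟨c₁, h₁⟩ := k6b_sq_line n D 1
  refine ⟨n * c₁ + c₁, ?_⟩
  intro Dl G uc r κ S Δ0 hdeg hr hκ hΔ0 hDl hS v hv u hu
  have hS0 : 0 ≤ S := (abs_nonneg _).trans (hS u hu)
  have hu' := (k6b_mem_ball uc u hr.le).1 hu
  have haxis : ∀ i, |(G.dv Dl (Pi.single i 1)).val Dl u| * r ≤ c₁ * κ ^ c₁ * S := by
    intro i
    have hmem : ∀ s ∈ Set.Icc (uc i - r - u i) (uc i + r - u i),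
        u + s • (Pi.single i (1 : ℝ) : Fin n → ℝ) ∈ Metric.closedBall uc r := by
      intro s hs
      rw [k6b_mem_ball uc _ hr.le]
      intro j
      rw [Pi.add_apply, Pi.smul_apply]
      by_cases hj : j = i
      · subst hj
        simp only [Pi.single_eq_same, smul_eq_mul, mul_one]
        constructor <;> linarith [hs.1, hs.2]
      · simp only [Pi.single_eq_of_ne hj, smul_eq_mul, mul_zero, add_zero]
        exact hu' j
    have h2 := h₁ Dl G u (Pi.single i 1) (uc i - r - u i) (uc i + r - u i) κ 1 S Δ0 (Set.Icc _ _) hdeg (by linarith) hκ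
      one_pos le_rfl hΔ0 (fun s hs => hDl _ (hmem s hs)) measurableSet_Icc subset_rfl (by rw [Real.volume_Icc, one_mul])
      (fun s hs => hS _ (hmem s hs)) 1 le_rfl 0 ⟨by linarith [(hu' i).1], by linarith [(hu' i).2]⟩
    simp only [Function.iterate_one, zero_smul, add_zero, pow_one, div_one] at h2
    have e : uc i + r - u i - (uc i - r - u i) = 2 * r := by ring
    rw [e] at h2
    have h3 := mul_nonneg (abs_nonneg ((G.dv Dl (Pi.single i 1)).val Dl u)) hr.le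
    linarith
  rw [k6b_Sheet.val_dv_sum]
  have h4 : |∑ j, v j * (G.dv Dl (Pi.single j 1)).val Dl u| * r ≤ ∑ _j : Fin n, (c₁ * κ ^ c₁ * S) := by
    refine (mul_le_mul_of_nonneg_right (Finset.abs_sum_le_sum_abs _ _) hr.le).trans ?_
    rw [Finset.sum_mul]
    refine Finset.sum_le_sum fun j _ => ?_
    rw [abs_mul, mul_assoc]
    have h5 : |v j| ≤ 1 := by
      have := norm_le_pi_norm v j
      rw [Real.norm_eq_abs] at this
      exact this.trans hv
    have h6 := mul_nonneg (abs_nonneg ((G.dv Dl (Pi.single j 1)).val Dl u)) hr.le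
    calc |v j| * (|(G.dv Dl (Pi.single j 1)).val Dl u| * r) ≤ 1 * (|(G.dv Dl (Pi.single j 1)).val Dl u| * r) :=
          mul_le_mul_of_nonneg_right h5 h6
      _ ≤ _ := by rw [one_mul]; exact haxis j
  refine h4.trans ?_
  rw [Finset.sum_const, Finset.card_univ, Fintype.card_fin, nsmul_eq_mul, ← mul_assoc, ← mul_assoc]
  refine mul_le_mul_of_nonneg_right ?_ hS0
  have h7 : (n : ℝ) * c₁ ≤ ((n * c₁ + c₁ : ℕ) : ℝ) := by
    push_cast
    have : (0 : ℝ) ≤ c₁ := by positivity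
    linarith
  exact mul_le_mul h7 (pow_le_pow_right₀ hκ (by omega)) (by positivity) (by positivity)

/-! ### assembly -/

theorem k6b_sq_list (n D l : ℕ) : ∃ c : ℕ, ∀ (Dl : MvPolynomial (Fin n) ℝ) (F : k6b_Sheet n)
    (uc : Fin n → ℝ) (r κ S Δ0 : ℝ),
    F.Deg D Dl → 0 < r → 1 ≤ κ → 0 < Δ0 →
    (∀ u ∈ Metric.closedBall uc r, Δ0 / κ ≤ eval u Dl ∧ eval u Dl ≤ κ * Δ0) →
    (∀ u ∈ Metric.closedBall uc r, |F.val Dl u| ≤ S) →
    ∀ vs : List (Fin n → ℝ), vs.length = l → (∀ v ∈ vs, ‖v‖ ≤ 1) →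
      ∀ u ∈ Metric.closedBall uc r, |(vs.foldr (k6b_Sheet.dv Dl) F).val Dl u| * r ^ l ≤ c * κ ^ c * S := by
  induction l with
  | zero =>
    refine ⟨1, ?_⟩
    intro Dl F uc r κ S Δ0 _ _ hκ _ _ hS vs hvs _ u hu
    rw [List.length_eq_zero_iff] at hvs
    subst hvs
    have h1 := hS u hu
    have h0 : 0 ≤ S := (abs_nonneg _).trans h1
    simp only [List.foldr_nil, pow_zero, mul_one, Nat.cast_one, pow_one, one_mul]
    nlinarith
  | succ l ih =>
    obtain ⟨c₁, h₁⟩ := ih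
    obtain ⟨c₂, h₂⟩ := k6b_sq_step n (k6b_dg l D)
    refine ⟨c₂ * c₁ + c₂ + c₁, ?_⟩
    intro Dl F uc r κ S Δ0 hdeg hr hκ hΔ0 hDl hS vs hvs hv u hu
    obtain ⟨v, vs', rfl⟩ : ∃ v vs', vs = v :: vs' := by
      cases vs with
      | nil => simp at hvs
      | cons v vs' => exact ⟨v, vs', rfl⟩
    have hlen : vs'.length = l := by simpa using hvs
    have hS0 : 0 ≤ S := (abs_nonneg _).trans (hS u hu)
    have hrl : 0 < r ^ l := pow_pos hr l
    have hG : ∀ u ∈ Metric.closedBall uc r, |(vs'.foldr (k6b_Sheet.dv Dl) F).val Dl u| ≤ c₁ * κ ^ c₁ * S / r ^ l := by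
      intro u hu
      rw [le_div_iff₀ hrl]
      exact h₁ Dl F uc r κ S Δ0 hdeg hr hκ hΔ0 hDl hS vs' hlen (fun w hw => hv w (List.mem_cons_of_mem _ hw)) u hu
    have hdeg' : (vs'.foldr (k6b_Sheet.dv Dl) F).Deg (k6b_dg l D) Dl := by
      have := hdeg.foldr vs'
      rwa [hlen] at this
    have h3 := h₂ Dl (vs'.foldr (k6b_Sheet.dv Dl) F) uc r κ _ Δ0 hdeg' hr hκ hΔ0 hDl hG v (hv v List.mem_cons_self) u hu
    rw [List.foldr_cons]
    have h4 : |((vs'.foldr (k6b_Sheet.dv Dl) F).dv Dl v).val Dl u| * r ^ (l + 1)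
        = (|((vs'.foldr (k6b_Sheet.dv Dl) F).dv Dl v).val Dl u| * r) * r ^ l := by
      rw [pow_succ]; ring
    rw [h4]
    have h5 := mul_le_mul_of_nonneg_right h3 hrl.le
    have h6 : (c₂ : ℝ) * κ ^ c₂ * (c₁ * κ ^ c₁ * S / r ^ l) * r ^ l = ((c₂ : ℝ) * κ ^ c₂) * ((c₁ : ℝ) * κ ^ c₁) * S := by
      field_simp
    rw [h6] at h5
    exact h5.trans (mul_le_mul_of_nonneg_right (k6b_cR_mul c₂ c₁ hκ) hS0)

/-- **Q2** Remez with derivatives on a cube (`closedBall` of the sup norm of `Fin n → ℝ`). -/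
theorem k6b_sq_box (n D q : ℕ) : ∃ c : ℕ, ∀ (Dl : MvPolynomial (Fin n) ℝ) (F : k6b_Sheet n)
    (uc : Fin n → ℝ) (r κ θ ε Δ0 : ℝ) (E : Set (Fin n → ℝ)),
    F.Deg D Dl → 0 < r → 1 ≤ κ → 0 < θ → θ ≤ 1 → 0 < Δ0 →
    (∀ u ∈ Metric.closedBall uc r, Δ0 / κ ≤ eval u Dl ∧ eval u Dl ≤ κ * Δ0) →
    MeasurableSet E → E ⊆ Metric.closedBall uc r →
    ENNReal.ofReal (θ * (2 * r) ^ n) ≤ volume E →
    (∀ u ∈ E, |F.val Dl u| ≤ ε) →
    ∀ vs : List (Fin n → ℝ), vs.length ≤ q → (∀ v ∈ vs, ‖v‖ ≤ 1) →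
      ∀ u ∈ Metric.closedBall uc r,
        |(vs.foldr (k6b_Sheet.dv Dl) F).val Dl u| * r ^ vs.length ≤ c * (κ / θ) ^ c * ε := by
  obtain ⟨c₀, h₀⟩ := k6b_sq_sup n D
  choose cl hl using k6b_sq_list n D
  obtain ⟨C, hC⟩ : ∃ C : ℕ, C = ∑ l ∈ Finset.range (q + 1), cl l := ⟨_, rfl⟩
  refine ⟨C * c₀ + C + c₀, ?_⟩
  intro Dl F uc r κ θ ε Δ0 E hdeg hr hκ hθ hθ1 hΔ0 hDl hEm hE hvol hε vs hvs hv u hu
  have hsup := h₀ Dl F uc r κ θ ε Δ0 E hdeg hr hκ hθ hθ1 hΔ0 hDl hEm hE hvol hε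
  have h1 := hl vs.length Dl F uc r κ _ Δ0 hdeg hr hκ hΔ0 hDl hsup vs rfl hv u hu
  have hκR : κ ≤ κ / θ := by
    rw [le_div_iff₀ hθ]
    nlinarith
  have hR : 1 ≤ κ / θ := hκ.trans hκR
  have hε0 : 0 ≤ ε := by
    have hne : E.Nonempty := by
      by_contra hcon
      rw [Set.not_nonempty_iff_eq_empty] at hcon
      rw [hcon, measure_empty, nonpos_iff_eq_zero, ENNReal.ofReal_eq_zero] at hvol
      have : 0 < θ * (2 * r) ^ n := by positivity
      linarith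
    obtain ⟨t, ht⟩ := hne
    exact (abs_nonneg _).trans (hε t ht)
  have hle : cl vs.length ≤ C := by
    rw [hC]
    exact Finset.single_le_sum (f := cl) (fun _ _ => Nat.zero_le _) (Finset.mem_range.2 (by omega))
  have h2 : (cl vs.length : ℝ) * κ ^ cl vs.length ≤ (C : ℝ) * (κ / θ) ^ C :=
    (mul_le_mul_of_nonneg_left (pow_le_pow_left₀ (by linarith) hκR _) (by positivity)).trans (k6b_cR_mono hle hR)
  refine h1.trans ?_
  rw [← mul_assoc]
  refine mul_le_mul_of_nonneg_right ?_ hε0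
  exact (mul_le_mul_of_nonneg_right h2 (by positivity)).trans (k6b_cR_mul C c₀ hR)

end Claimed.Agent.R252
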