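import Claimed.Agent.R252.S6b.Form

/-!
# Row252, unit S6b, leaf L-252-S6b-T1: the cubic two-copy test      (prover helper299)

`k6b_two_copy : k6b_two_copy_stmt`.   Route: normal form (frame of `p 0, p 1, p 2`), then the symmetric tensor
`t j k l = ∂_j ∂_k ∂_l F` (a constant) instead of the ten coefficients: Euler's identity three times gives
`6 F = ∑ t j k l x_j x_k x_l`, `2 ∂_l F (x) = ∑ t j k l x_j x_k`.   `∂_l F (e_i) = t i i l / 2`: all entries with two equal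
indices are small; the entry `t 1 2 0` from `∂_0 F` at the fourth point.
-/

set_option autoImplicit false

namespace Claimed.Agent.R252

open MvPolynomial

/-- partial derivatives commute -/
theorem k6b_t1_pderiv_comm {σ : Type} (i j : σ) (F : MvPolynomial σ ℝ) :
    pderiv i (pderiv j F) = pderiv j (pderiv i F) := by
  classical
  ext m
  rw [coeff_pderiv, coeff_pderiv, coeff_pderiv, coeff_pderiv]
  by_cases h : i = j
  · subst h
    rfl
  · have e1 : (m + Finsupp.single i 1 : σ →₀ ℕ) j = m j := by simp [h]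
    have e2 : (m + Finsupp.single j 1 : σ →₀ ℕ) i = m i := by simp [Ne.symm h]
    rw [e1, e2, add_right_comm]
    ring

/-- Euler's identity, evaluated -/
theorem k6b_t1_euler_eval {P : MvPolynomial (Fin 3) ℝ} {n : ℕ} (h : P.IsHomogeneous n) (x : Fin 3 → ℝ) :
    (n : ℝ) * eval x P = ∑ i, x i * eval x (pderiv i P) := by
  have e := congrArg (eval x) h.sum_X_mul_pderiv
  rw [map_sum, map_nsmul] at e
  simp only [map_mul, eval_X, nsmul_eq_mul] at e
  exact e.symm

/-- Euler's identity, in norm -/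
theorem k6b_t1_euler_nm {P : MvPolynomial (Fin 3) ℝ} {n : ℕ} (h : P.IsHomogeneous n) :
    (n : ℝ) * rmzNm P ≤ ∑ i, rmzNm (pderiv i P) := by
  have e : C (n : ℝ) * P = ∑ i, X i * pderiv i P := by
    rw [h.sum_X_mul_pderiv, nsmul_eq_mul]
    congr 1
  have e1 : rmzNm (C (n : ℝ) * P) = (n : ℝ) * rmzNm P := by
    rw [rmz_Nm_C_mul, abs_of_nonneg (Nat.cast_nonneg n)]
  rw [← e1, e]
  refine (k6b_nm_sum _ _).trans (Finset.sum_le_sum fun i _ => ?_)
  refine (k6b_nm_mul _ _).trans ?_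
  rw [k6b_nm_X, one_mul]

/-- a form of degree zero is a constant -/
theorem k6b_t1_hom_zero {P : MvPolynomial (Fin 3) ℝ} (h : P.IsHomogeneous 0) : P = C (coeff 0 P) :=
  totalDegree_eq_zero_iff_eq_C.1 ((totalDegree_zero_iff_isHomogeneous _).2 h)

/-- **the normal form of T1** -/
theorem k6b_t1_core (F : MvPolynomial (Fin 3) ℝ) (hF : F.IsHomogeneous 3) (B ε : ℝ) (hB : 1 ≤ B)
    (y : Fin 3 → ℝ) (hy : ∀ j, |y j| ≤ B) (hy1 : B⁻¹ ≤ |y 1|) (hy2 : B⁻¹ ≤ |y 2|)
    (he : ∀ i j : Fin 3, |eval (Pi.single i 1) (pderiv j F)| ≤ ε) (h0 : |eval y (pderiv 0 F)| ≤ ε) :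
    rmzNm F ≤ 36 * B ^ 4 * ε := by
  have hε : 0 ≤ ε := (abs_nonneg _).trans h0
  have hB0 : 0 < B := by linarith
  have H2 : ∀ l, (pderiv l F).IsHomogeneous 2 := fun l => hF.pderiv
  have H1 : ∀ k l, (pderiv k (pderiv l F)).IsHomogeneous 1 := fun k l => (H2 l).pderiv
  have H0 : ∀ j k l, (pderiv j (pderiv k (pderiv l F))).IsHomogeneous 0 := fun j k l => (H1 k l).pderiv
  obtain ⟨t, ht⟩ : ∃ t : Fin 3 → Fin 3 → Fin 3 → ℝ, ∀ j k l, pderiv j (pderiv k (pderiv l F)) = C (t j k l) :=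
    ⟨fun j k l => coeff 0 (pderiv j (pderiv k (pderiv l F))), fun j k l => k6b_t1_hom_zero (H0 j k l)⟩
  -- symmetry
  have s1 : ∀ j k l, t j k l = t k j l := by
    intro j k l
    have := ht j k l
    rw [k6b_t1_pderiv_comm, ht k j l] at this
    exact (C_injective _ _ this).symm
  have s2 : ∀ j k l, t j k l = t j l k := by
    intro j k l
    have := ht j k l
    rw [k6b_t1_pderiv_comm k l, ht j l k] at this
    exact (C_injective _ _ this).symm
  -- values
  have v1 : ∀ (x : Fin 3 → ℝ) k l, eval x (pderiv k (pderiv l F)) = ∑ j, x j * t j k l := by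
    intro x k l
    have := k6b_t1_euler_eval (H1 k l) x
    simp only [ht, eval_C, Nat.cast_one, one_mul] at this
    exact this
  have v2 : ∀ (x : Fin 3 → ℝ) l, 2 * eval x (pderiv l F) = ∑ k, x k * ∑ j, x j * t j k l := by
    intro x l
    have := k6b_t1_euler_eval (H2 l) x
    simp only [v1, Nat.cast_ofNat] at this
    exact this
  -- two equal indices
  have hii : ∀ i l, |t i i l| ≤ 2 * ε := by
    intro i l
    have h1 := v2 (Pi.single i 1) l
    have h2 : ∑ k, (Pi.single i 1 : Fin 3 → ℝ) k * ∑ j, (Pi.single i 1 : Fin 3 → ℝ) j * t j k l = t i i l := by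
      simp [Pi.single_apply]
    rw [h2] at h1
    rw [← h1, abs_mul, abs_two]
    linarith [he i l]
  have hpair : ∀ j k l, (j = k ∨ k = l ∨ j = l) → |t j k l| ≤ 2 * ε := by
    rintro j k l (h | h | h)
    · subst h
      exact hii j l
    · subst h
      rw [s1, s2]
      exact hii k j
    · subst h
      rw [s2]
      exact hii j k
  have hterm : ∀ a b j k l, (j = k ∨ k = l ∨ j = l) → |y a * y b * t j k l| ≤ B ^ 2 * (2 * ε) := by
    intro a b j k l h
    rw [abs_mul, abs_mul, sq]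
    exact mul_le_mul (mul_le_mul (hy a) (hy b) (abs_nonneg _) hB0.le) (hpair j k l h) (abs_nonneg _) (by positivity)
  -- the last entry
  have h120 : |t 1 2 0| ≤ 8 * B ^ 4 * ε := by
    have h1 := v2 y 0
    simp only [Fin.sum_univ_three] at h1
    rw [s1 2 1 0] at h1
    have a1 := abs_le.1 (hterm 0 0 0 0 0 (Or.inl rfl))
    have a2 := abs_le.1 (hterm 0 1 1 0 0 (Or.inr (Or.inl rfl)))
    have a3 := abs_le.1 (hterm 0 2 2 0 0 (Or.inr (Or.inl rfl)))
    have a4 := abs_le.1 (hterm 1 0 0 1 0 (Or.inr (Or.inr rfl)))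
    have a5 := abs_le.1 (hterm 1 1 1 1 0 (Or.inl rfl))
    have a6 := abs_le.1 (hterm 2 0 0 2 0 (Or.inr (Or.inr rfl)))
    have a7 := abs_le.1 (hterm 2 2 2 2 0 (Or.inl rfl))
    have a0 := abs_le.1 h0
    have h2 : |y 1 * y 2 * t 1 2 0| ≤ ε + 7 * B ^ 2 * ε := by
      rw [abs_le]
      constructor <;> nlinarith [a1.1, a1.2, a2.1, a2.2, a3.1, a3.2, a4.1, a4.2, a5.1, a5.2, a6.1, a6.2, a7.1, a7.2, a0.1, a0.2]
    rw [abs_mul, abs_mul] at h2
    have h3 : B⁻¹ * B⁻¹ * |t 1 2 0| ≤ |y 1| * |y 2| * |t 1 2 0| :=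
      mul_le_mul_of_nonneg_right (mul_le_mul hy1 hy2 (by positivity) (abs_nonneg _)) (abs_nonneg _)
    have h4 : |t 1 2 0| = B ^ 2 * (B⁻¹ * B⁻¹ * |t 1 2 0|) := by
      field_simp
    have h5 : B ^ 2 * (B⁻¹ * B⁻¹ * |t 1 2 0|) ≤ B ^ 2 * (ε + 7 * B ^ 2 * ε) :=
      mul_le_mul_of_nonneg_left (h3.trans h2) (by positivity)
    have h6 : B ^ 2 ≤ B ^ 4 := pow_le_pow_right₀ hB (by norm_num)
    have h7 : B ^ 2 * ε ≤ B ^ 4 * ε := mul_le_mul_of_nonneg_right h6 hε
    rw [h4]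
    nlinarith
  have hsmall : 2 * ε ≤ 8 * B ^ 4 * ε := by
    have : 1 ≤ B ^ 4 := one_le_pow₀ hB
    nlinarith
  have hall : ∀ j k l, |t j k l| ≤ 8 * B ^ 4 * ε := by
    intro j k l
    by_cases h : j = k ∨ k = l ∨ j = l
    · exact (hpair j k l h).trans hsmall
    · obtain ⟨n1, h'⟩ := not_or.1 h
      obtain ⟨n2, n3⟩ := not_or.1 h'
      have : t j k l = t 1 2 0 := by
        fin_cases j <;> fin_cases k <;> fin_cases l <;> first
          | exact absurd rfl n1
          | exact absurd rfl n2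
          | exact absurd rfl n3
          | rfl
          | exact s1 _ _ _
          | exact s2 _ _ _
          | exact (s2 _ _ _).trans (s1 _ _ _)
          | exact (s1 _ _ _).trans (s2 _ _ _)
          | exact (s1 _ _ _).trans ((s2 _ _ _).trans (s1 _ _ _))
      rw [this]
      exact h120
  -- norms
  have n1 : ∀ k l, rmzNm (pderiv k (pderiv l F)) ≤ 3 * (8 * B ^ 4 * ε) := by
    intro k l
    have := k6b_t1_euler_nm (H1 k l)
    simp only [ht, k6b_nm_C, Nat.cast_one, one_mul, Fin.sum_univ_three] at this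
    linarith [hall 0 k l, hall 1 k l, hall 2 k l]
  have n2 : ∀ l, 2 * rmzNm (pderiv l F) ≤ 9 * (8 * B ^ 4 * ε) := by
    intro l
    have := k6b_t1_euler_nm (H2 l)
    simp only [Nat.cast_ofNat, Fin.sum_univ_three] at this
    linarith [n1 0 l, n1 1 l, n1 2 l]
  have n3 := k6b_t1_euler_nm hF
  simp only [Nat.cast_ofNat, Fin.sum_univ_three] at n3
  linarith [n2 0, n2 1, n2 2]

theorem k6b_t1_det_a (y : Fin 3 → ℝ) : (k6b_frame y (Pi.single 0 1) (Pi.single 2 1)).det = - y 1 := by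
  rw [Matrix.det_fin_three]
  simp [k6b_frame, Matrix.transpose_apply, Matrix.of_apply]

theorem k6b_t1_det_b (y : Fin 3 → ℝ) : (k6b_frame y (Pi.single 0 1) (Pi.single 1 1)).det = y 2 := by
  rw [Matrix.det_fin_three]
  simp [k6b_frame, Matrix.transpose_apply, Matrix.of_apply]

/-- **T1** -/
theorem k6b_two_copy : k6b_two_copy_stmt := by
  refine ⟨54, fun A ε p F hA hp hF hε => ?_⟩
  have hA0 : 0 < A := by linarith
  have hA1 : 1 ≤ A := by linarith
  have hε0 : 0 ≤ ε := (abs_nonneg _).trans (hε 0 0)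
  obtain ⟨hGP, e0, e1, e2, hG, hGi, hGGi, -⟩ :=
    k6b_GP_frame hA hp 0 1 2 (by decide) (by decide) (by decide)
  set G := k6b_frame (p 0) (p 1) (p 2) with hGdef
  have hF' : (k6b_sub G F).IsHomogeneous 3 := k6b_sub_hom G hF
  have hB : 1 ≤ 9 * A ^ 4 := by
    have : 1 ≤ A ^ 4 := one_le_pow₀ hA1
    linarith
  -- the gradient of the new form at the new points
  have hgrad : ∀ (i : Fin 4) (j : Fin 3), |eval (G⁻¹.mulVec (p i)) (pderiv j (k6b_sub G F))| ≤ 3 * A * ε := by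
    intro i j
    have hGy : G.mulVec (G⁻¹.mulVec (p i)) = p i := by
      rw [Matrix.mulVec_mulVec, hGGi, Matrix.one_mulVec]
    rw [k6b_sub_pderiv, map_sum]
    simp only [map_mul, eval_C, k6b_sub_eval, hGy, Fin.sum_univ_three]
    have b : ∀ i', |G i' j * eval (p i) (pderiv i' F)| ≤ A * ε := fun i' => by
      rw [abs_mul]
      exact mul_le_mul (hG i' j) (hε i i') (abs_nonneg _) hA0.le
    have b0 := abs_le.1 (b 0)
    have b1 := abs_le.1 (b 1)
    have b2 := abs_le.1 (b 2)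
    rw [abs_le]
    constructor <;> linarith [b0.1, b0.2, b1.1, b1.2, b2.1, b2.2]
  have he : ∀ i j : Fin 3, |eval (Pi.single i 1) (pderiv j (k6b_sub G F))| ≤ 3 * A * ε := by
    intro i j
    have hs : ∃ i' : Fin 4, G⁻¹.mulVec (p i') = Pi.single i 1 := by
      fin_cases i
      exacts [⟨0, e0⟩, ⟨1, e1⟩, ⟨2, e2⟩]
    obtain ⟨i', hi'⟩ := hs
    rw [← hi']
    exact hgrad i' j
  have hy1 : (9 * A ^ 4)⁻¹ ≤ |G⁻¹.mulVec (p 3) 1| := by
    have h := hGP.det 3 0 2 (by decide) (by decide) (by decide)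
    simp only [e0, e2] at h
    rwa [k6b_t1_det_a, abs_neg] at h
  have hy2 : (9 * A ^ 4)⁻¹ ≤ |G⁻¹.mulVec (p 3) 2| := by
    have h := hGP.det 3 0 1 (by decide) (by decide) (by decide)
    simp only [e0, e1] at h
    rwa [k6b_t1_det_b] at h
  have hcore := k6b_t1_core (k6b_sub G F) hF' (9 * A ^ 4) (3 * A * ε) hB (G⁻¹.mulVec (p 3)) (hGP.bd 3) hy1 hy2 he
    (hgrad 3 0)
  have hback : k6b_sub G⁻¹ (k6b_sub G F) = F := by rw [k6b_sub_comp, hGGi, k6b_sub_one]
  have hnorm := k6b_sub_norm G⁻¹ hF' (2 * A ^ 3) hGi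
  rw [hback] at hnorm
  have h1 : rmzNm F ≤ (3 * (2 * A ^ 3)) ^ 3 * (36 * (9 * A ^ 4) ^ 4 * (3 * A * ε)) :=
    hnorm.trans (mul_le_mul_of_nonneg_left hcore (by positivity))
  have h2 : (3 * (2 * A ^ 3)) ^ 3 * (36 * (9 * A ^ 4) ^ 4 * (3 * A * ε)) = 153055008 * (A ^ 26 * ε) := by ring
  have h3 : (153055008 : ℝ) ≤ A ^ 28 := by
    have : (2 : ℝ) ^ 28 ≤ A ^ 28 := pow_le_pow_left₀ (by norm_num) hA 28
    norm_num at this
    linarith
  have h4 : 153055008 * (A ^ 26 * ε) ≤ A ^ 28 * (A ^ 26 * ε) := mul_le_mul_of_nonneg_right h3 (by positivity)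
  have h5 : A ^ 28 * (A ^ 26 * ε) = A ^ 54 * ε := by ring
  have h6 : 0 ≤ A ^ 54 * ε := by positivity
  push_cast
  rw [h2] at h1
  nlinarith

end Claimed.Agent.R252
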