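import Claimed.Agent.R252.S6b.V2Defs
import Claimed.Agent.R252.S6b.SqBox
import Claimed.Agent.R252.S6b.TwoCopy

/-!
# Row252, unit S6b, part F, leaf R2 (a05:third-f)      (helper250)
`k6b_third_of : k6b_jet_stmt → k6b_third_stmt`:  `k6b_sq_box` (`q = 1`) for the sheets `D²_{v_i} f`, the jet calculus J(1), J(3), and T1 `k6b_two_copy`.
-/

set_option autoImplicit false

namespace Claimed.Agent.R252

open MeasureTheory MvPolynomial
open scoped ENNReal BigOperators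

noncomputable section

theorem k6b_third_of (hJ : k6b_jet_stmt) : k6b_third_stmt := by
  intro D
  obtain ⟨c₁, h₁⟩ := k6b_sq_box 3 (2 * (2 * D + 1) + 1) 1
  obtain ⟨c₂, h₂⟩ := k6b_two_copy
  refine ⟨3 * c₁ * c₂ + c₁ + c₂ + 1, ?_⟩
  intro Dl f uc r κ Δ0 θ A ε v E hdeg hr hr1 hκ hΔ0 hθ hθ1 hA hDl hGP hEm hE hvol hε u hu
  -- `ε ≥ 0`
  have hne : E.Nonempty := by
    by_contra hcon
    rw [Set.not_nonempty_iff_eq_empty] at hcon
    rw [hcon, measure_empty, nonpos_iff_eq_zero, ENNReal.ofReal_eq_zero] at hvol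
    have : 0 < θ * (2 * r) ^ 3 := by positivity
    linarith
  obtain ⟨u1, hu1⟩ := hne
  have hε0 : 0 ≤ ε := le_trans (abs_nonneg _) (hε u1 hu1 0)
  obtain ⟨hhom, -, hpd, -, -, -⟩ := hJ 3 Dl f 2 u
  have hhom3 : (k6b_jet Dl f 3 u).IsHomogeneous 3 := (hJ 3 Dl f 3 u).1
  set X : ℝ := A * κ / (θ * r) with hX
  have hθr : 0 < θ * r := by positivity
  have hθr1 : θ * r ≤ 1 := by nlinarith
  have hA1 : (1 : ℝ) ≤ A := by linarith
  have hXA : A ≤ X := by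
    rw [hX, le_div_iff₀ hθr]
    have h1 : A * (θ * r) ≤ A * 1 := mul_le_mul_of_nonneg_left hθr1 (by linarith)
    have h2 : A * 1 ≤ A * κ := mul_le_mul_of_nonneg_left hκ (by linarith)
    linarith
  have hX1 : 1 ≤ X := hA1.trans hXA
  have hXκ : κ / θ ≤ X := by
    rw [hX, div_le_div_iff₀ hθ hθr]
    have h1 : κ * (θ * r) ≤ κ * (θ * 1) := by
      refine mul_le_mul_of_nonneg_left ?_ (by linarith)
      exact mul_le_mul_of_nonneg_left hr1 hθ.le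
    have h2 : 1 * (κ * θ) ≤ A * (κ * θ) := mul_le_mul_of_nonneg_right hA1 (by positivity)
    nlinarith
  have hXr : 1 / r ≤ X := by
    rw [hX, div_le_div_iff₀ hr hθr]
    have h1 : θ * r ≤ 1 * r := mul_le_mul_of_nonneg_right hθ1 hr.le
    have h2 : 1 * r ≤ A * κ * r := by
      refine mul_le_mul_of_nonneg_right ?_ hr.le
      nlinarith
    linarith
  have hκθ0 : 0 ≤ κ / θ := by positivity
  -- the gradient of the cubic form at the four points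
  have hgrad : ∀ i j, |eval (v i) (pderiv j (k6b_jet Dl f 3 u))| ≤ 3 * ((c₁ : ℝ) * X ^ c₁ * X) * ε := by
    intro i j
    have hd : ((f.dv Dl (v i)).dv Dl (v i)).Deg (2 * (2 * D + 1) + 1) Dl := (hdeg.dv (v i)).dv (v i)
    have hb := h₁ Dl ((f.dv Dl (v i)).dv Dl (v i)) uc r κ θ ε Δ0 E hd hr hκ hθ hθ1 hΔ0 hDl hEm hE hvol (fun u hu => hε u hu i)
      [Pi.single j 1] (by simp) (by
        intro x hx
        rw [List.mem_singleton] at hx
        rw [hx, pi_norm_le_iff_of_nonneg zero_le_one]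
        intro k
        by_cases hk : k = j
        · subst hk; simp
        · rw [Pi.single_eq_of_ne hk]; simp) u hu
    rw [List.foldr_cons, List.foldr_nil, List.length_singleton, pow_one] at hb
    have e := hpd (v i) j
    have e2 : ((k6b_Sheet.dv Dl (v i))^[2]) f = (f.dv Dl (v i)).dv Dl (v i) := rfl
    rw [e2] at e
    have e3 : k6b_jet Dl f (2 + 1) u = k6b_jet Dl f 3 u := rfl
    rw [e3] at e
    rw [e, abs_mul]
    have h3 : |(((2 : ℕ) : ℝ) + 1)| = 3 := by norm_num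
    rw [h3]
    set val := |(k6b_Sheet.dv Dl (Pi.single j 1) ((f.dv Dl (v i)).dv Dl (v i))).val Dl u| with hval
    have h4 : val ≤ (c₁ : ℝ) * (κ / θ) ^ c₁ * ε * (1 / r) := by
      rw [mul_one_div, le_div_iff₀ hr]; exact hb
    have h5 : (c₁ : ℝ) * (κ / θ) ^ c₁ * ε * (1 / r) ≤ (c₁ : ℝ) * X ^ c₁ * ε * X := by
      refine mul_le_mul ?_ hXr (by positivity) (by positivity)
      refine mul_le_mul_of_nonneg_right ?_ hε0
      exact mul_le_mul_of_nonneg_left (pow_le_pow_left₀ hκθ0 hXκ _) (by positivity)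
    calc 3 * val ≤ 3 * ((c₁ : ℝ) * X ^ c₁ * ε * X) := by linarith
      _ = 3 * ((c₁ : ℝ) * X ^ c₁ * X) * ε := by ring
  have hfin := h₂ A (3 * ((c₁ : ℝ) * X ^ c₁ * X) * ε) v (k6b_jet Dl f 3 u) hA hGP hhom3 hgrad
  refine hfin.trans ?_
  have h6 : (c₂ : ℝ) * A ^ c₂ ≤ (c₂ : ℝ) * X ^ c₂ :=
    mul_le_mul_of_nonneg_left (pow_le_pow_left₀ (by linarith) hXA _) (by positivity)
  have h7 : (c₂ : ℝ) * X ^ c₂ * (3 * ((c₁ : ℝ) * X ^ c₁ * X))
      ≤ ((3 * c₁ * c₂ + c₁ + c₂ + 1 : ℕ) : ℝ) * X ^ (3 * c₁ * c₂ + c₁ + c₂ + 1) := by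
    have e : (c₂ : ℝ) * X ^ c₂ * (3 * ((c₁ : ℝ) * X ^ c₁ * X)) = ((3 * c₁ * c₂ : ℕ) : ℝ) * X ^ (c₁ + c₂ + 1) := by
      push_cast
      rw [pow_succ, pow_add]
      ring
    rw [e]
    exact mul_le_mul (by exact_mod_cast (by omega : 3 * c₁ * c₂ ≤ 3 * c₁ * c₂ + c₁ + c₂ + 1)) (pow_le_pow_right₀ hX1 (by omega))
      (by positivity) (by positivity)
  calc (c₂ : ℝ) * A ^ c₂ * (3 * ((c₁ : ℝ) * X ^ c₁ * X) * ε)
      ≤ (c₂ : ℝ) * X ^ c₂ * (3 * ((c₁ : ℝ) * X ^ c₁ * X) * ε) := mul_le_mul_of_nonneg_right h6 (by positivity)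
    _ = (c₂ : ℝ) * X ^ c₂ * (3 * ((c₁ : ℝ) * X ^ c₁ * X)) * ε := by ring
    _ ≤ _ := mul_le_mul_of_nonneg_right h7 hε0

end

end Claimed.Agent.R252
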