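import Claimed.Agent.R252.S6b.SelectDefs

/-!
# Row252, unit S6b, part E, leaf S2: palette averaging fixes one tuple      (helper250)
`k6b_tuple : k6b_tuple_stmt`.
-/

set_option autoImplicit false

namespace Claimed.Agent.R252

open MeasureTheory MvPolynomial
open scoped ENNReal BigOperators

noncomputable section

theorem k6b_tuple : k6b_tuple_stmt := by
  classical
  intro S B _ _ r M p pal K GP hM hp hpal hK hpos hdom hlow
  set GPs : Finset (Fin r → B) := (Finset.univ : Finset (Fin r → B)).filter GP with hGPs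
  set W : (Fin r → B) → ℝ := fun J => ∏ i, pal (J i) with hWdef
  set G : (Fin r → B) → Finset S := fun J => Finset.univ.filter (fun s => ∀ i, 0 < p s (J i)) with hGdef
  set A : (Fin r → B) → ℝ := fun J => ∑ s ∈ G J, M s with hAdef
  have hW : ∀ J, 0 ≤ W J := fun J => Finset.prod_nonneg fun i _ => hpal _
  have hA : ∀ J, 0 ≤ A J := fun J => Finset.sum_nonneg fun s _ => hM s
  have hKr : 0 ≤ K ^ r := pow_nonneg hK r
  have h1 : ∀ s J, ∏ i, p s (J i) ≤ K ^ r * W J * M s ^ r * (if s ∈ G J then 1 else 0) := by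
    intro s J
    by_cases hs : s ∈ G J
    · rw [if_pos hs, mul_one]
      calc ∏ i, p s (J i) ≤ ∏ i, (K * pal (J i) * M s) :=
            Finset.prod_le_prod (fun i _ => hp _ _) (fun i _ => hdom _ _)
        _ = K ^ r * W J * M s ^ r := by
          rw [Finset.prod_mul_distrib, Finset.prod_mul_distrib, Finset.prod_const, Finset.prod_const]
          simp [hWdef]
    · rw [if_neg hs, mul_zero]
      have h : ∃ i, ¬ 0 < p s (J i) := by
        by_contra hcon
        push Not at hcon
        exact hs (Finset.mem_filter.2 ⟨Finset.mem_univ _, hcon⟩)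
      obtain ⟨i, hi⟩ := h
      have h0 : p s (J i) = 0 := le_antisymm (not_lt.1 hi) (hp _ _)
      exact (Finset.prod_eq_zero (Finset.mem_univ i) h0).le
  have h2 : ∀ s, M s ≤ 2 * K ^ r * ∑ J ∈ GPs, W J * (if s ∈ G J then M s else 0) := by
    intro s
    rcases (hM s).eq_or_lt with h0 | h0
    · rw [← h0]; simp
    · have h3 := hlow s
      have h4 : ∑ J ∈ GPs, ∏ i, p s (J i)
          ≤ M s ^ r * (K ^ r * ∑ J ∈ GPs, W J * (if s ∈ G J then 1 else 0)) := by
        rw [Finset.mul_sum, Finset.mul_sum]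
        exact Finset.sum_le_sum fun J _ => (h1 s J).trans (le_of_eq (by ring))
      have h5 : M s ^ r * 1 ≤ M s ^ r * (2 * (K ^ r * ∑ J ∈ GPs, W J * (if s ∈ G J then 1 else 0))) := by
        have : M s ^ r * (2 * (K ^ r * ∑ J ∈ GPs, W J * (if s ∈ G J then (1 : ℝ) else 0)))
            = 2 * (M s ^ r * (K ^ r * ∑ J ∈ GPs, W J * (if s ∈ G J then 1 else 0))) := by ring
        rw [this, mul_one]
        linarith
      have h6 := le_of_mul_le_mul_left h5 (pow_pos h0 r)
      calc M s = M s * 1 := (mul_one _).symm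
        _ ≤ M s * (2 * (K ^ r * ∑ J ∈ GPs, W J * (if s ∈ G J then 1 else 0))) :=
            mul_le_mul_of_nonneg_left h6 h0.le
        _ = 2 * K ^ r * (M s * ∑ J ∈ GPs, W J * (if s ∈ G J then 1 else 0)) := by ring
        _ = 2 * K ^ r * ∑ J ∈ GPs, W J * (if s ∈ G J then M s else 0) := by
            rw [Finset.mul_sum]
            congr 1
            refine Finset.sum_congr rfl fun J _ => ?_
            split_ifs <;> ring
  have h3 : ∑ s, M s ≤ 2 * K ^ r * ∑ J ∈ GPs, W J * A J := by
    calc ∑ s, M s ≤ ∑ s, 2 * K ^ r * ∑ J ∈ GPs, W J * (if s ∈ G J then M s else 0) :=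
          Finset.sum_le_sum fun s _ => h2 s
      _ = 2 * K ^ r * ∑ J ∈ GPs, W J * A J := by
          rw [← Finset.mul_sum, Finset.sum_comm]
          congr 1
          refine Finset.sum_congr rfl fun J _ => ?_
          rw [← Finset.mul_sum]
          congr 1
          rw [hAdef]
          simp only
          rw [Finset.sum_ite_mem, Finset.univ_inter]
  have hne : GPs.Nonempty := by
    by_contra hcon
    rw [Finset.not_nonempty_iff_eq_empty] at hcon
    rw [hcon] at h3
    simp at h3
    linarith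
  obtain ⟨J, hJ, hmax⟩ := Finset.exists_max_image GPs A hne
  refine ⟨J, (Finset.mem_filter.1 hJ).2, ?_⟩
  have hsumW : ∑ J ∈ GPs, W J ≤ (∑ b, pal b) ^ r := by
    have e : (∑ b, pal b) ^ r = ∑ J : Fin r → B, W J := by
      have := Finset.prod_univ_sum (fun _ : Fin r => (Finset.univ : Finset B)) (fun _ b => pal b)
      rw [Finset.prod_const, Finset.card_univ, Fintype.card_fin, Fintype.piFinset_univ] at this
      exact this
    rw [e]
    exact Finset.sum_le_sum_of_subset_of_nonneg (Finset.filter_subset _ _) fun J _ _ => hW J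
  calc ∑ s, M s ≤ 2 * K ^ r * ∑ J' ∈ GPs, W J' * A J' := h3
    _ ≤ 2 * K ^ r * ∑ J' ∈ GPs, W J' * A J := by
        refine mul_le_mul_of_nonneg_left ?_ (by positivity)
        exact Finset.sum_le_sum fun J' hJ' => mul_le_mul_of_nonneg_left (hmax J' hJ') (hW J')
    _ = 2 * K ^ r * ((∑ J' ∈ GPs, W J') * A J) := by rw [Finset.sum_mul]
    _ ≤ 2 * K ^ r * ((∑ b, pal b) ^ r * A J) := by
        refine mul_le_mul_of_nonneg_left ?_ (by positivity)
        exact mul_le_mul_of_nonneg_right hsumW (hA J)
    _ = 2 * K ^ r * (∑ b, pal b) ^ r * A J := by ring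

end

end Claimed.Agent.R252
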