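import Claimed.Agent.R252.S6b.SelectDefs
import Claimed.Agent.R252.S6b.SqKit
import Claimed.Agent.R252.Remez.Mv

/-!
# Row252, unit S6b, leaf V1b: four directions determine a binary cubic   (helper260; prefix `k6b_v1c_`)

`k6b_v1_core : k6b_v1_core_stmt`.  Remez on the box for the four polynomials `D_{v_i}³ P`; Lagrange interpolation of binary cubic forms at the four
directions bounds the four third partials on the box; Remez on the unit cube bounds their coefficient norms; a coefficient of a monomial of degree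
`≥ 3` of `P` is bounded by a coefficient of a third partial.
-/

set_option autoImplicit false

namespace Claimed.Agent.R252

open MeasureTheory MvPolynomial
open scoped ENNReal BigOperators

noncomputable section

/-! ## 1. binary cubic forms -/

set_option maxHeartbeats 1000000 in
/-- Lagrange interpolation of a binary cubic form at four pairwise independent directions. -/
theorem k6b_v1c_lagrange (a0 a1 a2 a3 b0 b1 b2 b3 x y q0 q1 q2 q3 : ℝ)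
    (h01 : a0 * b1 - b0 * a1 ≠ 0) (h02 : a0 * b2 - b0 * a2 ≠ 0) (h03 : a0 * b3 - b0 * a3 ≠ 0)
    (h12 : a1 * b2 - b1 * a2 ≠ 0) (h13 : a1 * b3 - b1 * a3 ≠ 0) (h23 : a2 * b3 - b2 * a3 ≠ 0) :
    x ^ 3 * q0 + 3 * x ^ 2 * y * q1 + 3 * x * y ^ 2 * q2 + y ^ 3 * q3
      = (a0 ^ 3 * q0 + 3 * a0 ^ 2 * b0 * q1 + 3 * a0 * b0 ^ 2 * q2 + b0 ^ 3 * q3)
          * ((a1 * y - b1 * x) * (a2 * y - b2 * x) * (a3 * y - b3 * x)
            / (-(a0 * b1 - b0 * a1) * -(a0 * b2 - b0 * a2) * -(a0 * b3 - b0 * a3)))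
        + (a1 ^ 3 * q0 + 3 * a1 ^ 2 * b1 * q1 + 3 * a1 * b1 ^ 2 * q2 + b1 ^ 3 * q3)
          * ((a0 * y - b0 * x) * (a2 * y - b2 * x) * (a3 * y - b3 * x)
            / ((a0 * b1 - b0 * a1) * -(a1 * b2 - b1 * a2) * -(a1 * b3 - b1 * a3)))
        + (a2 ^ 3 * q0 + 3 * a2 ^ 2 * b2 * q1 + 3 * a2 * b2 ^ 2 * q2 + b2 ^ 3 * q3)
          * ((a0 * y - b0 * x) * (a1 * y - b1 * x) * (a3 * y - b3 * x)
            / ((a0 * b2 - b0 * a2) * (a1 * b2 - b1 * a2) * -(a2 * b3 - b2 * a3)))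
        + (a3 ^ 3 * q0 + 3 * a3 ^ 2 * b3 * q1 + 3 * a3 * b3 ^ 2 * q2 + b3 ^ 3 * q3)
          * ((a0 * y - b0 * x) * (a1 * y - b1 * x) * (a2 * y - b2 * x)
            / ((a0 * b3 - b0 * a3) * (a1 * b3 - b1 * a3) * (a2 * b3 - b2 * a3))) := by
  field_simp
  ring

/-- one term of the interpolation formula. -/
theorem k6b_v1c_term (g n1 n2 n3 d1 d2 d3 K η : ℝ) (hK : 1 ≤ K) (hg : |g| ≤ η) (h1 : |n1| ≤ 2 * K)
    (h2 : |n2| ≤ 2 * K) (h3 : |n3| ≤ 2 * K) (e1 : 1 ≤ K * |d1|) (e2 : 1 ≤ K * |d2|)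
    (e3 : 1 ≤ K * |d3|) : |g * (n1 * n2 * n3 / (d1 * d2 * d3))| ≤ 8 * K ^ 6 * η := by
  have hK0 : 0 < K := by linarith
  have hη : 0 ≤ η := (abs_nonneg _).trans hg
  have p1 : 0 < |d1| := by
    by_contra h
    have : |d1| = 0 := le_antisymm (not_lt.1 h) (abs_nonneg _)
    rw [this] at e1
    linarith
  have p2 : 0 < |d2| := by
    by_contra h
    have : |d2| = 0 := le_antisymm (not_lt.1 h) (abs_nonneg _)
    rw [this] at e2
    linarith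
  have p3 : 0 < |d3| := by
    by_contra h
    have : |d3| = 0 := le_antisymm (not_lt.1 h) (abs_nonneg _)
    rw [this] at e3
    linarith
  have i1 : |d1|⁻¹ ≤ K := by
    rw [inv_le_iff_one_le_mul₀ p1]
    linarith [mul_comm K |d1|]
  have i2 : |d2|⁻¹ ≤ K := by
    rw [inv_le_iff_one_le_mul₀ p2]
    linarith [mul_comm K |d2|]
  have i3 : |d3|⁻¹ ≤ K := by
    rw [inv_le_iff_one_le_mul₀ p3]
    linarith [mul_comm K |d3|]
  rw [abs_mul, abs_div, abs_mul, abs_mul, abs_mul, abs_mul, div_eq_mul_inv, mul_inv, mul_inv]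
  calc |g| * (|n1| * |n2| * |n3| * (|d1|⁻¹ * |d2|⁻¹ * |d3|⁻¹))
      ≤ η * (2 * K * (2 * K) * (2 * K) * (K * K * K)) := by gcongr
    _ = 8 * K ^ 6 * η := by ring

theorem k6b_v1c_lin (a b x y K : ℝ) (ha : |a| ≤ K) (hb : |b| ≤ K) (hx : |x| ≤ 1) (hy : |y| ≤ 1) :
    |a * y - b * x| ≤ 2 * K := by
  have hK : 0 ≤ K := (abs_nonneg _).trans ha
  calc |a * y - b * x| ≤ |a * y| + |b * x| := abs_sub _ _
    _ = |a| * |y| + |b| * |x| := by rw [abs_mul, abs_mul]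
    _ ≤ K * 1 + K * 1 := by gcongr
    _ = 2 * K := by ring

/-- a binary cubic form which is small at four separated directions is small on the unit square. -/
theorem k6b_v1c_form (a b : Fin 4 → ℝ) (q0 q1 q2 q3 K η : ℝ) (hK : 1 ≤ K) (ha : ∀ i, |a i| ≤ K)
    (hb : ∀ i, |b i| ≤ K) (hd : ∀ i j, i ≠ j → 1 ≤ K * |a i * b j - b i * a j|)
    (hg : ∀ i, |a i ^ 3 * q0 + 3 * a i ^ 2 * b i * q1 + 3 * a i * b i ^ 2 * q2 + b i ^ 3 * q3| ≤ η)
    (x y : ℝ) (hx : |x| ≤ 1) (hy : |y| ≤ 1) :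
    |x ^ 3 * q0 + 3 * x ^ 2 * y * q1 + 3 * x * y ^ 2 * q2 + y ^ 3 * q3| ≤ 32 * K ^ 6 * η := by
  have hne : ∀ i j, i ≠ j → a i * b j - b i * a j ≠ 0 := by
    intro i j hij h0
    have := hd i j hij
    rw [h0, abs_zero, mul_zero] at this
    linarith
  have hl := fun i => k6b_v1c_lin (a i) (b i) x y K (ha i) (hb i) hx hy
  have hd' : ∀ i j, i ≠ j → 1 ≤ K * |-(a i * b j - b i * a j)| := fun i j hij => by
    rw [abs_neg]
    exact hd i j hij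
  rw [k6b_v1c_lagrange (a 0) (a 1) (a 2) (a 3) (b 0) (b 1) (b 2) (b 3) x y q0 q1 q2 q3
    (hne 0 1 (by decide)) (hne 0 2 (by decide)) (hne 0 3 (by decide)) (hne 1 2 (by decide))
    (hne 1 3 (by decide)) (hne 2 3 (by decide))]
  have t0 := k6b_v1c_term _ _ _ _ _ _ _ K η hK (hg 0) (hl 1) (hl 2) (hl 3) (hd' 0 1 (by decide))
    (hd' 0 2 (by decide)) (hd' 0 3 (by decide))
  have t1 := k6b_v1c_term _ _ _ _ _ _ _ K η hK (hg 1) (hl 0) (hl 2) (hl 3) (hd 0 1 (by decide))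
    (hd' 1 2 (by decide)) (hd' 1 3 (by decide))
  have t2 := k6b_v1c_term _ _ _ _ _ _ _ K η hK (hg 2) (hl 0) (hl 1) (hl 3) (hd 0 2 (by decide))
    (hd 1 2 (by decide)) (hd' 2 3 (by decide))
  have t3 := k6b_v1c_term _ _ _ _ _ _ _ K η hK (hg 3) (hl 0) (hl 1) (hl 2) (hd 0 3 (by decide))
    (hd 1 3 (by decide)) (hd 2 3 (by decide))
  refine (abs_add_le _ _).trans ?_
  refine (add_le_add ((abs_add_le _ _).trans (add_le_add (abs_add_le _ _) le_rfl)) le_rfl).trans ?_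
  linarith

/-- the four coefficients. -/
theorem k6b_v1c_coef (a b : Fin 4 → ℝ) (q0 q1 q2 q3 K η : ℝ) (hK : 1 ≤ K) (ha : ∀ i, |a i| ≤ K)
    (hb : ∀ i, |b i| ≤ K) (hd : ∀ i j, i ≠ j → 1 ≤ K * |a i * b j - b i * a j|)
    (hg : ∀ i, |a i ^ 3 * q0 + 3 * a i ^ 2 * b i * q1 + 3 * a i * b i ^ 2 * q2 + b i ^ 3 * q3| ≤ η) :
    |q0| ≤ 32 * K ^ 6 * η ∧ |q1| ≤ 32 * K ^ 6 * η ∧ |q2| ≤ 32 * K ^ 6 * η ∧ |q3| ≤ 32 * K ^ 6 * η := by
  have hf := k6b_v1c_form a b q0 q1 q2 q3 K η hK ha hb hd hg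
  have f10 := hf 1 0 (by simp) (by simp)
  have f01 := hf 0 1 (by simp) (by simp)
  have f11 := hf 1 1 (by simp) (by simp)
  have f1m := hf 1 (-1) (by simp) (by simp)
  rw [abs_le] at f10 f01 f11 f1m
  obtain ⟨l1, u1⟩ := f10
  obtain ⟨l2, u2⟩ := f01
  obtain ⟨l3, u3⟩ := f11
  obtain ⟨l4, u4⟩ := f1m
  norm_num at l1 u1 l2 u2 l3 u3 l4 u4
  refine ⟨abs_le.2 ⟨?_, ?_⟩, abs_le.2 ⟨?_, ?_⟩, abs_le.2 ⟨?_, ?_⟩, abs_le.2 ⟨?_, ?_⟩⟩ <;> linarith

/-! ## 2. third derivatives of a polynomial in two variables -/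

theorem k6b_v1c_d3 (v : Fin 2 → ℝ) (P : MvPolynomial (Fin 2) ℝ) :
    k6b_dP v (k6b_dP v (k6b_dP v P))
      = C (v 0 ^ 3) * pderiv 0 (pderiv 0 (pderiv 0 P))
        + C (3 * v 0 ^ 2 * v 1) * pderiv 0 (pderiv 0 (pderiv 1 P))
        + C (3 * v 0 * v 1 ^ 2) * pderiv 0 (pderiv 1 (pderiv 1 P))
        + C (v 1 ^ 3) * pderiv 1 (pderiv 1 (pderiv 1 P)) := by
  simp only [k6b_dP, Fin.sum_univ_two, map_add, pderiv_C_mul, k6b_pderiv_comm 1 0]
  simp only [C_mul, C_pow, map_ofNat]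
  ring

theorem k6b_v1c_d3_eval (v u : Fin 2 → ℝ) (P : MvPolynomial (Fin 2) ℝ) :
    eval u (k6b_dP v (k6b_dP v (k6b_dP v P)))
      = v 0 ^ 3 * eval u (pderiv 0 (pderiv 0 (pderiv 0 P)))
        + 3 * v 0 ^ 2 * v 1 * eval u (pderiv 0 (pderiv 0 (pderiv 1 P)))
        + 3 * v 0 * v 1 ^ 2 * eval u (pderiv 0 (pderiv 1 (pderiv 1 P)))
        + v 1 ^ 3 * eval u (pderiv 1 (pderiv 1 (pderiv 1 P))) := by
  rw [k6b_v1c_d3]
  simp only [map_add, map_mul, eval_C]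

theorem k6b_v1c_coeff_pderiv (i : Fin 2) (P : MvPolynomial (Fin 2) ℝ) (m : Fin 2 →₀ ℕ) :
    |coeff (m + Finsupp.single i 1) P| ≤ |coeff m (pderiv i P)| := by
  rw [coeff_pderiv, abs_mul]
  have h1 : (1 : ℝ) ≤ |((m i : ℝ) + 1)| := by
    rw [abs_of_nonneg (by positivity)]
    have : (0 : ℝ) ≤ m i := Nat.cast_nonneg _
    linarith
  exact le_mul_of_one_le_right (abs_nonneg _) (by exact_mod_cast h1)

theorem k6b_v1c_coeff3 (i j k : Fin 2) (P : MvPolynomial (Fin 2) ℝ) (m : Fin 2 →₀ ℕ) :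
    |coeff (m + Finsupp.single k 1 + Finsupp.single j 1 + Finsupp.single i 1) P|
      ≤ rmzNm (pderiv k (pderiv j (pderiv i P))) :=
  ((k6b_v1c_coeff_pderiv i P _).trans ((k6b_v1c_coeff_pderiv j _ _).trans
    (k6b_v1c_coeff_pderiv k _ _))).trans (rmz_coeff_le_Nm _ _)

theorem k6b_v1c_split (m : Fin 2 →₀ ℕ) (i j k : Fin 2)
    (h : Finsupp.single k 1 + Finsupp.single j 1 + Finsupp.single i 1 ≤ m) :
    ∃ m' : Fin 2 →₀ ℕ, m = m' + Finsupp.single k 1 + Finsupp.single j 1 + Finsupp.single i 1 :=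
  ⟨m - (Finsupp.single k 1 + Finsupp.single j 1 + Finsupp.single i 1), by
    rw [add_assoc, add_assoc, ← add_assoc (Finsupp.single k 1), tsub_add_cancel_of_le h]⟩

/-- a coefficient of degree `≥ 3` is bounded by a coefficient of a third partial. -/
theorem k6b_v1c_coeff_le (P : MvPolynomial (Fin 2) ℝ) (N : ℝ)
    (h0 : rmzNm (pderiv 0 (pderiv 0 (pderiv 0 P))) ≤ N)
    (h1 : rmzNm (pderiv 0 (pderiv 0 (pderiv 1 P))) ≤ N)
    (h2 : rmzNm (pderiv 0 (pderiv 1 (pderiv 1 P))) ≤ N)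
    (h3 : rmzNm (pderiv 1 (pderiv 1 (pderiv 1 P))) ≤ N) (m : Fin 2 →₀ ℕ) (hm : 3 ≤ m 0 + m 1) :
    |coeff m P| ≤ N := by
  have key : ∀ i j k : Fin 2, Finsupp.single k 1 + Finsupp.single j 1 + Finsupp.single i 1 ≤ m →
      rmzNm (pderiv k (pderiv j (pderiv i P))) ≤ N → |coeff m P| ≤ N := by
    intro i j k hle hN
    obtain ⟨m', rfl⟩ := k6b_v1c_split m i j k hle
    exact (k6b_v1c_coeff3 i j k P m').trans hN
  by_cases c0 : 3 ≤ m 0
  · refine key 0 0 0 ?_ h0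
    rw [Finsupp.le_def, Fin.forall_fin_two]
    simp
    omega
  by_cases c1 : 2 ≤ m 0
  · refine key 1 0 0 ?_ h1
    rw [Finsupp.le_def, Fin.forall_fin_two]
    simp
    omega
  by_cases c2 : 1 ≤ m 0
  · refine key 1 1 0 ?_ h2
    rw [Finsupp.le_def, Fin.forall_fin_two]
    simp
    omega
  · refine key 1 1 1 ?_ h3
    rw [Finsupp.le_def, Fin.forall_fin_two]
    simp
    omega

/-! ## 3. the part of degree `≤ 2` -/

/-- the part of degree `≤ 2`. -/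
def k6b_v1cP2 (P : MvPolynomial (Fin 2) ℝ) : MvPolynomial (Fin 2) ℝ :=
  ∑ m ∈ P.support.filter (fun m => m 0 + m 1 ≤ 2), monomial m (coeff m P)

theorem k6b_v1c_P2_deg (P : MvPolynomial (Fin 2) ℝ) : (k6b_v1cP2 P).totalDegree ≤ 2 := by
  unfold k6b_v1cP2
  refine totalDegree_finsetSum_le fun m hm => ?_
  refine (totalDegree_monomial_le _ _).trans ?_
  rw [Finsupp.sum_fintype _ _ (fun _ => rfl), Fin.sum_univ_two]
  exact (Finset.mem_filter.1 hm).2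

theorem k6b_v1c_card (P : MvPolynomial (Fin 2) ℝ) (D : ℕ) (hP : P.totalDegree ≤ D) :
    P.support.card ≤ (D + 1) ^ 2 := by
  classical
  have hsub : P.support ⊆ (Finset.range (D + 1) ×ˢ Finset.range (D + 1)).image
      (fun p : ℕ × ℕ => (Finsupp.single 0 p.1 + Finsupp.single 1 p.2 : Fin 2 →₀ ℕ)) := by
    intro m hm
    rw [Finset.mem_image]
    refine ⟨(m 0, m 1), ?_, ?_⟩
    · have h0 := (monomial_le_degreeOf 0 hm).trans (rmz_degreeOf_le P D hP 0)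
      have h1 := (monomial_le_degreeOf 1 hm).trans (rmz_degreeOf_le P D hP 1)
      rw [Finset.mem_product, Finset.mem_range, Finset.mem_range]
      exact ⟨by simpa using Nat.lt_succ_of_le h0, by simpa using Nat.lt_succ_of_le h1⟩
    · ext i
      fin_cases i <;> simp
  calc P.support.card ≤ _ := Finset.card_le_card hsub
    _ ≤ (Finset.range (D + 1) ×ˢ Finset.range (D + 1)).card := Finset.card_image_le
    _ = (D + 1) ^ 2 := by rw [Finset.card_product, Finset.card_range, sq]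

theorem k6b_v1c_diff (P : MvPolynomial (Fin 2) ℝ) (u : Fin 2 → ℝ) :
    eval u P - eval u (k6b_v1cP2 P)
      = ∑ m ∈ P.support.filter (fun m => ¬ m 0 + m 1 ≤ 2), coeff m P * ∏ i, u i ^ m i := by
  have h1 : eval u (k6b_v1cP2 P)
      = ∑ m ∈ P.support.filter (fun m => m 0 + m 1 ≤ 2), coeff m P * ∏ i, u i ^ m i := by
    unfold k6b_v1cP2
    rw [map_sum]
    refine Finset.sum_congr rfl fun m _ => ?_
    rw [eval_monomial, Finsupp.prod_fintype _ _ (fun i => pow_zero _)]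
  rw [h1, eval_eq', ← Finset.sum_filter_add_sum_filter_not P.support (fun m => m 0 + m 1 ≤ 2)]
  ring

/-- the remainder on the box. -/
theorem k6b_v1c_rem (P : MvPolynomial (Fin 2) ℝ) (D : ℕ) (hP : P.totalDegree ≤ D) (N K : ℝ)
    (hK : 1 ≤ K) (hN : ∀ m : Fin 2 →₀ ℕ, 3 ≤ m 0 + m 1 → |coeff m P| ≤ N) (hN0 : 0 ≤ N)
    (u : Fin 2 → ℝ) (hu : ∀ i, |u i| ≤ K) :
    |eval u P - eval u (k6b_v1cP2 P)| ≤ ((D : ℝ) + 1) ^ 2 * (N * K ^ (2 * D)) := by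
  rw [k6b_v1c_diff]
  refine (Finset.abs_sum_le_sum_abs _ _).trans ?_
  have h1 : ∀ m ∈ P.support.filter (fun m => ¬ m 0 + m 1 ≤ 2),
      |coeff m P * ∏ i, u i ^ m i| ≤ N * K ^ (2 * D) := by
    intro m hm
    obtain ⟨hm1, hm2⟩ := Finset.mem_filter.1 hm
    rw [abs_mul, Finset.abs_prod]
    have h2 : ∏ i, |u i ^ m i| ≤ K ^ (2 * D) := by
      simp only [abs_pow]
      exact rmz_prod_pow_le m (fun i => (monomial_le_degreeOf i hm1).trans
        (rmz_degreeOf_le P D hP i)) K hK (fun i => |u i|) (fun i => abs_nonneg _) hu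
    exact mul_le_mul (hN m (by omega)) h2 (Finset.prod_nonneg fun _ _ => abs_nonneg _) hN0
  refine (Finset.sum_le_card_nsmul _ _ _ h1).trans ?_
  rw [nsmul_eq_mul]
  refine mul_le_mul_of_nonneg_right ?_ (by positivity)
  have h3 : (P.support.filter (fun m => ¬ m 0 + m 1 ≤ 2)).card ≤ (D + 1) ^ 2 :=
    (Finset.card_filter_le _ _).trans (k6b_v1c_card P D hP)
  exact_mod_cast h3

/-! ## 4. the theorem -/

theorem k6b_v1c_deg3 (P : MvPolynomial (Fin 2) ℝ) (D : ℕ) (hP : P.totalDegree ≤ D) (i j k l : Fin 2) :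
    (pderiv k (pderiv j (pderiv i P))).degreeOf l ≤ D :=
  ((rmz_degreeOf_pderiv 2 _ k l).trans ((rmz_degreeOf_pderiv 2 _ j l).trans
    (rmz_degreeOf_pderiv 2 _ i l))).trans (rmz_degreeOf_le P D hP l)

theorem k6b_v1c_degG (P : MvPolynomial (Fin 2) ℝ) (D : ℕ) (hP : P.totalDegree ≤ D) (v : Fin 2 → ℝ)
    (l : Fin 2) : (k6b_dP v (k6b_dP v (k6b_dP v P))).degreeOf l ≤ D :=
  rmz_degreeOf_le _ D (((k6b_dP_totalDegree v _).trans (Nat.sub_le _ _)).trans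
    (((k6b_dP_totalDegree v _).trans (Nat.sub_le _ _)).trans
      (((k6b_dP_totalDegree v _).trans (Nat.sub_le _ _)).trans hP))) l

/-- leaf **V1b**. -/
theorem k6b_v1_core : k6b_v1_core_stmt := by
  intro D
  obtain ⟨A, hA⟩ : ∃ A : ℕ, A = ((D + 1) ^ 2 * (8 * (D + 1) * 2 ^ 2) ^ D) ^ 2 := ⟨_, rfl⟩
  refine ⟨32 * (D + 1) ^ 2 * A * A * 16 ^ D + (6 * D + 6), ?_⟩
  intro P v K θ ε E hK hθ hθ1 hε hP hv hdet hEm hE hvol hsmall
  have hK0 : 0 < K := by linarith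
  have hball : ∀ u : Fin 2 → ℝ, u ∈ Metric.closedBall (0 : Fin 2 → ℝ) K ↔ ∀ i, |u i| ≤ K := by
    intro u
    rw [mem_closedBall_zero_iff, pi_norm_le_iff_of_nonneg hK0.le]
    simp only [Real.norm_eq_abs]
  have hab : ∀ i : Fin 2, (fun _ => -K : Fin 2 → ℝ) i < (fun _ => K : Fin 2 → ℝ) i := fun i => by
    show -K < K
    linarith
  have hEbox : E ⊆ Set.Icc (fun _ => -K : Fin 2 → ℝ) (fun _ => K) := by
    intro u hu
    have h1 := (hball u).1 (hE hu)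
    exact ⟨fun i => (abs_le.1 (h1 i)).1, fun i => (abs_le.1 (h1 i)).2⟩
  have hvolbox : volume (Set.Icc (fun _ => -K : Fin 2 → ℝ) (fun _ => K)) = ENNReal.ofReal (4 * K ^ 2) := by
    rw [Real.volume_Icc_pi, Fin.prod_univ_two, ← ENNReal.ofReal_mul (by linarith)]
    congr 1
    ring
  obtain ⟨θ', hθ'def⟩ : ∃ θ' : ℝ, θ' = θ / (4 * K ^ 2) := ⟨_, rfl⟩
  have hθ' : 0 < θ' := by rw [hθ'def]; positivity
  have hvol' : ENNReal.ofReal θ' * volume (Set.Icc (fun _ => -K : Fin 2 → ℝ) (fun _ => K)) ≤ volume E := by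
    rw [hvolbox, ← ENNReal.ofReal_mul hθ'.le]
    have h1 : θ' * (4 * K ^ 2) = θ := by
      rw [hθ'def]
      field_simp
    rw [h1]
    exact hvol
  obtain ⟨C₁, hC₁def⟩ : ∃ C₁ : ℝ, C₁ = rmzCm 2 D θ' := ⟨_, rfl⟩
  obtain ⟨C₂, hC₂def⟩ : ∃ C₂ : ℝ, C₂ = rmzCm 2 D 1 := ⟨_, rfl⟩
  have hC₁0 : 0 ≤ C₁ := by rw [hC₁def]; exact (rmz_Cm_pos 2 D θ' hθ').le
  have hC₂0 : 0 ≤ C₂ := by rw [hC₂def]; exact (rmz_Cm_pos 2 D 1 one_pos).le
  -- the four polynomials on the box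
  have hG : ∀ i, ∀ u : Fin 2 → ℝ, (∀ l, |u l| ≤ K) →
      |eval u (k6b_dP (v i) (k6b_dP (v i) (k6b_dP (v i) P)))| ≤ C₁ * ε := by
    intro i u hu
    have h1 := rmz_box 2 D _ (k6b_v1c_degG P D hP (v i)) _ _ hab θ' ε hθ' E hEbox hvol'
      (fun x hx => hsmall x hx i)
    have h2 := rmz_box_eval 2 D _ (k6b_v1c_degG P D hP (v i)) _ _ hab 1 le_rfl u (fun l => by
      show |u l - -K| ≤ 1 * (K - -K)
      obtain ⟨h3, h4⟩ := abs_le.1 (hu l)
      rw [abs_le]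
      constructor <;> linarith)
    rw [one_pow, mul_one] at h2
    rw [hC₁def]
    exact h2.trans h1
  -- the third partials on the box
  have hQ := fun (u : Fin 2 → ℝ) (hu : ∀ l, |u l| ≤ K) =>
    k6b_v1c_coef (fun i => v i 0) (fun i => v i 1) _ _ _ _ K (C₁ * ε) hK
      (fun i => (norm_le_pi_norm (v i) 0).trans (hv i)) (fun i => (norm_le_pi_norm (v i) 1).trans (hv i))
      hdet (fun i => by
        have h1 := hG i u hu
        rwa [k6b_v1c_d3_eval] at h1)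
  -- coefficient norms
  have hcube : ∀ Q : MvPolynomial (Fin 2) ℝ, (∀ l, Q.degreeOf l ≤ D) →
      (∀ u : Fin 2 → ℝ, (∀ l, |u l| ≤ K) → |eval u Q| ≤ 32 * K ^ 6 * (C₁ * ε)) →
      rmzNm Q ≤ C₂ * (32 * K ^ 6 * (C₁ * ε)) := by
    intro Q hQd hQb
    rw [hC₂def]
    refine rmz_mv 2 D Q hQd 1 _ one_pos (Set.Icc 0 1) subset_rfl ?_ (fun x hx => hQb x fun l => ?_)
    · rw [Real.volume_Icc_pi]
      simp
    · have h1 : (0 : ℝ) ≤ x l := hx.1 l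
      have h2 : x l ≤ 1 := hx.2 l
      rw [abs_le]
      constructor <;> linarith
  have hN0 : 0 ≤ C₂ * (32 * K ^ 6 * (C₁ * ε)) := by positivity
  refine ⟨k6b_v1cP2 P, k6b_v1c_P2_deg P, fun u hu => ?_⟩
  have hrem := k6b_v1c_rem P D hP _ K hK (k6b_v1c_coeff_le P _
    (hcube _ (k6b_v1c_deg3 P D hP 0 0 0) fun u hu => (hQ u hu).1)
    (hcube _ (k6b_v1c_deg3 P D hP 1 0 0) fun u hu => (hQ u hu).2.1)
    (hcube _ (k6b_v1c_deg3 P D hP 1 1 0) fun u hu => (hQ u hu).2.2.1)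
    (hcube _ (k6b_v1c_deg3 P D hP 1 1 1) fun u hu => (hQ u hu).2.2.2)) hN0 u ((hball u).1 hu)
  refine hrem.trans ?_
  -- the constants
  obtain ⟨X, hX⟩ : ∃ X : ℝ, X = K / θ := ⟨_, rfl⟩
  have hKX : K ≤ X := by
    rw [hX, le_div_iff₀ hθ]
    nlinarith
  have hX1 : 1 ≤ X := hK.trans hKX
  have hX0 : 0 < X := by linarith
  have hAc : (A : ℝ) = (((D : ℝ) + 1) ^ 2 * (8 * ((D : ℝ) + 1) * 2 ^ 2) ^ D) ^ 2 := by
    rw [hA]
    push_cast
    ring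
  have hC₂ : C₂ ≤ (A : ℝ) := by
    have h1 := rmz_Cm_le 2 D 1 one_pos
    rw [inv_one, one_pow, mul_one, ← hAc, ← hC₂def] at h1
    exact h1
  have hC₁ : C₁ ≤ (A : ℝ) * (16 ^ D * X ^ (4 * D)) := by
    have h1 := rmz_Cm_le 2 D θ' hθ'
    rw [← hAc, ← hC₁def] at h1
    refine h1.trans (mul_le_mul_of_nonneg_left ?_ (Nat.cast_nonneg _))
    have h2 : θ'⁻¹ = 4 * (K * X) := by
      rw [hθ'def, hX]
      field_simp
    have h3 : θ'⁻¹ ≤ 4 * X ^ 2 := by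
      rw [h2, sq]
      gcongr
    calc θ'⁻¹ ^ (2 * D) ≤ (4 * X ^ 2) ^ (2 * D) := pow_le_pow_left₀ (inv_pos.2 hθ').le h3 _
      _ = 16 ^ D * X ^ (4 * D) := by
        rw [mul_pow, pow_mul, ← pow_mul, pow_mul 4 2 D]
        norm_num
        ring_nf
  rw [← hX]
  calc ((D : ℝ) + 1) ^ 2 * (C₂ * (32 * K ^ 6 * (C₁ * ε)) * K ^ (2 * D))
      ≤ ((D : ℝ) + 1) ^ 2 * ((A : ℝ) * (32 * X ^ 6 * ((A : ℝ) * (16 ^ D * X ^ (4 * D)) * ε))
          * X ^ (2 * D)) := by gcongr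
    _ = (32 * ((D : ℝ) + 1) ^ 2 * A * A * 16 ^ D) * X ^ (6 * D + 6) * ε := by ring
    _ ≤ ((32 * (D + 1) ^ 2 * A * A * 16 ^ D + (6 * D + 6) : ℕ) : ℝ)
          * X ^ (32 * (D + 1) ^ 2 * A * A * 16 ^ D + (6 * D + 6)) * ε := by
        refine mul_le_mul_of_nonneg_right (mul_le_mul ?_ (pow_le_pow_right₀ hX1 (Nat.le_add_left _ _))
          (by positivity) (Nat.cast_nonneg _)) hε
        push_cast
        have : (0 : ℝ) ≤ 6 * (D : ℝ) + 6 := by positivity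
        linarith

end

end Claimed.Agent.R252
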