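import Claimed.Agent.R252.S6b.SelectDefs
import Claimed.Agent.R252.S6b.SqKit

/-!
# Row252, unit S6b, part E, leaf V1a (`L-252-S6b-V1a`, prover helper112): a polynomial close to a quadratic along a segment has a small third directional derivative.
-/

set_option autoImplicit false

namespace Claimed.Agent.R252

open MeasureTheory

/-- the restriction to a line commutes with the derivative -/
theorem k6b_line_deriv {n : ℕ} (P : MvPolynomial (Fin n) ℝ) (u v : Fin n → ℝ) (p : Polynomial ℝ)
    (h : ∀ t : ℝ, MvPolynomial.eval (u + t • v) P = p.eval t) :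
    ∀ t : ℝ, MvPolynomial.eval (u + t • v) (k6b_dP v P) = (Polynomial.derivative p).eval t := by
  intro t
  have h1 := k6b_dP_hasDerivAt P u v t
  have h2 : (fun t : ℝ => MvPolynomial.eval (u + t • v) P) = fun t => p.eval t := funext h
  rw [h2] at h1
  exact h1.unique (p.hasDerivAt t)

theorem k6b_v1_line : k6b_v1_line_stmt := by
  intro n D
  obtain ⟨d, hd⟩ : ∃ d : ℕ, d = max D 2 := ⟨_, rfl⟩
  refine ⟨d ^ 3 * ((d + 1) * (4 * (d + 1)) ^ d), ?_⟩
  intro P u0 v x0 x1 x2 ε hP hclose τ hτ
  obtain ⟨p, hp1, hp2⟩ := rmz_line n P u0 v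
  have hline : ∀ t : ℝ, MvPolynomial.eval (u0 + t • v) P = p.eval t := by
    intro t
    rw [← hp2 t]
    congr 2
  have h3 := k6b_line_deriv _ u0 v _ (k6b_line_deriv _ u0 v _ (k6b_line_deriv P u0 v p hline))
  rw [h3 τ]
  obtain ⟨q, hq⟩ : ∃ q : Polynomial ℝ, q = Polynomial.C x0 + Polynomial.C x1 * Polynomial.X + Polynomial.C x2 * Polynomial.X ^ 2 - p :=
    ⟨_, rfl⟩
  have hquad : (Polynomial.C x0 + Polynomial.C x1 * Polynomial.X + Polynomial.C x2 * Polynomial.X ^ 2 : Polynomial ℝ).natDegree ≤ 2 := by
    compute_degree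
  have hqdeg : q.natDegree ≤ d := by
    rw [hq]
    refine (Polynomial.natDegree_sub_le _ _).trans (max_le (hquad.trans ?_) ((hp1.trans hP).trans ?_))
    · rw [hd]; exact le_max_right _ _
    · rw [hd]; exact le_max_left _ _
  have hN := rmz_one d q hqdeg 1 ε one_pos (Set.Icc 0 1) subset_rfl (by rw [Real.volume_Icc]; simp)
    (by
      intro t ht
      have := hclose t ht
      rw [hline t] at this
      rw [hq]
      simpa using this)
  have hder : Polynomial.derivative (Polynomial.derivative (Polynomial.derivative p))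
      = - (Polynomial.derivative^[3] q) := by
    rw [hq]
    simp only [Function.iterate_succ, Function.iterate_zero, Function.comp_apply, id_eq, Polynomial.derivative_sub,
      Polynomial.derivative_add, Polynomial.derivative_C, Polynomial.derivative_mul, Polynomial.derivative_X,
      Polynomial.derivative_one, Polynomial.derivative_zero, Polynomial.derivative_pow]
    simp
  rw [hder, Polynomial.eval_neg, abs_neg]
  have h4 := rmz_eval_le (Polynomial.derivative^[3] q) d
    ((Polynomial.natDegree_iterate_derivative q 3).trans ((Nat.sub_le _ _).trans hqdeg)) 1 τ le_rfl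
    (by rw [abs_le]; constructor <;> linarith [hτ.1, hτ.2])
  rw [one_pow, mul_one] at h4
  have h5 := rmz_N_iter_derivative q d hqdeg 3
  refine h4.trans (h5.trans ?_)
  refine (mul_le_mul_of_nonneg_left hN (by positivity)).trans (le_of_eq ?_)
  unfold rmzC
  push_cast
  rw [div_one]
  ring

end Claimed.Agent.R252
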