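import Claimed.Agent.R252.S6b.Conservative
import Claimed.Agent.R252.S6b.EndVol
import Claimed.Agent.R252.S6b.MonoPieces
import Claimed.Agent.R252.S6b.HeightPoly
import Claimed.Agent.R252.S6b.HeightHess
import Claimed.Agent.R252.S6b.Chain
import Claimed.Agent.R252.S6b.Simulate
import Claimed.Agent.R252.S6b.Avoid
import Claimed.Agent.R252.S6b.Potential
import Claimed.Agent.R252.S6b.LineVar
import Claimed.Agent.R252.S6b.HeavyGroup
import Claimed.Agent.R252.S6b.Prune0
import Claimed.Agent.R252.S6b.Prune
import Claimed.Agent.R252.S6b.PruneFine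
import Claimed.Agent.R252.S6b.Cells
import Claimed.Agent.R252.S6b.CommonTuple
import Claimed.Agent.R252.S6b.AvoidSum
import Claimed.Agent.R252.S6b.Tuple
import Claimed.Agent.R252.S6b.Gp4
import Claimed.Agent.R252.S6b.Gp7
import Claimed.Agent.R252.S6b.V1Line
import Claimed.Agent.R252.S6b.V1Core
import Claimed.Agent.R252.S6b.Branch
import Claimed.Agent.R252.S6b.RootNear
import Claimed.Agent.R252.S6b.Jet
import Claimed.Agent.R252.S6b.DevBound
import Claimed.Agent.R252.S6b.Third
import Claimed.Agent.R252.S6b.RestoreR
import Claimed.Agent.R252.S6b.Core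
import Claimed.Agent.R252.S6b.SwCov
import Claimed.Agent.R252.S6b.Bridge

/-!
# Row252, unit S6b: THE CLOSED FORMS of the conditional leaves (`.._of`).   ONE import for the glue leaves (M2a..M2e, M2, HUB, E.., X..).
Everything here is sorry-free.
-/

set_option autoImplicit false

namespace Claimed.Agent.R252

theorem k6b_endpoint_volume : k6b_endpoint_volume_stmt :=
  k6b_endpoint_volume_of k6b_mono_pieces k6b_height_poly k6b_height_hess

theorem k6b_conservative : k6b_conservative_stmt :=
  k6b_conservative_of k6b_endpoint_volume k6b_chain k6b_simulate k6b_avoid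

theorem k6b_heavy_group : k6b_heavy_group_stmt := k6b_heavy_group_of k6b_prune0 k6b_prune k6b_cells

theorem k6b_common_tuple : k6b_common_tuple_stmt := k6b_common_tuple_of k6b_avoid_sum k6b_tuple

theorem k6b_third : k6b_third_stmt := k6b_third_of k6b_jet_calc

theorem k6b_core : k6b_core_stmt := k6b_core_of k6b_jet_calc k6b_dev_bound k6b_third k6b_restore_R

theorem k6b_cap2_of_ref : k6b_cap2_of_ref_stmt := k6b_cap2_of_ref_of k6b_bridge

end Claimed.Agent.R252
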