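import Claimed.Agent.R252.S6b.SwitchDefs

/-!
# Row252, unit S6b, part C5 (owner helper42): KIT of the glue `k6b_conservative_of`.   CONTRACT file (leaves L-252-S6b-C5a..e; PAPER-FREE, Mathlib + R252/Remez only).

* C5a `k6b_cons_start`  : a polynomial with coefficient norm `s > 0` is `≥ s / (c K^c)` on the cube `‖u‖ ≤ K` off a set of volume `≤ 1/(4K)`   (Remez).
* C5b `k6b_cons_det`    : perturbation of a determinant (Leibniz formula).       `k6b_cons_bil` : perturbation of the bilinear form.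
* C5c `k6b_legs_*`      : the legs `δ_i = τ_i - τ_{i-1}` (`τ_{-1} = t0`): unimodular affine map.
* C5d `k6b_height_continuous` : joint continuity of the accumulated height in (start, legs).
The glue is `S6b/Conservative.lean`.
-/

set_option autoImplicit false

namespace Claimed.Agent.R252

open MeasureTheory MvPolynomial
open scoped ENNReal BigOperators

noncomputable section

/-! ## C5a -/

/-- PLAN.  `B` = the set; `B ⊆ Icc a b`, `a = -K`, `b = K` (constant vectors), `volume (Icc a b) = (2K)^m` (`Real.volume_Icc_pi`).  `θ = 1/(4 K (2K)^m)`.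
If `ofReal (1/(4K)) < volume B` then `ofReal θ * volume (Icc a b) ≤ volume B`, so `rmz_box` with `M = s/(c K^c)` gives `N' := rmzNm (rmzAffm a b P) ≤ rmzCm m D θ * M`.
On `[0,1]^m`: `|eval x P| ≤ N'` (`rmz_box_eval`, `lam = 1`: `|x i + K| ≤ 2K`), so `rmz_mv` with `E = Icc 0 1`, `θ = 1` gives `s ≤ rmzCm m D 1 * N'`.
Hence `s ≤ rmzCm m D 1 * rmzCm m D θ * s / (c K^c)`; `rmz_Cm_le`: `rmzCm m D θ ≤ A (θ⁻¹)^(m D) = A (2^(m+2))^(m D) K^((m+1) m D)`.  Choose `c > ` both the coefficient (`Nat.ceil`) and the exponent: contradiction. -/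
theorem k6b_cons_start (m D : ℕ) : ∃ c : ℕ, 1 ≤ c ∧ ∀ (K : ℝ) (P : MvPolynomial (Fin m) ℝ), 1 ≤ K →
    (∀ i, P.degreeOf i ≤ D) → 0 < rmzNm P →
    volume {u : Fin m → ℝ | ‖u‖ ≤ K ∧ (c : ℝ) * K ^ c * |eval u P| < rmzNm P} ≤ ENNReal.ofReal (1 / (4 * K)) := by
  obtain ⟨A, hA⟩ : ∃ A : ℕ, A = ((D + 1) ^ 2 * (8 * (D + 1) * 2 ^ m) ^ D) ^ m := ⟨_, rfl⟩
  have hAr : (A : ℝ) = (((D : ℝ) + 1) ^ 2 * (8 * ((D : ℝ) + 1) * 2 ^ m) ^ D) ^ m := by
    rw [hA]
    push_cast
    ring
  obtain ⟨c, hc⟩ : ∃ c : ℕ, c = A ^ 2 * (2 ^ (m + 2)) ^ (m * D) + (m + 1) * (m * D) + 1 := ⟨_, rfl⟩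
  refine ⟨c, by omega, ?_⟩
  intro K P hK hP hs
  by_contra hcon
  push Not at hcon
  have hK0 : 0 < K := by linarith
  obtain ⟨a, ha⟩ : ∃ a : Fin m → ℝ, ∀ i, a i = -K := ⟨fun _ => -K, fun _ => rfl⟩
  obtain ⟨b, hb⟩ : ∃ b : Fin m → ℝ, ∀ i, b i = K := ⟨fun _ => K, fun _ => rfl⟩
  have hab : ∀ i, a i < b i := fun i => by rw [ha, hb]; linarith
  obtain ⟨θ, hθ⟩ : ∃ θ : ℝ, θ = 1 / (4 * K * (2 * K) ^ m) := ⟨_, rfl⟩
  have hθ0 : 0 < θ := by rw [hθ]; positivity
  have hcK : 0 < (c : ℝ) * K ^ c := by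
    have : (0 : ℝ) < c := by exact_mod_cast (by omega : 0 < c)
    positivity
  have hvolI : volume (Set.Icc a b) = ENNReal.ofReal ((2 * K) ^ m) := by
    rw [Real.volume_Icc_pi, Finset.prod_congr rfl (fun i _ => by rw [ha i, hb i]), Finset.prod_const, Finset.card_univ,
      Fintype.card_fin, ← ENNReal.ofReal_pow (by linarith)]
    congr 2
    ring
  have h1 := rmz_box m D P hP a b hab θ (rmzNm P / ((c : ℝ) * K ^ c)) hθ0
    {u : Fin m → ℝ | ‖u‖ ≤ K ∧ (c : ℝ) * K ^ c * |eval u P| < rmzNm P}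
    (by
      intro u hu
      rw [Set.mem_Icc, Pi.le_def, Pi.le_def]
      have h2 : ∀ i, |u i| ≤ K := fun i => by
        have := norm_le_pi_norm u i
        rw [Real.norm_eq_abs] at this
        exact this.trans hu.1
      exact ⟨fun i => by rw [ha]; exact (abs_le.1 (h2 i)).1, fun i => by rw [hb]; exact (abs_le.1 (h2 i)).2⟩)
    (by
      rw [hvolI, ← ENNReal.ofReal_mul hθ0.le]
      refine le_trans (le_of_eq ?_) hcon.le
      congr 1
      rw [hθ]
      field_simp)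
    (by
      intro u hu
      rw [le_div_iff₀ hcK, mul_comm]
      exact hu.2.le)
  have h2 := rmz_mv m D P hP 1 (rmzNm (rmzAffm a b P)) one_pos (Set.Icc 0 1) subset_rfl
    (by
      rw [Real.volume_Icc_pi]
      simp)
    (by
      intro x hx
      have h3 := rmz_box_eval m D P hP a b hab 1 le_rfl x (by
        intro i
        rw [Set.mem_Icc, Pi.le_def, Pi.le_def] at hx
        have h4 := hx.1 i
        have h5 := hx.2 i
        simp only [Pi.zero_apply, Pi.one_apply] at h4 h5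
        rw [ha, hb, abs_le]
        constructor <;> linarith)
      rwa [one_pow, mul_one] at h3)
  have h3 := rmz_Cm_le m D θ hθ0
  have h4 := rmz_Cm_le m D 1 one_pos
  rw [← hAr] at h3 h4
  simp only [inv_one, one_pow, mul_one] at h4
  have hθinv : θ⁻¹ = 2 ^ (m + 2) * K ^ (m + 1) := by
    rw [hθ, one_div, inv_inv, mul_pow, pow_succ, pow_succ, pow_succ]
    ring
  rw [hθinv, mul_pow, ← pow_mul K] at h3
  have hC1 := rmz_Cm_pos m D 1 one_pos
  have hCθ := rmz_Cm_pos m D θ hθ0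
  -- s ≤ Cm 1 * Cm θ * s / (c K^c)
  have h5 : rmzNm P ≤ (A : ℝ) * ((A : ℝ) * ((2 ^ (m + 2)) ^ (m * D) * K ^ ((m + 1) * (m * D))) * (rmzNm P / ((c : ℝ) * K ^ c))) := by
    refine h2.trans ?_
    have hq : 0 ≤ rmzNm P / ((c : ℝ) * K ^ c) := by positivity
    refine mul_le_mul h4 (h1.trans (mul_le_mul_of_nonneg_right h3 hq)) (rmz_Nm_nonneg _) (by positivity)
  have h6 : (c : ℝ) * K ^ c ≤ (A : ℝ) * ((A : ℝ) * ((2 ^ (m + 2)) ^ (m * D) * K ^ ((m + 1) * (m * D)))) := by
    have e : (A : ℝ) * ((A : ℝ) * ((2 ^ (m + 2)) ^ (m * D) * K ^ ((m + 1) * (m * D))) * (rmzNm P / ((c : ℝ) * K ^ c)))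
        = ((A : ℝ) * ((A : ℝ) * ((2 ^ (m + 2)) ^ (m * D) * K ^ ((m + 1) * (m * D)))) / ((c : ℝ) * K ^ c)) * rmzNm P := by
      field_simp
    rw [e] at h5
    have h7 : 1 ≤ (A : ℝ) * ((A : ℝ) * ((2 ^ (m + 2)) ^ (m * D) * K ^ ((m + 1) * (m * D)))) / ((c : ℝ) * K ^ c) := by
      by_contra hlt
      push Not at hlt
      have := mul_lt_mul_of_pos_right hlt hs
      linarith
    rwa [le_div_iff₀ hcK, one_mul] at h7
  have h8 : K ^ ((m + 1) * (m * D)) ≤ K ^ c := pow_le_pow_right₀ hK (by omega)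
  have h9 : (A : ℝ) * (A : ℝ) * (2 ^ (m + 2)) ^ (m * D) + 1 ≤ (c : ℝ) := by
    rw [hc]
    push_cast
    have : (0 : ℝ) ≤ ((m : ℝ) + 1) * ((m : ℝ) * D) := by positivity
    nlinarith
  have h10 : 0 < K ^ ((m + 1) * (m * D)) := by positivity
  have h11 : ((A : ℝ) * (A : ℝ) * (2 ^ (m + 2)) ^ (m * D) + 1) * K ^ ((m + 1) * (m * D)) ≤ (c : ℝ) * K ^ c :=
    mul_le_mul h9 h8 h10.le (by positivity)
  nlinarith

/-! ## C5b -/

theorem k6b_prod_sub_le {ι : Type} (s : Finset ι) (a b : ι → ℝ) (L ε : ℝ) (hL : 0 ≤ L) (hε : 0 ≤ ε) (ha : ∀ i ∈ s, |a i| ≤ L)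
    (hb : ∀ i ∈ s, |b i| ≤ L) (hd : ∀ i ∈ s, |a i - b i| ≤ ε) :
    |∏ i ∈ s, a i - ∏ i ∈ s, b i| ≤ (s.card : ℝ) * L ^ (s.card - 1) * ε := by
  classical
  induction s using Finset.induction_on with
  | empty => simp
  | insert i s hi ih =>
    have ih' := ih (fun j hj => ha j (Finset.mem_insert_of_mem hj)) (fun j hj => hb j (Finset.mem_insert_of_mem hj))
      (fun j hj => hd j (Finset.mem_insert_of_mem hj))
    rw [Finset.prod_insert hi, Finset.prod_insert hi, Finset.card_insert_of_notMem hi, Nat.add_sub_cancel]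
    have hB : |∏ j ∈ s, b j| ≤ L ^ s.card := by
      rw [Finset.abs_prod]
      calc ∏ j ∈ s, |b j| ≤ ∏ _j ∈ s, L :=
            Finset.prod_le_prod (fun _ _ => abs_nonneg _) (fun j hj => hb j (Finset.mem_insert_of_mem hj))
        _ = L ^ s.card := by rw [Finset.prod_const]
    have e : a i * ∏ j ∈ s, a j - b i * ∏ j ∈ s, b j
        = a i * (∏ j ∈ s, a j - ∏ j ∈ s, b j) + (a i - b i) * ∏ j ∈ s, b j := by ring
    rw [e]
    refine (abs_add_le _ _).trans ?_
    rw [abs_mul, abs_mul]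
    have h1 : |a i| * |∏ j ∈ s, a j - ∏ j ∈ s, b j| ≤ L * ((s.card : ℝ) * L ^ (s.card - 1) * ε) :=
      mul_le_mul (ha i (Finset.mem_insert_self _ _)) ih' (abs_nonneg _) hL
    have h2 : |a i - b i| * |∏ j ∈ s, b j| ≤ ε * L ^ s.card :=
      mul_le_mul (hd i (Finset.mem_insert_self _ _)) hB (abs_nonneg _) hε
    have h3 : L * ((s.card : ℝ) * L ^ (s.card - 1) * ε) = (s.card : ℝ) * L ^ s.card * ε := by
      rcases Nat.eq_zero_or_pos s.card with h | h
      · rw [h]; simp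
      · obtain ⟨k, hk⟩ : ∃ k, s.card = k + 1 := ⟨s.card - 1, by omega⟩
        rw [hk, Nat.add_sub_cancel, pow_succ]
        ring
    rw [h3] at h1
    push_cast
    linarith

/-- PLAN: `Matrix.det_apply`; for each permutation `|∏ a_i - ∏ b_i| ≤ m L^(m-1) ε` (induction on a `Finset`, or on `m` with `Fin.prod_univ_succ`); `Fintype.card_perm`. -/
theorem k6b_cons_det (m : ℕ) (M M' : Matrix (Fin m) (Fin m) ℝ) (L ε : ℝ) (hL : 0 ≤ L) (hM : ∀ i j, |M i j| ≤ L)
    (hM' : ∀ i j, |M' i j| ≤ L) (hd : ∀ i j, |M i j - M' i j| ≤ ε) :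
    |M.det - M'.det| ≤ (m.factorial : ℝ) * m * L ^ (m - 1) * ε := by
  rcases Nat.eq_zero_or_pos m with hm | hm
  · subst hm
    simp
  have hε : 0 ≤ ε := (abs_nonneg _).trans (hd ⟨0, hm⟩ ⟨0, hm⟩)
  rw [Matrix.det_apply', Matrix.det_apply', ← Finset.sum_sub_distrib]
  refine (Finset.abs_sum_le_sum_abs _ _).trans ?_
  have h1 : ∀ σ : Equiv.Perm (Fin m), |((Equiv.Perm.sign σ : ℤ) : ℝ) * ∏ i, M (σ i) i - ((Equiv.Perm.sign σ : ℤ) : ℝ) * ∏ i, M' (σ i) i|
      ≤ (m : ℝ) * L ^ (m - 1) * ε := by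
    intro σ
    rw [← mul_sub, abs_mul]
    have h2 : |((Equiv.Perm.sign σ : ℤ) : ℝ)| = 1 := by
      rcases Int.units_eq_one_or (Equiv.Perm.sign σ) with h | h <;> rw [h] <;> simp
    rw [h2, one_mul]
    have h3 := k6b_prod_sub_le Finset.univ (fun i => M (σ i) i) (fun i => M' (σ i) i) L ε hL hε (fun i _ => hM _ _)
      (fun i _ => hM' _ _) (fun i _ => hd _ _)
    rw [Finset.card_univ, Fintype.card_fin] at h3
    exact h3
  refine (Finset.sum_le_sum fun σ _ => h1 σ).trans ?_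
  rw [Finset.sum_const, Finset.card_univ, Fintype.card_perm, Fintype.card_fin, nsmul_eq_mul]
  exact le_of_eq (by ring)

/-- PLAN: `x j * y i - x' j * y' i = x j * (y i - y' i) + (x j - x' j) * y' i`; `norm_le_pi_norm`; `m^2` terms. -/
theorem k6b_cons_bil (m : ℕ) (Om : Fin m → Fin m → ℝ) (x y x' y' : Fin m → ℝ) (ω L ε : ℝ) (hω : ∀ i j, |Om i j| ≤ ω)
    (hx : ‖x‖ ≤ L) (hy' : ‖y'‖ ≤ L) (hxx : ‖x - x'‖ ≤ ε) (hyy : ‖y - y'‖ ≤ ε) :
    |k6b_bil Om x y - k6b_bil Om x' y'| ≤ 2 * (m : ℝ) ^ 2 * ω * L * ε := by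
  have hL : 0 ≤ L := (norm_nonneg _).trans hx
  have hε : 0 ≤ ε := (norm_nonneg _).trans hxx
  unfold k6b_bil
  rw [← Finset.sum_sub_distrib]
  have hterm : ∀ i j : Fin m, |Om i j * x j * y i - Om i j * x' j * y' i| ≤ 2 * ω * L * ε := by
    intro i j
    have hω0 : 0 ≤ ω := (abs_nonneg _).trans (hω i j)
    have e : Om i j * x j * y i - Om i j * x' j * y' i = Om i j * (x j * (y i - y' i) + (x j - x' j) * y' i) := by ring
    rw [e, abs_mul]
    have h1 : |x j| ≤ L := by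
      have := norm_le_pi_norm x j
      rw [Real.norm_eq_abs] at this
      exact this.trans hx
    have h2 : |y' i| ≤ L := by
      have := norm_le_pi_norm y' i
      rw [Real.norm_eq_abs] at this
      exact this.trans hy'
    have h3 : |x j - x' j| ≤ ε := by
      have := norm_le_pi_norm (x - x') j
      rw [Real.norm_eq_abs] at this
      exact this.trans hxx
    have h4 : |y i - y' i| ≤ ε := by
      have := norm_le_pi_norm (y - y') i
      rw [Real.norm_eq_abs] at this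
      exact this.trans hyy
    have h5 : |x j * (y i - y' i) + (x j - x' j) * y' i| ≤ L * ε + ε * L := by
      refine (abs_add_le _ _).trans ?_
      rw [abs_mul, abs_mul]
      exact add_le_add (mul_le_mul h1 h4 (abs_nonneg _) hL) (mul_le_mul h3 h2 (abs_nonneg _) hε)
    calc |Om i j| * |x j * (y i - y' i) + (x j - x' j) * y' i| ≤ ω * (L * ε + ε * L) :=
          mul_le_mul (hω i j) h5 (abs_nonneg _) hω0
      _ = 2 * ω * L * ε := by ring
  refine (Finset.abs_sum_le_sum_abs _ _).trans ?_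
  have h6 : ∀ i : Fin m, |∑ j, Om i j * x j * y i - ∑ j, Om i j * x' j * y' i| ≤ (m : ℝ) * (2 * ω * L * ε) := by
    intro i
    rw [← Finset.sum_sub_distrib]
    refine (Finset.abs_sum_le_sum_abs _ _).trans ?_
    refine (Finset.sum_le_sum fun j _ => hterm i j).trans ?_
    rw [Finset.sum_const, Finset.card_univ, Fintype.card_fin, nsmul_eq_mul]
  refine (Finset.sum_le_sum fun i _ => h6 i).trans ?_
  rw [Finset.sum_const, Finset.card_univ, Fintype.card_fin, nsmul_eq_mul]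
  exact le_of_eq (by ring)

/-! ## C5c -/

/-- the legs as a function of the start time and of the end times -/
def k6b_legs {n : ℕ} (t0 : ℝ) (τ : Fin n → ℝ) : Fin n → ℝ :=
  fun i => τ i - (if h : (i : ℕ) = 0 then t0 else τ ⟨(i : ℕ) - 1, by omega⟩)

theorem k6b_legs_evt {m n : ℕ} (Y : k6b_Sw m) (e0 : Y.Lam × ℝ) (π : Fin n → Y.Lam × ℝ × ℝ) :
    (fun i : Fin n => (π i).2.2 - (Y.evt e0 π i).2) = k6b_legs e0.2 (fun i => (π i).2.2) := by
  funext i
  unfold k6b_legs k6b_Sw.evt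
  by_cases h : (i : ℕ) = 0
  · have h' : ¬ (0 < (i : ℕ) ∧ (i : ℕ) - 1 < n) := by omega
    rw [dif_pos h, dif_neg h']
  · have h' : 0 < (i : ℕ) ∧ (i : ℕ) - 1 < n := by have := i.2; omega
    rw [dif_neg h, dif_pos h']

theorem k6b_legs_mem {n : ℕ} {t0 : ℝ} (ht0 : t0 ∈ Set.Icc (0 : ℝ) 1) {τ : Fin n → ℝ} (hτ : τ ∈ Set.Icc (0 : Fin n → ℝ) 1) :
    k6b_legs t0 τ ∈ Set.Icc (-1 : Fin n → ℝ) 1 := by
  have h0 : ∀ i, 0 ≤ τ i := fun i => hτ.1 i
  have h1 : ∀ i, τ i ≤ 1 := fun i => hτ.2 i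
  have key : ∀ i, -1 ≤ k6b_legs t0 τ i ∧ k6b_legs t0 τ i ≤ 1 := by
    intro i
    unfold k6b_legs
    by_cases h : (i : ℕ) = 0
    · rw [dif_pos h]
      constructor <;> linarith [h0 i, h1 i, ht0.1, ht0.2]
    · rw [dif_neg h]
      constructor <;> linarith [h0 i, h1 i, h0 ⟨(i : ℕ) - 1, by omega⟩, h1 ⟨(i : ℕ) - 1, by omega⟩]
  exact ⟨fun i => (key i).1, fun i => (key i).2⟩

theorem k6b_legs_continuous (n : ℕ) : Continuous fun q : ℝ × (Fin n → ℝ) => k6b_legs q.1 q.2 := by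
  refine continuous_pi fun i => ?_
  unfold k6b_legs
  by_cases h : (i : ℕ) = 0
  · simp only [dif_pos h]
    fun_prop
  · simp only [dif_neg h]
    fun_prop

/-- PLAN: `k6b_legs t0 τ = Matrix.toLin' A τ - b`, `A i j = (if j = i then 1 else 0) - (if j + 1 = i then 1 else 0)` lower triangular with unit diagonal (`Matrix.det_of_lowerTriangular`), `b = t0` at the index `0`;
`Measure.addHaar_preimage_linearMap` (valid for EVERY set), `measure_preimage_add_right` / `measure_preimage_sub_right`-type translation invariance; model: `rmz_box_vol` in `R252/Remez/Mv.lean`. -/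
theorem k6b_legs_vol {n : ℕ} (t0 : ℝ) (S : Set (Fin n → ℝ)) : volume (k6b_legs t0 ⁻¹' S) = volume S := by
  classical
  obtain ⟨A, hA⟩ : ∃ A : Matrix (Fin n) (Fin n) ℝ,
      A = Matrix.of fun (i j : Fin n) => (if j = i then (1 : ℝ) else 0) - (if (j : ℕ) + 1 = (i : ℕ) then 1 else 0) := ⟨_, rfl⟩
  obtain ⟨b, hb⟩ : ∃ b : Fin n → ℝ, b = fun i : Fin n => if (i : ℕ) = 0 then -t0 else 0 := ⟨_, rfl⟩
  have hdet : A.det = 1 := by
    rw [Matrix.det_of_isLowerTriangular]
    · refine Finset.prod_eq_one fun i _ => ?_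
      rw [hA]
      simp
    · intro i j hij
      have hij' : (i : ℕ) < (j : ℕ) := hij
      rw [hA]
      have h1 : j ≠ i := by
        intro h
        rw [h] at hij'
        omega
      have h2 : ¬ ((j : ℕ) + 1 = (i : ℕ)) := by omega
      simp [h1, h2]
  have hlin : ∀ τ : Fin n → ℝ, k6b_legs t0 τ = Matrix.toLin' A τ + b := by
    intro τ
    funext i
    rw [Matrix.toLin'_apply, Pi.add_apply, Matrix.mulVec, dotProduct, hA, hb]
    simp only [Matrix.of_apply, sub_mul, Finset.sum_sub_distrib, ite_mul, one_mul, zero_mul,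
      Finset.sum_ite_eq', Finset.mem_univ, if_true]
    unfold k6b_legs
    by_cases h : (i : ℕ) = 0
    · rw [dif_pos h, if_pos h]
      have : ∑ x : Fin n, (if (x : ℕ) + 1 = (i : ℕ) then τ x else 0) = 0 :=
        Finset.sum_eq_zero fun x _ => if_neg (by omega)
      rw [this]
      ring
    · rw [dif_neg h, if_neg h]
      have : ∑ x : Fin n, (if (x : ℕ) + 1 = (i : ℕ) then τ x else 0) = τ ⟨(i : ℕ) - 1, by omega⟩ := by
        rw [Finset.sum_eq_single (⟨(i : ℕ) - 1, by omega⟩ : Fin n)]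
        · exact if_pos (by simp; omega)
        · intro x _ hx
          refine if_neg fun hx' => hx ?_
          ext
          simp
          omega
        · intro hx
          exact absurd (Finset.mem_univ _) hx
      rw [this]
      ring
  have hset : k6b_legs t0 ⁻¹' S = Matrix.toLin' A ⁻¹' ((fun x => x + b) ⁻¹' S) := by
    ext τ
    simp only [Set.mem_preimage, hlin]
  rw [hset, Measure.addHaar_preimage_linearMap volume (by rw [LinearMap.det_toLin', hdet]; exact one_ne_zero),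
    measure_preimage_add_right, LinearMap.det_toLin', hdet]
  simp

/-! ## C5d -/

/-- PLAN: finite sum; each term: `intervalIntegral.continuous_parametric_intervalIntegral_of_continuous'` (or `..._of_continuous`), the integrand `(q, s) ↦ k6b_fld T (k6b_base q.1 v q.2 i + s • v i) ⬝ᵥ v i` is continuous
(`MvPolynomial.continuous_eval`, `continuous_pi`, `k6b_base` is a finite sum of continuous terms; `dotProduct` = finite sum). -/
theorem k6b_height_continuous {m n : ℕ} (T : Fin m → MvPolynomial (Fin m) ℝ) (v : Fin n → Fin m → ℝ) :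
    Continuous fun q : (Fin m → ℝ) × (Fin n → ℝ) => k6b_height T q.1 v q.2 := by
  unfold k6b_height
  refine continuous_finsetSum _ fun i _ => ?_
  refine intervalIntegral.continuous_parametric_intervalIntegral_of_continuous
    (f := fun (q : (Fin m → ℝ) × (Fin n → ℝ)) (s : ℝ) => k6b_fld T (k6b_base q.1 v q.2 i + s • v i) ⬝ᵥ v i) ?_
    (by fun_prop)
  unfold dotProduct k6b_fld
  refine continuous_finsetSum _ fun a _ => ?_
  refine Continuous.mul ?_ continuous_const
  refine (MvPolynomial.continuous_eval (T a)).comp ?_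
  have hbase : Continuous fun q : (Fin m → ℝ) × (Fin n → ℝ) => k6b_base q.1 v q.2 i := by
    unfold k6b_base
    refine continuous_fst.add (continuous_finsetSum _ fun k _ => ?_)
    by_cases h : (k : ℕ) < (i : ℕ)
    · simp only [if_pos h]
      fun_prop
    · simp only [if_neg h]
      fun_prop
  refine Continuous.add (hbase.comp continuous_fst) ?_
  exact continuous_snd.smul continuous_const

theorem k6b_base_continuous {m n : ℕ} (v : Fin n → Fin m → ℝ) (i : ℕ) :
    Continuous fun q : (Fin m → ℝ) × (Fin n → ℝ) => k6b_base q.1 v q.2 i := by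
  unfold k6b_base
  refine continuous_fst.add (continuous_finsetSum _ fun k _ => ?_)
  by_cases h : (k : ℕ) < i
  · simp only [if_pos h]
    fun_prop
  · simp only [if_neg h]
    fun_prop

end

end Claimed.Agent.R252
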