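import Claimed.Agent.R252.S6b.ConsKit

/-!
# Row252, unit S6b, part C5 (helper42): THE GLUE `k6b_conservative_of : C1 → C2 → C3 → C4 → k6b_conservative_stmt` (Proposition `a05:conservativity` at one scale).   No `sorry` in this file.

Plan = docstring of `k6b_conservative_stmt` (`S6b/SwitchDefs.lean`).  `s` = the largest coefficient norm of the curl polynomials, attained at `(i₁,j₁)`.
* `Start = {‖pos e‖ ≤ K → s ≤ A |curl_{i₁j₁}(pos e)|}`, `A = cs K^cs` (`k6b_cons_start`, `Supp.dens`): `μ Startᶜ ≤ 1/4`  (`k6b_cons_start_mu`);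
* functionals `a i e L = a_C4 i (curl at pos e) (vel ∘ L)`;
* test `k6b_consPsi`: the bin centres are good directions (`k6b_cons_dirs`: perturbation `pv` of C4) and the simulated end point (C3) is within `C (ξ, ρ)` of a cell of the joint support;
* C2 + `k6b_consPsi_vol` (C1, `τ ↦ k6b_legs` unimodular, union over the cells) + `k6b_cons_int` + `k6b_cons_arith`;
* the constants are handled by the class `k6b_consPB` of the functions `0 ≤ f K ≤ a K^b` (`K ≥ 1`).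
-/

set_option autoImplicit false

namespace Claimed.Agent.R252

open MeasureTheory MvPolynomial
open scoped ENNReal BigOperators

noncomputable section

/-! ## 0. polynomially bounded functions of the slack -/

/-- `f` is nonnegative and `≤ a K^b` for `K ≥ 1` -/
def k6b_consPB (f : ℝ → ℝ) : Prop := ∃ a b : ℕ, ∀ K : ℝ, 1 ≤ K → 0 ≤ f K ∧ f K ≤ a * K ^ b

theorem k6b_PB_const (a : ℕ) : k6b_consPB fun _ => (a : ℝ) :=
  ⟨a, 0, fun K _ => ⟨Nat.cast_nonneg a, by simp⟩⟩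

theorem k6b_PB_id : k6b_consPB fun K => K :=
  ⟨1, 1, fun K hK => ⟨by linarith, by simp⟩⟩

theorem k6b_consPB.mul {f g : ℝ → ℝ} (hf : k6b_consPB f) (hg : k6b_consPB g) : k6b_consPB fun K => f K * g K := by
  obtain ⟨a, b, h1⟩ := hf
  obtain ⟨a', b', h2⟩ := hg
  refine ⟨a * a', b + b', fun K hK => ⟨mul_nonneg (h1 K hK).1 (h2 K hK).1, ?_⟩⟩
  calc f K * g K ≤ (a * K ^ b) * (a' * K ^ b') := mul_le_mul (h1 K hK).2 (h2 K hK).2 (h2 K hK).1 ((h1 K hK).1.trans (h1 K hK).2)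
    _ = ((a * a' : ℕ) : ℝ) * K ^ (b + b') := by push_cast; ring

theorem k6b_consPB.add {f g : ℝ → ℝ} (hf : k6b_consPB f) (hg : k6b_consPB g) : k6b_consPB fun K => f K + g K := by
  obtain ⟨a, b, h1⟩ := hf
  obtain ⟨a', b', h2⟩ := hg
  refine ⟨a + a', b + b', fun K hK => ⟨add_nonneg (h1 K hK).1 (h2 K hK).1, ?_⟩⟩
  have e1 : K ^ b ≤ K ^ (b + b') := pow_le_pow_right₀ hK (by omega)
  have e2 : K ^ b' ≤ K ^ (b + b') := pow_le_pow_right₀ hK (by omega)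
  have ha : (0 : ℝ) ≤ a := Nat.cast_nonneg a
  have ha' : (0 : ℝ) ≤ a' := Nat.cast_nonneg a'
  calc f K + g K ≤ a * K ^ b + a' * K ^ b' := add_le_add (h1 K hK).2 (h2 K hK).2
    _ ≤ a * K ^ (b + b') + a' * K ^ (b + b') := by gcongr
    _ = ((a + a' : ℕ) : ℝ) * K ^ (b + b') := by push_cast; ring

theorem k6b_consPB.pow {f : ℝ → ℝ} (hf : k6b_consPB f) (k : ℕ) : k6b_consPB fun K => f K ^ k := by
  obtain ⟨a, b, h1⟩ := hf
  refine ⟨a ^ k, b * k, fun K hK => ⟨pow_nonneg (h1 K hK).1 k, ?_⟩⟩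
  calc f K ^ k ≤ (a * K ^ b) ^ k := pow_le_pow_left₀ (h1 K hK).1 (h1 K hK).2 k
    _ = ((a ^ k : ℕ) : ℝ) * K ^ (b * k) := by push_cast; ring

theorem k6b_consPB.exists_c {f : ℝ → ℝ} (hf : k6b_consPB f) : ∃ c : ℕ, ∀ K : ℝ, 1 ≤ K → f K ≤ c * K ^ c := by
  obtain ⟨a, b, h1⟩ := hf
  refine ⟨max a b, fun K hK => (h1 K hK).2.trans ?_⟩
  have e1 : K ^ b ≤ K ^ (max a b) := pow_le_pow_right₀ hK (le_max_right _ _)
  have e2 : (a : ℝ) ≤ ((max a b : ℕ) : ℝ) := by exact_mod_cast le_max_left a b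
  have hK0 : 0 ≤ K := by linarith
  gcongr

/-! ## 1. the curl -/

theorem k6b_cons_curl_antisymm {m : ℕ} (T : Fin m → MvPolynomial (Fin m) ℝ) (u : Fin m → ℝ) (i j : Fin m) :
    eval u (k6b_curlP T i j) = -eval u (k6b_curlP T j i) := by
  unfold k6b_curlP
  simp only [map_sub]
  ring

theorem k6b_cons_curl_degreeOf {m D : ℕ} {T : Fin m → MvPolynomial (Fin m) ℝ} (hT : ∀ i, (T i).totalDegree ≤ D) (i j k : Fin m) :
    (k6b_curlP T i j).degreeOf k ≤ D := by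
  unfold k6b_curlP
  refine (MvPolynomial.degreeOf_sub_le _ _ _).trans (max_le ?_ ?_)
  · exact (rmz_degreeOf_pderiv m _ _ _).trans (rmz_degreeOf_le _ D (hT i) k)
  · exact (rmz_degreeOf_pderiv m _ _ _).trans (rmz_degreeOf_le _ D (hT j) k)

theorem k6b_cons_curl_eval_le {m D : ℕ} {T : Fin m → MvPolynomial (Fin m) ℝ} (hT : ∀ i, (T i).totalDegree ≤ D) (i j : Fin m)
    {K : ℝ} (hK : 1 ≤ K) {u : Fin m → ℝ} (hu : ‖u‖ ≤ K) :
    |eval u (k6b_curlP T i j)| ≤ rmzNm (k6b_curlP T i j) * K ^ (m * D) :=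
  rmz_mv_eval_le m D _ (k6b_cons_curl_degreeOf hT i j) K hK u fun k => by
    have := norm_le_pi_norm u k
    rw [Real.norm_eq_abs] at this
    exact this.trans hu

theorem k6b_cons_skw_continuous {m : ℕ} (T : Fin m → MvPolynomial (Fin m) ℝ) (x y : Fin m → ℝ) :
    Continuous fun u : Fin m → ℝ => k6b_skw T u x y := by
  unfold k6b_skw k6b_bil
  refine continuous_finsetSum _ fun i _ => continuous_finsetSum _ fun j _ => ?_
  exact ((MvPolynomial.continuous_eval _).mul continuous_const).mul continuous_const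

/-! ## 2. good directions after a perturbation -/

theorem k6b_cons_dirs {m : ℕ} (T : Fin m → MvPolynomial (Fin m) ℝ) (u0 : Fin m → ℝ) (V v : Fin (m + 1) → Fin m → ℝ)
    (K κ pv σ ω : ℝ) (hK : 1 ≤ K) (hκ : 0 < κ) (hpv1 : pv ≤ 1) (hV : ∀ i, ‖V i‖ ≤ K)
    (hv : ∀ i, ‖V i - v i‖ ≤ pv) (hω : ∀ i j, |eval u0 (k6b_curlP T i j)| ≤ ω)
    (hA : 1 ≤ κ * |(k6b_matA V).det|) (hB : 1 ≤ κ * |(k6b_matB V).det|) (hS : σ ≤ κ * |k6b_skw T u0 (V 0) (V 1)|)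
    (p2 : κ * ((m.factorial : ℝ) * m * (2 * K) ^ (m - 1) * pv) ≤ 1 / 2)
    (p3 : κ * (2 * (m : ℝ) ^ 2 * ω * (2 * K) * pv) ≤ σ / 2) :
    k6b_GoodDirs T u0 v (2 * κ + 2 * K) (σ / (2 * κ)) := by
  have hv2 : ∀ i, ‖v i‖ ≤ 2 * K := by
    intro i
    have h1 : ‖v i‖ ≤ ‖V i‖ + ‖V i - v i‖ := by
      have := norm_sub_le (V i) (V i - v i)
      rwa [sub_sub_cancel] at this
    linarith [hV i, hv i]
  have hV2 : ∀ i, ‖V i‖ ≤ 2 * K := fun i => (hV i).trans (by linarith)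
  have hent : ∀ (w : Fin m → ℝ) (j : Fin m), |w j| ≤ ‖w‖ := fun w j => by
    have := norm_le_pi_norm w j
    rwa [Real.norm_eq_abs] at this
  have hdet : ∀ (M M' : Matrix (Fin m) (Fin m) ℝ), (∀ i j, |M i j| ≤ 2 * K) → (∀ i j, |M' i j| ≤ 2 * K) →
      (∀ i j, |M i j - M' i j| ≤ pv) → 1 ≤ κ * |M.det| → 1 ≤ (2 * κ + 2 * K) * |M'.det| := by
    intro M M' h1 h2 h3 h4
    have h5 := k6b_cons_det m M M' (2 * K) pv (by linarith) h1 h2 h3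
    have h6 : |M.det| ≤ |M'.det| + |M.det - M'.det| := by
      have := abs_sub_abs_le_abs_sub M.det M'.det
      linarith
    have h7 : κ * |M.det - M'.det| ≤ 1 / 2 := (mul_le_mul_of_nonneg_left h5 hκ.le).trans p2
    have h8 : κ * |M.det| ≤ κ * |M'.det| + κ * |M.det - M'.det| := by
      rw [← mul_add]
      exact mul_le_mul_of_nonneg_left h6 hκ.le
    have h9 : 0 ≤ |M'.det| := abs_nonneg _
    nlinarith
  refine ⟨fun i => (hv2 i).trans (by linarith), ?_, ?_, ?_⟩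
  · refine hdet (k6b_matA V) (k6b_matA v) (fun i j => (hent _ j).trans (hV2 _)) (fun i j => (hent _ j).trans (hv2 _))
      (fun i j => ?_) hA
    exact (hent (V i.castSucc - v i.castSucc) j).trans (hv _)
  · refine hdet (k6b_matB V) (k6b_matB v) (fun i j => ?_) (fun i j => ?_) (fun i j => ?_) hB
    · unfold k6b_matB
      simp only [Matrix.of_apply]
      split_ifs
      · exact (hent _ j).trans (hV2 _)
      · exact (hent _ j).trans (hV2 _)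
    · unfold k6b_matB
      simp only [Matrix.of_apply]
      split_ifs
      · exact (hent _ j).trans (hv2 _)
      · exact (hent _ j).trans (hv2 _)
    · unfold k6b_matB
      simp only [Matrix.of_apply]
      split_ifs
      · exact (hent (V (Fin.last m) - v (Fin.last m)) j).trans (hv _)
      · exact (hent (V i.castSucc - v i.castSucc) j).trans (hv _)
  · have h5 := k6b_cons_bil m (fun i j => eval u0 (k6b_curlP T i j)) (V 0) (V 1) (v 0) (v 1) ω (2 * K) pv hω (hV2 0) (hv2 1)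
      (hv 0) (hv 1)
    have h6 : |k6b_skw T u0 (V 0) (V 1)| ≤ |k6b_skw T u0 (v 0) (v 1)| + |k6b_skw T u0 (V 0) (V 1) - k6b_skw T u0 (v 0) (v 1)| := by
      have := abs_sub_abs_le_abs_sub (k6b_skw T u0 (V 0) (V 1)) (k6b_skw T u0 (v 0) (v 1))
      linarith
    have h7 : κ * |k6b_skw T u0 (V 0) (V 1) - k6b_skw T u0 (v 0) (v 1)| ≤ σ / 2 :=
      (mul_le_mul_of_nonneg_left h5 hκ.le).trans p3
    have h8 : κ * |k6b_skw T u0 (V 0) (V 1)| ≤ κ * |k6b_skw T u0 (v 0) (v 1)| +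
        κ * |k6b_skw T u0 (V 0) (V 1) - k6b_skw T u0 (v 0) (v 1)| := by
      rw [← mul_add]
      exact mul_le_mul_of_nonneg_left h6 hκ.le
    rw [div_le_iff₀ (by positivity)]
    linarith

/-! ## 3. the volume of a section -/

theorem k6b_cons_section {m : ℕ} (T : Fin m → MvPolynomial (Fin m) ℝ) (u0 : Fin m → ℝ) (v : Fin (m + 1) → Fin m → ℝ)
    (x0 t0 ξ ρ ξ' ρ' η₁ X : ℝ) (ht0 : t0 ∈ Set.Icc (0 : ℝ) 1) (S : Finset ((Fin m → ℤ) × ℤ)) (Nc : ℕ) (hS : S.card ≤ Nc)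
    (Bad : Set (Fin (m + 1) → ℝ)) (hBad : volume (Bad ∩ Set.Icc (-1) 1) ≤ ENNReal.ofReal η₁)
    (hcell : ∀ (cu : Fin m → ℝ) (cx : ℝ), volume {δ : Fin (m + 1) → ℝ | δ ∈ Set.Icc (-1) 1 ∧ δ ∉ Bad ∧
      ‖k6b_base u0 v δ (m + 1) - cu‖ ≤ ξ' ∧ |k6b_height T u0 v δ - cx| ≤ ρ'} ≤ ENNReal.ofReal X) :
    volume {τ : Fin (m + 1) → ℝ | τ ∈ Set.Icc 0 1 ∧ ∃ k ∈ S,
      ‖k6b_base u0 v (k6b_legs t0 τ) (m + 1) - (fun i => ξ * (k.1 i : ℝ))‖ ≤ ξ' ∧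
      |x0 + k6b_height T u0 v (k6b_legs t0 τ) - ρ * (k.2 : ℝ)| ≤ ρ'} ≤ ENNReal.ofReal η₁ + Nc * ENNReal.ofReal X := by
  classical
  have hsub : {τ : Fin (m + 1) → ℝ | τ ∈ Set.Icc 0 1 ∧ ∃ k ∈ S,
      ‖k6b_base u0 v (k6b_legs t0 τ) (m + 1) - (fun i => ξ * (k.1 i : ℝ))‖ ≤ ξ' ∧
      |x0 + k6b_height T u0 v (k6b_legs t0 τ) - ρ * (k.2 : ℝ)| ≤ ρ'} ⊆
      k6b_legs t0 ⁻¹' ((Bad ∩ Set.Icc (-1) 1) ∪ ⋃ k ∈ S, {δ : Fin (m + 1) → ℝ | δ ∈ Set.Icc (-1) 1 ∧ δ ∉ Bad ∧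
        ‖k6b_base u0 v δ (m + 1) - (fun i => ξ * (k.1 i : ℝ))‖ ≤ ξ' ∧
        |k6b_height T u0 v δ - (ρ * (k.2 : ℝ) - x0)| ≤ ρ'}) := by
    rintro τ ⟨hτ, k, hk, h1, h2⟩
    have hmem := k6b_legs_mem ht0 hτ
    by_cases hb : k6b_legs t0 τ ∈ Bad
    · exact Or.inl ⟨hb, hmem⟩
    · refine Or.inr ?_
      simp only [Set.mem_iUnion]
      refine ⟨k, hk, hmem, hb, h1, ?_⟩
      rw [show k6b_height T u0 v (k6b_legs t0 τ) - (ρ * (k.2 : ℝ) - x0) =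
        x0 + k6b_height T u0 v (k6b_legs t0 τ) - ρ * (k.2 : ℝ) by ring]
      exact h2
  refine (measure_mono hsub).trans ?_
  rw [k6b_legs_vol]
  refine (measure_union_le _ _).trans (add_le_add hBad ?_)
  refine (measure_biUnion_finset_le _ _).trans ?_
  refine (Finset.sum_le_card_nsmul _ _ _ fun k _ => hcell _ _).trans ?_
  rw [nsmul_eq_mul]
  exact mul_le_mul_left (by exact_mod_cast hS) _

theorem k6b_cons_floor_close {ξ : ℝ} (hξ : 0 < ξ) (y : ℝ) : |y - ξ * (⌊y / ξ⌋ : ℝ)| ≤ ξ := by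
  have h1 := Int.floor_le (y / ξ)
  have h2 := Int.lt_floor_add_one (y / ξ)
  have e : y = ξ * (y / ξ) := by field_simp
  rw [abs_le]
  constructor
  · have : ξ * (⌊y / ξ⌋ : ℝ) ≤ ξ * (y / ξ) := mul_le_mul_of_nonneg_left h1 hξ.le
    linarith
  · have : ξ * (y / ξ) ≤ ξ * ((⌊y / ξ⌋ : ℝ) + 1) := mul_le_mul_of_nonneg_left h2.le hξ.le
    linarith

/-! ## 4. the test -/

/-- the test of the chain lemma -/
def k6b_consPsi {m : ℕ} (Y : k6b_Sw m) (T : Fin m → MvPolynomial (Fin m) ℝ) (K K' σ' ξ ρ ξ' ρ' : ℝ)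
    (S : Finset ((Fin m → ℤ) × ℤ)) (e : Y.Lam × ℝ) (J : Fin (m + 1) → Y.Bn) (τ : Fin (m + 1) → ℝ) : Prop :=
  ‖Y.pos e‖ ≤ K ∧ e.2 ∈ Set.Icc (0 : ℝ) 1 ∧ k6b_GoodDirs T (Y.pos e) (fun i => Y.cen (J i)) K' σ' ∧
    ∃ k ∈ S, ‖k6b_base (Y.pos e) (fun i => Y.cen (J i)) (k6b_legs e.2 τ) (m + 1) - (fun i => ξ * (k.1 i : ℝ))‖ ≤ ξ' ∧
      |Y.x e + k6b_height T (Y.pos e) (fun i => Y.cen (J i)) (k6b_legs e.2 τ) - ρ * (k.2 : ℝ)| ≤ ρ'

theorem k6b_cons_pos_measurable {m : ℕ} {Y : k6b_Sw m} (hY : Y.WF) : Measurable Y.pos := by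
  unfold k6b_Sw.pos
  exact (hY.u0_meas.comp measurable_fst).add (measurable_snd.smul (hY.vel_meas.comp measurable_fst))

theorem k6b_consPsi_meas {m : ℕ} {Y : k6b_Sw m} (hY : Y.WF) (T : Fin m → MvPolynomial (Fin m) ℝ) (K K' σ' ξ ρ ξ' ρ' : ℝ)
    (S : Finset ((Fin m → ℤ) × ℤ)) (J : Fin (m + 1) → Y.Bn) :
    MeasurableSet {q : (Y.Lam × ℝ) × (Fin (m + 1) → ℝ) | k6b_consPsi Y T K K' σ' ξ ρ ξ' ρ' S q.1 J q.2} := by
  have hpos : Measurable fun q : (Y.Lam × ℝ) × (Fin (m + 1) → ℝ) => Y.pos q.1 := (k6b_cons_pos_measurable hY).comp measurable_fst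
  have hleg : Measurable fun q : (Y.Lam × ℝ) × (Fin (m + 1) → ℝ) => k6b_legs q.1.2 q.2 :=
    (k6b_legs_continuous (m + 1)).measurable.comp ((measurable_snd.comp measurable_fst).prodMk measurable_snd)
  have hpl : Measurable fun q : (Y.Lam × ℝ) × (Fin (m + 1) → ℝ) => (Y.pos q.1, k6b_legs q.1.2 q.2) := hpos.prodMk hleg
  have hbase : Measurable fun q : (Y.Lam × ℝ) × (Fin (m + 1) → ℝ) =>
      k6b_base (Y.pos q.1) (fun i => Y.cen (J i)) (k6b_legs q.1.2 q.2) (m + 1) := by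
    have h := (k6b_base_continuous (fun i => Y.cen (J i)) (m + 1)).measurable.comp hpl
    exact h
  have hheight : Measurable fun q : (Y.Lam × ℝ) × (Fin (m + 1) → ℝ) =>
      k6b_height T (Y.pos q.1) (fun i => Y.cen (J i)) (k6b_legs q.1.2 q.2) := by
    have h := (k6b_height_continuous T (fun i => Y.cen (J i))).measurable.comp hpl
    exact h
  have hx : Measurable fun q : (Y.Lam × ℝ) × (Fin (m + 1) → ℝ) => Y.x q.1 := hY.x_meas.comp measurable_fst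
  have hskw : Measurable fun q : (Y.Lam × ℝ) × (Fin (m + 1) → ℝ) => k6b_skw T (Y.pos q.1) (Y.cen (J 0)) (Y.cen (J 1)) := by
    have h := (k6b_cons_skw_continuous T (Y.cen (J 0)) (Y.cen (J 1))).measurable.comp hpos
    exact h
  have m1 : MeasurableSet {q : (Y.Lam × ℝ) × (Fin (m + 1) → ℝ) | ‖Y.pos q.1‖ ≤ K} := measurableSet_le hpos.norm measurable_const
  have m2 : MeasurableSet {q : (Y.Lam × ℝ) × (Fin (m + 1) → ℝ) | q.1.2 ∈ Set.Icc (0 : ℝ) 1} :=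
    (measurable_snd.comp measurable_fst) measurableSet_Icc
  have m3 : MeasurableSet {q : (Y.Lam × ℝ) × (Fin (m + 1) → ℝ) | k6b_GoodDirs T (Y.pos q.1) (fun i => Y.cen (J i)) K' σ'} := by
    have e : {q : (Y.Lam × ℝ) × (Fin (m + 1) → ℝ) | k6b_GoodDirs T (Y.pos q.1) (fun i => Y.cen (J i)) K' σ'} =
        {q | ((∀ i, ‖Y.cen (J i)‖ ≤ K') ∧ 1 ≤ K' * |(k6b_matA fun i => Y.cen (J i)).det| ∧
          1 ≤ K' * |(k6b_matB fun i => Y.cen (J i)).det|)} ∩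
        {q | σ' ≤ |k6b_skw T (Y.pos q.1) (Y.cen (J 0)) (Y.cen (J 1))|} := by
      ext q
      constructor
      · intro h
        exact ⟨⟨h.bd, h.detA, h.detB⟩, h.skw⟩
      · rintro ⟨⟨h1, h2, h3⟩, h4⟩
        exact ⟨h1, h2, h3, h4⟩
    rw [e]
    exact (MeasurableSet.const _).inter (measurableSet_le measurable_const hskw.abs)
  have m4 : MeasurableSet {q : (Y.Lam × ℝ) × (Fin (m + 1) → ℝ) | ∃ k ∈ S,
      ‖k6b_base (Y.pos q.1) (fun i => Y.cen (J i)) (k6b_legs q.1.2 q.2) (m + 1) - (fun i => ξ * (k.1 i : ℝ))‖ ≤ ξ' ∧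
      |Y.x q.1 + k6b_height T (Y.pos q.1) (fun i => Y.cen (J i)) (k6b_legs q.1.2 q.2) - ρ * (k.2 : ℝ)| ≤ ρ'} := by
    have e : {q : (Y.Lam × ℝ) × (Fin (m + 1) → ℝ) | ∃ k ∈ S,
      ‖k6b_base (Y.pos q.1) (fun i => Y.cen (J i)) (k6b_legs q.1.2 q.2) (m + 1) - (fun i => ξ * (k.1 i : ℝ))‖ ≤ ξ' ∧
      |Y.x q.1 + k6b_height T (Y.pos q.1) (fun i => Y.cen (J i)) (k6b_legs q.1.2 q.2) - ρ * (k.2 : ℝ)| ≤ ρ'} =
      ⋃ k ∈ S, ({q | ‖k6b_base (Y.pos q.1) (fun i => Y.cen (J i)) (k6b_legs q.1.2 q.2) (m + 1) -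
          (fun i => ξ * (k.1 i : ℝ))‖ ≤ ξ'} ∩
        {q | |Y.x q.1 + k6b_height T (Y.pos q.1) (fun i => Y.cen (J i)) (k6b_legs q.1.2 q.2) - ρ * (k.2 : ℝ)| ≤ ρ'}) := by
      ext q
      simp only [Set.mem_ofPred_eq, Set.mem_iUnion, Set.mem_inter_iff, exists_prop]
    rw [e]
    refine Finset.measurableSet_biUnion _ fun k _ => MeasurableSet.inter ?_ ?_
    · exact measurableSet_le (hbase.sub measurable_const).norm measurable_const
    · exact measurableSet_le ((hx.add hheight).sub measurable_const).abs measurable_const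
  have e : {q : (Y.Lam × ℝ) × (Fin (m + 1) → ℝ) | k6b_consPsi Y T K K' σ' ξ ρ ξ' ρ' S q.1 J q.2} =
      {q : (Y.Lam × ℝ) × (Fin (m + 1) → ℝ) | ‖Y.pos q.1‖ ≤ K} ∩ ({q | q.1.2 ∈ Set.Icc (0 : ℝ) 1} ∩
        ({q | k6b_GoodDirs T (Y.pos q.1) (fun i => Y.cen (J i)) K' σ'} ∩ {q | ∃ k ∈ S,
      ‖k6b_base (Y.pos q.1) (fun i => Y.cen (J i)) (k6b_legs q.1.2 q.2) (m + 1) - (fun i => ξ * (k.1 i : ℝ))‖ ≤ ξ' ∧
      |Y.x q.1 + k6b_height T (Y.pos q.1) (fun i => Y.cen (J i)) (k6b_legs q.1.2 q.2) - ρ * (k.2 : ℝ)| ≤ ρ'})) := by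
    ext q
    unfold k6b_consPsi
    simp only [Set.mem_ofPred_eq, Set.mem_inter_iff]
  rw [e]
  exact m1.inter (m2.inter (m3.inter m4))

/-- the volume of the sections of the test -/
theorem k6b_consPsi_vol {m : ℕ} (Y : k6b_Sw m) (T : Fin m → MvPolynomial (Fin m) ℝ) (K K' σ' ξ ρ ξ' ρ' η₁ X : ℝ)
    (S : Finset ((Fin m → ℤ) × ℤ)) (Nc : ℕ) (hS : S.card ≤ Nc)
    (h1 : ∀ (u0 : Fin m → ℝ) (v : Fin (m + 1) → Fin m → ℝ), ‖u0‖ ≤ K → k6b_GoodDirs T u0 v K' σ' →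
      ∃ Bad : Set (Fin (m + 1) → ℝ), MeasurableSet Bad ∧ volume (Bad ∩ Set.Icc (-1) 1) ≤ ENNReal.ofReal η₁ ∧
      ∀ (cu : Fin m → ℝ) (cx : ℝ), volume {δ : Fin (m + 1) → ℝ | δ ∈ Set.Icc (-1) 1 ∧ δ ∉ Bad ∧
        ‖k6b_base u0 v δ (m + 1) - cu‖ ≤ ξ' ∧ |k6b_height T u0 v δ - cx| ≤ ρ'} ≤ ENNReal.ofReal X)
    (e : Y.Lam × ℝ) (J : Fin (m + 1) → Y.Bn) :
    volume {τ : Fin (m + 1) → ℝ | τ ∈ Set.Icc 0 1 ∧ k6b_consPsi Y T K K' σ' ξ ρ ξ' ρ' S e J τ} ≤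
      ENNReal.ofReal η₁ + Nc * ENNReal.ofReal X := by
  by_cases hc : ‖Y.pos e‖ ≤ K ∧ e.2 ∈ Set.Icc (0 : ℝ) 1 ∧ k6b_GoodDirs T (Y.pos e) (fun i => Y.cen (J i)) K' σ'
  · obtain ⟨Bad, -, hBad, hcell⟩ := h1 (Y.pos e) (fun i => Y.cen (J i)) hc.1 hc.2.2
    refine (measure_mono ?_).trans (k6b_cons_section T (Y.pos e) (fun i => Y.cen (J i)) (Y.x e) e.2 ξ ρ ξ' ρ' η₁ X hc.2.1 S Nc hS
      Bad hBad hcell)
    rintro τ ⟨hτ, -, -, -, hk⟩
    exact ⟨hτ, hk⟩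
  · have : {τ : Fin (m + 1) → ℝ | τ ∈ Set.Icc 0 1 ∧ k6b_consPsi Y T K K' σ' ξ ρ ξ' ρ' S e J τ} = ∅ := by
      ext τ
      simp only [Set.mem_ofPred_eq, Set.mem_empty_iff_false, iff_false]
      rintro ⟨-, h1, h2, h3, -⟩
      exact hc ⟨h1, h2, h3⟩
    rw [this, measure_empty]
    exact zero_le

/-! ## 5. an admissible path which avoids the strips passes the test -/

theorem k6b_cons_evt_last {m n : ℕ} (Y : k6b_Sw m) (e0 : Y.Lam × ℝ) (π : Fin (n + 1) → Y.Lam × ℝ × ℝ) :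
    Y.evt e0 π (n + 1) = ((π (Fin.last n)).1, (π (Fin.last n)).2.2) := by
  unfold k6b_Sw.evt
  rw [dif_pos ⟨Nat.succ_pos n, by omega⟩]
  rfl

theorem k6b_consPsi_of_adm {m : ℕ} {Y : k6b_Sw m} {T : Fin m → MvPolynomial (Fin m) ℝ} {K β pv εT ξ ρ Cb K' σ' : ℝ}
    (hξ : 0 < ξ) (hρ : 0 < ρ) (hCb : 0 ≤ Cb) (hGeo : Y.Geo T K β pv εT) {S : Finset ((Fin m → ℤ) × ℤ)}
    (hS : ∀ e ∈ Y.sup, ((fun i => ⌊Y.pos e i / ξ⌋), ⌊Y.x e / ρ⌋) ∈ S) (hb1 : β + pv ≤ K * ξ) (hb2 : β + pv + εT ≤ K * ρ)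
    {e0 : Y.Lam × ℝ} {π : Fin (m + 1) → Y.Lam × ℝ × ℝ} (hAdm : Y.Adm e0 π)
    (hsim : ‖Y.pos (Y.evt e0 π (m + 1)) - k6b_base (Y.pos e0) (fun i => Y.cen (Y.bin (π i).1))
          (fun i => (π i).2.2 - (Y.evt e0 π i).2) (m + 1)‖ ≤ Cb * (β + pv) ∧
      |Y.x (Y.evt e0 π (m + 1)) - (Y.x e0 + k6b_height T (Y.pos e0) (fun i => Y.cen (Y.bin (π i).1))
          (fun i => (π i).2.2 - (Y.evt e0 π i).2))| ≤ Cb * (β + pv + εT))
    (hdirs : k6b_GoodDirs T (Y.pos e0) (fun i => Y.cen (Y.bin (π i).1)) K' σ') :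
    k6b_consPsi Y T K K' σ' ξ ρ ((Cb * K + 1) * ξ) ((Cb * K + 1) * ρ) S e0 (fun i => Y.bin (π i).1) (fun i => (π i).2.2) := by
  rw [k6b_legs_evt Y e0 π] at hsim
  obtain ⟨en, hen⟩ : ∃ en, en = Y.evt e0 π (m + 1) := ⟨_, rfl⟩
  have hsup : en ∈ Y.sup := by
    rw [hen, k6b_cons_evt_last]
    exact hAdm.en _
  rw [← hen] at hsim
  refine ⟨hGeo.box0 e0 hAdm.start, hAdm.start.2, hdirs, _, hS en hsup, ?_, ?_⟩
  · have h1 : ‖Y.pos en - (fun i => ξ * ((⌊Y.pos en i / ξ⌋ : ℤ) : ℝ))‖ ≤ ξ := by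
      rw [pi_norm_le_iff_of_nonneg hξ.le]
      intro i
      rw [Real.norm_eq_abs]
      exact k6b_cons_floor_close hξ _
    have h2 : Cb * (β + pv) ≤ Cb * (K * ξ) := mul_le_mul_of_nonneg_left hb1 hCb
    have h3 := norm_sub_le_norm_sub_add_norm_sub
      (k6b_base (Y.pos e0) (fun i => Y.cen (Y.bin (π i).1)) (k6b_legs e0.2 fun i => (π i).2.2) (m + 1)) (Y.pos en)
      (fun i => ξ * ((⌊Y.pos en i / ξ⌋ : ℤ) : ℝ))
    rw [norm_sub_rev _ (Y.pos en)] at h3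
    refine h3.trans ?_
    nlinarith [hsim.1]
  · have h1 := k6b_cons_floor_close hρ (Y.x en)
    have h2 : Cb * (β + pv + εT) ≤ Cb * (K * ρ) := mul_le_mul_of_nonneg_left hb2 hCb
    have h3 := hsim.2
    rw [abs_le] at h1 h3 ⊢
    constructor
    · nlinarith [h1.1, h1.2, h3.1, h3.2]
    · nlinarith [h1.1, h1.2, h3.1, h3.2]

/-! ## 6. the start set, the functionals, the integral -/

theorem k6b_cons_start_mu {m : ℕ} {Y : k6b_Sw m} (hY : Y.WF) {K ξ ρ : ℝ} {Nc : ℕ} (hSupp : Y.Supp K ξ ρ Nc) (hK : 1 ≤ K)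
    (P : MvPolynomial (Fin m) ℝ) (a s : ℝ)
    (hvol : volume {u : Fin m → ℝ | ‖u‖ ≤ K ∧ a * |eval u P| < s} ≤ ENNReal.ofReal (1 / (4 * K))) :
    MeasurableSet {e : Y.Lam × ℝ | ‖Y.pos e‖ ≤ K → s ≤ a * |eval (Y.pos e) P|} ∧
      Y.mu {e : Y.Lam × ℝ | ‖Y.pos e‖ ≤ K → s ≤ a * |eval (Y.pos e) P|}ᶜ ≤ 1 / 4 := by
  have hB : MeasurableSet {u : Fin m → ℝ | ‖u‖ ≤ K ∧ a * |eval u P| < s} :=
    (measurableSet_le continuous_norm.measurable measurable_const).inter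
      (measurableSet_lt (measurable_const.mul (MvPolynomial.continuous_eval P).measurable.abs) measurable_const)
  have e : {e : Y.Lam × ℝ | ‖Y.pos e‖ ≤ K → s ≤ a * |eval (Y.pos e) P|}ᶜ =
      {e | Y.pos e ∈ {u : Fin m → ℝ | ‖u‖ ≤ K ∧ a * |eval u P| < s}} := by
    ext e
    simp only [Set.mem_compl_iff, Set.mem_ofPred_eq, Classical.not_imp, not_le]
  have hm : MeasurableSet {e : Y.Lam × ℝ | ‖Y.pos e‖ ≤ K → s ≤ a * |eval (Y.pos e) P|}ᶜ := by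
    rw [e]
    exact (k6b_cons_pos_measurable hY) hB
  refine ⟨by simpa using hm.compl, ?_⟩
  rw [e]
  refine (hSupp.dens _ hB).trans ?_
  calc ENNReal.ofReal K * volume {u : Fin m → ℝ | ‖u‖ ≤ K ∧ a * |eval u P| < s}
      ≤ ENNReal.ofReal K * ENNReal.ofReal (1 / (4 * K)) := by gcongr
    _ = ENNReal.ofReal (1 / 4) := by
        rw [← ENNReal.ofReal_mul (by linarith)]
        congr 1
        field_simp
    _ = 1 / 4 := by
        rw [ENNReal.ofReal_div_of_pos (by norm_num)]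
        simp

theorem k6b_cons_int {m : ℕ} {Y : k6b_Sw m} (hY : Y.WF) {K : ℝ} (hK : 1 ≤ K) (n : ℕ)
    (hpal : ∑ J, Y.pal J ≤ ENNReal.ofReal K) (Φ : (Y.Lam × ℝ) → (Fin n → Y.Bn) → ℝ≥0∞) (b : ℝ) (hb : 0 ≤ b)
    (hΦ : ∀ e J, Φ e J ≤ ENNReal.ofReal b)
    (hkey : 1 / 2 ≤ (ENNReal.ofReal K * ENNReal.ofReal K) ^ n *
      ∫⁻ e, ∑ J : Fin n → Y.Bn, (∏ i, Y.pal (J i)) * Φ e J ∂Y.mu) :
    1 / 2 ≤ (K * K) ^ n * (K ^ n * b) := by
  have hK0 : 0 ≤ K := by linarith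
  have h1 : ∑ J : Fin n → Y.Bn, ∏ i, Y.pal (J i) = (∑ J, Y.pal J) ^ n := by
    have := Finset.prod_univ_sum (fun _ : Fin n => (Finset.univ : Finset Y.Bn)) (fun _ j => Y.pal j)
    rw [Fintype.piFinset_univ, Finset.prod_const, Finset.card_univ, Fintype.card_fin] at this
    exact this.symm
  have h2 : ∫⁻ e, ∑ J : Fin n → Y.Bn, (∏ i, Y.pal (J i)) * Φ e J ∂Y.mu ≤ ENNReal.ofReal K ^ n * ENNReal.ofReal b := by
    calc ∫⁻ e, ∑ J : Fin n → Y.Bn, (∏ i, Y.pal (J i)) * Φ e J ∂Y.mu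
        ≤ ∫⁻ _e, (∑ J : Fin n → Y.Bn, ∏ i, Y.pal (J i)) * ENNReal.ofReal b ∂Y.mu := by
          refine lintegral_mono fun e => ?_
          rw [Finset.sum_mul]
          exact Finset.sum_le_sum fun J _ => mul_le_mul_right (hΦ e J) _
      _ = (∑ J : Fin n → Y.Bn, ∏ i, Y.pal (J i)) * ENNReal.ofReal b := by
          rw [lintegral_const, hY.prob, mul_one]
      _ ≤ ENNReal.ofReal K ^ n * ENNReal.ofReal b := by
          rw [h1]
          gcongr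
  have h3 : (1 / 2 : ℝ≥0∞) ≤ ENNReal.ofReal ((K * K) ^ n * (K ^ n * b)) := by
    rw [ENNReal.ofReal_mul (by positivity), ENNReal.ofReal_pow (by positivity), ENNReal.ofReal_mul hK0,
      ENNReal.ofReal_mul (by positivity), ENNReal.ofReal_pow hK0]
    exact hkey.trans (by gcongr)
  have h4 : (1 / 2 : ℝ≥0∞) = ENNReal.ofReal (1 / 2) := by
    rw [ENNReal.ofReal_div_of_pos (by norm_num)]
    simp
  rw [h4] at h3
  exact (ENNReal.ofReal_le_ofReal_iff (by positivity)).1 h3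

theorem k6b_cons_arith {s A k2 Q G C Cm ξm ρ N σ' X η₁ : ℝ} (hσ' : 0 < σ') (hs : s = A * k2 * σ') (hA : 0 ≤ A * k2)
    (hQη : Q * η₁ = 1 / 4) (hX : X = G * (Cm * ξm) * (C * ρ) / σ') (hfin : 1 / 2 ≤ Q * (η₁ + N * X)) :
    s ≤ A * k2 * (4 * Q) * G * (Cm * C) * (N * ξm * ρ) := by
  have h1 : 1 / 4 ≤ Q * N * X := by
    have : Q * (η₁ + N * X) = Q * η₁ + Q * N * X := by ring
    rw [this, hQη] at hfin
    linarith
  have h2 : σ' / 4 ≤ Q * N * (G * (Cm * ξm) * (C * ρ)) := by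
    rw [hX] at h1
    have h3 : Q * N * (G * (Cm * ξm) * (C * ρ) / σ') = Q * N * (G * (Cm * ξm) * (C * ρ)) / σ' := by ring
    rw [h3, le_div_iff₀ hσ'] at h1
    linarith
  rw [hs]
  calc A * k2 * σ' = A * k2 * (4 * (σ' / 4)) := by ring
    _ ≤ A * k2 * (4 * (Q * N * (G * (Cm * ξm) * (C * ρ)))) := by gcongr
    _ = A * k2 * (4 * Q) * G * (Cm * C) * (N * ξm * ρ) := by ring

theorem k6b_consPB.congr {f g : ℝ → ℝ} (hf : k6b_consPB f) (e : ∀ K, g K = f K) : k6b_consPB g := by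
  have : g = f := funext e
  rw [this]
  exact hf

/-! ## 7. the constants -/

/-- the constant of the good directions -/
def k6b_consKap (c4 : ℕ) (K : ℝ) : ℝ := ((c4 + 1 : ℕ) : ℝ) * K ^ (2 * (c4 + 1))

def k6b_consQ (m : ℕ) (K : ℝ) : ℝ := K ^ (3 * (m + 1))

def k6b_consC (c3 : ℕ) (K : ℝ) : ℝ := (c3 : ℝ) * K ^ c3 * K + 1

def k6b_consA (cs : ℕ) (K : ℝ) : ℝ := (cs : ℝ) * K ^ cs

def k6b_consF (m cs c4 c3 c1 : ℕ) (K : ℝ) : ℝ :=
  k6b_consA cs K * (2 * k6b_consKap c4 K) * (4 * k6b_consQ m K) *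
    ((c1 : ℝ) * ((2 * k6b_consKap c4 K + 2 * K) * (4 * k6b_consQ m K)) ^ c1) * (k6b_consC c3 K ^ m * k6b_consC c3 K)

def k6b_consP2 (m c4 : ℕ) (K : ℝ) : ℝ := 2 * (k6b_consKap c4 K * ((m.factorial : ℝ) * m * (2 * K) ^ (m - 1)))

def k6b_consP3 (m D cs c4 : ℕ) (K : ℝ) : ℝ := 2 * (k6b_consKap c4 K * (2 * (m : ℝ) ^ 2 * K ^ (m * D) * (2 * K))) * k6b_consA cs K

theorem k6b_cons_eqns_cite : True := by
  have := @k6b_consPB.eq_1
  have := @k6b_consPsi.eq_1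
  have := @k6b_consKap.eq_1
  have := @k6b_consQ.eq_1
  have := @k6b_consC.eq_1
  have := @k6b_consA.eq_1
  have := @k6b_consF.eq_1
  have := @k6b_consP2.eq_1
  have := @k6b_consP3.eq_1
  trivial

theorem k6b_consPB_Kap (c4 : ℕ) : k6b_consPB (k6b_consKap c4) := (k6b_PB_const (c4 + 1)).mul (k6b_PB_id.pow _)

theorem k6b_consPB_Q (m : ℕ) : k6b_consPB (k6b_consQ m) := k6b_PB_id.pow _

theorem k6b_consPB_C (c3 : ℕ) : k6b_consPB (k6b_consC c3) :=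
  ((((k6b_PB_const c3).mul (k6b_PB_id.pow c3)).mul k6b_PB_id).add (k6b_PB_const 1)).congr fun K => by
    unfold k6b_consC
    push_cast
    ring

theorem k6b_consPB_A (cs : ℕ) : k6b_consPB (k6b_consA cs) := (k6b_PB_const cs).mul (k6b_PB_id.pow cs)

theorem k6b_consPB_F (m cs c4 c3 c1 : ℕ) : k6b_consPB (k6b_consF m cs c4 c3 c1) :=
  (((((k6b_consPB_A cs).mul ((k6b_PB_const 2).mul (k6b_consPB_Kap c4))).mul ((k6b_PB_const 4).mul (k6b_consPB_Q m))).mul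
    ((k6b_PB_const c1).mul (((((k6b_PB_const 2).mul (k6b_consPB_Kap c4)).add ((k6b_PB_const 2).mul k6b_PB_id)).mul
      ((k6b_PB_const 4).mul (k6b_consPB_Q m))).pow c1))).mul (((k6b_consPB_C c3).pow m).mul (k6b_consPB_C c3))).congr fun K => by
    unfold k6b_consF
    push_cast
    ring

theorem k6b_consPB_P2 (m c4 : ℕ) : k6b_consPB (k6b_consP2 m c4) :=
  ((k6b_PB_const 2).mul ((k6b_consPB_Kap c4).mul (((k6b_PB_const m.factorial).mul (k6b_PB_const m)).mul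
    (((k6b_PB_const 2).mul k6b_PB_id).pow (m - 1))))).congr fun K => by
    unfold k6b_consP2
    push_cast
    ring

theorem k6b_consPB_P3 (m D cs c4 : ℕ) : k6b_consPB (k6b_consP3 m D cs c4) :=
  (((k6b_PB_const 2).mul ((k6b_consPB_Kap c4).mul ((((k6b_PB_const 2).mul ((k6b_PB_const m).pow 2)).mul (k6b_PB_id.pow (m * D))).mul
    ((k6b_PB_const 2).mul k6b_PB_id)))).mul (k6b_consPB_A cs)).congr fun K => by
    unfold k6b_consP3
    push_cast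
    ring

theorem k6b_consPB.nonneg {f : ℝ → ℝ} (hf : k6b_consPB f) {K : ℝ} (hK : 1 ≤ K) : 0 ≤ f K := by
  obtain ⟨a, b, h⟩ := hf
  exact (h K hK).1

theorem k6b_cons_budget (n : ℕ) (hn : n ≤ 4) : (1 / 4 : ℝ≥0∞) + (n : ℝ≥0∞) * (1 / 64 + 1 / 64) ≤ 1 / 2 := by
  have e4 : (1 / 4 : ℝ≥0∞) = ENNReal.ofReal (1 / 4) := by
    rw [ENNReal.ofReal_div_of_pos (by norm_num)]
    simp
  have e64 : (1 / 64 : ℝ≥0∞) = ENNReal.ofReal (1 / 64) := by
    rw [ENNReal.ofReal_div_of_pos (by norm_num)]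
    simp
  have e2 : (1 / 2 : ℝ≥0∞) = ENNReal.ofReal (1 / 2) := by
    rw [ENNReal.ofReal_div_of_pos (by norm_num)]
    simp
  have hn' : (n : ℝ≥0∞) ≤ ENNReal.ofReal 4 := by
    rw [show (4 : ℝ) = ((4 : ℕ) : ℝ) by norm_num, ENNReal.ofReal_natCast]
    exact_mod_cast hn
  calc (1 / 4 : ℝ≥0∞) + (n : ℝ≥0∞) * (1 / 64 + 1 / 64)
      ≤ ENNReal.ofReal (1 / 4) + ENNReal.ofReal 4 * (ENNReal.ofReal (1 / 64) + ENNReal.ofReal (1 / 64)) := by
        rw [e4, e64]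
        gcongr
    _ = ENNReal.ofReal (1 / 4 + 4 * (1 / 64 + 1 / 64)) := by
        rw [← ENNReal.ofReal_add (by norm_num) (by norm_num), ← ENNReal.ofReal_mul (by norm_num),
          ← ENNReal.ofReal_add (by norm_num) (by norm_num)]
    _ ≤ 1 / 2 := by
        rw [e2]
        exact ENNReal.ofReal_le_ofReal (by norm_num)

theorem k6b_cons_Om_meas {m n : ℕ} {Y : k6b_Sw m} (hY : Y.WF) (T : Fin m → MvPolynomial (Fin m) ℝ) :
    Measurable fun q : (Y.Lam × ℝ) × (Fin n → Y.Lam) =>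
      ((fun a b => eval (Y.pos q.1) (k6b_curlP T a b) : Fin m → Fin m → ℝ), (fun j => Y.vel (q.2 j) : Fin n → Fin m → ℝ)) := by
  have hpos : Measurable fun q : (Y.Lam × ℝ) × (Fin n → Y.Lam) => Y.pos q.1 := (k6b_cons_pos_measurable hY).comp measurable_fst
  refine Measurable.prodMk ?_ ?_
  · refine measurable_pi_lambda _ fun a => measurable_pi_lambda _ fun b => ?_
    have h := (MvPolynomial.continuous_eval (k6b_curlP T a b)).measurable.comp hpos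
    exact h
  · refine measurable_pi_lambda _ fun j => ?_
    exact hY.vel_meas.comp ((measurable_pi_apply j).comp measurable_snd)

/-! ## 8. THE GLUE -/

/-- **C5** = Proposition `a05:conservativity` at one scale, from C1-C4. -/
theorem k6b_conservative_of (hC1 : k6b_endpoint_volume_stmt) (hC2 : k6b_chain_stmt) (hC3 : k6b_simulate_stmt)
    (hC4 : k6b_avoid_stmt) : k6b_conservative_stmt := by
  intro m D hm
  have hm2 : 2 ≤ m := by rcases hm with h | h <;> omega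
  have hm3 : m ≤ 3 := by rcases hm with h | h <;> omega
  obtain ⟨c1, h1⟩ := hC1 m D hm2
  obtain ⟨c3, h3⟩ := hC3 m (m + 1) D
  obtain ⟨c4, a4, ha_meas, ha_dep, ha_norm, h4⟩ := hC4 m hm
  obtain ⟨cs, hcs1, hs⟩ := k6b_cons_start m D
  obtain ⟨c, hc⟩ := ((((k6b_consPB_F m cs c4 c3 c1).add (k6b_consPB_P2 m c4)).add (k6b_consPB_P3 m D cs c4)).add
    (k6b_PB_const 1)).exists_c
  refine ⟨c, ?_⟩
  intro Y T K β pv εT ξ ρ Nc hK hξ hρ hβ0 hβ1 hpv0 hεT hTd hTn hWF hCh hGeo hSupp hpvc hb1 hb2 i j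
  have hK0 : 0 < K := by linarith
  have hcK := hc K hK
  have hF0 := (k6b_consPB_F m cs c4 c3 c1).nonneg hK
  have hP20 := (k6b_consPB_P2 m c4).nonneg hK
  have hP30 := (k6b_consPB_P3 m D cs c4).nonneg hK
  simp only [Nat.cast_one] at hcK
  -- the constants at this `K`
  obtain ⟨κ, hκd⟩ : ∃ κ, κ = k6b_consKap c4 K := ⟨_, rfl⟩
  obtain ⟨Q, hQd⟩ : ∃ Q, Q = k6b_consQ m K := ⟨_, rfl⟩
  obtain ⟨Cb, hCbd⟩ : ∃ Cb, Cb = (c3 : ℝ) * K ^ c3 := ⟨_, rfl⟩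
  obtain ⟨A, hAd⟩ : ∃ A, A = k6b_consA cs K := ⟨_, rfl⟩
  have hκ0 : 0 < κ := by
    rw [hκd]
    unfold k6b_consKap
    positivity
  have hκK : K ≤ κ := by
    rw [hκd]
    unfold k6b_consKap
    have e1 : K ^ 1 ≤ K ^ (2 * (c4 + 1)) := pow_le_pow_right₀ hK (by omega)
    have e2 : (1 : ℝ) ≤ ((c4 + 1 : ℕ) : ℝ) := by exact_mod_cast Nat.succ_le_succ (Nat.zero_le c4)
    rw [pow_one] at e1
    nlinarith
  have hQ1 : 1 ≤ Q := by
    rw [hQd]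
    exact one_le_pow₀ hK
  have hCb0 : 0 ≤ Cb := by rw [hCbd]; positivity
  have hA0 : 0 < A := by
    rw [hAd]
    unfold k6b_consA
    have : (0 : ℝ) < cs := by exact_mod_cast hcs1
    positivity
  have hCd : k6b_consC c3 K = Cb * K + 1 := by rw [hCbd]; rfl
  obtain ⟨C, hCdef⟩ : ∃ C, C = Cb * K + 1 := ⟨_, rfl⟩
  have hC0 : 0 < C := by rw [hCdef]; positivity
  -- the perturbation is small
  have hcK0 : 0 ≤ (c : ℝ) * K ^ c := by positivity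
  have hp1 : pv ≤ 1 := by nlinarith
  have hp2 : κ * ((m.factorial : ℝ) * m * (2 * K) ^ (m - 1) * pv) ≤ 1 / 2 := by
    have e : k6b_consP2 m c4 K * pv ≤ 1 := (mul_le_mul_of_nonneg_right (by linarith) hpv0).trans hpvc
    unfold k6b_consP2 at e
    rw [← hκd] at e
    nlinarith
  -- the maximal curl
  obtain ⟨⟨i₁, j₁⟩, -, hmax⟩ := Finset.exists_max_image (Finset.univ : Finset (Fin m × Fin m))
    (fun p => rmzNm (k6b_curlP T p.1 p.2)) ⟨(i, j), Finset.mem_univ _⟩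
  obtain ⟨s, hsd⟩ : ∃ s, s = rmzNm (k6b_curlP T i₁ j₁) := ⟨_, rfl⟩
  have hmax' : ∀ a b, rmzNm (k6b_curlP T a b) ≤ s := fun a b => by
    rw [hsd]
    exact hmax (a, b) (Finset.mem_univ _)
  refine (hmax' i j).trans ?_
  have hRHS : 0 ≤ (c : ℝ) * K ^ c * (Nc * ξ ^ m * ρ) := by positivity
  rcases le_or_gt s 0 with hs0 | hs0
  · exact hs0.trans hRHS
  obtain ⟨σ, hσd⟩ : ∃ σ, σ = s / A := ⟨_, rfl⟩
  have hσ0 : 0 < σ := by rw [hσd]; positivity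
  obtain ⟨ω, hωd⟩ : ∃ ω, ω = s * K ^ (m * D) := ⟨_, rfl⟩
  have hp3 : κ * (2 * (m : ℝ) ^ 2 * ω * (2 * K) * pv) ≤ σ / 2 := by
    have e : k6b_consP3 m D cs c4 K * pv ≤ 1 := (mul_le_mul_of_nonneg_right (by linarith) hpv0).trans hpvc
    unfold k6b_consP3 at e
    rw [← hκd, ← hAd] at e
    have e2 : κ * (2 * (m : ℝ) ^ 2 * K ^ (m * D) * (2 * K)) * pv ≤ 1 / (2 * A) := by
      rw [le_div_iff₀ (by positivity)]
      nlinarith
    have e3 : κ * (2 * (m : ℝ) ^ 2 * ω * (2 * K) * pv) = s * (κ * (2 * (m : ℝ) ^ 2 * K ^ (m * D) * (2 * K)) * pv) := by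
      rw [hωd]
      ring
    rw [e3, hσd]
    calc s * (κ * (2 * (m : ℝ) ^ 2 * K ^ (m * D) * (2 * K)) * pv) ≤ s * (1 / (2 * A)) := by gcongr
      _ = s / A / 2 := by field_simp
  obtain ⟨K', hK'd⟩ : ∃ K', K' = 2 * κ + 2 * K := ⟨_, rfl⟩
  obtain ⟨σ', hσ'd⟩ : ∃ σ', σ' = σ / (2 * κ) := ⟨_, rfl⟩
  obtain ⟨η₁, hη₁d⟩ : ∃ η₁, η₁ = 1 / (4 * Q) := ⟨_, rfl⟩
  have hσ'0 : 0 < σ' := by rw [hσ'd]; positivity
  have hη₁0 : 0 < η₁ := by rw [hη₁d]; positivity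
  have hη₁1 : η₁ ≤ 1 := by
    rw [hη₁d, div_le_one (by positivity)]
    linarith
  have hKK' : K ≤ K' := by rw [hK'd]; linarith
  obtain ⟨X, hXd⟩ : ∃ X, X = (c1 : ℝ) * (K' / η₁) ^ c1 * (C * ξ) ^ m * (C * ρ) / σ' := ⟨_, rfl⟩
  have hX0 : 0 ≤ X := by
    rw [hXd]
    have : 0 ≤ K' := by linarith
    positivity
  obtain ⟨S, hScard, hScell⟩ := hSupp.cells
  -- C1
  have h1' : ∀ (u0 : Fin m → ℝ) (v : Fin (m + 1) → Fin m → ℝ), ‖u0‖ ≤ K → k6b_GoodDirs T u0 v K' σ' →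
      ∃ Bad : Set (Fin (m + 1) → ℝ), MeasurableSet Bad ∧ volume (Bad ∩ Set.Icc (-1) 1) ≤ ENNReal.ofReal η₁ ∧
      ∀ (cu : Fin m → ℝ) (cx : ℝ), volume {δ : Fin (m + 1) → ℝ | δ ∈ Set.Icc (-1) 1 ∧ δ ∉ Bad ∧
        ‖k6b_base u0 v δ (m + 1) - cu‖ ≤ C * ξ ∧ |k6b_height T u0 v δ - cx| ≤ C * ρ} ≤ ENNReal.ofReal X := by
    intro u0 v hu hd
    rw [hXd]
    exact h1 K' σ' η₁ (C * ξ) (C * ρ) T u0 v (hK.trans hKK') hσ'0 hη₁0 hη₁1 (by positivity) (by positivity) hTd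
      (fun i => (hTn i).trans hKK') (hu.trans hKK') hd
  have hvol := k6b_consPsi_vol Y T K K' σ' ξ ρ (C * ξ) (C * ρ) η₁ X S Nc hScard h1'
  -- the start set
  have hst := k6b_cons_start_mu hWF hSupp hK (k6b_curlP T i₁ j₁) A s (by
    have := hs K (k6b_curlP T i₁ j₁) hK (k6b_cons_curl_degreeOf hTd i₁ j₁) (by rw [← hsd]; exact hs0)
    rw [← hsd] at this
    rw [hAd]
    exact this)
  -- C4 : the functionals
  have hOm := k6b_cons_Om_meas (n := m + 1) hWF T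
  have hκle : (c4 : ℝ) * (K / (1 / K)) ^ c4 ≤ κ := by
    rw [hκd]
    unfold k6b_consKap
    have e1 : K / (1 / K) = K ^ 2 := by field_simp
    rw [e1, ← pow_mul]
    have e2 : K ^ (2 * c4) ≤ K ^ (2 * (c4 + 1)) := pow_le_pow_right₀ hK (by omega)
    have e3 : (c4 : ℝ) ≤ ((c4 + 1 : ℕ) : ℝ) := by exact_mod_cast Nat.le_succ c4
    gcongr
  -- C2
  have key := hC2 m (m + 1) Y (ENNReal.ofReal K) (1 / 64) (1 / 64) (1 / 4) (1 / K) hWF hCh _ hst.1 hst.2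
    (fun i e L => a4 i (fun a b => eval (Y.pos e) (k6b_curlP T a b)) (fun j => Y.vel (L j)))
    (fun i => by
      have h := (ha_meas i).comp hOm
      exact h)
    (fun i e L L' h => ha_dep i _ _ _ fun j hj => congrArg Y.vel (h j hj))
    (fun i e L => ha_norm i _ _)
    (k6b_consPsi Y T K K' σ' ξ ρ (C * ξ) (C * ρ) S)
    (fun J => k6b_consPsi_meas hWF T K K' σ' ξ ρ (C * ξ) (C * ρ) S J)
    (by
      intro e0 π hstart hAdm hstr
      have hpos0 : ‖Y.pos e0‖ ≤ K := hGeo.box0 e0 hAdm.start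
      have hσle : σ ≤ |eval (Y.pos e0) (k6b_curlP T i₁ j₁)| := by
        rw [hσd, div_le_iff₀ hA0, mul_comm]
        exact hstart hpos0
      obtain ⟨g1, g2, g3⟩ := h4 (fun a b => eval (Y.pos e0) (k6b_curlP T a b)) (fun j => Y.vel (π j).1) K (1 / K) σ hK
        (by positivity) (by rw [div_le_one hK0]; exact hK) hσ0 (fun a b => k6b_cons_curl_antisymm T _ a b) ⟨i₁, j₁, hσle⟩
        (fun i => hGeo.velb _) hstr
      have hdirs := k6b_cons_dirs T (Y.pos e0) (fun j => Y.vel (π j).1) (fun j => Y.cen (Y.bin (π j).1)) K κ pv σ ω hK hκ0 hp1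
        (fun i => hGeo.velb _) (fun i => hGeo.bins _)
        (fun a b => (k6b_cons_curl_eval_le hTd a b hK hpos0).trans (by
          rw [hωd]
          exact mul_le_mul_of_nonneg_right (hmax' a b) (by positivity)))
        (g1.trans (mul_le_mul_of_nonneg_right hκle (abs_nonneg _)))
        (g2.trans (mul_le_mul_of_nonneg_right hκle (abs_nonneg _)))
        (g3.trans (mul_le_mul_of_nonneg_right hκle (abs_nonneg _))) hp2 hp3
      rw [← hK'd, ← hσ'd] at hdirs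
      have hsim := h3 Y T K β pv εT hK hβ0 hβ1 hpv0 hp1 hεT hTd hTn hGeo e0 π hAdm
      rw [← hCbd] at hsim
      rw [hCdef]
      exact k6b_consPsi_of_adm hξ hρ hCb0 hGeo hScell hb1 hb2 hAdm hsim hdirs)
    (k6b_cons_budget (m + 1) (by omega))
  -- the integral
  have hfin := k6b_cons_int hWF hK (m + 1) hSupp.pal_sum
    (fun e J => volume {τ : Fin (m + 1) → ℝ | τ ∈ Set.Icc 0 1 ∧ k6b_consPsi Y T K K' σ' ξ ρ (C * ξ) (C * ρ) S e J τ})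
    (η₁ + Nc * X) (by positivity)
    (fun e J => (hvol e J).trans (le_of_eq (by
      rw [ENNReal.ofReal_add hη₁0.le (by positivity), ENNReal.ofReal_mul (Nat.cast_nonneg _), ENNReal.ofReal_natCast]))) key
  have hQe : (K * K) ^ (m + 1) * (K ^ (m + 1) * (η₁ + Nc * X)) = Q * (η₁ + Nc * X) := by
    rw [hQd]
    unfold k6b_consQ
    rw [← mul_assoc, ← mul_pow, pow_mul]
    congr 2
    ring
  rw [hQe] at hfin
  have har := k6b_cons_arith (s := s) (A := A) (k2 := 2 * κ) (Q := Q) (G := (c1 : ℝ) * (K' / η₁) ^ c1) (C := C) (Cm := C ^ m)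
    (ξm := ξ ^ m) (ρ := ρ) (N := Nc) (σ' := σ') (X := X) (η₁ := η₁) hσ'0
    (by rw [hσ'd, hσd]; field_simp) (by positivity) (by rw [hη₁d]; field_simp) (by rw [hXd, mul_pow]) hfin
  refine har.trans ?_
  have hFe : A * (2 * κ) * (4 * Q) * ((c1 : ℝ) * (K' / η₁) ^ c1) * (C ^ m * C) = k6b_consF m cs c4 c3 c1 K := by
    unfold k6b_consF
    rw [hCd, ← hCdef, ← hAd, ← hκd, ← hQd, ← hK'd, hη₁d]
    congr 4
    field_simp
  rw [hFe]
  exact mul_le_mul_of_nonneg_right (by linarith) (by positivity)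

end

end Claimed.Agent.R252
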