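import Claimed.Agent.R252.S6b.V2Defs
import Claimed.Agent.R252.S6b.SheetContract

/-!
# Row252, unit S6b, leaf R: the deterministic restoration core   (helper260; prefix `k6b_co_`)

`k6b_core_of : k6b_jet_stmt → k6b_dev_bound_stmt → k6b_third_stmt → k6b_restore_R_stmt → k6b_core_stmt`.
Glue; all constants are of the form `(m : ℕ) * K ^ (e : ℕ)`.
-/

set_option autoImplicit false

namespace Claimed.Agent.R252

open MeasureTheory MvPolynomial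
open scoped ENNReal BigOperators

noncomputable section

/-! ## 1. small tools -/

theorem k6b_co_pb {m e c : ℕ} (hm : m ≤ c) (he : e ≤ c) {K : ℝ} (hK : 1 ≤ K) :
    (m : ℝ) * K ^ e ≤ (c : ℝ) * K ^ c :=
  mul_le_mul (by exact_mod_cast hm) (pow_le_pow_right₀ hK he) (by positivity) (by positivity)

theorem k6b_co_vol {K X : ℝ} (hK : 0 < K) {E : Set (Fin 3 → ℝ)}
    (h : ENNReal.ofReal X ≤ ENNReal.ofReal K * volume E) : ENNReal.ofReal (K⁻¹ * X) ≤ volume E := by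
  rw [ENNReal.ofReal_mul (inv_pos.2 hK).le]
  calc ENNReal.ofReal K⁻¹ * ENNReal.ofReal X ≤ ENNReal.ofReal K⁻¹ * (ENNReal.ofReal K * volume E) := by
        gcongr
    _ = volume E := by
        rw [← mul_assoc, ← ENNReal.ofReal_mul (inv_pos.2 hK).le, inv_mul_cancel₀ hK.ne',
          ENNReal.ofReal_one, one_mul]

theorem k6b_co_unscale {X B K r : ℝ} {l q : ℕ} (hX : 0 ≤ X) (hK : 1 ≤ K) (hr : 0 < r)
    (hKr : 1 ≤ K * r) (hl : l ≤ q) (h : X * r ^ l ≤ B) : X ≤ B * K ^ q := by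
  have hB : 0 ≤ B := (by positivity : 0 ≤ X * r ^ l).trans h
  have h1 : 1 ≤ (K * r) ^ l := one_le_pow₀ hKr
  calc X ≤ X * (K * r) ^ l := le_mul_of_one_le_right hX h1
    _ = X * r ^ l * K ^ l := by rw [mul_pow]; ring
    _ ≤ B * K ^ q := mul_le_mul h (pow_le_pow_right₀ hK hl) (by positivity) hB

theorem k6b_co_seg {uc u : Fin 3 → ℝ} {r s : ℝ} (hu : u ∈ Metric.closedBall uc r)
    (hs : s ∈ Set.Icc (0 : ℝ) 1) : uc + s • (u - uc) ∈ Metric.closedBall uc r := by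
  rw [mem_closedBall_iff_norm] at hu ⊢
  rw [add_sub_cancel_left, norm_smul, Real.norm_eq_abs, abs_of_nonneg hs.1]
  calc s * ‖u - uc‖ ≤ 1 * ‖u - uc‖ := mul_le_mul_of_nonneg_right hs.2 (norm_nonneg _)
    _ ≤ r := by rw [one_mul]; exact hu

theorem k6b_co_coord {uc u : Fin 3 → ℝ} {r : ℝ} (hu : u ∈ Metric.closedBall uc r) (i : Fin 3) :
    |(u - uc) i| ≤ r := by
  rw [mem_closedBall_iff_norm] at hu
  exact (norm_le_pi_norm (u - uc) i).trans hu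

theorem k6b_co_eval_le (P : MvPolynomial (Fin 3) ℝ) (x : Fin 3 → ℝ) (hx : ∀ i, |x i| ≤ 1) :
    |eval x P| ≤ rmzNm P := by
  have h := rmz_mv_eval_le 3 P.totalDegree P (fun i => degreeOf_le_totalDegree P i) 1 le_rfl x hx
  rwa [one_pow, mul_one] at h

theorem k6b_co_gp_mono {n : ℕ} {A B : ℝ} {p : Fin n → Fin 3 → ℝ} (h : k6b_GP n A p) (hA : 0 < A)
    (hAB : A ≤ B) : k6b_GP n B p :=
  ⟨fun i j => (h.bd i j).trans hAB, fun i j k h1 h2 h3 =>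
    (inv_anti₀ hA hAB).trans (h.det i j k h1 h2 h3)⟩

theorem k6b_co_gp4 {A : ℝ} {p : Fin 7 → Fin 3 → ℝ} (h : k6b_GP 7 A p) :
    k6b_GP 4 A fun i => p (Fin.castLE (by omega) i) :=
  ⟨fun _ j => h.bd _ j, fun _ _ _ h1 h2 h3 => h.det _ _ _
    (fun e => h1 (Fin.castLE_injective _ e)) (fun e => h2 (Fin.castLE_injective _ e))
    (fun e => h3 (Fin.castLE_injective _ e))⟩

/-! ## 2. the quadratic form -/

theorem k6b_co_qf_eval (Q : Matrix (Fin 3) (Fin 3) ℝ) (x : Fin 3 → ℝ) :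
    eval x (k6b_qf Q) = ∑ i, ∑ j, Q i j * x i * x j := by
  unfold k6b_qf
  simp only [map_sum, map_mul, eval_C, eval_X]

theorem k6b_co_qf_abs (Q : Matrix (Fin 3) (Fin 3) ℝ) (x : Fin 3 → ℝ) (hx : ∀ i, |x i| ≤ 1) :
    |eval x (k6b_qf Q)| ≤ ∑ i, ∑ j, |Q i j| := by
  rw [k6b_co_qf_eval]
  refine (Finset.abs_sum_le_sum_abs _ _).trans (Finset.sum_le_sum fun i _ => ?_)
  refine (Finset.abs_sum_le_sum_abs _ _).trans (Finset.sum_le_sum fun j _ => ?_)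
  rw [abs_mul, abs_mul]
  calc |Q i j| * |x i| * |x j| ≤ |Q i j| * 1 * 1 := by
        gcongr
        · exact hx i
        · exact hx j
    _ = |Q i j| := by ring

theorem k6b_co_qf_le (Q : Matrix (Fin 3) (Fin 3) ℝ) (x : Fin 3 → ℝ) (hx : ∀ i, |x i| ≤ 1) (B : ℝ)
    (hQ : ∀ i j, |Q i j| ≤ B) : |eval x (k6b_qf Q)| ≤ 9 * B := by
  refine (k6b_co_qf_abs Q x hx).trans ?_
  simp only [Fin.sum_univ_three]
  linarith [hQ 0 0, hQ 0 1, hQ 0 2, hQ 1 0, hQ 1 1, hQ 1 2, hQ 2 0, hQ 2 1, hQ 2 2]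

theorem k6b_co_qf_low (Q : Matrix (Fin 3) (Fin 3) ℝ) (x : Fin 3 → ℝ) (hx : ∀ i, |x i| ≤ 1)
    (h : 1 / 2 ≤ |eval x (k6b_qf Q)|) : ∃ i j, 1 / 18 ≤ |Q i j| := by
  by_contra hcon
  push Not at hcon
  have h1 := k6b_co_qf_abs Q x hx
  simp only [Fin.sum_univ_three] at h1
  linarith [hcon 0 0, hcon 0 1, hcon 0 2, hcon 1 0, hcon 1 1, hcon 1 2, hcon 2 0, hcon 2 1,
    hcon 2 2]

/-- the normalised Hessian of `f` at the centre. -/
def k6b_coQ (Dl : MvPolynomial (Fin 3) ℝ) (f : k6b_Sheet 3) (uc : Fin 3 → ℝ) (S : ℝ) :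
    Matrix (Fin 3) (Fin 3) ℝ :=
  fun i j => ((f.dv Dl (Pi.single i 1)).dv Dl (Pi.single j 1)).val Dl uc / (2 * S)

theorem k6b_coQ_symm (Dl : MvPolynomial (Fin 3) ℝ) (f : k6b_Sheet 3) (uc : Fin 3 → ℝ) (S : ℝ) :
    (k6b_coQ Dl f uc S).IsSymm := by
  ext i j
  show k6b_coQ Dl f uc S j i = k6b_coQ Dl f uc S i j
  unfold k6b_coQ
  rw [k6b_Sheet.dv_comm]

theorem k6b_coQ_eval (Dl : MvPolynomial (Fin 3) ℝ) (f : k6b_Sheet 3) (uc : Fin 3 → ℝ) (S : ℝ)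
    (x : Fin 3 → ℝ) :
    eval x (k6b_qf (k6b_coQ Dl f uc S)) = ((f.dv Dl x).dv Dl x).val Dl uc / (2 * S) := by
  rw [k6b_co_qf_eval, k6b_Sheet.val_dv_sum, Finset.sum_div]
  refine Finset.sum_congr rfl fun i _ => ?_
  rw [k6b_Sheet.dv_comm, k6b_Sheet.val_dv_sum, Finset.mul_sum, Finset.sum_div]
  refine Finset.sum_congr rfl fun j _ => ?_
  unfold k6b_coQ
  ring

/-! ## 3. Taylor -/

theorem k6b_co_taylor2 (hJ : k6b_jet_stmt) (Dl : MvPolynomial (Fin 3) ℝ) (f : k6b_Sheet 3)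
    (uc : Fin 3 → ℝ) (r M : ℝ) (hr1 : r ≤ 1) (hpos : ∀ u ∈ Metric.closedBall uc r, 0 < eval u Dl)
    (hM : ∀ u ∈ Metric.closedBall uc r, rmzNm (k6b_jet Dl f 3 u) ≤ M) :
    ∀ u ∈ Metric.closedBall uc r, |f.val Dl u - eval u (k6b_tay Dl f 2 uc)| ≤ M := by
  intro u hu
  have hx : ∀ i, |(u - uc) i| ≤ 1 := fun i => (k6b_co_coord hu i).trans hr1
  have hM0 : 0 ≤ M := (rmz_Nm_nonneg _).trans (hM u hu)
  have h1 := k6b_sq_taylor Dl f uc (u - uc) 2 M (fun s hs => hpos _ (k6b_co_seg hu hs))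
    (fun s hs => by
      rw [← (hJ 3 Dl f 3 (uc + s • (u - uc))).2.1 (u - uc)]
      exact (k6b_co_eval_le _ _ hx).trans (hM _ (k6b_co_seg hu hs)))
  rw [add_sub_cancel, ← ((hJ 3 Dl f 0 uc).2.2.2.2.2 2).2 u] at h1
  refine h1.trans (div_le_self hM0 ?_)
  exact_mod_cast Nat.succ_le_of_lt (Nat.factorial_pos _)

theorem k6b_co_tay21 (hJ : k6b_jet_stmt) (Dl : MvPolynomial (Fin 3) ℝ) (f : k6b_Sheet 3)
    (uc u : Fin 3 → ℝ) :
    eval u (k6b_tay Dl f 2 uc)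
      = eval u (k6b_tay Dl f 1 uc) + ((f.dv Dl (u - uc)).dv Dl (u - uc)).val Dl uc / 2 := by
  rw [((hJ 3 Dl f 0 uc).2.2.2.2.2 2).2 u, ((hJ 3 Dl f 0 uc).2.2.2.2.2 1).2 u,
    Finset.sum_range_succ _ (1 + 1)]
  congr 1

/-- the normalised deviation against the quadratic form. -/
theorem k6b_co_dev_q (hJ : k6b_jet_stmt) (Dl : MvPolynomial (Fin 3) ℝ) (f : k6b_Sheet 3)
    (uc u : Fin 3 → ℝ) (S : ℝ) (hS : 0 < S) :
    (f.val Dl u - eval u (k6b_tay Dl f 1 uc)) / S - eval (u - uc) (k6b_qf (k6b_coQ Dl f uc S))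
      = (f.val Dl u - eval u (k6b_tay Dl f 2 uc)) / S := by
  rw [k6b_coQ_eval, k6b_co_tay21 hJ]
  field_simp
  ring

/-! ## 4. the core -/

theorem k6b_co_single_norm (i : Fin 3) : ‖(Pi.single i (1 : ℝ) : Fin 3 → ℝ)‖ ≤ 1 := by
  rw [pi_norm_le_iff_of_nonneg zero_le_one]
  intro j
  by_cases h : j = i
  · subst h
    simp
  · simp [Pi.single_eq_of_ne h]

/-- leaf **R**. -/
theorem k6b_core_of : k6b_jet_stmt → k6b_dev_bound_stmt → k6b_third_stmt → k6b_restore_R_stmt →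
    k6b_core_stmt := by
  intro hJ hdev hthird hrest D
  obtain ⟨c₁, h₁⟩ := hdev D 2
  obtain ⟨c₃, h₃⟩ := hthird D
  obtain ⟨cR, hR⟩ := hrest D
  obtain ⟨b5, hb5⟩ := k6b_sq_box 3 D 5
  obtain ⟨b0, hb0⟩ := k6b_sq_box 3 (k6b_dg 2 D) 0
  obtain ⟨b2, hb2⟩ := k6b_sq_box 3 (k6b_dg 3 D) 2
  obtain ⟨cA, hcA⟩ : ∃ n : ℕ, n = cR * (c₁ + 18) ^ cR := ⟨_, rfl⟩
  obtain ⟨eCA, heCA⟩ : ∃ n : ℕ, n = (c₁ + 3) * cR := ⟨_, rfl⟩
  obtain ⟨n1, hn1⟩ : ∃ n : ℕ, n = cA * b5 := ⟨_, rfl⟩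
  obtain ⟨n2, hn2⟩ : ∃ n : ℕ, n = cA * (b2 + b5 * b0) := ⟨_, rfl⟩
  obtain ⟨n3, hn3⟩ : ∃ n : ℕ, n = cA * b0 := ⟨_, rfl⟩
  obtain ⟨c, hc⟩ : ∃ n : ℕ, n = 4 * c₃ + (4 * c₃ + 1) + n1 + n2 + n3 + eCA + (2 * b5 + 6) + 9 * c₁
      + (c₁ + 2) + (2 * b2 + 3) + (2 * b0 + 1) := ⟨_, rfl⟩
  refine ⟨c, ?_⟩
  intro Dl f R uc r Δ0 K a a₂ h S v ER E7 H hsmall
  obtain ⟨hr, hr1, hKr, hΔ0, hK2, ha₂, ha₂a, hh⟩ := H.pos
  have hK1 : 1 ≤ K := by linarith
  have hK0 : 0 < K := by linarith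
  have ha : 0 < a := lt_of_lt_of_le ha₂ ha₂a
  have hucU : uc ∈ Metric.closedBall uc r := Metric.mem_closedBall_self hr.le
  have hS0 : 0 ≤ S := (abs_nonneg _).trans (H.dev.1 uc hucU)
  have hposU : ∀ u ∈ Metric.closedBall uc r, 0 < eval u Dl := fun u hu =>
    lt_of_lt_of_le (by positivity) (H.dl u hu).1
  have hθ0 : 0 < K⁻¹ := inv_pos.2 hK0
  have hθ1 : K⁻¹ ≤ 1 := inv_le_one_of_one_le₀ hK1
  have hvolR := k6b_co_vol hK0 H.ER_vol
  have hvol7 := k6b_co_vol hK0 H.E7_vol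
  have hKK : K / K⁻¹ = K ^ 2 := by rw [div_inv_eq_mul, sq]
  have hE0 : 0 ≤ a₂ + S * h := by positivity
  -- the third Taylor form of `f`
  have hT : ∀ u ∈ Metric.closedBall uc r,
      rmzNm (k6b_jet Dl f 3 u) ≤ (c₃ : ℝ) * K ^ (4 * c₃ + 1) * (a₂ + S * h) := by
    intro u hu
    have h1 := h₃ Dl f uc r K Δ0 K⁻¹ K (K * (a₂ + S * h)) (fun i => v (Fin.castLE (by omega) i)) E7
      H.degf hr hr1 hK1 hΔ0 hθ0 hθ1 hK2 H.dl (k6b_co_gp4 H.gp) H.E7_meas H.E7_sub hvol7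
      (fun u hu i => H.E7_f u hu _) u hu
    have h2 : K * K / (K⁻¹ * r) ≤ K ^ 4 := by
      rw [div_le_iff₀ (by positivity)]
      have e : K ^ 4 * (K⁻¹ * r) = K * K * (K * r) := by field_simp
      rw [e]
      exact le_mul_of_one_le_right (by positivity) hKr
    calc rmzNm (k6b_jet Dl f 3 u) ≤ (c₃ : ℝ) * (K * K / (K⁻¹ * r)) ^ c₃ * (K * (a₂ + S * h)) := h1
      _ ≤ (c₃ : ℝ) * (K ^ 4) ^ c₃ * (K * (a₂ + S * h)) := by gcongr
      _ = (c₃ : ℝ) * K ^ (4 * c₃ + 1) * (a₂ + S * h) := by rw [← pow_mul]; ring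
  have hTay := k6b_co_taylor2 hJ Dl f uc r _ hr1 hposU hT
  constructor
  · intro hA
    refine ⟨k6b_tay Dl f 2 uc, ((hJ 3 Dl f 0 uc).2.2.2.2.2 2).1, fun u hu => (hTay u hu).trans ?_⟩
    have h1 : a₂ + S * h ≤ 2 * a₂ := by linarith
    calc (c₃ : ℝ) * K ^ (4 * c₃ + 1) * (a₂ + S * h) ≤ (c₃ : ℝ) * K ^ (4 * c₃ + 1) * (2 * a₂) := by
          gcongr
      _ = ((2 * c₃ : ℕ) : ℝ) * K ^ (4 * c₃ + 1) * a₂ := by push_cast; ring
      _ ≤ (c : ℝ) * K ^ c * a₂ :=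
          mul_le_mul_of_nonneg_right (k6b_co_pb (by omega) (by omega) hK1) ha₂.le
  · intro hB
    have hS : 0 < S := by
      by_contra hcon
      have e : S = 0 := le_antisymm (not_lt.1 hcon) hS0
      rw [e, zero_mul] at hB
      linarith
    have hsum : a₂ + S * h ≤ h * (2 * S) := by nlinarith
    obtain ⟨Q, hQdef⟩ : ∃ Q : Matrix (Fin 3) (Fin 3) ℝ, Q = k6b_coQ Dl f uc S := ⟨_, rfl⟩
    -- the deviation against the quadratic form
    have hdevq : ∀ u ∈ Metric.closedBall uc r,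
        |(f.val Dl u - eval u (k6b_tay Dl f 1 uc)) / S - eval (u - uc) (k6b_qf Q)|
          ≤ ((2 * c₃ : ℕ) : ℝ) * K ^ (4 * c₃ + 1) * h := by
      intro u hu
      rw [hQdef, k6b_co_dev_q hJ Dl f uc u S hS, abs_div, abs_of_pos hS, div_le_iff₀ hS]
      refine (hTay u hu).trans ?_
      calc (c₃ : ℝ) * K ^ (4 * c₃ + 1) * (a₂ + S * h)
          ≤ (c₃ : ℝ) * K ^ (4 * c₃ + 1) * (h * (2 * S)) := by gcongr
        _ = ((2 * c₃ : ℕ) : ℝ) * K ^ (4 * c₃ + 1) * h * S := by push_cast; ring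
    -- bounds of `Q`
    have hQle : ∀ i j, |Q i j| ≤ (c₁ : ℝ) * K ^ (c₁ + 2) := by
      intro i j
      have h1 := h₁ Dl f uc r K Δ0 S H.degf hr hK1 hΔ0 H.dl H.dev.1
        [Pi.single j 1, Pi.single i 1] (by simp) (by simp) (by
          intro x hx
          simp only [List.mem_cons, List.not_mem_nil, or_false] at hx
          rcases hx with rfl | rfl <;> exact k6b_co_single_norm _) uc hucU
      simp only [List.foldr_cons, List.foldr_nil, List.length_cons, List.length_nil] at h1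
      have h2 := k6b_co_unscale (abs_nonneg _) hK1 hr hKr (le_refl _) h1
      rw [hQdef]
      show |((f.dv Dl (Pi.single i 1)).dv Dl (Pi.single j 1)).val Dl uc / (2 * S)| ≤ _
      rw [abs_div, abs_of_pos (by positivity : 0 < 2 * S), div_le_iff₀ (by positivity)]
      refine h2.trans ?_
      have h3 : 0 ≤ (c₁ : ℝ) * K ^ (c₁ + 2) * S := by positivity
      have e : (c₁ : ℝ) * K ^ c₁ * S * K ^ (0 + 1 + 1) = (c₁ : ℝ) * K ^ (c₁ + 2) * S := by ring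
      rw [e]
      linarith
    have hxU : ∀ u ∈ Metric.closedBall uc r, ∀ i, |(u - uc) i| ≤ 1 := fun u hu i =>
      (k6b_co_coord hu i).trans hr1
    -- consequences of the smallness of `h`
    have hcK : ∀ m e : ℕ, m ≤ c → e ≤ c → (m : ℝ) * K ^ e * h ≤ 1 := fun m e hm he =>
      (mul_le_mul_of_nonneg_right (k6b_co_pb hm he hK1) hh.le).trans hsmall
    have hsm1 : ((2 * c₃ : ℕ) : ℝ) * K ^ (4 * c₃ + 1) * h ≤ 1 / 2 := by
      have h1 := hcK (4 * c₃) (4 * c₃ + 1) (by omega) (by omega)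
      push_cast at h1 ⊢
      linarith
    -- the lower bound of `Q`
    obtain ⟨us, hus, husS⟩ := H.dev.2
    obtain ⟨i₀, j₀, hij⟩ : ∃ i j, 1 / 18 ≤ |Q i j| := by
      refine k6b_co_qf_low Q (us - uc) (hxU us hus) ?_
      have h1 := hdevq us hus
      have h2 : |(f.val Dl us - eval us (k6b_tay Dl f 1 uc)) / S| = 1 := by
        rw [abs_div, husS, abs_of_pos hS, div_self hS.ne']
      have h3 := abs_sub_abs_le_abs_sub ((f.val Dl us - eval us (k6b_tay Dl f 1 uc)) / S)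
        (eval (us - uc) (k6b_qf Q))
      linarith
    -- the parameter `A`
    obtain ⟨A, hAdef⟩ : ∃ A : ℝ, A = ((c₁ + 18 : ℕ) : ℝ) * K ^ (c₁ + 3) := ⟨_, rfl⟩
    have hKp : ∀ e : ℕ, 1 ≤ K ^ e := fun e => one_le_pow₀ hK1
    have hA18 : 18 ≤ A := by
      rw [hAdef]
      have h1 : (18 : ℝ) ≤ ((c₁ + 18 : ℕ) : ℝ) := by
        push_cast
        have : (0 : ℝ) ≤ c₁ := Nat.cast_nonneg _
        linarith
      calc (18 : ℝ) = 18 * 1 := (mul_one _).symm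
        _ ≤ ((c₁ + 18 : ℕ) : ℝ) * K ^ (c₁ + 3) := mul_le_mul h1 (hKp _) zero_le_one (by positivity)
    have hAK : K ≤ A := by
      rw [hAdef]
      have h1 : (1 : ℝ) ≤ ((c₁ + 18 : ℕ) : ℝ) := by
        push_cast
        have : (0 : ℝ) ≤ c₁ := Nat.cast_nonneg _
        linarith
      calc K = 1 * K ^ 1 := by ring
        _ ≤ ((c₁ + 18 : ℕ) : ℝ) * K ^ (c₁ + 3) :=
          mul_le_mul h1 (pow_le_pow_right₀ hK1 (by omega)) (by positivity) (by positivity)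
    have hA0 : 0 < A := by linarith
    have hQA : ∀ i j, |Q i j| ≤ A := fun i j => (hQle i j).trans (by
      rw [hAdef]
      exact mul_le_mul (by exact_mod_cast (by omega : c₁ ≤ c₁ + 18))
        (pow_le_pow_right₀ hK1 (by omega)) (by positivity) (by positivity))
    have hAc : (cR : ℝ) * A ^ cR = (cA : ℝ) * K ^ eCA := by
      rw [hAdef, hcA, heCA, mul_pow, ← pow_mul]
      push_cast
      ring
    -- second directional derivatives of `f`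
    have hD2 : ∀ i, |((f.dv Dl (v i)).dv Dl (v i)).val Dl uc|
        ≤ (b0 : ℝ) * K ^ (2 * b0 + 1) * (a₂ + S * h) := by
      intro i
      have h1 := hb0 Dl ((f.dv Dl (v i)).dv Dl (v i)) uc r K K⁻¹ (K * (a₂ + S * h)) Δ0 E7
        (H.degf.iter (v i) 2) hr hK1 hθ0 hθ1 hΔ0 H.dl H.E7_meas H.E7_sub hvol7
        (fun u hu => H.E7_f u hu i) [] (by simp) (by simp) uc hucU
      simp only [List.foldr_nil, List.length_nil, pow_zero, mul_one] at h1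
      rw [hKK, ← pow_mul] at h1
      refine h1.trans (le_of_eq ?_)
      ring
    have hqv : ∀ i, |eval (v i) (k6b_qf Q)| ≤ (b0 : ℝ) * K ^ (2 * b0 + 1) * h := by
      intro i
      rw [hQdef, k6b_coQ_eval, abs_div, abs_of_pos (by positivity : 0 < 2 * S),
        div_le_iff₀ (by positivity)]
      refine (hD2 i).trans ?_
      rw [mul_assoc _ h]
      gcongr
    -- derivatives of `R`
    have hKR : ∀ vs : List (Fin 3 → ℝ), vs.length ≤ 5 → (∀ x ∈ vs, ‖x‖ ≤ 1) →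
        ∀ u ∈ Metric.closedBall uc r,
          |(vs.foldr (k6b_Sheet.dv Dl) R).val Dl u| ≤ (b5 : ℝ) * K ^ (2 * b5 + 6) := by
      intro vs hl hv u hu
      have h1 := hb5 Dl R uc r K K⁻¹ K Δ0 ER H.degR hr hK1 hθ0 hθ1 hΔ0 H.dl H.ER_meas H.ER_sub
        hvolR H.ER_bd vs hl hv u hu
      rw [hKK, ← pow_mul] at h1
      refine (k6b_co_unscale (abs_nonneg _) hK1 hr hKr hl h1).trans (le_of_eq ?_)
      ring
    have hεR : ∀ i, ∀ vs : List (Fin 3 → ℝ), vs.length ≤ 2 → (∀ x ∈ vs, ‖x‖ ≤ 1) →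
        ∀ u ∈ Metric.closedBall uc r,
          |(vs.foldr (k6b_Sheet.dv Dl) (((k6b_Sheet.dv Dl (v i))^[3]) R)).val Dl u|
            ≤ (b2 : ℝ) * K ^ (2 * b2 + 3) * (a₂ / a) := by
      intro i vs hl hv u hu
      have h1 := hb2 Dl (((k6b_Sheet.dv Dl (v i))^[3]) R) uc r K K⁻¹ (K * (a₂ / a)) Δ0 E7
        (H.degR.iter (v i) 3) hr hK1 hθ0 hθ1 hΔ0 H.dl H.E7_meas H.E7_sub hvol7
        (fun u hu => H.E7_R u hu i) vs hl hv u hu
      rw [hKK, ← pow_mul] at h1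
      refine (k6b_co_unscale (abs_nonneg _) hK1 hr hKr hl h1).trans (le_of_eq ?_)
      ring
    have hsm2 : (cR : ℝ) * A ^ cR * ((b0 : ℝ) * K ^ (2 * b0 + 1) * h) ≤ 1 := by
      have h1 := hcK n3 (eCA + (2 * b0 + 1)) (by omega) (by omega)
      rw [hAc]
      refine le_trans (le_of_eq ?_) h1
      rw [hn3, pow_add]
      push_cast
      ring
    have haa : 0 ≤ a₂ / a := by positivity
    obtain ⟨R2, L1, lam0, hR2, hL1, hlam, hL1b, hfin⟩ := hR Dl R uc r A ((b5 : ℝ) * K ^ (2 * b5 + 6))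
      ((b2 : ℝ) * K ^ (2 * b2 + 3) * (a₂ / a)) ((b0 : ℝ) * K ^ (2 * b0 + 1) * h) v Q H.degR hr hr1
      hposU (by linarith) (by positivity) (by positivity) (k6b_co_gp_mono H.gp hK0 hAK) H.one
      (by rw [hQdef]; exact k6b_coQ_symm Dl f uc S) hQA
      ⟨i₀, j₀, le_trans (by
        rw [inv_le_comm₀ hA0 (by norm_num)]
        norm_num
        exact hA18) hij⟩ hqv hsm2 hKR hεR
    have hn1le : (cR : ℝ) * A ^ cR * ((b5 : ℝ) * K ^ (2 * b5 + 6)) ≤ (c : ℝ) * K ^ c := by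
      rw [hAc]
      refine le_trans (le_of_eq ?_) (k6b_co_pb (m := n1) (e := eCA + (2 * b5 + 6)) (by omega)
        (by omega) hK1)
      rw [hn1, pow_add]
      push_cast
      ring
    refine ⟨Q, R2, L1, lam0, hR2, hL1, hlam.trans hn1le, fun u hu => ⟨(hL1b u hu).trans hn1le, ?_,
      ?_, ?_⟩⟩
    · refine (k6b_co_qf_le Q (u - uc) (hxU u hu) _ hQle).trans ?_
      refine le_trans (le_of_eq ?_) (k6b_co_pb (m := 9 * c₁) (e := c₁ + 2) (by omega) (by omega) hK1)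
      push_cast
      ring
    · exact (hdevq u hu).trans (mul_le_mul_of_nonneg_right
        (k6b_co_pb (by omega) (by omega) hK1) hh.le)
    · refine (hfin u hu).trans ?_
      rw [hAc]
      have e1 : (b2 : ℝ) * K ^ (2 * b2 + 3) * (a₂ / a)
          ≤ (b2 : ℝ) * K ^ ((2 * b2 + 3) + (2 * b5 + 6) + (2 * b0 + 1)) * (a₂ / a + h) := by
        have h1 : K ^ (2 * b2 + 3) ≤ K ^ ((2 * b2 + 3) + (2 * b5 + 6) + (2 * b0 + 1)) :=
          pow_le_pow_right₀ hK1 (by omega)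
        have h2 : a₂ / a ≤ a₂ / a + h := by linarith
        gcongr
      have e2 : (b5 : ℝ) * K ^ (2 * b5 + 6) * ((b0 : ℝ) * K ^ (2 * b0 + 1) * h)
          ≤ ((b5 : ℝ) * b0) * K ^ ((2 * b2 + 3) + (2 * b5 + 6) + (2 * b0 + 1)) * (a₂ / a + h) := by
        have h1 : K ^ (2 * b5 + 6) * K ^ (2 * b0 + 1)
            ≤ K ^ ((2 * b2 + 3) + (2 * b5 + 6) + (2 * b0 + 1)) := by
          rw [← pow_add]
          exact pow_le_pow_right₀ hK1 (by omega)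
        have h2 : h ≤ a₂ / a + h := by linarith
        calc (b5 : ℝ) * K ^ (2 * b5 + 6) * ((b0 : ℝ) * K ^ (2 * b0 + 1) * h)
            = ((b5 : ℝ) * b0) * (K ^ (2 * b5 + 6) * K ^ (2 * b0 + 1)) * h := by ring
          _ ≤ _ := by gcongr
      calc (cA : ℝ) * K ^ eCA * ((b2 : ℝ) * K ^ (2 * b2 + 3) * (a₂ / a)
            + (b5 : ℝ) * K ^ (2 * b5 + 6) * ((b0 : ℝ) * K ^ (2 * b0 + 1) * h))
          ≤ (cA : ℝ) * K ^ eCA * ((b2 : ℝ) * K ^ ((2 * b2 + 3) + (2 * b5 + 6) + (2 * b0 + 1))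
              * (a₂ / a + h)
            + ((b5 : ℝ) * b0) * K ^ ((2 * b2 + 3) + (2 * b5 + 6) + (2 * b0 + 1)) * (a₂ / a + h)) := by
            gcongr
        _ = (n2 : ℝ) * K ^ (eCA + ((2 * b2 + 3) + (2 * b5 + 6) + (2 * b0 + 1))) * (a₂ / a + h) := by
            rw [hn2, pow_add]
            push_cast
            ring
        _ ≤ (c : ℝ) * K ^ c * (a₂ / a + h) :=
            mul_le_mul_of_nonneg_right (k6b_co_pb (by omega) (by omega) hK1) (by positivity)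

end

end Claimed.Agent.R252
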