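import Claimed.Agent.R252.S6b.HeightHess
import Claimed.Agent.R252.S6b.SqKit

/-!
# Row252, unit S6b, part C1 (`k6b_endpoint_volume_stmt`), file 1 (CONTRACT): THE FIVE PIECES.      Every `sorry` is a leaf `L-252-S6b-C1-E*`.   (sub-architect helper68, architect helper295)

PAPER-FREE.   `N = m + 1` legs `δ`, directions `v 0, .., v m ∈ ℝ^m`, `A = k6b_matA v` (rows `v 0 .. v (m-1)`), `B = k6b_matB v` (row `0` replaced by `v m`).
`d` = the kernel vector of `δ ↦ ∑ δ_k v_k` with `d_m = 1`;  `k6b_dirD d R = ∑ d_i ∂_i R` = derivative of the height along `d` (base end point fixed).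
GLUE (`EndVol.lean`, proved): `Bad = {|dirD d R| < t}` (E4), off `Bad` the lines `x + s d` meet the end cell in measure `≤ 2 (D+1) ρ / t` (E5 + C1a), Fubini (E6);  `|d_0| |det A| = |det B| ≥ 1/K` (E1), `∂_1 (dirD d R)(0) = d_0 skw` (E3).
RULES: prove IN PLACE, statements FROZEN (a defect: one line to helper68), helper lemmas directly above your theorem, prefix `k6b_ev_`.
-/

set_option autoImplicit false

namespace Claimed.Agent.R252

open MeasureTheory MvPolynomial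
open scoped ENNReal BigOperators

noncomputable section

/-- the derivative of `R` in the direction `d`, as a polynomial -/
def k6b_dirD {n : ℕ} (d : Fin n → ℝ) (R : MvPolynomial (Fin n) ℝ) : MvPolynomial (Fin n) ℝ := ∑ i, C (d i) * pderiv i R

/-- **LEAF L-252-S6b-C1-E1: the kernel vector, Cramer's rule** (~80 l.).
`c := -(Matrix.vecMul (v (Fin.last m)) A⁻¹)`, so `∑ i : Fin m, c i • v i.castSucc = - v (last)` (`Matrix.vecMul_vecMul`, `Matrix.nonsing_inv_mul`, `Matrix.vecMul_eq_sum`);   `d := Fin.snoc c 1` (`Fin.sum_univ_castSucc`, `Fin.snoc_castSucc`, `Fin.snoc_last`).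
`B = A.updateRow ⟨0, _⟩ (v last) = A.updateRow ⟨0, _⟩ (∑ k, (- c k) • A k)`, `Matrix.det_updateRow_sum`: `det B = - c 0 * det A`;   `d 0 = c ⟨0, _⟩`. -/
theorem k6b_ev_kernel {m : ℕ} (hm : 1 ≤ m) (v : Fin (m + 1) → Fin m → ℝ) (hA : (k6b_matA v).det ≠ 0) :
    ∃ d : Fin (m + 1) → ℝ, d (Fin.last m) = 1 ∧ ∑ k, d k • v k = 0 ∧ |d 0| * |(k6b_matA v).det| = |(k6b_matB v).det| := by
  have hu : IsUnit (k6b_matA v).det := isUnit_iff_ne_zero.2 hA
  obtain ⟨c, hc⟩ : ∃ c : Fin m → ℝ, c = -(Matrix.vecMul (v (Fin.last m)) (k6b_matA v)⁻¹) := ⟨_, rfl⟩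
  have h1 : Matrix.vecMul c (k6b_matA v) = -(v (Fin.last m)) := by
    rw [hc, Matrix.neg_vecMul, Matrix.vecMul_vecMul, Matrix.nonsing_inv_mul _ hu, Matrix.vecMul_one]
  have h2 : ∑ i : Fin m, c i • v i.castSucc = -(v (Fin.last m)) := by
    rw [← h1, Matrix.vecMul_eq_sum]
    rfl
  refine ⟨Fin.snoc c 1, Fin.snoc_last _ _, ?_, ?_⟩
  · rw [Fin.sum_univ_castSucc]
    simp only [Fin.snoc_castSucc, Fin.snoc_last, one_smul]
    rw [h2, neg_add_cancel]
  · have e0 : (0 : Fin (m + 1)) = (⟨0, hm⟩ : Fin m).castSucc := rfl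
    have hd0 : (Fin.snoc c 1 : Fin (m + 1) → ℝ) 0 = c ⟨0, hm⟩ := by
      rw [e0]
      exact Fin.snoc_castSucc (α := fun _ => ℝ) _ _ _
    have hB : k6b_matB v = (k6b_matA v).updateRow ⟨0, hm⟩ (∑ k, (-c k) • (k6b_matA v) k) := by
      have h3 : ∑ k, (-c k) • (k6b_matA v) k = v (Fin.last m) := by
        have : ∑ k, (-c k) • (k6b_matA v) k = -∑ i : Fin m, c i • v i.castSucc := by
          rw [← Finset.sum_neg_distrib]
          refine Finset.sum_congr rfl fun k _ => ?_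
          rw [neg_smul]
          rfl
        rw [this, h2, neg_neg]
      rw [h3]
      ext i j
      by_cases hi : i = ⟨0, hm⟩
      · subst hi
        simp [k6b_matB]
      · have hi' : (i : ℕ) ≠ 0 := fun h => hi (Fin.ext h)
        rw [Matrix.updateRow_ne hi]
        simp [k6b_matB, k6b_matA, hi']
    rw [hB, Matrix.det_updateRow_sum, hd0, smul_eq_mul, abs_mul, abs_neg]

/-- `skw = Q x y - Q y x` -/
theorem k6b_ev_skw {m : ℕ} (T : Fin m → MvPolynomial (Fin m) ℝ) (u0 x y : Fin m → ℝ) :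
    k6b_skw T u0 x y = (∑ a, ∑ b, eval u0 (pderiv b (T a)) * x b * y a) - ∑ a, ∑ b, eval u0 (pderiv b (T a)) * y b * x a := by
  have e : ∑ a, ∑ b, eval u0 (pderiv b (T a)) * y b * x a = ∑ i, ∑ j, eval u0 (pderiv i (T j)) * x j * y i := by
    rw [Finset.sum_comm]
    exact Finset.sum_congr rfl fun a _ => Finset.sum_congr rfl fun b _ => by ring
  rw [e, ← Finset.sum_sub_distrib]
  unfold k6b_skw k6b_bil k6b_curlP
  refine Finset.sum_congr rfl fun i _ => ?_
  rw [← Finset.sum_sub_distrib]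
  refine Finset.sum_congr rfl fun j _ => ?_
  show eval u0 (pderiv j (T i) - pderiv i (T j)) * x j * y i = _
  rw [map_sub]
  ring

/-- linearity of `Q x ·` and the kernel relation -/
theorem k6b_ev_lin {m n : ℕ} (Ec : Fin m → Fin m → ℝ) (x : Fin m → ℝ) (v : Fin n → Fin m → ℝ) (d : Fin n → ℝ)
    (hd : ∑ k, d k • v k = 0) : ∑ i, d i * ∑ a, ∑ b, Ec a b * x b * v i a = 0 := by
  have hda : ∀ a, ∑ i, d i * v i a = 0 := fun a => by
    have := congrFun hd a
    simpa [Finset.sum_apply] using this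
  have e : ∑ i, d i * ∑ a, ∑ b, Ec a b * x b * v i a = ∑ a, ∑ b, Ec a b * x b * ∑ i, d i * v i a := by
    simp only [Finset.mul_sum]
    rw [Finset.sum_comm]
    refine Finset.sum_congr rfl fun a _ => ?_
    rw [Finset.sum_comm]
    exact Finset.sum_congr rfl fun b _ => Finset.sum_congr rfl fun i _ => by ring
  rw [e]
  simp only [hda, mul_zero, Finset.sum_const_zero]

/-- **LEAF L-252-S6b-C1-E3: the mixed derivative at `0`** (~100 l.).   `Q x y := ∑ a, ∑ b, eval u0 (pderiv b (T a)) * x b * y a` (bilinear).   `pderiv 1 (dirD d R) = ∑ i, C (d i) * pderiv 1 (pderiv i R)` (`map_sum`, `pderiv_C_mul`).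
`hH` at `(0, 1)`: `eval 0 (pderiv 0 (pderiv 1 R)) = Q (v 0) (v 1)`, and `pderiv 1 (pderiv 0 R) = pderiv 0 (pderiv 1 R)` (`k6b_pderiv_comm`);   `hH` at `(1, i)`, `1 ≤ i`: `eval 0 (pderiv 1 (pderiv i R)) = Q (v 1) (v i)`.
So LHS `= d 0 * Q (v 0) (v 1) + ∑_{i ≠ 0} d i * Q (v 1) (v i) = d 0 * Q (v 0) (v 1) + Q (v 1) (∑ i, d i • v i) - d 0 * Q (v 1) (v 0)` (`Fin.sum_univ_succ`; every `i.succ ≥ 1`), and `k6b_skw T u0 x y = Q x y - Q y x` (unfold `k6b_skw`, `k6b_bil`, `k6b_curlP`; `Finset.sum_comm`). -/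
theorem k6b_ev_hess (hH : k6b_height_hess_stmt) {m : ℕ} (hm : 1 ≤ m) (T : Fin m → MvPolynomial (Fin m) ℝ) (u0 : Fin m → ℝ) (v : Fin (m + 1) → Fin m → ℝ)
    (R : MvPolynomial (Fin (m + 1)) ℝ) (hR : ∀ δ, eval δ R = k6b_height T u0 v δ) (d : Fin (m + 1) → ℝ) (hd : ∑ k, d k • v k = 0) :
    eval 0 (pderiv 1 (k6b_dirD d R)) = d 0 * k6b_skw T u0 (v 0) (v 1) := by
  obtain ⟨k, rfl⟩ : ∃ k, m = k + 1 := ⟨m - 1, by omega⟩
  have h1 : eval 0 (pderiv 1 (k6b_dirD d R)) = ∑ i, d i * eval 0 (pderiv 1 (pderiv i R)) := by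
    unfold k6b_dirD
    rw [map_sum, map_sum]
    exact Finset.sum_congr rfl fun i _ => by rw [pderiv_C_mul, map_mul, eval_C]
  have h0 : eval 0 (pderiv 1 (pderiv 0 R)) = ∑ a, ∑ b, eval u0 (pderiv b (T a)) * v 0 b * v 1 a := by
    rw [k6b_pderiv_comm]
    exact hH _ _ T u0 v R hR 0 1 (Fin.zero_le _)
  have hs : ∀ i : Fin (k + 1), eval 0 (pderiv 1 (pderiv i.succ R)) = ∑ a, ∑ b, eval u0 (pderiv b (T a)) * v 1 b * v i.succ a :=
    fun i => hH _ _ T u0 v R hR 1 i.succ (by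
      rw [← Fin.succ_zero_eq_one]
      exact Fin.succ_le_succ_iff.2 (Fin.zero_le _))
  have hl := k6b_ev_lin (fun a b => eval u0 (pderiv b (T a))) (v 1) v d hd
  rw [Fin.sum_univ_succ] at hl
  rw [h1, Fin.sum_univ_succ, h0, k6b_ev_skw]
  simp only [hs]
  linear_combination hl

/-- **LEAF L-252-S6b-C1-E4: a polynomial with a large derivative at `0` is rarely small on `[-1,1]^N`** (~90 l.).   `S := rmzNm (rmzAffm (-1) 1 μ)`.
`s ≤ |eval 0 (pderiv j μ)| ≤ rmzNm (rmzAffm (-1) 1 (pderiv j μ)) * 1 ^ _ ≤ d / 2 * S` (`rmz_box_eval` with `lam = 1`, `x = 0`; `rmz_degreeOf_pderiv`; `rmz_box_pderiv`, `b j - a j = 2`).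
If the volume were `> ofReal η = ofReal (η / 2^N) * volume (Icc (-1) 1)` (`Real.volume_Icc_pi`), `rmz_box` with `θ = η / 2^N`, `M = s / (d * Cm)` gives `S ≤ Cm * M = s / d < 2 s / d ≤ S` (`rmz_Cm_pos`). -/
theorem k6b_ev_bad (N d : ℕ) (hd : 1 ≤ d) (μ : MvPolynomial (Fin N) ℝ) (hμ : ∀ i, μ.degreeOf i ≤ d) (j : Fin N) (s η : ℝ) (hs : 0 < s) (hη : 0 < η)
    (h : s ≤ |eval 0 (pderiv j μ)|) :
    volume ({δ : Fin N → ℝ | |eval δ μ| < s / (d * rmzCm N d (η / 2 ^ N))} ∩ Set.Icc (-1) 1) ≤ ENNReal.ofReal η := by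
  have hd0 : (0 : ℝ) < d := by exact_mod_cast hd
  have hθ : 0 < η / 2 ^ N := by positivity
  have hC := rmz_Cm_pos N d (η / 2 ^ N) hθ
  have hab : ∀ i : Fin N, (-1 : Fin N → ℝ) i < (1 : Fin N → ℝ) i := fun i => by simp
  have h1 := rmz_box_eval N d (pderiv j μ) (fun i => (rmz_degreeOf_pderiv N μ j i).trans (hμ i)) (-1) 1 hab 1 le_rfl 0
    (fun i => by simp)
  have h2 := rmz_box_pderiv N d μ (-1) 1 hab j (hμ j)
  rw [one_pow, mul_one] at h1
  have h3 : (1 : Fin N → ℝ) j - (-1 : Fin N → ℝ) j = 2 := by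
    simp
    norm_num
  rw [h3] at h2
  have hS : s ≤ d / 2 * rmzNm (rmzAffm (-1) 1 μ) := h.trans (h1.trans h2)
  by_contra hcon
  rw [not_le] at hcon
  have hvolI : ENNReal.ofReal (η / 2 ^ N) * volume (Set.Icc (-1 : Fin N → ℝ) 1) = ENNReal.ofReal η := by
    rw [Real.volume_Icc_pi]
    have : ∀ i : Fin N, ENNReal.ofReal ((1 : Fin N → ℝ) i - (-1 : Fin N → ℝ) i) = ENNReal.ofReal 2 := fun i => by
      simp only [Pi.one_apply, Pi.neg_apply]
      norm_num
    simp only [this, Finset.prod_const, Finset.card_univ, Fintype.card_fin]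
    rw [← ENNReal.ofReal_pow (by norm_num), ← ENNReal.ofReal_mul hθ.le]
    congr 1
    field_simp
  have h4 := rmz_box N d μ hμ (-1) 1 hab (η / 2 ^ N) (s / (d * rmzCm N d (η / 2 ^ N))) hθ
    ({δ : Fin N → ℝ | |eval δ μ| < s / (d * rmzCm N d (η / 2 ^ N))} ∩ Set.Icc (-1) 1) Set.inter_subset_right
    (by rw [hvolI]; exact hcon.le) (fun x hx => hx.1.le)
  have h5 : rmzCm N d (η / 2 ^ N) * (s / (d * rmzCm N d (η / 2 ^ N))) = s / d := by
    field_simp
  rw [h5] at h4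
  have h6 : d / 2 * rmzNm (rmzAffm (-1) 1 μ) ≤ d / 2 * (s / d) := mul_le_mul_of_nonneg_left h4 (by positivity)
  have h7 : (d : ℝ) / 2 * (s / d) = s / 2 := by
    field_simp
  rw [h7] at h6
  linarith

/-- values of the directional derivative -/
theorem k6b_ev_dirD_eval {n : ℕ} (d : Fin n → ℝ) (R : MvPolynomial (Fin n) ℝ) (y : Fin n → ℝ) :
    eval y (k6b_dirD d R) = ∑ i, d i * eval y (pderiv i R) := by
  unfold k6b_dirD
  rw [map_sum]
  exact Finset.sum_congr rfl fun i _ => by rw [map_mul, eval_C]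

/-- **LEAF L-252-S6b-C1-E5: restriction to a line, with its derivative** (~50 l.).   `p` from `rmz_line n R x d` (`x i + t * d i`);  `p.derivative.eval s = deriv (fun s => p.eval s) s` (`Polynomial.hasDerivAt`), `k6b_hasDerivAt_line`, `HasDerivAt.unique`;
`eval y (dirD d R) = ∑ i, d i * eval y (pderiv i R)` (`map_sum`, `eval_C`). -/
theorem k6b_ev_line {n : ℕ} (R : MvPolynomial (Fin n) ℝ) (x d : Fin n → ℝ) :
    ∃ p : Polynomial ℝ, p.natDegree ≤ R.totalDegree ∧ (∀ s, p.eval s = eval (x + s • d) R) ∧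
      ∀ s, p.derivative.eval s = eval (x + s • d) (k6b_dirD d R) := by
  obtain ⟨p, hdeg, hp⟩ := rmz_line n R x d
  have hev : ∀ s, p.eval s = eval (x + s • d) R := fun s => by
    rw [← hp s]
    rfl
  refine ⟨p, hdeg, hev, fun s => ?_⟩
  have h1 : HasDerivAt (fun s => p.eval s) (p.derivative.eval s) s := p.hasDerivAt s
  have h2 := k6b_hasDerivAt_line R x d s
  have e : (fun s => p.eval s) = fun s : ℝ => eval (x + s • d) R := funext hev
  rw [e] at h1
  rw [h1.unique h2, k6b_ev_dirD_eval]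
  exact Finset.sum_congr rfl fun i _ => mul_comm _ _

/-- degrees of the directional derivative (part of leaf E5; `MvPolynomial.degreeOf_sum_le`, `degreeOf_C_mul_le`, `rmz_degreeOf_pderiv`, `rmz_degreeOf_le`) -/
theorem k6b_ev_dirD_deg {n : ℕ} (d : Fin n → ℝ) (R : MvPolynomial (Fin n) ℝ) (D : ℕ) (hR : R.totalDegree ≤ D) (i : Fin n) : (k6b_dirD d R).degreeOf i ≤ D := by
  unfold k6b_dirD
  refine (MvPolynomial.degreeOf_sum_le i Finset.univ _).trans (Finset.sup_le fun j _ => ?_)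
  exact (MvPolynomial.degreeOf_C_mul_le _ _ _).trans ((rmz_degreeOf_pderiv n R j i).trans (rmz_degreeOf_le R D hR i))

/-- the matrix of `δ ↦ (δ_last, ∑ δ_k v_k)` -/
def k6b_evW {m : ℕ} (v : Fin (m + 1) → Fin m → ℝ) : Matrix (Fin (m + 1)) (Fin (m + 1)) ℝ :=
  Matrix.of (Fin.cons (α := fun _ => Fin (m + 1) → ℝ) (Pi.single (Fin.last m) 1) fun i k => v k i)

theorem k6b_ev_W_zero {m : ℕ} (v : Fin (m + 1) → Fin m → ℝ) (δ : Fin (m + 1) → ℝ) : (k6b_evW v).mulVec δ 0 = δ (Fin.last m) := by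
  unfold k6b_evW Matrix.mulVec dotProduct
  simp [Pi.single_apply]

theorem k6b_ev_W_succ {m : ℕ} (v : Fin (m + 1) → Fin m → ℝ) (δ : Fin (m + 1) → ℝ) (i : Fin m) :
    (k6b_evW v).mulVec δ i.succ = (∑ k, δ k • v k) i := by
  unfold k6b_evW Matrix.mulVec dotProduct
  simp only [Matrix.of_apply, Fin.cons_succ, Finset.sum_apply, Pi.smul_apply, smul_eq_mul]
  exact Finset.sum_congr rfl fun k _ => mul_comm _ _

theorem k6b_ev_W_eq {m : ℕ} (v : Fin (m + 1) → Fin m → ℝ) (δ : Fin (m + 1) → ℝ) :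
    (k6b_evW v).mulVec δ = Fin.cons (α := fun _ => ℝ) (δ (Fin.last m)) (∑ k, δ k • v k) := by
  funext i
  refine Fin.cases ?_ (fun i => ?_) i
  · rw [k6b_ev_W_zero, Fin.cons_zero]
  · rw [k6b_ev_W_succ, Fin.cons_succ]

theorem k6b_ev_W_det {m : ℕ} (v : Fin (m + 1) → Fin m → ℝ) : |(k6b_evW v).det| = |(k6b_matA v).det| := by
  rw [Matrix.det_succ_row_zero, Finset.sum_eq_single (Fin.last m)]
  · have e1 : k6b_evW v 0 (Fin.last m) = 1 := by
      unfold k6b_evW
      simp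
    have e2 : (k6b_evW v).submatrix Fin.succ (Fin.last m).succAbove = (k6b_matA v).transpose := by
      ext i k
      unfold k6b_evW k6b_matA
      simp [Fin.succAbove_last]
    rw [e1, e2, Matrix.det_transpose, mul_one, abs_mul, abs_pow, abs_neg, abs_one, one_pow, one_mul]
  · intro j _ hj
    have e1 : k6b_evW v 0 j = 0 := by
      unfold k6b_evW
      simp [hj]
    rw [e1, mul_zero, zero_mul]
  · intro h
    exact absurd (Finset.mem_univ _) h

/-- **LEAF L-252-S6b-C1-E6: linear change of variables and Fubini** (~220 l.).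
`W : Matrix (Fin (m+1)) (Fin (m+1)) ℝ := Matrix.of (Fin.cons (Pi.single (Fin.last m) 1) fun i k => v k i)`:  `(W *ᵥ δ) 0 = δ (last)`, `(W *ᵥ δ) i.succ = (∑ k, δ k • v k) i`;   `W *ᵥ d = Pi.single 0 1`.
`|det W| = |det A|`: `Matrix.det_succ_row_zero`, only the column `last` survives, `Fin.succAbove_last`, the minor is `Aᵀ` (`Matrix.det_transpose`).
`E := {w | W⁻¹ *ᵥ w ∈ Z ∧ ‖(fun i => w i.succ) - c‖ ≤ ξ}` is measurable (`w ↦ W⁻¹ *ᵥ w` is continuous);  the set of the statement is `(W *ᵥ ·) ⁻¹' E` (`Matrix.nonsing_inv_mul`),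
so its volume is `ofReal |(det W)⁻¹| * volume E` (`MeasureTheory.Measure.addHaar_preimage_linearMap` for `Matrix.toLin' W`, `LinearMap.det_toLin'`; or `Real.map_matrix_volume_pi_eq_smul_volume_pi`).
`volume E = ∫⁻ y, volume {t | Fin.cons t y ∈ E}` (`rmz_slice_vol`);  the fibre is empty unless `y ∈ closedBall c ξ`, and `W⁻¹ *ᵥ (Fin.cons t y) = W⁻¹ *ᵥ (Fin.cons 0 y) + t • d`, so it has measure `≤ b` (`hb`);
`volume (closedBall c ξ) = ofReal ((2 ξ)^m)` (`Real.volume_pi_closedBall`). -/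
theorem k6b_ev_fubini {m : ℕ} (v : Fin (m + 1) → Fin m → ℝ) (d : Fin (m + 1) → ℝ) (hd1 : d (Fin.last m) = 1) (hd0 : ∑ k, d k • v k = 0)
    (hA : (k6b_matA v).det ≠ 0) (Z : Set (Fin (m + 1) → ℝ)) (hZ : MeasurableSet Z) (b : ℝ≥0∞) (hb : ∀ x, volume {s : ℝ | x + s • d ∈ Z} ≤ b)
    (c : Fin m → ℝ) (ξ : ℝ) (hξ : 0 ≤ ξ) :
    volume (Z ∩ {δ | ‖∑ k, δ k • v k - c‖ ≤ ξ}) ≤ ENNReal.ofReal ((2 * ξ) ^ m / |(k6b_matA v).det|) * b := by
  obtain ⟨W, hW⟩ : ∃ W : Matrix (Fin (m + 1)) (Fin (m + 1)) ℝ, W = k6b_evW v := ⟨_, rfl⟩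
  have hdet : |W.det| = |(k6b_matA v).det| := by rw [hW]; exact k6b_ev_W_det v
  have hW0 : W.det ≠ 0 := by
    rw [← abs_pos, hdet]
    exact abs_pos.2 hA
  have hunit : IsUnit W.det := isUnit_iff_ne_zero.2 hW0
  have hinv : ∀ δ, W⁻¹.mulVec (W.mulVec δ) = δ := by
    intro δ
    rw [Matrix.mulVec_mulVec, Matrix.nonsing_inv_mul W hunit, Matrix.one_mulVec]
  have hWd : W.mulVec d = Fin.cons (α := fun _ => ℝ) 1 0 := by
    rw [hW, k6b_ev_W_eq, hd1, hd0]
  have hd : W⁻¹.mulVec (Fin.cons (α := fun _ => ℝ) 1 0) = d := by rw [← hWd, hinv]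
  -- the set in the new coordinates
  obtain ⟨E, hE⟩ : ∃ E : Set (Fin (m + 1) → ℝ), E = {w | W⁻¹.mulVec w ∈ Z ∧ ‖(fun i : Fin m => w i.succ) - c‖ ≤ ξ} := ⟨_, rfl⟩
  have hcont : Continuous fun w : Fin (m + 1) → ℝ => W⁻¹.mulVec w := Continuous.matrix_mulVec continuous_const continuous_id
  have hEm : MeasurableSet E := by
    rw [hE]
    refine (hcont.measurable hZ).inter ?_
    have h1 : Continuous fun w : Fin (m + 1) → ℝ => ‖(fun i : Fin m => w i.succ) - c‖ :=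
      continuous_norm.comp ((continuous_pi fun i : Fin m => continuous_apply i.succ).sub continuous_const)
    exact (isClosed_le h1 continuous_const).measurableSet
  have hpre : Z ∩ {δ | ‖∑ k, δ k • v k - c‖ ≤ ξ} = (Matrix.toLin' W) ⁻¹' E := by
    ext δ
    rw [hE]
    simp only [Set.mem_inter_iff, Set.mem_ofPred_eq, Set.mem_preimage, Matrix.toLin'_apply, hinv]
    have e : (fun i : Fin m => W.mulVec δ i.succ) = ∑ k, δ k • v k := by
      funext i
      rw [hW, k6b_ev_W_succ]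
    rw [e]
  rw [hpre, Measure.addHaar_preimage_linearMap volume (by rw [LinearMap.det_toLin']; exact hW0), LinearMap.det_toLin', abs_inv, hdet]
  -- Fubini
  have hfib : ∀ y : Fin m → ℝ, volume {t : ℝ | (Fin.cons t y : Fin (m + 1) → ℝ) ∈ E} ≤ (Metric.closedBall c ξ).indicator (fun _ => b) y := by
    intro y
    by_cases hy : y ∈ Metric.closedBall c ξ
    · rw [Set.indicator_of_mem hy]
      refine le_trans (measure_mono ?_) (hb (W⁻¹.mulVec (Fin.cons (α := fun _ => ℝ) 0 y)))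
      intro t ht
      rw [hE] at ht
      have e : (Fin.cons t y : Fin (m + 1) → ℝ) = Fin.cons (α := fun _ => ℝ) 0 y + t • Fin.cons (α := fun _ => ℝ) 1 0 := by
        funext i
        refine Fin.cases ?_ (fun i => ?_) i
        · simp
        · simp
      have h1 := ht.1
      rw [e, Matrix.mulVec_add, Matrix.mulVec_smul, hd] at h1
      exact h1
    · rw [Set.indicator_of_notMem hy]
      have : {t : ℝ | (Fin.cons t y : Fin (m + 1) → ℝ) ∈ E} = ∅ := by
        ext t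
        simp only [Set.mem_ofPred_eq, Set.mem_empty_iff_false, iff_false]
        intro ht
        rw [hE] at ht
        apply hy
        rw [Metric.mem_closedBall, dist_eq_norm]
        have h2 := ht.2
        simp only [Fin.cons_succ] at h2
        exact h2
      rw [this, measure_empty]
  have hvolE : volume E ≤ ENNReal.ofReal ((2 * ξ) ^ m) * b := by
    rw [rmz_slice_vol m E hEm]
    refine (lintegral_mono hfib).trans (le_of_eq ?_)
    rw [lintegral_indicator Metric.isClosed_closedBall.measurableSet, setLIntegral_const, Real.volume_pi_closedBall c hξ, Fintype.card_fin, mul_comm]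
  calc ENNReal.ofReal |(k6b_matA v).det|⁻¹ * volume E ≤ ENNReal.ofReal |(k6b_matA v).det|⁻¹ * (ENNReal.ofReal ((2 * ξ) ^ m) * b) := by gcongr
    _ = ENNReal.ofReal ((2 * ξ) ^ m / |(k6b_matA v).det|) * b := by
        rw [← mul_assoc, ← ENNReal.ofReal_mul (by positivity)]
        congr 2
        rw [div_eq_mul_inv, mul_comm]

end

end Claimed.Agent.R252
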