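import Claimed.Agent.R252.S6b.SelectDefs
import Claimed.Agent.R252.S6b.SqKit
import Claimed.Agent.R252.S6b.Potential

/-!
# Row252, unit S6b, leaf M1 (version 1 of the main statement at one scale): THE KIT      (helper147; prefix `k6b_m1_`)

* `k6b_m1PB`: functions of `(K, X)` bounded by `c (K X)^k` on `K, X ≥ 1` (bookkeeping of the constants);
* monotonicity of `Chain`, `Geo` in the slack;
* Lipschitz bound of `(u, v) ↦ D_v³ P (u)`.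
-/

set_option autoImplicit false

namespace Claimed.Agent.R252

open MeasureTheory MvPolynomial
open scoped ENNReal BigOperators

noncomputable section

/-! ## 1. Polynomially bounded constants -/

/-- nonnegative functions of `(K, X)` bounded by `c (K X)^k` on `K, X ≥ 1` -/
def k6b_m1PB (f : ℝ → ℝ → ℝ) : Prop :=
  ∃ (c : ℝ) (k : ℕ), 0 ≤ c ∧ ∀ K X, 1 ≤ K → 1 ≤ X → 0 ≤ f K X ∧ f K X ≤ c * (K * X) ^ k

theorem k6b_m1PB_const {a : ℝ} (ha : 0 ≤ a) : k6b_m1PB fun _ _ => a :=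
  ⟨a, 0, ha, fun K X _ _ => ⟨ha, by simp⟩⟩

theorem k6b_m1PB_fst : k6b_m1PB fun K _ => K :=
  ⟨1, 1, zero_le_one, fun K X hK hX => ⟨by linarith, by nlinarith⟩⟩

theorem k6b_m1PB_snd : k6b_m1PB fun _ X => X :=
  ⟨1, 1, zero_le_one, fun K X hK hX => ⟨by linarith, by nlinarith⟩⟩

theorem k6b_m1_one_le_mul {K X : ℝ} (hK : 1 ≤ K) (hX : 1 ≤ X) : 1 ≤ K * X := by nlinarith

theorem k6b_m1PB_add {f g : ℝ → ℝ → ℝ} (hf : k6b_m1PB f) (hg : k6b_m1PB g) : k6b_m1PB fun K X => f K X + g K X := by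
  obtain ⟨c1, k1, hc1, h1⟩ := hf
  obtain ⟨c2, k2, hc2, h2⟩ := hg
  refine ⟨c1 + c2, k1 + k2, by linarith, fun K X hK hX => ?_⟩
  obtain ⟨a1, b1⟩ := h1 K X hK hX
  obtain ⟨a2, b2⟩ := h2 K X hK hX
  have hZ := k6b_m1_one_le_mul hK hX
  have e1 : (K * X) ^ k1 ≤ (K * X) ^ (k1 + k2) := pow_le_pow_right₀ hZ (by omega)
  have e2 : (K * X) ^ k2 ≤ (K * X) ^ (k1 + k2) := pow_le_pow_right₀ hZ (by omega)
  refine ⟨by linarith, ?_⟩
  have := mul_le_mul_of_nonneg_left e1 hc1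
  have := mul_le_mul_of_nonneg_left e2 hc2
  nlinarith

theorem k6b_m1PB_mul {f g : ℝ → ℝ → ℝ} (hf : k6b_m1PB f) (hg : k6b_m1PB g) : k6b_m1PB fun K X => f K X * g K X := by
  obtain ⟨c1, k1, hc1, h1⟩ := hf
  obtain ⟨c2, k2, hc2, h2⟩ := hg
  refine ⟨c1 * c2, k1 + k2, by positivity, fun K X hK hX => ?_⟩
  obtain ⟨a1, b1⟩ := h1 K X hK hX
  obtain ⟨a2, b2⟩ := h2 K X hK hX
  refine ⟨by positivity, ?_⟩
  calc f K X * g K X ≤ (c1 * (K * X) ^ k1) * (c2 * (K * X) ^ k2) := mul_le_mul b1 b2 a2 (a1.trans b1)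
    _ = c1 * c2 * (K * X) ^ (k1 + k2) := by rw [pow_add]; ring

theorem k6b_m1PB_pow {f : ℝ → ℝ → ℝ} (hf : k6b_m1PB f) (n : ℕ) : k6b_m1PB fun K X => f K X ^ n := by
  obtain ⟨c1, k1, hc1, h1⟩ := hf
  refine ⟨c1 ^ n, k1 * n, by positivity, fun K X hK hX => ?_⟩
  obtain ⟨a1, b1⟩ := h1 K X hK hX
  refine ⟨by positivity, ?_⟩
  calc f K X ^ n ≤ (c1 * (K * X) ^ k1) ^ n := pow_le_pow_left₀ a1 b1 n
    _ = c1 ^ n * (K * X) ^ (k1 * n) := by rw [mul_pow, ← pow_mul]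

/-! ## 2. Monotonicity in the slack -/

theorem k6b_m1_chain_mono {m : ℕ} {Y : k6b_Sw m} {K K' c0 c0' η η' : ℝ≥0∞} {w w' : ℝ} (h : Y.Chain K c0 η w)
    (hK : K ≤ K') (hc : c0 ≤ c0') (hη : η ≤ η') (hw : w' ≤ w) : Y.Chain K' c0' η' w' where
  long_mass := h.long_mass.trans hη
  long_dens := fun l hl τ => (h.long_dens l hl τ).trans (mul_le_mul_left hK _)
  pal_dom := fun s J => (h.pal_dom s J).trans (mul_le_mul_left (mul_le_mul_left hK _) _)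
  strip := fun s a ha => by
    refine le_trans (measure_mono ?_) ((h.strip s a ha).trans (mul_le_mul_left hc _))
    exact Set.inter_subset_inter_right _ fun e he => le_trans he hw

theorem k6b_m1_geo_mono {m : ℕ} {Y : k6b_Sw m} {T : Fin m → MvPolynomial (Fin m) ℝ} {K K' β pv εT : ℝ}
    (h : Y.Geo T K β pv εT) (hK : K ≤ K') : Y.Geo T K' β pv εT where
  box0 := fun e he => (h.box0 e he).trans hK
  box := fun l hl τ hτ => (h.box l hl τ hτ).trans hK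
  velb := fun l => (h.velb l).trans hK
  close := h.close
  bins := h.bins
  fit := h.fit

/-! ## 3. Lipschitz bounds -/

theorem k6b_m1_abs_le_norm {n : ℕ} (u : Fin n → ℝ) (i : Fin n) : |u i| ≤ ‖u‖ := by
  rw [← Real.norm_eq_abs]
  exact norm_le_pi_norm u i

theorem k6b_m1_Nm_dP (n d : ℕ) (v : Fin n → ℝ) (Q : MvPolynomial (Fin n) ℝ) (hQ : Q.totalDegree ≤ d) :
    rmzNm (k6b_dP v Q) ≤ ((n : ℝ) * d) * ‖v‖ * rmzNm Q := by
  unfold k6b_dP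
  refine (k6b_pt_Nm_sum_le _ _).trans ?_
  calc ∑ j, rmzNm (C (v j) * pderiv j Q) ≤ ∑ _j : Fin n, ‖v‖ * (d * rmzNm Q) := by
        refine Finset.sum_le_sum fun j _ => ?_
        rw [rmz_Nm_C_mul]
        exact mul_le_mul (k6b_m1_abs_le_norm v j) (rmz_Nm_pderiv n d Q j (rmz_degreeOf_le Q d hQ j)) (rmz_Nm_nonneg _)
          (norm_nonneg _)
    _ = ((n : ℝ) * d) * ‖v‖ * rmzNm Q := by
        rw [Finset.sum_const, Finset.card_univ, Fintype.card_fin, nsmul_eq_mul]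
        ring

theorem k6b_m1_dP_sub {n : ℕ} (v v' : Fin n → ℝ) (Q : MvPolynomial (Fin n) ℝ) :
    k6b_dP v Q - k6b_dP v' Q = k6b_dP (v - v') Q := by
  unfold k6b_dP
  rw [← Finset.sum_sub_distrib]
  refine Finset.sum_congr rfl fun j _ => ?_
  rw [Pi.sub_apply, C_sub]
  ring

theorem k6b_m1_dP_sub_right {n : ℕ} (v : Fin n → ℝ) (Q Q' : MvPolynomial (Fin n) ℝ) :
    k6b_dP v Q - k6b_dP v Q' = k6b_dP v (Q - Q') := by
  unfold k6b_dP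
  rw [← Finset.sum_sub_distrib]
  refine Finset.sum_congr rfl fun j _ => ?_
  rw [map_sub]
  ring

theorem k6b_m1_dP_deg {n d : ℕ} (v : Fin n → ℝ) {Q : MvPolynomial (Fin n) ℝ} (hQ : Q.totalDegree ≤ d) :
    (k6b_dP v Q).totalDegree ≤ d :=
  (k6b_dP_totalDegree v Q).trans ((Nat.sub_le _ _).trans hQ)

theorem k6b_m1_eval_le (n d : ℕ) (Q : MvPolynomial (Fin n) ℝ) (hQ : Q.totalDegree ≤ d) (L : ℝ) (hL : 1 ≤ L)
    (u : Fin n → ℝ) (hu : ‖u‖ ≤ L) : |eval u Q| ≤ rmzNm Q * L ^ (n * d) :=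
  rmz_mv_eval_le n d Q (rmz_degreeOf_le Q d hQ) L hL u fun i => (k6b_m1_abs_le_norm u i).trans hu

theorem k6b_m1_lip_u (n d : ℕ) (Q : MvPolynomial (Fin n) ℝ) (hQ : Q.totalDegree ≤ d) (L : ℝ) (hL : 1 ≤ L)
    (u u' : Fin n → ℝ) (hu : ‖u‖ ≤ L) (hu' : ‖u'‖ ≤ L) :
    |eval u Q - eval u' Q| ≤ ((n : ℝ) * d) * ‖u - u'‖ * rmzNm Q * L ^ (n * d) := by
  have hd : ∀ t : ℝ, HasDerivAt (fun t : ℝ => eval (u' + t • (u - u')) Q)
      (eval (u' + t • (u - u')) (k6b_dP (u - u') Q)) t := fun t => k6b_dP_hasDerivAt Q u' (u - u') t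
  obtain ⟨c, hc, hc'⟩ := exists_hasDerivAt_eq_slope (fun t : ℝ => eval (u' + t • (u - u')) Q)
    (fun t : ℝ => eval (u' + t • (u - u')) (k6b_dP (u - u') Q)) (zero_lt_one)
    (fun t _ => (hd t).continuousAt.continuousWithinAt) (fun t _ => hd t)
  simp only [one_smul, zero_smul, add_zero, sub_zero, div_one, add_sub_cancel] at hc'
  rw [← hc']
  have hn : ‖u' + c • (u - u')‖ ≤ L := by
    have e : u' + c • (u - u') = (1 - c) • u' + c • u := by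
      rw [smul_sub, sub_smul, one_smul]; abel
    rw [e]
    refine (norm_add_le _ _).trans ?_
    rw [norm_smul, norm_smul, Real.norm_eq_abs, Real.norm_eq_abs, abs_of_pos hc.1, abs_of_pos (by linarith [hc.2] : 0 < 1 - c)]
    nlinarith [hc.1, hc.2]
  refine (k6b_m1_eval_le n d _ (k6b_m1_dP_deg _ hQ) L hL _ hn).trans ?_
  exact mul_le_mul_of_nonneg_right (k6b_m1_Nm_dP n d _ Q hQ) (by positivity)

theorem k6b_m1_lip (n d : ℕ) (P : MvPolynomial (Fin n) ℝ) (hP : P.totalDegree ≤ d) (L : ℝ) (hL : 1 ≤ L)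
    (u u' v v' : Fin n → ℝ) (hu : ‖u‖ ≤ L) (hu' : ‖u'‖ ≤ L) (hv : ‖v‖ ≤ L) (hv' : ‖v'‖ ≤ L) :
    |eval u (k6b_dP v (k6b_dP v (k6b_dP v P))) - eval u' (k6b_dP v' (k6b_dP v' (k6b_dP v' P)))|
      ≤ (((n : ℝ) * d) ^ 4 + 3 * ((n : ℝ) * d) ^ 3) * L ^ (n * d + 3) * rmzNm P * (‖u - u'‖ + ‖v - v'‖) := by
  set N : ℝ := (n : ℝ) * d with hN
  have hN0 : 0 ≤ N := by positivity
  have hM := rmz_Nm_nonneg P
  have hL0 : 0 ≤ L := by linarith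
  -- a general bound of the norm of three derivatives
  have h3 : ∀ a b c : Fin n → ℝ, rmzNm (k6b_dP a (k6b_dP b (k6b_dP c P))) ≤ N ^ 3 * (‖a‖ * ‖b‖ * ‖c‖) * rmzNm P := by
    intro a b c
    have e1 := k6b_m1_Nm_dP n d c P hP
    have e2 := k6b_m1_Nm_dP n d b _ (k6b_m1_dP_deg c hP)
    have e3 := k6b_m1_Nm_dP n d a _ (k6b_m1_dP_deg b (k6b_m1_dP_deg c hP))
    calc rmzNm (k6b_dP a (k6b_dP b (k6b_dP c P))) ≤ N * ‖a‖ * rmzNm (k6b_dP b (k6b_dP c P)) := e3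
      _ ≤ N * ‖a‖ * (N * ‖b‖ * rmzNm (k6b_dP c P)) := mul_le_mul_of_nonneg_left e2 (by positivity)
      _ ≤ N * ‖a‖ * (N * ‖b‖ * (N * ‖c‖ * rmzNm P)) :=
          mul_le_mul_of_nonneg_left (mul_le_mul_of_nonneg_left e1 (by positivity)) (by positivity)
      _ = N ^ 3 * (‖a‖ * ‖b‖ * ‖c‖) * rmzNm P := by ring
  have hdeg : ∀ a b c : Fin n → ℝ, (k6b_dP a (k6b_dP b (k6b_dP c P))).totalDegree ≤ d := fun a b c =>
    k6b_m1_dP_deg a (k6b_m1_dP_deg b (k6b_m1_dP_deg c hP))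
  -- first term
  have t1 : |eval u (k6b_dP v (k6b_dP v (k6b_dP v P))) - eval u' (k6b_dP v (k6b_dP v (k6b_dP v P)))|
      ≤ N ^ 4 * L ^ (n * d + 3) * rmzNm P * ‖u - u'‖ := by
    refine (k6b_m1_lip_u n d _ (hdeg v v v) L hL u u' hu hu').trans ?_
    have e1 : rmzNm (k6b_dP v (k6b_dP v (k6b_dP v P))) ≤ N ^ 3 * (L * L * L) * rmzNm P := by
      refine (h3 v v v).trans ?_
      refine mul_le_mul_of_nonneg_right (mul_le_mul_of_nonneg_left ?_ (by positivity)) hM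
      exact mul_le_mul (mul_le_mul hv hv (norm_nonneg _) hL0) hv (norm_nonneg _) (by positivity)
    calc N * ‖u - u'‖ * rmzNm (k6b_dP v (k6b_dP v (k6b_dP v P))) * L ^ (n * d)
        ≤ N * ‖u - u'‖ * (N ^ 3 * (L * L * L) * rmzNm P) * L ^ (n * d) :=
          mul_le_mul_of_nonneg_right (mul_le_mul_of_nonneg_left e1 (by positivity)) (by positivity)
      _ = N ^ 4 * L ^ (n * d + 3) * rmzNm P * ‖u - u'‖ := by ring
  -- second term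
  have e : k6b_dP v (k6b_dP v (k6b_dP v P)) - k6b_dP v' (k6b_dP v' (k6b_dP v' P))
      = k6b_dP (v - v') (k6b_dP v (k6b_dP v P)) + (k6b_dP v' (k6b_dP (v - v') (k6b_dP v P))
        + k6b_dP v' (k6b_dP v' (k6b_dP (v - v') P))) := by
    rw [← k6b_m1_dP_sub, ← k6b_m1_dP_sub, ← k6b_m1_dP_sub, ← k6b_m1_dP_sub_right, ← k6b_m1_dP_sub_right,
      ← k6b_m1_dP_sub_right]
    abel
  have t2 : |eval u' (k6b_dP v (k6b_dP v (k6b_dP v P))) - eval u' (k6b_dP v' (k6b_dP v' (k6b_dP v' P)))|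
      ≤ 3 * N ^ 3 * L ^ (n * d + 3) * rmzNm P * ‖v - v'‖ := by
    rw [← map_sub, e]
    have hdeg' : (k6b_dP (v - v') (k6b_dP v (k6b_dP v P)) + (k6b_dP v' (k6b_dP (v - v') (k6b_dP v P))
        + k6b_dP v' (k6b_dP v' (k6b_dP (v - v') P)))).totalDegree ≤ d := by
      refine (totalDegree_add _ _).trans (max_le (hdeg _ _ _) ?_)
      exact (totalDegree_add _ _).trans (max_le (hdeg _ _ _) (hdeg _ _ _))
    refine (k6b_m1_eval_le n d _ hdeg' L hL u' hu').trans ?_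
    have b1 : rmzNm (k6b_dP (v - v') (k6b_dP v (k6b_dP v P))) ≤ N ^ 3 * (‖v - v'‖ * L * L) * rmzNm P := by
      refine (h3 _ _ _).trans ?_
      refine mul_le_mul_of_nonneg_right (mul_le_mul_of_nonneg_left ?_ (by positivity)) hM
      exact mul_le_mul (mul_le_mul le_rfl hv (norm_nonneg _) (norm_nonneg _)) hv (norm_nonneg _) (by positivity)
    have b2 : rmzNm (k6b_dP v' (k6b_dP (v - v') (k6b_dP v P))) ≤ N ^ 3 * (L * ‖v - v'‖ * L) * rmzNm P := by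
      refine (h3 _ _ _).trans ?_
      refine mul_le_mul_of_nonneg_right (mul_le_mul_of_nonneg_left ?_ (by positivity)) hM
      exact mul_le_mul (mul_le_mul hv' le_rfl (norm_nonneg _) hL0) hv (norm_nonneg _) (by positivity)
    have b3 : rmzNm (k6b_dP v' (k6b_dP v' (k6b_dP (v - v') P))) ≤ N ^ 3 * (L * L * ‖v - v'‖) * rmzNm P := by
      refine (h3 _ _ _).trans ?_
      refine mul_le_mul_of_nonneg_right (mul_le_mul_of_nonneg_left ?_ (by positivity)) hM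
      exact mul_le_mul (mul_le_mul hv' hv' (norm_nonneg _) hL0) le_rfl (norm_nonneg _) (by positivity)
    have b : rmzNm (k6b_dP (v - v') (k6b_dP v (k6b_dP v P)) + (k6b_dP v' (k6b_dP (v - v') (k6b_dP v P))
        + k6b_dP v' (k6b_dP v' (k6b_dP (v - v') P)))) ≤ 3 * N ^ 3 * (L * L) * rmzNm P * ‖v - v'‖ := by
      refine (k6b_pt_Nm_add_le _ _).trans ?_
      have := k6b_pt_Nm_add_le (k6b_dP v' (k6b_dP (v - v') (k6b_dP v P))) (k6b_dP v' (k6b_dP v' (k6b_dP (v - v') P)))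
      nlinarith
    have hLL : L * L * L ^ (n * d) ≤ L ^ (n * d + 3) := by
      have : L * L * L ^ (n * d) = L ^ (n * d + 2) := by ring
      rw [this]
      exact pow_le_pow_right₀ hL (by omega)
    calc _ ≤ 3 * N ^ 3 * (L * L) * rmzNm P * ‖v - v'‖ * L ^ (n * d) := mul_le_mul_of_nonneg_right b (by positivity)
      _ = 3 * N ^ 3 * rmzNm P * ‖v - v'‖ * (L * L * L ^ (n * d)) := by ring
      _ ≤ 3 * N ^ 3 * rmzNm P * ‖v - v'‖ * L ^ (n * d + 3) := mul_le_mul_of_nonneg_left hLL (by positivity)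
      _ = 3 * N ^ 3 * L ^ (n * d + 3) * rmzNm P * ‖v - v'‖ := by ring
  have t3 := abs_sub_le (eval u (k6b_dP v (k6b_dP v (k6b_dP v P)))) (eval u' (k6b_dP v (k6b_dP v (k6b_dP v P))))
    (eval u' (k6b_dP v' (k6b_dP v' (k6b_dP v' P))))
  have p1 : 0 ≤ N ^ 4 * L ^ (n * d + 3) * rmzNm P * ‖v - v'‖ := by positivity
  have p2 : 0 ≤ 3 * N ^ 3 * L ^ (n * d + 3) * rmzNm P * ‖u - u'‖ := by positivity
  calc _ ≤ _ := t3
    _ ≤ N ^ 4 * L ^ (n * d + 3) * rmzNm P * ‖u - u'‖ + 3 * N ^ 3 * L ^ (n * d + 3) * rmzNm P * ‖v - v'‖ := add_le_add t1 t2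
    _ ≤ (N ^ 4 + 3 * N ^ 3) * L ^ (n * d + 3) * rmzNm P * (‖u - u'‖ + ‖v - v'‖) := by nlinarith

/-! ## 4. The constants of the main statement -/

/-- `εP ≤ B (εT + N)` -/
def k6b_m1B (c5 c2 : ℕ) (K : ℝ) : ℝ := 1 + c2 * K ^ c2 * (2 * (c5 * K ^ c5))

/-- the slack of the core V1b -/
def k6b_m1Kb (c4 : ℕ) (K : ℝ) : ℝ := K + 1 + c4 * (2 * K * (K + 1)) ^ c4

/-- `1 / θ` -/
def k6b_m1Th (cG : ℝ) (kG : ℕ) (K X : ℝ) : ℝ := (cG + 1) * (2 * K) ^ kG * (2 * (64 * K * K) ^ 4) * (K * (K * X))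

/-- the Lipschitz constant of the third derivatives of the potential -/
def k6b_m1L (D : ℕ) (K : ℝ) : ℝ :=
  ((((2 : ℕ) : ℝ) * ((D + 1 : ℕ) : ℝ)) ^ 4 + 3 * (((2 : ℕ) : ℝ) * ((D + 1 : ℕ) : ℝ)) ^ 3) * (K + 1) ^ (2 * (D + 1) + 3) * (2 * K)

/-- the lower bound of the constant `A` -/
def k6b_m1F (c5 c2 : ℕ) (cG : ℝ) (kG cV c4 cb D : ℕ) (K X : ℝ) : ℝ :=
  1 + c5 * K ^ c5 + 4 * K + cG * (2 * K) ^ kG * k6b_m1B c5 c2 K + 2 * k6b_m1B c5 c2 K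
    + (3 / 2 + cb * (k6b_m1Kb c4 K * k6b_m1Th cG kG K X) ^ cb * ((cV + k6b_m1L D K) * k6b_m1B c5 c2 K))
    + cG * (2 * K) ^ kG * (K * X)

theorem k6b_m1PB_nat (a : ℕ) : k6b_m1PB fun _ _ => (a : ℝ) := k6b_m1PB_const (Nat.cast_nonneg a)

theorem k6b_m1B_PB (c5 c2 : ℕ) : k6b_m1PB fun K _ => k6b_m1B c5 c2 K := by
  unfold k6b_m1B
  exact k6b_m1PB_add (k6b_m1PB_const zero_le_one) (k6b_m1PB_mul (k6b_m1PB_mul (k6b_m1PB_nat c2) (k6b_m1PB_pow k6b_m1PB_fst c2))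
    (k6b_m1PB_mul (k6b_m1PB_const zero_le_two) (k6b_m1PB_mul (k6b_m1PB_nat c5) (k6b_m1PB_pow k6b_m1PB_fst c5))))

theorem k6b_m1PB_two_fst : k6b_m1PB fun K _ => 2 * K := k6b_m1PB_mul (k6b_m1PB_const zero_le_two) k6b_m1PB_fst

theorem k6b_m1PB_fst_one : k6b_m1PB fun K _ => K + 1 := k6b_m1PB_add k6b_m1PB_fst (k6b_m1PB_const zero_le_one)

theorem k6b_m1Kb_PB (c4 : ℕ) : k6b_m1PB fun K _ => k6b_m1Kb c4 K := by
  unfold k6b_m1Kb
  exact k6b_m1PB_add k6b_m1PB_fst_one (k6b_m1PB_mul (k6b_m1PB_nat c4) (k6b_m1PB_pow (k6b_m1PB_mul k6b_m1PB_two_fst k6b_m1PB_fst_one) c4))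

theorem k6b_m1Th_PB {cG : ℝ} (hcG : 0 ≤ cG) (kG : ℕ) : k6b_m1PB fun K X => k6b_m1Th cG kG K X := by
  unfold k6b_m1Th
  exact k6b_m1PB_mul (k6b_m1PB_mul (k6b_m1PB_mul (k6b_m1PB_const (by linarith)) (k6b_m1PB_pow k6b_m1PB_two_fst kG))
    (k6b_m1PB_mul (k6b_m1PB_const zero_le_two) (k6b_m1PB_pow (k6b_m1PB_mul (k6b_m1PB_mul (k6b_m1PB_const (by norm_num)) k6b_m1PB_fst) k6b_m1PB_fst) 4)))
    (k6b_m1PB_mul k6b_m1PB_fst (k6b_m1PB_mul k6b_m1PB_fst k6b_m1PB_snd))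

theorem k6b_m1L_PB (D : ℕ) : k6b_m1PB fun K _ => k6b_m1L D K := by
  unfold k6b_m1L
  exact k6b_m1PB_mul (k6b_m1PB_mul (k6b_m1PB_const (by positivity)) (k6b_m1PB_pow k6b_m1PB_fst_one _)) k6b_m1PB_two_fst

theorem k6b_m1F_PB (c5 c2 : ℕ) {cG : ℝ} (hcG : 0 ≤ cG) (kG cV c4 cb D : ℕ) :
    k6b_m1PB fun K X => k6b_m1F c5 c2 cG kG cV c4 cb D K X := by
  unfold k6b_m1F
  have hG : k6b_m1PB fun K _ => cG * (2 * K) ^ kG := k6b_m1PB_mul (k6b_m1PB_const hcG) (k6b_m1PB_pow k6b_m1PB_two_fst kG)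
  refine k6b_m1PB_add (k6b_m1PB_add (k6b_m1PB_add (k6b_m1PB_add (k6b_m1PB_add (k6b_m1PB_add (k6b_m1PB_const zero_le_one) ?_) ?_) ?_) ?_) ?_) ?_
  · exact k6b_m1PB_mul (k6b_m1PB_nat c5) (k6b_m1PB_pow k6b_m1PB_fst c5)
  · exact k6b_m1PB_mul (k6b_m1PB_const (by norm_num)) k6b_m1PB_fst
  · exact k6b_m1PB_mul hG (k6b_m1B_PB c5 c2)
  · exact k6b_m1PB_mul (k6b_m1PB_const zero_le_two) (k6b_m1B_PB c5 c2)
  · exact k6b_m1PB_add (k6b_m1PB_const (by norm_num)) (k6b_m1PB_mul (k6b_m1PB_mul (k6b_m1PB_nat cb)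
      (k6b_m1PB_pow (k6b_m1PB_mul (k6b_m1Kb_PB c4) (k6b_m1Th_PB hcG kG)) cb))
      (k6b_m1PB_mul (k6b_m1PB_add (k6b_m1PB_nat cV) (k6b_m1L_PB D)) (k6b_m1B_PB c5 c2)))
  · exact k6b_m1PB_mul hG (k6b_m1PB_mul k6b_m1PB_fst k6b_m1PB_snd)

theorem k6b_m1PB_pos {f : ℝ → ℝ → ℝ} (hf : k6b_m1PB f) :
    ∃ (c : ℝ) (k : ℕ), 0 < c ∧ ∀ K X, 1 ≤ K → 1 ≤ X → f K X ≤ c * (K * X) ^ k := by
  obtain ⟨c, k, hc, h⟩ := hf
  refine ⟨c + 1, k, by linarith, fun K X hK hX => (h K X hK hX).2.trans ?_⟩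
  have : 0 ≤ (K * X) ^ k := by positivity
  nlinarith

/-! ## 5. `ENNReal` -/

theorem k6b_m1_ofReal_inv {a : ℝ} (ha : 0 < a) {x : ℝ≥0∞} (h : 1 ≤ ENNReal.ofReal a * x) : ENNReal.ofReal (1 / a) ≤ x := by
  calc ENNReal.ofReal (1 / a) = ENNReal.ofReal (1 / a) * 1 := (mul_one _).symm
    _ ≤ ENNReal.ofReal (1 / a) * (ENNReal.ofReal a * x) := by gcongr
    _ = x := by
        rw [← mul_assoc, ← ENNReal.ofReal_mul (by positivity), one_div, inv_mul_cancel₀ ha.ne', ENNReal.ofReal_one, one_mul]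

/-! ## 6. Numerics -/

theorem k6b_m1B_ge (c5 c2 : ℕ) {K : ℝ} (hK : 1 ≤ K) : 1 ≤ k6b_m1B c5 c2 K := by
  unfold k6b_m1B
  have : 0 ≤ (c2 : ℝ) * K ^ c2 * (2 * (c5 * K ^ c5)) := by positivity
  linarith

theorem k6b_m1Kb_ge (c4 : ℕ) {K : ℝ} (hK : 1 ≤ K) : K + 1 ≤ k6b_m1Kb c4 K := by
  unfold k6b_m1Kb
  have : 0 ≤ (c4 : ℝ) * (2 * K * (K + 1)) ^ c4 := by positivity
  linarith

theorem k6b_m1Th_ge {cG : ℝ} (hcG : 0 ≤ cG) (kG : ℕ) {K X : ℝ} (hK : 1 ≤ K) (hX : 1 ≤ X) : 1 ≤ k6b_m1Th cG kG K X := by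
  unfold k6b_m1Th
  have h1 : (1 : ℝ) ≤ cG + 1 := by linarith
  have h2 : (1 : ℝ) ≤ (2 * K) ^ kG := one_le_pow₀ (by linarith)
  have h3 : (1 : ℝ) ≤ 2 * (64 * K * K) ^ 4 := by
    have : (1 : ℝ) ≤ (64 * K * K) ^ 4 := one_le_pow₀ (by nlinarith)
    linarith
  have h4 : (1 : ℝ) ≤ K * (K * X) := by nlinarith [k6b_m1_one_le_mul hK hX]
  exact one_le_mul_of_one_le_of_one_le (one_le_mul_of_one_le_of_one_le (one_le_mul_of_one_le_of_one_le h1 h2) h3) h4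

theorem k6b_m1L_nonneg (D : ℕ) {K : ℝ} (hK : 1 ≤ K) : 0 ≤ k6b_m1L D K := by
  unfold k6b_m1L
  positivity

theorem k6b_m1_num (c5 c2 : ℕ) {cG : ℝ} (hcG : 0 ≤ cG) (kG cV c4 cb D : ℕ) {K X A εT N β pv ξ ρ₂ : ℝ} (hK : 1 ≤ K) (hX : 1 ≤ X)
    (hFA : k6b_m1F c5 c2 cG kG cV c4 cb D K X ≤ A) (hεT : 0 ≤ εT) (hN : 0 ≤ N) (hβ : 0 ≤ β) (hpv : 0 ≤ pv) (hξ : 0 ≤ ξ)
    (hρ : ρ₂ ≤ 1) (hmain : A * (εT + N + β + pv + ξ) ≤ ρ₂) :
    c5 * K ^ c5 * pv ≤ 1 ∧ 4 * K * pv ≤ 1 ∧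
    cG * (2 * K) ^ kG * (εT + c2 * K ^ c2 * (((2 : ℕ) : ℝ) * (c5 * K ^ c5 * N)) + β + ξ) ≤ ρ₂ ∧
    2 * (εT + c2 * K ^ c2 * (((2 : ℕ) : ℝ) * (c5 * K ^ c5 * N))) ≤ ρ₂ ∧
    (εT + c2 * K ^ c2 * (((2 : ℕ) : ℝ) * (c5 * K ^ c5 * N))) + ρ₂ / 2 + cb * (k6b_m1Kb c4 K * k6b_m1Th cG kG K X) ^ cb *
      (cV * (εT + c2 * K ^ c2 * (((2 : ℕ) : ℝ) * (c5 * K ^ c5 * N))) + k6b_m1L D K * (β + pv)) ≤ A * ρ₂ ∧
    cG * (2 * K) ^ kG * (K * X) ≤ A := by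
  have hB := k6b_m1B_ge c5 c2 hK
  have hKb := k6b_m1Kb_ge c4 hK
  have hTh := k6b_m1Th_ge hcG kG hK hX
  have hL := k6b_m1L_nonneg D hK
  set B := k6b_m1B c5 c2 K with hBdef
  set Kb := k6b_m1Kb c4 K
  set Th := k6b_m1Th cG kG K X
  set L := k6b_m1L D K
  set S := εT + N + β + pv + ξ with hS
  set εP := εT + c2 * K ^ c2 * (((2 : ℕ) : ℝ) * (c5 * K ^ c5 * N)) with hεP
  have hS0 : 0 ≤ S := by positivity
  have hK0 : 0 ≤ K := by linarith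
  have hX0 : 0 ≤ X := by linarith
  have t1 : 0 ≤ (c5 : ℝ) * K ^ c5 := by positivity
  have t2 : 0 ≤ 4 * K := by positivity
  have t3 : 0 ≤ cG * (2 * K) ^ kG * B := by positivity
  have t4 : 0 ≤ 2 * B := by positivity
  have t5' : 0 ≤ (cb : ℝ) * (Kb * Th) ^ cb * ((cV + L) * B) := by
    have : 0 ≤ Kb * Th := mul_nonneg (by linarith) (by linarith)
    positivity
  have t6 : 0 ≤ cG * (2 * K) ^ kG * (K * X) := by positivity
  have hF : k6b_m1F c5 c2 cG kG cV c4 cb D K X = 1 + c5 * K ^ c5 + 4 * K + cG * (2 * K) ^ kG * B + 2 * B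
    + (3 / 2 + cb * (Kb * Th) ^ cb * ((cV + L) * B)) + cG * (2 * K) ^ kG * (K * X) := rfl
  rw [hF] at hFA
  have key : ∀ a : ℝ, a ≤ A → a * S ≤ ρ₂ := fun a ha => (mul_le_mul_of_nonneg_right ha hS0).trans hmain
  have hεPB : εP ≤ B * (εT + N) := by
    have e : εP = εT + (B - 1) * N := by
      rw [hεP, hBdef]; unfold k6b_m1B; push_cast; ring
    have e1 : εT ≤ B * εT := le_mul_of_one_le_left hεT hB
    rw [e]
    linarith
  have hεP0 : 0 ≤ εP := by positivity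
  have hSρ : S ≤ ρ₂ := by
    have := key 1 (by linarith)
    linarith
  have b1 : β ≤ B * β := le_mul_of_one_le_left hβ hB
  have b2 : pv ≤ B * pv := le_mul_of_one_le_left hpv hB
  have b3 : ξ ≤ B * ξ := le_mul_of_one_le_left hξ hB
  have hBS : B * S = B * (εT + N) + B * β + B * pv + B * ξ := by rw [hS]; ring
  have hpvS : pv ≤ S := by rw [hS]; linarith
  have h4 : 2 * εP ≤ ρ₂ := by
    have := key (2 * B) (by linarith)
    calc 2 * εP ≤ 2 * (B * S) := by linarith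
      _ = 2 * B * S := by ring
      _ ≤ ρ₂ := this
  refine ⟨?_, ?_, ?_, h4, ?_, by linarith⟩
  · have := key (c5 * K ^ c5) (by linarith)
    have h2 : (c5 : ℝ) * K ^ c5 * pv ≤ c5 * K ^ c5 * S := mul_le_mul_of_nonneg_left hpvS t1
    linarith
  · have := key (4 * K) (by linarith)
    have h2 : 4 * K * pv ≤ 4 * K * S := mul_le_mul_of_nonneg_left hpvS t2
    linarith
  · have := key (cG * (2 * K) ^ kG * B) (by linarith)
    have h2 : εP + β + ξ ≤ B * S := by linarith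
    have h3 : cG * (2 * K) ^ kG * (εP + β + ξ) ≤ cG * (2 * K) ^ kG * (B * S) := mul_le_mul_of_nonneg_left h2 (by positivity)
    calc _ ≤ _ := h3
      _ = cG * (2 * K) ^ kG * B * S := by ring
      _ ≤ ρ₂ := this
  · have hρ0 : 0 ≤ ρ₂ := hS0.trans hSρ
    have h5 : cV * εP + L * (β + pv) ≤ (cV + L) * B * ρ₂ := by
      have h2 : εP + β + pv ≤ B * S := by linarith
      have h6 : cV * εP + L * (β + pv) ≤ (cV + L) * (εP + β + pv) := by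
        have q1 : 0 ≤ (cV : ℝ) * (β + pv) := by positivity
        have q2 : 0 ≤ L * εP := by positivity
        have q3 : (cV + L) * (εP + β + pv) = cV * εP + L * (β + pv) + (cV * (β + pv) + L * εP) := by ring
        linarith
      have h7 : (cV + L) * (εP + β + pv) ≤ (cV + L) * (B * ρ₂) :=
        mul_le_mul_of_nonneg_left (h2.trans (mul_le_mul_of_nonneg_left hSρ (by linarith))) (by positivity)
      calc _ ≤ _ := h6
        _ ≤ _ := h7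
        _ = _ := by ring
    have hKT : 0 ≤ Kb * Th := mul_nonneg (by linarith) (by linarith)
    have h8 : (cb : ℝ) * (Kb * Th) ^ cb * (cV * εP + L * (β + pv)) ≤ cb * (Kb * Th) ^ cb * ((cV + L) * B * ρ₂) :=
      mul_le_mul_of_nonneg_left h5 (by positivity)
    have h9 : (3 / 2 + cb * (Kb * Th) ^ cb * ((cV + L) * B)) * ρ₂ ≤ A * ρ₂ := mul_le_mul_of_nonneg_right (by linarith) hρ0
    have h10 : (3 / 2 + cb * (Kb * Th) ^ cb * ((cV + L) * B)) * ρ₂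
        = ρ₂ + ρ₂ / 2 + cb * (Kb * Th) ^ cb * ((cV + L) * B * ρ₂) := by ring
    linarith

/-! ## 7. Small facts -/

theorem k6b_m1_ic_meas {m : ℕ} (Y : k6b_Sw m) (hw : Y.WF) (P : MvPolynomial (Fin m) ℝ) (t : ℝ) :
    Measurable fun l : Y.Lam => Y.x (l, t) - eval (Y.pos (l, t)) P := by
  have h1 : Measurable fun l : Y.Lam => Y.x (l, t) := hw.x_meas.comp (measurable_id.prodMk measurable_const)
  have h2 : Measurable fun l : Y.Lam => Y.pos (l, t) := by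
    unfold k6b_Sw.pos
    exact hw.u0_meas.add (hw.vel_meas.const_smul t)
  exact h1.sub ((MvPolynomial.continuous_eval P).measurable.comp h2)

theorem k6b_m1_floor {x ρ : ℝ} {C : ℤ} (hρ : 0 < ρ) (h : ⌊x / ρ⌋ = C) : |x - ((C : ℝ) + 1 / 2) * ρ| ≤ ρ / 2 := by
  have h1 : (C : ℝ) ≤ x / ρ := by rw [← h]; exact Int.floor_le _
  have h2 : x / ρ < (C : ℝ) + 1 := by rw [← h]; exact Int.lt_floor_add_one _
  rw [le_div_iff₀ hρ] at h1
  rw [div_lt_iff₀ hρ] at h2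
  rw [abs_le]
  constructor <;> nlinarith

theorem k6b_m1_E_meas {n r : ℕ} (Q : Fin r → MvPolynomial (Fin n) ℝ) (Kb ε₃ : ℝ) :
    MeasurableSet {u : Fin n → ℝ | u ∈ Metric.closedBall (0 : Fin n → ℝ) Kb ∧ ∀ i, |eval u (Q i)| ≤ ε₃} := by
  have e : {u : Fin n → ℝ | u ∈ Metric.closedBall (0 : Fin n → ℝ) Kb ∧ ∀ i, |eval u (Q i)| ≤ ε₃}
      = Metric.closedBall (0 : Fin n → ℝ) Kb ∩ ⋂ i, {u | |eval u (Q i)| ≤ ε₃} := by
    ext u
    simp only [Set.mem_ofPred_eq, Set.mem_inter_iff, Set.mem_iInter]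
  rw [e]
  refine Metric.isClosed_closedBall.measurableSet.inter (MeasurableSet.iInter fun i => ?_)
  exact measurableSet_le (MvPolynomial.continuous_eval (Q i)).abs.measurable measurable_const

theorem k6b_m1_pow30_le64 : (1 / 2 ^ 30 : ℝ≥0∞) ≤ 1 / 64 := by
  apply ENNReal.div_le_div_left
  norm_num

theorem k6b_m1_pow30_le1024 : (1 / 2 ^ 30 : ℝ≥0∞) ≤ 1 / 1024 := by
  apply ENNReal.div_le_div_left
  norm_num

theorem k6b_m1_ofReal_pow30 : ENNReal.ofReal (1 / 2 ^ 30) = 1 / 2 ^ 30 := by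
  rw [ENNReal.ofReal_div_of_pos (by positivity), ENNReal.ofReal_one, ENNReal.ofReal_pow (by norm_num)]
  norm_num

end

end Claimed.Agent.R252
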