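import Claimed.Agent.R252.S6b.EntryDefs
import Claimed.Agent.R252.S6b.MainV1Kit

/-!
# Row252, unit S6b, leaf E: THE ENTRY, glue of E1-E4      (helper60; prefix `k6b_en_`)

`k6b_entry_of : k6b_entry_wf_stmt → k6b_entry_chain_stmt → k6b_entry_geo_stmt → k6b_entry_supp_stmt → k6b_entry_stmt`, `c = (Dg + 1)^(j+1) + 64`.
-/

set_option autoImplicit false

namespace Claimed.Agent.R252

open MeasureTheory MvPolynomial
open scoped ENNReal BigOperators

noncomputable section

/-- the number of monomials -/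
theorem k6b_en_card {n : ℕ} (P : MvPolynomial (Fin n) ℝ) (D : ℕ) (hP : P.totalDegree ≤ D) : P.support.card ≤ (D + 1) ^ n := by
  have h := Finset.card_le_card_of_injOn (s := P.support) (t := Fintype.piFinset fun _ : Fin n => Finset.range (D + 1))
    (fun m i => m i) (fun m hm => by
      rw [Finset.mem_coe, Fintype.mem_piFinset]
      intro i
      rw [Finset.mem_range]
      exact Nat.lt_succ_of_le ((monomial_le_degreeOf i hm).trans (rmz_degreeOf_le P D hP i)))
    (fun m _ m' _ h => DFunLike.coe_injective h)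
  rw [Fintype.card_piFinset] at h
  simpa using h

theorem k6b_en_nm {n : ℕ} (P : MvPolynomial (Fin n) ℝ) (D : ℕ) (K : ℝ) (hK : 0 ≤ K) (hP : P.totalDegree ≤ D) (hc : ∀ m, |P.coeff m| ≤ K) :
    rmzNm P ≤ ((D : ℝ) + 1) ^ n * K := by
  unfold rmzNm
  calc ∑ m ∈ P.support, |P.coeff m| ≤ ∑ _m ∈ P.support, K := Finset.sum_le_sum fun m _ => hc m
    _ = (P.support.card : ℝ) * K := by rw [Finset.sum_const, nsmul_eq_mul]
    _ ≤ ((D : ℝ) + 1) ^ n * K := by
        refine mul_le_mul_of_nonneg_right ?_ hK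
        exact_mod_cast k6b_en_card P D hP

theorem k6b_entry_of (h1 : k6b_entry_wf_stmt) (h2 : k6b_entry_chain_stmt) (h3 : k6b_entry_geo_stmt) (h4 : k6b_entry_supp_stmt) : k6b_entry_stmt := by
  intro j Dg
  refine ⟨(Dg + 1) ^ (j + 1) + 64, ?_⟩
  intro D Pk d k K εT a1 a2 w nb nx nv E Ep Es g q zc T hyp
  obtain ⟨hwf, hnu, hg⟩ := h1 j D Pk d k K εT a1 a2 w nb nx nv Dg E Ep Es g q zc T (k6b_M K nb nv) hyp
  have hch := h2 j D Pk d k K εT a1 a2 w nb nx nv Dg E Ep Es g q zc T hyp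
  obtain ⟨hgeo, hvel, -, hquad⟩ := h3 j D Pk d k K εT a1 a2 w nb nx nv Dg E Ep Es g q zc T hyp
  obtain ⟨hsupp, hcells2, hcap2, hcount2⟩ := h4 j D Pk d k K εT a1 a2 w nb nx nv Dg E Ep Es g q zc T hyp
  have hK : 1 ≤ K := hyp.K_ge
  have hK0 : 0 ≤ K := by linarith
  -- the slack
  obtain ⟨N, hN⟩ : ∃ N : ℕ, N = (Dg + 1) ^ (j + 1) := ⟨_, rfl⟩
  rw [← hN]
  obtain ⟨K', hK'⟩ : ∃ K' : ℝ, K' = ((N + 64 : ℕ) : ℝ) * K ^ (N + 64) := ⟨_, rfl⟩
  rw [← hK']
  have hp3 : K ^ 3 ≤ K ^ (N + 64) := pow_le_pow_right₀ hK (by omega)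
  have hK3 : 1 ≤ K ^ 3 := one_le_pow₀ hK
  have hlow : ((N : ℝ) + 64) * K ^ 3 ≤ K' := by
    rw [hK']
    push_cast
    exact mul_le_mul_of_nonneg_left hp3 (by positivity)
  have hN0 : (0 : ℝ) ≤ N := Nat.cast_nonneg N
  have hKK2 : K ≤ K ^ 2 := by nlinarith
  have hK23 : K ^ 2 ≤ K ^ 3 := by nlinarith
  have h64 : 64 * K ^ 3 ≤ K' := by nlinarith
  have hK'0 : 0 < K' := by linarith
  refine
    { degT := hyp.fld.deg
      nmT := fun i => ?_
      wf := hwf
      chain := k6b_m1_chain_mono hch (ENNReal.ofReal_le_ofReal (by linarith)) le_rfl le_rfl ?_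
      geo := k6b_m1_geo_mono hgeo (by linarith)
      supp := ⟨fun B hB => (hsupp.dens B hB).trans (mul_le_mul_left (ENNReal.ofReal_le_ofReal (by linarith)) _), hsupp.cells,
        hsupp.pal_sum.trans (ENNReal.ofReal_le_ofReal (by linarith))⟩
      nu_le := hnu.trans (ENNReal.ofReal_le_ofReal (by linarith))
      g_le := fun e => (hg e).trans (ENNReal.ofReal_le_ofReal (by linarith))
      time := ⟨0, hvel⟩
      cells2 := hcells2
      quad := hquad
      cap2 := fun φ B hB => (hcap2 φ B hB).trans (mul_le_mul_left ?_ _)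
      count2 := hcount2.trans (by linarith) }
  · refine (k6b_en_nm (T i) Dg K hK0 (hyp.fld.deg i) (hyp.fld.coef i)).trans ?_
    have e : ((Dg : ℝ) + 1) ^ (j + 1) = N := by rw [hN]; push_cast; ring
    rw [e]
    nlinarith
  · exact one_div_le_one_div_of_le (by positivity) (by linarith)
  · by_cases hκ : 0 ≤ (a2 / Pk.a) ^ d
    · exact ENNReal.ofReal_le_ofReal (mul_le_mul_of_nonneg_right (by linarith) hκ)
    · push Not at hκ
      rw [ENNReal.ofReal_of_nonpos (by nlinarith)]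
      exact zero_le

end

end Claimed.Agent.R252
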