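import Claimed.Agent.R252.S6b.EntryWf

/-!
# Row252, unit S6b, part H, leaf E2: the probabilistic hypotheses of the switching system of a packet      (helper254; prefix `k6b_ec_`)

`k6b_entry_chain_of : k6b_sw_cov_stmt → k6b_entry_chain_stmt`.
-/

set_option autoImplicit false

namespace Claimed.Agent.R252

open MeasureTheory MvPolynomial
open scoped ENNReal BigOperators

noncomputable section

variable {j : ℕ}

/-! ## 1. The range of the indices -/

theorem k6b_ec_bin_mem (K : ℝ) (hK : 1 ≤ K) (nb nv i : ℕ) (hi : i ≤ nb + nv) (x : ℝ) (hx : |x| ≤ 3 * K) :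
    k6aBin i x ∈ Finset.Icc (-k6b_M K nb nv) (k6b_M K nb nv) := by
  have h2 : (2 : ℝ) ^ i ≤ 2 ^ (nb + nv) := pow_le_pow_right₀ (by norm_num) hi
  have h0 : (0 : ℝ) < 2 ^ i := by positivity
  have hM : 3 * K * 2 ^ (nb + nv) + 1 ≤ (k6b_M K nb nv : ℝ) := by
    unfold k6b_M
    push_cast
    have := Int.le_ceil (3 * K * 2 ^ (nb + nv))
    linarith
  have hb : |x * 2 ^ i| ≤ 3 * K * 2 ^ (nb + nv) := by
    rw [abs_mul, abs_of_pos h0]
    exact mul_le_mul hx h2 h0.le (by positivity)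
  rw [abs_le] at hb
  rw [Finset.mem_Icc]
  unfold k6aBin
  constructor
  · rw [Int.le_floor]
    push_cast
    linarith [hb.1]
  · have h1 : ((⌊x * 2 ^ i⌋ : ℤ) : ℝ) ≤ x * 2 ^ i := Int.floor_le _
    have h3 : ((⌊x * 2 ^ i⌋ : ℤ) : ℝ) ≤ (k6b_M K nb nv : ℝ) := by linarith [hb.2]
    exact_mod_cast h3

section range

variable {D : K6aDat j} {K : ℝ}

theorem k6b_ec_vb_mem (h : D.WF K) (hK : 1 ≤ K) (nb nv : ℕ) (l : D.L) : D.vb nv l ∈ k6b_binsF j (k6b_M K nb nv) := by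
  unfold k6b_binsF K6aDat.vb k6aVBin
  rw [Fintype.mem_piFinset]
  intro a
  refine k6b_ec_bin_mem K hK nb nv nv (Nat.le_add_left _ _) _ ?_
  have h1 : |D.V l a| ≤ ‖D.V l‖ := norm_le_pi_norm (D.V l) a
  linarith [(h.bd l).2.1]

theorem k6b_ec_wc_mem (h : D.WF K) (hK : 1 ≤ K) (nb nv : ℕ) (e : D.L × ℝ) (he : e.2 ∈ Set.Icc (0 : ℝ) 1) :
    D.wc nb e ∈ k6b_cellsF j (k6b_M K nb nv) := by
  obtain ⟨b1, b2, b3⟩ := h.bd e.1
  have t0 := he.1
  have t1 := he.2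
  unfold k6b_cellsF K6aDat.wc K6aDat.zc
  rw [Finset.mem_product, Finset.mem_product]
  refine ⟨⟨?_, ?_⟩, ?_⟩
  · refine k6b_ec_bin_mem K hK nb nv nb (Nat.le_add_right _ _) _ ?_
    rw [abs_of_nonneg t0]
    linarith
  · simp only
    unfold k6aVBin
    rw [Fintype.mem_piFinset]
    intro a
    refine k6b_ec_bin_mem K hK nb nv nb (Nat.le_add_right _ _) _ ?_
    have h1 : |D.y0 e.1 a| ≤ ‖D.y0 e.1‖ := norm_le_pi_norm (D.y0 e.1) a
    have h2 : |D.V e.1 a| ≤ ‖D.V e.1‖ := norm_le_pi_norm (D.V e.1) a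
    unfold K6aDat.y
    simp only [Pi.add_apply, Pi.smul_apply, smul_eq_mul]
    have h3 : |e.2 * D.V e.1 a| ≤ K := by
      rw [abs_mul, abs_of_nonneg t0]
      calc e.2 * |D.V e.1 a| ≤ 1 * K := mul_le_mul t1 (h2.trans b2) (abs_nonneg _) (by norm_num)
        _ = K := one_mul _
    calc |D.y0 e.1 a + e.2 * D.V e.1 a| ≤ |D.y0 e.1 a| + |e.2 * D.V e.1 a| := abs_add_le _ _
      _ ≤ 3 * K := by linarith
  · refine k6b_ec_bin_mem K hK nb nv nb (Nat.le_add_right _ _) _ ?_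
    have c0 : |D.xc e.1 0| ≤ K := (norm_le_pi_norm (D.xc e.1) 0).trans b3
    have c1 : |D.xc e.1 1| ≤ K := (norm_le_pi_norm (D.xc e.1) 1).trans b3
    have c2 : |D.xc e.1 2| ≤ K := (norm_le_pi_norm (D.xc e.1) 2).trans b3
    unfold K6aDat.X
    have h3 : |D.xc e.1 1 * e.2| ≤ K := by
      rw [abs_mul, abs_of_nonneg t0]
      calc |D.xc e.1 1| * e.2 ≤ K * 1 := mul_le_mul c1 t1 t0 (by linarith)
        _ = K := mul_one _
    have h4 : |D.xc e.1 2 * e.2 ^ 2| ≤ K := by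
      rw [abs_mul, abs_of_nonneg (by positivity : (0 : ℝ) ≤ e.2 ^ 2)]
      calc |D.xc e.1 2| * e.2 ^ 2 ≤ K * 1 := mul_le_mul c2 (pow_le_one₀ t0 t1) (by positivity) (by linarith)
        _ = K := mul_one _
    calc |D.xc e.1 0 + D.xc e.1 1 * e.2 + D.xc e.1 2 * e.2 ^ 2|
        ≤ |D.xc e.1 0| + |D.xc e.1 1 * e.2| + |D.xc e.1 2 * e.2 ^ 2| := abs_add_three _ _ _
      _ ≤ 3 * K := by linarith

end range

/-! ## 2. The law on the states -/

section law

variable {D : K6aDat j} {Pk : K6aPk D} {d k K εT a1 a2 w : ℝ} {nb nx nv Dg : ℕ} {E Ep Es : Set (D.L × ℝ)} {g : K6aWc j → K6aRow j}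
  {q : Pk.Q} {zc : ℝ × (Fin j → ℝ)} {T : Fin (j + 1) → MvPolynomial (Fin (j + 1)) ℝ}

/-- the state `none` is null -/
theorem k6b_ec_none (hcov : k6b_sw_cov_stmt) (h : k6b_EntryHyp D Pk d k K εT a1 a2 w nb nx nv Dg E Ep Es g q zc T) (Kl : ℝ) :
    (k6b_swOf D Pk q zc Es nb nv Kl (k6b_M K nb nv)).mu ((k6b_swOf D Pk q zc Es nb nv Kl (k6b_M K nb nv)).stE none) = 0 := by
  refine ((k6b_ew_cov hcov h Kl _).2.1 _ (k6b_ew_st_meas h.wf _ Kl none)).trans ?_
  have e1 : Es ∩ k6b_norm Pk q ⁻¹' ((k6b_swOf D Pk q zc Es nb nv Kl (k6b_M K nb nv)).stE none) = ∅ := by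
    rw [Set.eq_empty_iff_forall_notMem]
    rintro e ⟨he, h2⟩
    have h3 : k6b_norm Pk q e ∈ {e | D.wc nb (k6b_phys Pk q e) ∉ k6b_cellsF j (k6b_M K nb nv)} := (k6b_ew_st_none _ Kl) ▸ h2
    have h4 : D.wc nb (k6b_phys Pk q (k6b_norm Pk q e)) ∉ k6b_cellsF j (k6b_M K nb nv) := h3
    rw [k6b_ew_phys_norm] at h4
    exact h4 (k6b_ec_wc_mem h.wf h.K_ge nb nv e (k6b_ew_sub_time h he).2)
  rw [e1, measure_empty, ENNReal.zero_div]

/-- the law of a state cut by a condition on the line -/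
theorem k6b_ec_some (hcov : k6b_sw_cov_stmt) (h : k6b_EntryHyp D Pk d k K εT a1 a2 w nb nx nv Dg E Ep Es g q zc T) (Kl : ℝ)
    (c : k6b_cellsF j (k6b_M K nb nv)) (A : Set D.L) (hA : MeasurableSet A) :
    (k6b_swOf D Pk q zc Es nb nv Kl (k6b_M K nb nv)).mu
        ((k6b_swOf D Pk q zc Es nb nv Kl (k6b_M K nb nv)).stE (some c) ∩ {e | e.1 ∈ A})
      = D.prior (Es ∩ D.wc nb ⁻¹' {c.1} ∩ {e | e.1 ∈ A}) / D.prior Es := by
  refine ((k6b_ew_cov hcov h Kl _).2.1 _ ((k6b_ew_st_meas h.wf _ Kl (some c)).inter (measurable_fst hA))).trans ?_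
  congr 1
  congr 1
  ext e
  have h1 : k6b_norm Pk q e ∈ (k6b_swOf D Pk q zc Es nb nv Kl (k6b_M K nb nv)).stE (some c) ↔ D.wc nb e = c.1 := by
    have h2 : k6b_norm Pk q e ∈ (k6b_swOf D Pk q zc Es nb nv Kl (k6b_M K nb nv)).stE (some c) ↔
        k6b_norm Pk q e ∈ {e | D.wc nb (k6b_phys Pk q e) = c.1} := (k6b_ew_st_pre _ Kl c) ▸ Iff.rfl
    rw [h2]
    show D.wc nb (k6b_phys Pk q (k6b_norm Pk q e)) = c.1 ↔ _
    rw [k6b_ew_phys_norm]
  constructor
  · rintro ⟨he, h2, h3⟩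
    exact ⟨⟨he, h1.1 h2⟩, h3⟩
  · rintro ⟨⟨he, h2⟩, h3⟩
    exact ⟨he, h1.2 h2, h3⟩

theorem k6b_ec_some' (hcov : k6b_sw_cov_stmt) (h : k6b_EntryHyp D Pk d k K εT a1 a2 w nb nx nv Dg E Ep Es g q zc T) (Kl : ℝ)
    (c : k6b_cellsF j (k6b_M K nb nv)) :
    (k6b_swOf D Pk q zc Es nb nv Kl (k6b_M K nb nv)).mu ((k6b_swOf D Pk q zc Es nb nv Kl (k6b_M K nb nv)).stE (some c))
      = D.prior (Es ∩ D.wc nb ⁻¹' {c.1}) / D.prior Es := by
  have h1 := k6b_ec_some hcov h Kl c Set.univ MeasurableSet.univ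
  have e1 : (k6b_swOf D Pk q zc Es nb nv Kl (k6b_M K nb nv)).stE (some c) ∩ {e | e.1 ∈ (Set.univ : Set D.L)}
      = (k6b_swOf D Pk q zc Es nb nv Kl (k6b_M K nb nv)).stE (some c) := by
    ext e
    exact ⟨fun h' => h'.1, fun h' => ⟨h', trivial⟩⟩
  have e2 : Es ∩ D.wc nb ⁻¹' {c.1} ∩ {e | e.1 ∈ (Set.univ : Set D.L)} = Es ∩ D.wc nb ⁻¹' {c.1} := by
    ext e
    exact ⟨fun h' => h'.1, fun h' => ⟨h', trivial⟩⟩
  rw [e2] at h1
  exact (congrArg _ e1.symm).trans h1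

/-! ## 3. The long lines -/

theorem k6b_ec_fib_fin (h : k6b_EntryHyp D Pk d k K εT a1 a2 w nb nx nv Dg E Ep Es g q zc T) (l : D.L) :
    volume (D.fib Es l) ≠ ⊤ := by
  have h1 : D.fib Es l ⊆ Set.Icc (0 : ℝ) 1 := fun t ht => (k6b_ew_sub_time h ht).2
  exact ((measure_mono h1).trans_lt (by rw [Real.volume_Icc]; exact ENNReal.ofReal_lt_top)).ne

theorem k6b_ec_long_mass (hcov : k6b_sw_cov_stmt) (h : k6b_EntryHyp D Pk d k K εT a1 a2 w nb nx nv Dg E Ep Es g q zc T) (M : ℤ) :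
    (k6b_swOf D Pk q zc Es nb nv (64 * K) M).mu {e | e.1 ∉ (k6b_swOf D Pk q zc Es nb nv (64 * K) M).Lg} ≤ 1 / 64 := by
  have hK := h.K_ge
  have hH := k6b_ew_H_pos Pk
  have hLg : MeasurableSet (k6b_swOf D Pk q zc Es nb nv (64 * K) M).Lg :=
    k6b_ew_Lg_meas h.fld.Es_meas (h.pk.asg_meas q) M (64 * K)
  refine ((k6b_ew_cov hcov h (64 * K) M).2.1 _ (measurable_fst hLg.compl)).le.trans ?_
  have hA : MeasurableSet {l : D.L | l ∈ Pk.asg q ∧ volume.real (D.fib Es l) < Pk.H / (64 * K)} := by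
    have h1 : Measurable fun l => volume.real (D.fib Es l) := (measurable_measure_prodMk_left h.fld.Es_meas).ennreal_toReal
    exact (h.pk.asg_meas q).inter (measurableSet_lt h1 measurable_const)
  have s1 : Es ∩ k6b_norm Pk q ⁻¹' {e | e.1 ∉ (k6b_swOf D Pk q zc Es nb nv (64 * K) M).Lg} ⊆
      Es ∩ {e | e.1 ∈ {l : D.L | l ∈ Pk.asg q ∧ volume.real (D.fib Es l) < Pk.H / (64 * K)}} := by
    rintro e ⟨he, h2⟩
    refine ⟨he, (k6b_ew_sub_inc h he).1, ?_⟩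
    by_contra h3
    rw [not_lt] at h3
    exact h2 ⟨(k6b_ew_sub_inc h he).1, h3⟩
  have b1 : D.prior (Es ∩ {e | e.1 ∈ {l : D.L | l ∈ Pk.asg q ∧ volume.real (D.fib Es l) < Pk.H / (64 * K)}}) ≤
      ENNReal.ofReal (Pk.H / (64 * K)) * Pk.νQ q := by
    have := h.wf.prob
    unfold K6aDat.prior
    have hm : MeasurableSet (Es ∩ {e : D.L × ℝ | e.1 ∈ {l : D.L | l ∈ Pk.asg q ∧ volume.real (D.fib Es l) < Pk.H / (64 * K)}}) :=
      h.fld.Es_meas.inter (measurable_fst hA)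
    rw [Measure.prod_apply hm]
    calc ∫⁻ l, (volume.restrict (Set.Icc (0 : ℝ) 1)) (Prod.mk l ⁻¹' (Es ∩ {e | e.1 ∈ {l : D.L | l ∈ Pk.asg q ∧
            volume.real (D.fib Es l) < Pk.H / (64 * K)}})) ∂D.ν
        ≤ ∫⁻ l, (Pk.asg q).indicator (fun _ => ENNReal.ofReal (Pk.H / (64 * K))) l ∂D.ν := by
          refine lintegral_mono fun l => ?_
          by_cases hl : l ∈ Pk.asg q ∧ volume.real (D.fib Es l) < Pk.H / (64 * K)
          · rw [Set.indicator_of_mem hl.1]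
            refine (Measure.restrict_apply_le _ _).trans ?_
            have h3 : Prod.mk l ⁻¹' (Es ∩ {e | e.1 ∈ {l : D.L | l ∈ Pk.asg q ∧
                volume.real (D.fib Es l) < Pk.H / (64 * K)}}) ⊆ D.fib Es l := fun t ht => ht.1
            refine (measure_mono h3).trans ?_
            rw [← ENNReal.ofReal_toReal (k6b_ec_fib_fin h l)]
            exact ENNReal.ofReal_le_ofReal hl.2.le
          · have h3 : Prod.mk l ⁻¹' (Es ∩ {e | e.1 ∈ {l : D.L | l ∈ Pk.asg q ∧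
                volume.real (D.fib Es l) < Pk.H / (64 * K)}}) = ∅ := by
              rw [Set.eq_empty_iff_forall_notMem]
              intro t ht
              exact hl ht.2
            rw [h3, measure_empty]
            exact zero_le
      _ = ENNReal.ofReal (Pk.H / (64 * K)) * Pk.νQ q := by
          rw [lintegral_indicator (h.pk.asg_meas q), setLIntegral_const]
          rfl
  refine ENNReal.div_le_of_le_mul ?_
  refine (measure_mono s1).trans (b1.trans ?_)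
  have e1 : ENNReal.ofReal (Pk.H / (64 * K)) = ENNReal.ofReal (1 / (64 * K)) * ENNReal.ofReal Pk.H := by
    rw [← ENNReal.ofReal_mul (by positivity)]
    congr 1
    field_simp
  have e2 : (1 / 64 : ℝ≥0∞) = ENNReal.ofReal (1 / (64 * K)) * ENNReal.ofReal K := by
    rw [← ENNReal.ofReal_mul (by positivity)]
    have : 1 / (64 * K) * K = 1 / 64 := by field_simp
    rw [this, ENNReal.ofReal_div_of_pos (by norm_num)]
    simp
  rw [e1, e2, mul_assoc, mul_assoc]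
  exact mul_le_mul_right h.fld.mass _

theorem k6b_ec_long_dens (hcov : k6b_sw_cov_stmt) (h : k6b_EntryHyp D Pk d k K εT a1 a2 w nb nx nv Dg E Ep Es g q zc T) (M : ℤ)
    (l : D.L) (hl : l ∈ (k6b_swOf D Pk q zc Es nb nv (64 * K) M).Lg) (τ : ℝ) :
    (k6b_swOf D Pk q zc Es nb nv (64 * K) M).g (l, τ) ≤
      ENNReal.ofReal (64 * K ^ 2) * (k6b_swOf D Pk q zc Es nb nv (64 * K) M).dur l := by
  classical
  have hK := h.K_ge
  have hH := k6b_ew_H_pos Pk
  have e1 : (k6b_swOf D Pk q zc Es nb nv (64 * K) M).dur l = (k6b_swOf D Pk q zc Es nb nv (64 * K) M).durF Set.univ l := by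
    unfold k6b_Sw.dur k6b_Sw.durF
    rw [Set.indicator_univ]
  rw [e1]
  refine le_of_le_of_eq ?_ (congrArg _ ((k6b_ew_cov hcov h (64 * K) M).2.2.1 Set.univ l MeasurableSet.univ).symm)
  have e2 : {t | (l, t) ∈ Es ∧ k6b_norm Pk q (l, t) ∈ (Set.univ : Set (D.L × ℝ))} = D.fib Es l := by
    ext t
    exact ⟨fun h' => h'.1, fun h' => ⟨h', trivial⟩⟩
  rw [e2]
  have h1 : ENNReal.ofReal (Pk.H / (64 * K)) ≤ volume (D.fib Es l) := by
    rw [← ENNReal.ofReal_toReal (k6b_ec_fib_fin h l)]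
    exact ENNReal.ofReal_le_ofReal hl.2
  have h2 : (k6b_swOf D Pk q zc Es nb nv (64 * K) M).g (l, τ) ≤ ENNReal.ofReal Pk.H * Pk.νQ q / D.prior Es := by
    show (if k6b_phys Pk q (l, τ) ∈ Es then ENNReal.ofReal Pk.H * Pk.νQ q / D.prior Es else 0) ≤ _
    split_ifs
    · exact le_rfl
    · exact zero_le
  refine h2.trans ?_
  calc ENNReal.ofReal Pk.H * Pk.νQ q / D.prior Es = ENNReal.ofReal Pk.H * (Pk.νQ q / D.prior Es) := mul_div_assoc _ _ _
    _ ≤ ENNReal.ofReal (64 * K ^ 2 * (Pk.H / (64 * K))) * (Pk.νQ q / D.prior Es) := by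
        refine mul_le_mul_left (ENNReal.ofReal_le_ofReal ?_) _
        have : 64 * K ^ 2 * (Pk.H / (64 * K)) = K * Pk.H := by field_simp
        rw [this]
        nlinarith
    _ = ENNReal.ofReal (64 * K ^ 2) * (Pk.νQ q / D.prior Es * ENNReal.ofReal (Pk.H / (64 * K))) := by
        rw [ENNReal.ofReal_mul (by positivity)]
        ring
    _ ≤ ENNReal.ofReal (64 * K ^ 2) * (Pk.νQ q / D.prior Es * volume (D.fib Es l)) := by
        gcongr

/-! ## 4. Palette domination -/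

theorem k6b_ec_pal_dom (hcov : k6b_sw_cov_stmt) (h : k6b_EntryHyp D Pk d k K εT a1 a2 w nb nx nv Dg E Ep Es g q zc T) (Kl : ℝ)
    (s : (k6b_swOf D Pk q zc Es nb nv Kl (k6b_M K nb nv)).St) (J : (k6b_swOf D Pk q zc Es nb nv Kl (k6b_M K nb nv)).Bn) :
    (k6b_swOf D Pk q zc Es nb nv Kl (k6b_M K nb nv)).mu ((k6b_swOf D Pk q zc Es nb nv Kl (k6b_M K nb nv)).stE s ∩
        {e | (k6b_swOf D Pk q zc Es nb nv Kl (k6b_M K nb nv)).bin e.1 = J}) ≤
      ENNReal.ofReal (64 * K ^ 2) * (k6b_swOf D Pk q zc Es nb nv Kl (k6b_M K nb nv)).pal J *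
        (k6b_swOf D Pk q zc Es nb nv Kl (k6b_M K nb nv)).mu ((k6b_swOf D Pk q zc Es nb nv Kl (k6b_M K nb nv)).stE s) := by
  have hK := h.K_ge
  cases s with
  | none =>
    exact (measure_mono_null Set.inter_subset_left (k6b_ec_none hcov h Kl)).le.trans zero_le
  | some c =>
    cases J with
    | none =>
      have e1 : (k6b_swOf D Pk q zc Es nb nv Kl (k6b_M K nb nv)).stE (some c) ∩
          {e | (k6b_swOf D Pk q zc Es nb nv Kl (k6b_M K nb nv)).bin e.1 = none} = ∅ := by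
        rw [Set.eq_empty_iff_forall_notMem]
        rintro e ⟨-, h2⟩
        have h3 : e.1 ∈ (k6b_swOf D Pk q zc Es nb nv Kl (k6b_M K nb nv)).bin ⁻¹' {none} := h2
        have h4 : e.1 ∈ {l | D.vb nv l ∉ k6b_binsF j (k6b_M K nb nv)} := (k6b_ew_bin_none _ Kl) ▸ h3
        exact h4 (k6b_ec_vb_mem h.wf hK nb nv e.1)
      rw [e1, measure_empty]
      exact zero_le
    | some J' =>
      have e1 : (k6b_swOf D Pk q zc Es nb nv Kl (k6b_M K nb nv)).stE (some c) ∩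
          {e | (k6b_swOf D Pk q zc Es nb nv Kl (k6b_M K nb nv)).bin e.1 = some J'} =
          (k6b_swOf D Pk q zc Es nb nv Kl (k6b_M K nb nv)).stE (some c) ∩ {e | e.1 ∈ {l : D.L | D.vb nv l = J'.1}} := by
        congr 1
        ext e
        have h2 : e.1 ∈ (k6b_swOf D Pk q zc Es nb nv Kl (k6b_M K nb nv)).bin ⁻¹' {some J'} ↔ e.1 ∈ {l : D.L | D.vb nv l = J'.1} :=
          (k6b_ew_bin_pre _ Kl J') ▸ Iff.rfl
        exact h2
      have hA : MeasurableSet {l : D.L | D.vb nv l = J'.1} := k6b_ew_vb_meas h.wf nv (measurableSet_singleton _)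
      refine le_of_eq_of_le ((congrArg _ e1).trans (k6b_ec_some hcov h Kl c _ hA)) ?_
      refine le_of_le_of_eq ?_ (congrArg _ (k6b_ec_some' hcov h Kl c).symm)
      show _ ≤ ENNReal.ofReal (64 * K ^ 2) * D.pal (k6aCube nv J'.1) * _
      rw [← mul_div_assoc]
      refine ENNReal.div_le_div_right ?_ _
      refine (h.fld.dom c.1 J'.1).trans ?_
      gcongr
      nlinarith

/-! ## 5. Strips -/

theorem k6b_ec_dot_cons (a : Fin (j + 1) → ℝ) (V : Fin j → ℝ) :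
    a ⬝ᵥ (Fin.cons 1 V : Fin (j + 1) → ℝ) = a 0 + (fun i : Fin j => a i.succ) ⬝ᵥ V := by
  simp [dotProduct, Fin.sum_univ_succ]

theorem k6b_ec_alt (hj : j ≤ 2) (K : ℝ) (hK : 1 ≤ K) (a : Fin (j + 1) → ℝ) (ha : ∃ i, 1 ≤ |a i|) :
    (∀ V : Fin j → ℝ, ‖V‖ ≤ K → 1 / (4 * K ^ 2) < |a ⬝ᵥ (Fin.cons 1 V : Fin (j + 1) → ℝ)|) ∨
    ∃ (n : Fin j → ℝ) (c : ℝ), n ⬝ᵥ n = 1 ∧
      ∀ V : Fin j → ℝ, |a ⬝ᵥ (Fin.cons 1 V : Fin (j + 1) → ℝ)| ≤ 1 / (4 * K ^ 2) → |n ⬝ᵥ V - c| ≤ 1 / K := by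
  have hK0 : 0 < K := by linarith
  by_cases hS : (fun i : Fin j => a i.succ) ⬝ᵥ (fun i : Fin j => a i.succ) < 1 / (16 * K ^ 2)
  · left
    intro V hV
    rw [k6b_ec_dot_cons]
    have hS1 : 1 / (16 * K ^ 2) ≤ 1 / 16 := by
      apply div_le_div_of_nonneg_left (by norm_num) (by norm_num)
      nlinarith
    have h0 : 1 ≤ |a 0| := by
      obtain ⟨i, hi⟩ := ha
      refine Fin.cases (fun h => h) (fun i hi => ?_) i hi
      exfalso
      have h1 : a i.succ * a i.succ ≤ (fun i : Fin j => a i.succ) ⬝ᵥ (fun i : Fin j => a i.succ) :=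
        Finset.single_le_sum (f := fun i : Fin j => a i.succ * a i.succ) (fun i _ => mul_self_nonneg _) (Finset.mem_univ i)
      have h2 : 1 ≤ a i.succ * a i.succ := by
        rw [← abs_mul_abs_self]
        nlinarith
      linarith
    have hVV : V ⬝ᵥ V ≤ 2 * K ^ 2 := by
      calc V ⬝ᵥ V = ∑ i : Fin j, V i * V i := rfl
        _ ≤ ∑ _i : Fin j, K ^ 2 := by
            refine Finset.sum_le_sum fun i _ => ?_
            have h1 : |V i| ≤ K := (norm_le_pi_norm V i).trans hV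
            rw [← abs_mul_abs_self]
            nlinarith [abs_nonneg (V i)]
        _ = j * K ^ 2 := by simp
        _ ≤ 2 * K ^ 2 := by
            have : (j : ℝ) ≤ 2 := by exact_mod_cast hj
            nlinarith [sq_nonneg K]
    have hCS : ((fun i : Fin j => a i.succ) ⬝ᵥ V) ^ 2 ≤
        ((fun i : Fin j => a i.succ) ⬝ᵥ (fun i : Fin j => a i.succ)) * (V ⬝ᵥ V) := by
      have := Finset.sum_mul_sq_le_sq_mul_sq Finset.univ (fun i : Fin j => a i.succ) V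
      simpa [dotProduct, sq] using this
    have hS0 : 0 ≤ (fun i : Fin j => a i.succ) ⬝ᵥ (fun i : Fin j => a i.succ) :=
      Finset.sum_nonneg fun i _ => mul_self_nonneg _
    have h8 : ((fun i : Fin j => a i.succ) ⬝ᵥ V) ^ 2 ≤ 1 / 8 := by
      refine hCS.trans ?_
      calc ((fun i : Fin j => a i.succ) ⬝ᵥ (fun i : Fin j => a i.succ)) * (V ⬝ᵥ V)
          ≤ 1 / (16 * K ^ 2) * (2 * K ^ 2) := mul_le_mul hS.le hVV (Finset.sum_nonneg fun i _ => mul_self_nonneg _) (by positivity)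
        _ = 1 / 8 := by field_simp; norm_num
    have h9 : |(fun i : Fin j => a i.succ) ⬝ᵥ V| ≤ 1 / 2 := by
      refine abs_le_of_sq_le_sq' ?_ (by norm_num) |> fun h => abs_le.2 h
      nlinarith
    have h10 : 1 / (4 * K ^ 2) ≤ 1 / 4 := by
      apply div_le_div_of_nonneg_left (by norm_num) (by norm_num)
      nlinarith
    have h11 : |a 0| - |(fun i : Fin j => a i.succ) ⬝ᵥ V| ≤ |a 0 + (fun i : Fin j => a i.succ) ⬝ᵥ V| := by
      have := abs_sub_abs_le_abs_sub (a 0) (-((fun i : Fin j => a i.succ) ⬝ᵥ V))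
      rwa [abs_neg, sub_neg_eq_add] at this
    linarith
  · right
    rw [not_lt] at hS
    have hSp : 0 < (fun i : Fin j => a i.succ) ⬝ᵥ (fun i : Fin j => a i.succ) := lt_of_lt_of_le (by positivity) hS
    set S := (fun i : Fin j => a i.succ) ⬝ᵥ (fun i : Fin j => a i.succ) with hSdef
    have hr : 0 < Real.sqrt S := Real.sqrt_pos.2 hSp
    have hr2 : Real.sqrt S * Real.sqrt S = S := Real.mul_self_sqrt hSp.le
    have hr3 : 1 / (4 * K) ≤ Real.sqrt S := by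
      apply Real.le_sqrt_of_sq_le
      refine le_trans (le_of_eq ?_) hS
      field_simp
      norm_num
    refine ⟨(Real.sqrt S)⁻¹ • (fun i : Fin j => a i.succ), -(a 0) / Real.sqrt S, ?_, ?_⟩
    · rw [smul_dotProduct, dotProduct_smul, smul_eq_mul, smul_eq_mul, ← hSdef]
      calc (Real.sqrt S)⁻¹ * ((Real.sqrt S)⁻¹ * S) = (Real.sqrt S)⁻¹ * ((Real.sqrt S)⁻¹ * (Real.sqrt S * Real.sqrt S)) := by rw [hr2]
        _ = 1 := by field_simp
    · intro V hV
      rw [k6b_ec_dot_cons] at hV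
      rw [smul_dotProduct, smul_eq_mul]
      have e1 : (Real.sqrt S)⁻¹ * ((fun i : Fin j => a i.succ) ⬝ᵥ V) - -(a 0) / Real.sqrt S =
          (a 0 + (fun i : Fin j => a i.succ) ⬝ᵥ V) / Real.sqrt S := by
        field_simp
        ring
      rw [e1, abs_div, abs_of_pos hr, div_le_iff₀ hr]
      refine hV.trans ?_
      calc 1 / (4 * K ^ 2) = 1 / K * (1 / (4 * K)) := by field_simp
        _ ≤ 1 / K * Real.sqrt S := by gcongr

theorem k6b_ec_strip (hcov : k6b_sw_cov_stmt) (h : k6b_EntryHyp D Pk d k K εT a1 a2 w nb nx nv Dg E Ep Es g q zc T) (Kl : ℝ)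
    (s : (k6b_swOf D Pk q zc Es nb nv Kl (k6b_M K nb nv)).St) (a : Fin (j + 1) → ℝ) (ha : ∃ i, 1 ≤ |a i|) :
    (k6b_swOf D Pk q zc Es nb nv Kl (k6b_M K nb nv)).mu ((k6b_swOf D Pk q zc Es nb nv Kl (k6b_M K nb nv)).stE s ∩
        {e | |a ⬝ᵥ (k6b_swOf D Pk q zc Es nb nv Kl (k6b_M K nb nv)).vel e.1| ≤ 1 / (4 * K ^ 2)}) ≤
      (1 / 2 ^ 30) * (k6b_swOf D Pk q zc Es nb nv Kl (k6b_M K nb nv)).mu ((k6b_swOf D Pk q zc Es nb nv Kl (k6b_M K nb nv)).stE s) := by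
  have hK := h.K_ge
  have hK0 : 0 < K := by linarith
  have hj : j ≤ 2 := by
    rcases h.j12 with h1 | h1 <;> omega
  cases s with
  | none =>
    exact (measure_mono_null Set.inter_subset_left (k6b_ec_none hcov h Kl)).le.trans zero_le
  | some c =>
    have hA : MeasurableSet {l : D.L | |a ⬝ᵥ (Fin.cons 1 (D.V l) : Fin (j + 1) → ℝ)| ≤ 1 / (4 * K ^ 2)} := by
      have h1 : Measurable fun l : D.L => a ⬝ᵥ (Fin.cons 1 (D.V l) : Fin (j + 1) → ℝ) := by
        simp only [k6b_ec_dot_cons]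
        unfold dotProduct
        exact measurable_const.add
          (Finset.measurable_sum _ fun i _ => measurable_const.mul ((measurable_pi_apply i).comp h.wf.m_V))
      exact measurableSet_le (measurable_abs.comp h1) measurable_const
    have e0 : (k6b_swOf D Pk q zc Es nb nv Kl (k6b_M K nb nv)).stE (some c) ∩
        {e | |a ⬝ᵥ (k6b_swOf D Pk q zc Es nb nv Kl (k6b_M K nb nv)).vel e.1| ≤ 1 / (4 * K ^ 2)} =
        (k6b_swOf D Pk q zc Es nb nv Kl (k6b_M K nb nv)).stE (some c) ∩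
          {e | e.1 ∈ {l : D.L | |a ⬝ᵥ (Fin.cons 1 (D.V l) : Fin (j + 1) → ℝ)| ≤ 1 / (4 * K ^ 2)}} := rfl
    refine le_of_eq_of_le ((congrArg _ e0).trans (k6b_ec_some hcov h Kl c _ hA)) ?_
    refine le_of_le_of_eq ?_ (congrArg _ (k6b_ec_some' hcov h Kl c).symm)
    rw [← mul_div_assoc]
    refine ENNReal.div_le_div_right ?_ _
    by_cases hne : (Es ∩ D.wc nb ⁻¹' {c.1}).Nonempty
    · obtain ⟨e, he, hc⟩ := hne
      have hb := h.fld.broad e he
      rw [show D.wc nb e = c.1 from hc] at hb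
      rcases k6b_ec_alt hj K hK a ha with h1 | ⟨n, c', hn, h1⟩
      · have e1 : Es ∩ D.wc nb ⁻¹' {c.1} ∩
            {e | e.1 ∈ {l : D.L | |a ⬝ᵥ (Fin.cons 1 (D.V l) : Fin (j + 1) → ℝ)| ≤ 1 / (4 * K ^ 2)}} = ∅ := by
          rw [Set.eq_empty_iff_forall_notMem]
          rintro e' ⟨-, h2⟩
          exact absurd h2 (not_le.2 (h1 _ (h.wf.bd e'.1).2.1))
        rw [e1, measure_empty]
        exact zero_le
      · have h2 : D.prior (Es ∩ D.wc nb ⁻¹' {c.1} ∩ {e | |n ⬝ᵥ D.V e.1 - c'| ≤ w}) ≤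
            ENNReal.ofReal (1 / 2 ^ 30) * D.prior (Es ∩ D.wc nb ⁻¹' {c.1}) := by
          by_contra h3
          rw [not_le] at h3
          exact hb ⟨n, c', hn, h3.le⟩
        have e2 : ENNReal.ofReal (1 / 2 ^ 30) = 1 / 2 ^ 30 := by
          rw [ENNReal.ofReal_div_of_pos (by positivity), ENNReal.ofReal_one, ENNReal.ofReal_pow (by norm_num)]
          simp
        rw [e2] at h2
        refine (measure_mono ?_).trans h2
        rintro e' ⟨h3, h4⟩
        refine ⟨h3, (h1 _ h4).trans ?_⟩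
        rw [div_le_iff₀ hK0]
        linarith [h.w_lo]
    · rw [Set.not_nonempty_iff_eq_empty] at hne
      rw [hne, Set.empty_inter, measure_empty]
      exact zero_le

/-- **E2** -/
theorem k6b_entry_chain_of (hcov : k6b_sw_cov_stmt) : k6b_entry_chain_stmt := by
  intro j D Pk d k K εT a1 a2 w nb nx nv Dg E Ep Es g q zc T h
  exact
    { long_mass := k6b_ec_long_mass hcov h _
      long_dens := fun l hl τ => k6b_ec_long_dens hcov h _ l hl τ
      pal_dom := fun s J => k6b_ec_pal_dom hcov h _ s J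
      strip := fun s a ha => k6b_ec_strip hcov h _ s a ha }

end law

end

end Claimed.Agent.R252
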