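import Claimed.Agent.R252.S6b.SelectDefs

/-!
# Row252, unit S6b, part F: degree restoration in version 2.
# DEFINITIONS AND STATEMENTS (every statement is a `def ... : Prop`; no `sorry`).

Paper: 06-isotropic.tex l.1604-1900.  ONE scale, explicit slack.  Base `u ∈ ℝ³`, hidden coordinate `w ∈ ℝ` (NO bound on `w`).
PHYSICAL units for `X`, `w`, `a`, `a₂`; `h` = block length; `X = h * x`, `ρ₂ = a₂ / h`.

DIFFERENCES WITH THE PAPER.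
* cubes (`Metric.closedBall` of the sup norm) instead of balls; no complex enlargements: `lem:algebraic-norm` is replaced by the real
  square-root sheet kit (`SqLine.lean`, `SqBox.lean`: `k6b_sq_line`, `k6b_sq_box`, `k6b_sq_taylor`).
* the root `f` and `R = P_s(u, f(u))/a` are FORMAL SHEETS `A + B √Δ / Δ^k` (`k6b_Sheet 3`), also if `P_{*,ww} = 0`: then `Δ = α₁²`, `√Δ = sg α₁`,
  `1/α₁ = sg √Δ/Δ`, `1/α₁² = sg α₁ √Δ/Δ²`.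
* `S₀ = inf_L ‖f - L‖` is replaced by `S = max_U |f - L'|`, `L'` the affine Taylor polynomial at the centre (`S₀ ≤ S ≤ K S₀`).
* Taylor tensors are the homogeneous polynomials `k6b_jet`.
-/

set_option autoImplicit false

namespace Claimed.Agent.R252

open MeasureTheory MvPolynomial
open scoped ENNReal BigOperators

noncomputable section

/-! ## 1. Quadratic tests in `(u, w)` -/

/-- a polynomial in `(u, w)` written by powers of `w`: `c0(u) + c1(u) w + c2 w²` -/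
structure k6b_QW where
  c0 : MvPolynomial (Fin 3) ℝ
  c1 : MvPolynomial (Fin 3) ℝ
  c2 : ℝ

namespace k6b_QW

/-- value -/
def ev (Q : k6b_QW) (u : Fin 3 → ℝ) (w : ℝ) : ℝ := eval u Q.c0 + eval u Q.c1 * w + Q.c2 * w ^ 2

/-- hidden derivative -/
def dw (Q : k6b_QW) (u : Fin 3 → ℝ) (w : ℝ) : ℝ := eval u Q.c1 + 2 * Q.c2 * w

/-- hidden curvature -/
def dww (Q : k6b_QW) : ℝ := 2 * Q.c2

/-- total degree `≤ 2` -/
structure Quad (Q : k6b_QW) : Prop where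
  d0 : Q.c0.totalDegree ≤ 2
  d1 : Q.c1.totalDegree ≤ 1

end k6b_QW

/-- the discriminant of `P_*(u,w) = Φ(u)` -/
def k6b_disc (Pst : k6b_QW) (Φ : MvPolynomial (Fin 3) ℝ) : MvPolynomial (Fin 3) ℝ :=
  Pst.c1 ^ 2 - C (4 * Pst.c2) * (Pst.c0 - Φ)

/-- **W1** the branch `f` and the normalised test `R` as sheets (l.1604-1638, 1670-1675).
PLAN.  `c2 ≠ 0`: `f = (-α₁ + sg √Δ)/(2α₂)` (`k = 0`), `f² = (Φ - α₀ - α₁ f)/α₂`, so `R` is affine in `f`.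
`c2 = 0`: `f = sg (Φ - α₀) √Δ/Δ` (`k = 1`), `R = γ₀/a + (sg/a) (γ₁ (Φ-α₀) Δ + γ₂ (Φ-α₀)² α₁) √Δ/Δ²` (`k = 2`), using `√Δ = sg α₁`. -/
def k6b_branch_stmt : Prop :=
  ∀ D : ℕ, ∃ D' : ℕ, ∀ (Pst Ps : k6b_QW) (Φ : MvPolynomial (Fin 3) ℝ) (sg a : ℝ), Pst.Quad →
    Ps.Quad → Φ.totalDegree ≤ D → (sg = 1 ∨ sg = -1) → a ≠ 0 →
    ∃ f R : k6b_Sheet 3, f.Deg D' (k6b_disc Pst Φ) ∧ R.Deg D' (k6b_disc Pst Φ) ∧
      ∀ u, 0 < eval u (k6b_disc Pst Φ) → (Pst.c2 = 0 → 0 < sg * eval u Pst.c1) →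
        Pst.ev u (f.val (k6b_disc Pst Φ) u) = eval u Φ ∧
        Pst.dw u (f.val (k6b_disc Pst Φ) u) = sg * √(eval u (k6b_disc Pst Φ)) ∧
        R.val (k6b_disc Pst Φ) u = Ps.ev u (f.val (k6b_disc Pst Φ) u) / a

/-- **W2** the discriminant does not depend on `w`; an observed `w` is close to the root with the same derivative sign (l.1612-1634).
PLAN: `q(y) - q(w) = (y - w)(q'(y) + q'(w))/2` for a quadratic `q`; `|d + sg √Δ| ≥ |d|`. -/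
def k6b_root_near_stmt : Prop :=
  ∀ (Pst : k6b_QW) (Φ : MvPolynomial (Fin 3) ℝ) (u : Fin 3 → ℝ) (w y sg : ℝ),
    eval u (k6b_disc Pst Φ) = Pst.dw u w ^ 2 - 2 * Pst.dww * (Pst.ev u w - eval u Φ) ∧
    ((sg = 1 ∨ sg = -1) → 0 < sg * Pst.dw u w → 0 ≤ eval u (k6b_disc Pst Φ) →
      Pst.ev u y = eval u Φ → Pst.dw u y = sg * √(eval u (k6b_disc Pst Φ)) →
      |w - y| * |Pst.dw u w| ≤ 2 * |Pst.ev u w - eval u Φ|)

/-! ## 2. Jets of a sheet -/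

/-- iterated partial derivative of a sheet along the coordinate directions `I 0, I 1, ..` -/
def k6b_pd {n r : ℕ} (Dl : MvPolynomial (Fin n) ℝ) (F : k6b_Sheet n) (I : Fin r → Fin n) : k6b_Sheet n :=
  (List.ofFn fun k => (Pi.single (I k) (1 : ℝ) : Fin n → ℝ)).foldr (k6b_Sheet.dv Dl) F

/-- the Taylor form of order `r` at `u`: `x ↦ D_x^r F (u)` -/
def k6b_jet {n : ℕ} (Dl : MvPolynomial (Fin n) ℝ) (F : k6b_Sheet n) (r : ℕ) (u : Fin n → ℝ) :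
    MvPolynomial (Fin n) ℝ :=
  ∑ I : Fin r → Fin n, C ((k6b_pd Dl F I).val Dl u) * ∏ k, X (I k)

/-- the Taylor polynomial of order `N` at `uc` -/
def k6b_tay {n : ℕ} (Dl : MvPolynomial (Fin n) ℝ) (F : k6b_Sheet n) (N : ℕ) (uc : Fin n → ℝ) :
    MvPolynomial (Fin n) ℝ :=
  ∑ j ∈ Finset.range (N + 1), C ((j.factorial : ℝ)⁻¹) *
    bind₁ (fun i => X i - C (uc i)) (k6b_jet Dl F j uc)

/-- **J** the calculus of jets (formal: multilinearity of `dv` in the direction, `dv_comm`).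
(1) homogeneity; (2) value; (3),(4) first and second partial derivatives of the form = contractions; (5) norm; (6) Taylor polynomial. -/
def k6b_jet_stmt : Prop :=
  ∀ (n : ℕ) (Dl : MvPolynomial (Fin n) ℝ) (F : k6b_Sheet n) (r : ℕ) (u : Fin n → ℝ),
    (k6b_jet Dl F r u).IsHomogeneous r ∧
    (∀ x, eval x (k6b_jet Dl F r u) = (((k6b_Sheet.dv Dl x)^[r]) F).val Dl u) ∧
    (∀ x j, eval x (pderiv j (k6b_jet Dl F (r + 1) u)) =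
      (r + 1) * ((((k6b_Sheet.dv Dl x)^[r]) F).dv Dl (Pi.single j 1)).val Dl u) ∧
    (∀ x j k, eval x (pderiv j (pderiv k (k6b_jet Dl F (r + 2) u))) =
      (r + 2) * (r + 1) *
        (((((k6b_Sheet.dv Dl x)^[r]) F).dv Dl (Pi.single k 1)).dv Dl (Pi.single j 1)).val Dl u) ∧
    (∀ M, (∀ I : Fin r → Fin n, |(k6b_pd Dl F I).val Dl u| ≤ M) →
      rmzNm (k6b_jet Dl F r u) ≤ (n : ℝ) ^ r * M) ∧
    (∀ N, (k6b_tay Dl F N u).totalDegree ≤ N ∧ ∀ y, eval y (k6b_tay Dl F N u) =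
      ∑ j ∈ Finset.range (N + 1), (((k6b_Sheet.dv Dl (y - u))^[j]) F).val Dl u / (j.factorial : ℝ))

/-! ## 3. The deterministic restoration core -/

/-- `Δ` is comparable to `Δ0` on the cube -/
def k6b_DlOk (Dl : MvPolynomial (Fin 3) ℝ) (uc : Fin 3 → ℝ) (r κ Δ0 : ℝ) : Prop :=
  ∀ u ∈ Metric.closedBall uc r, Δ0 / κ ≤ eval u Dl ∧ eval u Dl ≤ κ * Δ0

/-- `S = max_U |f - L'|` -/
def k6b_IsDev (Dl : MvPolynomial (Fin 3) ℝ) (f : k6b_Sheet 3) (uc : Fin 3 → ℝ) (r S : ℝ) : Prop :=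
  (∀ u ∈ Metric.closedBall uc r, |f.val Dl u - eval u (k6b_tay Dl f 1 uc)| ≤ S) ∧
  ∃ u ∈ Metric.closedBall uc r, |f.val Dl u - eval u (k6b_tay Dl f 1 uc)| = S

/-- **R0** the deviation exists (continuity on a compact cube where `Δ > 0`). -/
def k6b_dev_exists_stmt : Prop :=
  ∀ (Dl : MvPolynomial (Fin 3) ℝ) (f : k6b_Sheet 3) (uc : Fin 3 → ℝ) (r : ℝ), 0 ≤ r →
    (∀ u ∈ Metric.closedBall uc r, 0 < eval u Dl) → ∃ S, k6b_IsDev Dl f uc r S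

/-- **R1** all derivatives of order `≥ 2` of `f` cost `S` (l.1714-1722).  PLAN: `k6b_sq_box` for the sheet `(f.A - L', f.B, f.k)`, `E = U`, `θ = 1`. -/
def k6b_dev_bound_stmt : Prop :=
  ∀ D q : ℕ, ∃ c : ℕ, ∀ (Dl : MvPolynomial (Fin 3) ℝ) (f : k6b_Sheet 3) (uc : Fin 3 → ℝ)
    (r κ Δ0 S : ℝ), f.Deg D Dl → 0 < r → 1 ≤ κ → 0 < Δ0 → k6b_DlOk Dl uc r κ Δ0 →
    (∀ u ∈ Metric.closedBall uc r, |f.val Dl u - eval u (k6b_tay Dl f 1 uc)| ≤ S) →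
    ∀ vs : List (Fin 3 → ℝ), 2 ≤ vs.length → vs.length ≤ q → (∀ v ∈ vs, ‖v‖ ≤ 1) →
      ∀ u ∈ Metric.closedBall uc r,
        |(vs.foldr (k6b_Sheet.dv Dl) f).val Dl u| * r ^ vs.length ≤ c * κ ^ c * S

/-- **R2** (a05:third-f): second directional tests in FOUR directions in general position, on a set of relative volume `θ`, bound the
third Taylor form everywhere.  PLAN: `k6b_sq_box` (`q = 1`) for the sheets `D²_{v_i} f`; J(3) with `r = 2`; T1 `k6b_two_copy`. -/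
def k6b_third_stmt : Prop :=
  ∀ D : ℕ, ∃ c : ℕ, ∀ (Dl : MvPolynomial (Fin 3) ℝ) (f : k6b_Sheet 3) (uc : Fin 3 → ℝ)
    (r κ Δ0 θ A ε : ℝ) (v : Fin 4 → Fin 3 → ℝ) (E : Set (Fin 3 → ℝ)),
    f.Deg D Dl → 0 < r → r ≤ 1 → 1 ≤ κ → 0 < Δ0 → 0 < θ → θ ≤ 1 → 2 ≤ A →
    k6b_DlOk Dl uc r κ Δ0 → k6b_GP 4 A v → MeasurableSet E → E ⊆ Metric.closedBall uc r →
    ENNReal.ofReal (θ * (2 * r) ^ 3) ≤ volume E →
    (∀ u ∈ E, ∀ i, |((f.dv Dl (v i)).dv Dl (v i)).val Dl u| ≤ ε) →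
    ∀ u ∈ Metric.closedBall uc r, rmzNm (k6b_jet Dl f 3 u) ≤ c * (A * κ / (θ * r)) ^ c * ε

/-- **R3** (a05:R-restoration): the exact-conic kernels.
PLAN.  T6 `k6b_real_conic` moves `v i` to exact zeros `v' i`, `|v' - v| ≤ c A^c εq`; by multilinearity the contractions
`D^α D³_{v'} R` differ from `D^α D³_v R` by `≤ c A^c KR εq`.  J(2),(3),(4): these contractions are the values / first / second partials of the jets of order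
3, 4, 5 at `v' i`.  T5 at every `u ∈ U`: `rmzNm (jet 5) ≤ ..`; T3, T4 at `uc`.  `k6b_sq_taylor` with `N = 4`.
`R2 = k6b_tay .. 2`, `L1 = L(X - uc)/6`, `lam0 = lam/24`. -/
def k6b_restore_R_stmt : Prop :=
  ∀ D : ℕ, ∃ c : ℕ, ∀ (Dl : MvPolynomial (Fin 3) ℝ) (R : k6b_Sheet 3) (uc : Fin 3 → ℝ)
    (r A KR εR εq : ℝ) (v : Fin 7 → Fin 3 → ℝ) (Q : Matrix (Fin 3) (Fin 3) ℝ),
    R.Deg D Dl → 0 < r → r ≤ 1 → (∀ u ∈ Metric.closedBall uc r, 0 < eval u Dl) → 2 ≤ A →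
    0 ≤ KR → 0 ≤ εR → k6b_GP 7 A v → (∀ i, v i 0 = 1) → Q.IsSymm → (∀ i j, |Q i j| ≤ A) →
    (∃ i j, A⁻¹ ≤ |Q i j|) → (∀ i, |eval (v i) (k6b_qf Q)| ≤ εq) → c * A ^ c * εq ≤ 1 →
    (∀ vs : List (Fin 3 → ℝ), vs.length ≤ 5 → (∀ x ∈ vs, ‖x‖ ≤ 1) →
      ∀ u ∈ Metric.closedBall uc r, |(vs.foldr (k6b_Sheet.dv Dl) R).val Dl u| ≤ KR) →
    (∀ i, ∀ vs : List (Fin 3 → ℝ), vs.length ≤ 2 → (∀ x ∈ vs, ‖x‖ ≤ 1) →
      ∀ u ∈ Metric.closedBall uc r,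
        |(vs.foldr (k6b_Sheet.dv Dl) (((k6b_Sheet.dv Dl (v i))^[3]) R)).val Dl u| ≤ εR) →
    ∃ (R2 L1 : MvPolynomial (Fin 3) ℝ) (lam0 : ℝ), R2.totalDegree ≤ 2 ∧ L1.totalDegree ≤ 1 ∧
      |lam0| ≤ c * A ^ c * KR ∧ (∀ u ∈ Metric.closedBall uc r, |eval u L1| ≤ c * A ^ c * KR) ∧
      ∀ u ∈ Metric.closedBall uc r,
        |R.val Dl u - eval u R2 - eval (u - uc) (k6b_qf Q) * eval u L1
            - lam0 * eval (u - uc) (k6b_qf Q) ^ 2| ≤ c * A ^ c * (εR + KR * εq)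

/-- the hypotheses of the deterministic core, with ONE slack `K` -/
structure k6b_CoreHyp (D : ℕ) (Dl : MvPolynomial (Fin 3) ℝ) (f R : k6b_Sheet 3) (uc : Fin 3 → ℝ)
    (r Δ0 K a a₂ h S : ℝ) (v : Fin 7 → Fin 3 → ℝ) (ER E7 : Set (Fin 3 → ℝ)) : Prop where
  degf : f.Deg D Dl
  degR : R.Deg D Dl
  pos : 0 < r ∧ r ≤ 1 ∧ 1 ≤ K * r ∧ 0 < Δ0 ∧ 2 ≤ K ∧ 0 < a₂ ∧ a₂ ≤ a ∧ 0 < h
  dl : k6b_DlOk Dl uc r K Δ0
  gp : k6b_GP 7 K v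
  one : ∀ i, v i 0 = 1
  dev : k6b_IsDev Dl f uc r S
  ER_meas : MeasurableSet ER
  ER_sub : ER ⊆ Metric.closedBall uc r
  ER_vol : ENNReal.ofReal ((2 * r) ^ 3) ≤ ENNReal.ofReal K * volume ER
  ER_bd : ∀ u ∈ ER, |R.val Dl u| ≤ K
  E7_meas : MeasurableSet E7
  E7_sub : E7 ⊆ Metric.closedBall uc r
  E7_vol : ENNReal.ofReal ((2 * r) ^ 3) ≤ ENNReal.ofReal K * volume E7
  E7_f : ∀ u ∈ E7, ∀ i, |((f.dv Dl (v i)).dv Dl (v i)).val Dl u| ≤ K * (a₂ + S * h)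
  E7_R : ∀ u ∈ E7, ∀ i, |(((k6b_Sheet.dv Dl (v i))^[3]) R).val Dl u| ≤ K * (a₂ / a)

/-- **R = THE DETERMINISTIC RESTORATION CORE** (l.1742-1826).  Case A: `f` is nearly quadratic.  Case B: the conic case.
PLAN.  `k6b_sq_box` for `R` (from `ER`: all derivatives of order `≤ 5` are `≤ c K^c`) and for the sheets `D²_{v_i} f`, `D³_{v_i} R` (from `E7`, with 1 resp. 2 further
derivatives).  R2: `rmzNm (jet 3 f u) ≤ c K^c (a₂ + S h)` on `U`.  `k6b_sq_taylor` (`N = 2`): `|f - tay 2| ≤ c K^c (a₂ + S h)`.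
Case A: `S h ≤ a₂`.  Case B: `Q i j = ∂_i ∂_j f(uc)/(2S)`; `|Q| ≤ c K^c` (R1); at the point where `|f - L'| = S`: `1 ≤ 9 r² max|Q| + c K^c (a₂/S + h)`, so
`max |Q| ≥ 1/18` if `c K^c h ≤ 1`; `|q(v_i)| ≤ c K^c (a₂/S + h) ≤ c K^c h`; R3 with `εq = c K^c h`, `εR = c K^c a₂/a`. -/
def k6b_core_stmt : Prop :=
  ∀ D : ℕ, ∃ c : ℕ, ∀ (Dl : MvPolynomial (Fin 3) ℝ) (f R : k6b_Sheet 3) (uc : Fin 3 → ℝ)
    (r Δ0 K a a₂ h S : ℝ) (v : Fin 7 → Fin 3 → ℝ) (ER E7 : Set (Fin 3 → ℝ)),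
    k6b_CoreHyp D Dl f R uc r Δ0 K a a₂ h S v ER E7 → c * K ^ c * h ≤ 1 →
    (S * h ≤ a₂ → ∃ f2 : MvPolynomial (Fin 3) ℝ, f2.totalDegree ≤ 2 ∧
      ∀ u ∈ Metric.closedBall uc r, |f.val Dl u - eval u f2| ≤ c * K ^ c * a₂) ∧
    (a₂ < S * h → ∃ (Q : Matrix (Fin 3) (Fin 3) ℝ) (R2 L1 : MvPolynomial (Fin 3) ℝ) (lam0 : ℝ),
      R2.totalDegree ≤ 2 ∧ L1.totalDegree ≤ 1 ∧ |lam0| ≤ c * K ^ c ∧
      ∀ u ∈ Metric.closedBall uc r,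
        |eval u L1| ≤ c * K ^ c ∧ |eval (u - uc) (k6b_qf Q)| ≤ c * K ^ c ∧
        |(f.val Dl u - eval u (k6b_tay Dl f 1 uc)) / S - eval (u - uc) (k6b_qf Q)| ≤ c * K ^ c * h ∧
        |R.val Dl u - eval u R2 - eval (u - uc) (k6b_qf Q) * eval u L1
            - lam0 * eval (u - uc) (k6b_qf Q) ^ 2| ≤ c * K ^ c * (a₂ / a + h))

/-! ## 4. The new test -/

/-- (a05:new-test) `P_new = P_s - a (R₂ + H' L₁ + λ₀ H'²)`, `H' = (w - L')/S` -/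
def k6b_Pnew (Ps : k6b_QW) (Lp R2 L1 : MvPolynomial (Fin 3) ℝ) (lam0 a S : ℝ) : k6b_QW where
  c0 := Ps.c0 - C a * (R2 - C S⁻¹ * Lp * L1 + C (lam0 * S⁻¹ ^ 2) * Lp ^ 2)
  c1 := Ps.c1 - C a * (C S⁻¹ * L1 - C (2 * lam0 * S⁻¹ ^ 2) * Lp)
  c2 := Ps.c2 - a * lam0 * S⁻¹ ^ 2

/-- **N1** value, derivative and curvature of the new test at one witness `(u, w)` (l.1827-1870): pure algebra.
`y = f(u)`, `Rv = R(u) = P_s(u,y)/a`, `qv = q(u - uc)`. -/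
def k6b_Pnew_bounds_stmt : Prop :=
  ∀ (Ps : k6b_QW) (Lp R2 L1 : MvPolynomial (Fin 3) ℝ) (lam0 a S K A δw εH εR qv y w : ℝ)
    (u : Fin 3 → ℝ), Ps.Quad → Lp.totalDegree ≤ 1 → R2.totalDegree ≤ 2 → L1.totalDegree ≤ 1 →
    0 < a → 0 < S → 0 ≤ K → 1 ≤ A → 0 ≤ δw → 0 ≤ εH →
    |w - y| ≤ δw → |Ps.dw u w| ≤ K → |Ps.dww| ≤ K / a →
    |lam0| ≤ A → |eval u L1| ≤ A → |qv| ≤ A → |(y - eval u Lp) / S - qv| ≤ εH →
    |Ps.ev u y / a - eval u R2 - qv * eval u L1 - lam0 * qv ^ 2| ≤ εR →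
    (k6b_Pnew Ps Lp R2 L1 lam0 a S).Quad ∧
    |(k6b_Pnew Ps Lp R2 L1 lam0 a S).ev u w| ≤
      K * δw + K / a * δw ^ 2 + a * εR + a * A * (εH + δw / S) * (1 + 2 * A + εH + δw / S) ∧
    |(k6b_Pnew Ps Lp R2 L1 lam0 a S).dw u w - Ps.dw u w| ≤
      a / S * (A + 2 * A * (A + εH + δw / S)) ∧
    |(k6b_Pnew Ps Lp R2 L1 lam0 a S).dww| ≤ K / a + 2 * a * A / S ^ 2

/-- **N2** the same time block (l.1871-1889): along a trajectory (`u`, `w` affine in `τ`) value and hidden derivative are polynomials of degree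
`≤ 2`, `≤ 1`; Remez from a witness set of measure `θ` (`rmz_one`). -/
def k6b_time_ext_stmt : Prop :=
  ∃ c : ℕ, ∀ (Q : k6b_QW) (u0 v : Fin 3 → ℝ) (w0 w1 θ M M' : ℝ) (W : Set ℝ), Q.Quad → 0 < θ →
    θ ≤ 1 → W ⊆ Set.Icc (0 : ℝ) 1 → ENNReal.ofReal θ ≤ volume W →
    (∀ τ ∈ W, |Q.ev (u0 + τ • v) (w0 + τ * w1)| ≤ M) →
    (∀ τ ∈ W, |Q.dw (u0 + τ • v) (w0 + τ * w1)| ≤ M') →
    ∀ τ ∈ Set.Icc (0 : ℝ) 1, |Q.ev (u0 + τ • v) (w0 + τ * w1)| ≤ c * (1 / θ) ^ c * M ∧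
      |Q.dw (u0 + τ • v) (w0 + τ * w1)| ≤ c * (1 / θ) ^ c * M'

/-! ## 5. The main statement of version 2 -/

/-- the hidden data of version 2 on a switching system, physical units -/
structure k6b_Hid (Y : k6b_Sw 3) where
  w0 : Y.Lam → ℝ
  w1 : Y.Lam → ℝ
  /-- native test `P_*(z_c + h u, w)` -/
  Pst : k6b_QW
  /-- true packet test `P_s(z_c + h u, w)` -/
  Ps : k6b_QW

/-- hidden coordinate of an event -/
def k6b_Hid.wd {Y : k6b_Sw 3} (H : k6b_Hid Y) (e : Y.Lam × ℝ) : ℝ := H.w0 e.1 + e.2 * H.w1 e.1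

/-- native and true-packet bounds with slack `K` -/
structure k6b_Hid.Ok {Y : k6b_Sw 3} (H : k6b_Hid Y) (K a h : ℝ) : Prop where
  w0_meas : Measurable H.w0
  w1_meas : Measurable H.w1
  qst : H.Pst.Quad
  qs : H.Ps.Quad
  native : ∀ e ∈ Y.sup, h * Y.x e = H.Pst.ev (Y.pos e) (H.wd e)
  st_dw : ∀ e ∈ Y.sup, |H.Pst.dw (Y.pos e) (H.wd e)| ≤ K ∧ 1 ≤ K * |H.Pst.dw (Y.pos e) (H.wd e)|
  st_dww : |H.Pst.dww| ≤ K
  s_ev : ∀ e ∈ Y.sup, |H.Ps.ev (Y.pos e) (H.wd e)| ≤ K * a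
  s_dw : ∀ e ∈ Y.sup, |H.Ps.dw (Y.pos e) (H.wd e)| ≤ K ∧ 1 ≤ K * |H.Ps.dw (Y.pos e) (H.wd e)|
  s_dww : |H.Ps.dww| ≤ K / a
  /-- the first base coordinate is block time; bins are bins of the spatial velocity only -/
  time0 : ∀ l, Y.vel l 0 = 1
  cen0 : ∀ J, Y.cen J 0 = 1

/-- **MAIN, VERSION 2** (= l.1113-1900 for `j = 2`, `ℓ = 0`): the quadratic candidate of thickness `a₂`, same block.
`A = c K^k ξ^{-ε}` (the exponent of `ξ` is EXACTLY `ε`; `c, k` depend on `ε`: use G with `ε / c₁(D)`, `c₁` = the total power by which later steps amplify the loss).  Extra margins: `A h ≤ a₂/a ≤ 1`, `A (β + pv) ≤ h²`, `A a₂ ≤ 1`.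
PLAN (16 steps) in the comment at the end of this file. -/
def k6b_main_v2_stmt : Prop :=
  ∀ (D : ℕ) (ε : ℝ), 0 < ε → ∃ (c : ℝ) (k : ℕ), 0 < c ∧ ∀ (Y : k6b_Sw 3) (H : k6b_Hid Y)
    (T : Fin 3 → MvPolynomial (Fin 3) ℝ) (K β pv εT ξ ρ₁ κ a a₂ h : ℝ) (Nc1 Nc2 : ℕ),
    1 ≤ K → 0 < κ → 0 < h → h ≤ 1 → 0 < a₂ → a₂ ≤ a →
    Y.Ctx T D K β pv εT ξ ρ₁ (a₂ / h) κ Nc1 Nc2 → H.Ok K a h →
    k6b_Margins 3 (c * K ^ k * ξ ^ (-ε)) β pv εT ξ ρ₁ (a₂ / h) Nc1 →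
    c * K ^ k * ξ ^ (-ε) * h ≤ a₂ / a → c * K ^ k * ξ ^ (-ε) * (β + pv) ≤ h ^ 2 →
    c * K ^ k * ξ ^ (-ε) * a₂ ≤ 1 →
    ∃ (Pn : k6b_QW) (Fam : Set (Y.Lam × ℝ)), Pn.Quad ∧ MeasurableSet Fam ∧ Fam ⊆ Y.sup ∧
      ENNReal.ofReal κ ≤ ENNReal.ofReal (c * K ^ k * ξ ^ (-ε)) * Y.mu Fam ∧
      |Pn.dww| ≤ c * K ^ k * ξ ^ (-ε) / a₂ ∧
      (∀ e ∈ Fam, 1 ≤ c * K ^ k * ξ ^ (-ε) * |Pn.dw (Y.pos e) (H.wd e)|) ∧
      ∀ e ∈ Fam, ∀ τ ∈ Set.Icc (0 : ℝ) 1,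
        |Pn.ev (Y.pos (e.1, τ)) (H.wd (e.1, τ))| ≤ c * K ^ k * ξ ^ (-ε) * a₂ ∧
        |Pn.dw (Y.pos (e.1, τ)) (H.wd (e.1, τ))| ≤ c * K ^ k * ξ ^ (-ε)

/-!
## PLAN OF `k6b_main_v2` (glue; `A` = a constant of the form `c K^k ξ^{-c₁ ε₀}`, `c₁ = c₁(D)` fixed BEFORE `ε₀ = ε / c₁` is chosen, growing from step to step)
 1. C5 → P1 → P2 → G as in version 1: group `C`, families `F4 ⊆ F1`.  `Φ = C h * P + C (h (C + 1/2) ρ₂)`; at `e ∈ F1`: `|P_*(u,w) - Φ(u)| ≤ a₂` (`native`, `Grp.fit`).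
 2. W2: `Δ(pos e) = dw² - 2 dww * residual ∈ [1/(2K²), 2K²]` at `e ∈ F1` (`A a₂ ≤ 1`).
 3. `{u : ‖u‖ ≤ K, |Δ u| ≤ 2K²} ⊇ pos '' F4` has volume `≥ μ(F4)/(K κ) ≥ 1/A` (`cap2`); `rmz_box`: `|∇Δ| ≤ A` on `‖u‖ ≤ K + 1`.
 4. `r₁ = 1/A`; label `lab e = (⌊pos e / r₁⌋, sign of P_*.dw at e)`; PRf (FINE loss: `ν{durF F4 > 0} ≤ 128 K μ(F4)`) on `F0 := F4`, `ns = 16`, `nl ≤ A`, `φ = 1/64`, `K1 = A`; heaviest label (`≤ A` labels):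
    families `G4 ⊆ G1` inside ONE lattice cube `U = closedBall uc (r₁/2)` and one sign `sg`; `μ(G4) ≥ κ/A`; states fat with `Φ = 2^13`; witnesses `durF G1 ≥ 1/A`.
 5. `Δ ∈ [1/(4K²), 4K²]` on `U`; if `c2 = 0`, `sg α₁ > 0` on `U` (IVT / no zero of `α₁`).
 6. W1: `f`, `R`.  W2: `|wd e - f(pos e)| ≤ 2 K a₂` for `e ∈ G1`.
 7. `|R(pos e)| ≤ A` for `e ∈ G1` (Taylor in `w`: `s_ev`, `s_dw`, `s_dww`); `ER = {u ∈ U : |R u| ≤ A}`, volume `≥ vol U / A` (`cap2`).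
 8. For a line `l` of `G4`: `W = {τ : (l,τ) ∈ G1}` has Lebesgue measure `≥ 1/A` (`g_le`), its hull `[τa, τb]` stays in `U` (convexity).  `wd` is the restriction of the affine polynomial
    `L_l(u) = w0 + (u_0 - u0_0) w1` (`time0`).  `k6b_sq_line` for `(f.A - L_l, f.B, f.k)` (`j = 2`) and for `R - P_s(u, L_l(u))/a` (`j = 3`): on `[τa, τb]`
    `|D_v² f| ≤ A a₂`, `|D_v³ R| ≤ A a₂/a`, `v = vel l`.
 9. R0: `S`.  R1: derivatives of `f` of order 2, 3 are `≤ A S`; `k6b_sq_box` from `ER`: derivatives of `R` of order `≤ 5` are `≤ A`.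
10. S5 + S3 (`r = 7`, `q = 22`, `Φ = 2^13`): bins `J`, centres `v i = cen (J i)` in `k6b_GP 7 A`, first coordinate `1` by `cen0`.
11. transfer (direction error `pv`, position error `β`): at every event of a good state `|D²_{v_i} f| ≤ A a₂ + A S (β + pv) ≤ A (a₂ + S h)`, `|D³_{v_i} R| ≤ A a₂/a + A (β + pv)`;
    `E7` = the set where these hold; volume `≥ vol U / A` (`cap2`).
12. R (core).  Case A: `Pn = w - f2(u)`.  Case B: `Pn = k6b_Pnew Ps L' R2 L1 lam0 a S`, `L' = k6b_tay Dl f 1 uc`.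
13. N1 at every `e ∈ G1` (`δw = 2K a₂`, `εH = A h`, `δw/S < 2K h`, `a/S < a h/a₂`): `|Pn| ≤ A a₂`, `|Pn.dw - Ps.dw| ≤ A h a/a₂ ≤ 1/(2K)`, `|Pn.dww| ≤ A/a₂`.
14. N2 from `W`: whole block.   15. lower bound of `Pn.dw` at `e ∈ G4 ⊆ sup` from `s_dw`.   16. `Fam = G4`.
-/

end

end Claimed.Agent.R252
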