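import Claimed.Agent.R252.S6a.Adapt
import Claimed.Agent.R252.S6b.V2Defs

/-!
# Row252, unit S6b, part H: ENTRY (`K6aField` ⟹ `k6b_Sw.Ctx`, `k6b_Hid.Ok`), EXIT (⟹ `KsTimeCand`) AND THE HUB OF S6b.
# DEFINITIONS AND STATEMENTS (every statement is a `def ... : Prop`; no `sorry`).

* `k6b_swOf D Pk q zc Es nb nv Kl M : k6b_Sw (j + 1)`   DEFINITIONAL: the switching system of one packet `q` of the abstract one-parent record `K6aDat` (S6a/Layers, helper234), block-normalised units: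
  `τ = (t - t0)/H`, `u = k6aU H zc (t, y)`, `x = X/H`, prior `ν|asg q / ν_Q`, density `g = 1_{Es} * H ν_Q / prior(Es)` (so `mu F = prior(Es ∩ phys⁻¹..)/prior(Es)`),
  states = cells `W_b` (level `nb`), bins = velocity cubes (level `nv`), both cut to the finite range `[-M, M]`; long lines = duration `≥ H / Kl`.
* ENTRY  E0 (change of variables), E1 (`WF`, `nu_le`, `g_le`), E2 (`Chain`), E3 (`Geo`, `time`, `quad`), E4 (`Supp`, `cells2`, `cap2`, `count2`), E = `Ctx`.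
* HIDDEN DATA (version 2): Q1, Q2 (conversion `KbQuad` ↔ `k6b_QW`), HD (`k6b_Hid.Ok` from `KsRef.Ok`), CP (`k6b_Cap2` from `KsRef.Ok.capX`).
* EXIT  X1, X2 : the conclusions of `k6b_main_v1_stmt`, `k6b_main_v2_stmt` are time candidates `KsTimeCand` of gain `s2 - s`.
* HUB   `k6b_hub_stmt` = what the chain of Section 6 (helper234) consumes.
-/

set_option autoImplicit false

namespace Claimed.Agent.R252

open MeasureTheory MvPolynomial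
open scoped ENNReal BigOperators

noncomputable section

variable {j : ℕ}

/-! ## 1. The switching system of a packet -/

/-- left end point of the block of the packet -/
def k6b_t0 {D : K6aDat j} (Pk : K6aPk D) (q : Pk.Q) : ℝ := (Pk.iv q : ℝ) * Pk.H

/-- the physical incidence of a normalised event -/
def k6b_phys {D : K6aDat j} (Pk : K6aPk D) (q : Pk.Q) (e : D.L × ℝ) : D.L × ℝ :=
  (e.1, k6b_t0 Pk q + Pk.H * e.2)

/-- the normalised event of a physical incidence -/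
def k6b_norm {D : K6aDat j} (Pk : K6aPk D) (q : Pk.Q) (e : D.L × ℝ) : D.L × ℝ :=
  (e.1, (e.2 - k6b_t0 Pk q) / Pk.H)

/-- physical cells with all indices in `[-M, M]` -/
def k6b_cellsF (j : ℕ) (M : ℤ) : Finset (K6aWc j) :=
  (Finset.Icc (-M) M ×ˢ Fintype.piFinset fun _ => Finset.Icc (-M) M) ×ˢ Finset.Icc (-M) M

/-- velocity bins with all indices in `[-M, M]` -/
def k6b_binsF (j : ℕ) (M : ℤ) : Finset (Fin j → ℤ) := Fintype.piFinset fun _ => Finset.Icc (-M) M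

open Classical in
/-- **the switching system of the packet `q`** -/
def k6b_swOf (D : K6aDat j) (Pk : K6aPk D) (q : Pk.Q) (zc : ℝ × (Fin j → ℝ)) (Es : Set (D.L × ℝ))
    (nb nv : ℕ) (Kl : ℝ) (M : ℤ) : k6b_Sw (j + 1) where
  Lam := D.L
  mLam := D.mL
  St := Option (k6b_cellsF j M)
  fSt := inferInstance
  Bn := Option (k6b_binsF j M)
  fBn := inferInstance
  nu := (Pk.νQ q)⁻¹ • D.ν.restrict (Pk.asg q)
  g := fun e => if k6b_phys Pk q e ∈ Es then ENNReal.ofReal Pk.H * Pk.νQ q / D.prior Es else 0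
  st := fun e => if h : D.wc nb (k6b_phys Pk q e) ∈ k6b_cellsF j M then some ⟨_, h⟩ else none
  bin := fun l => if h : D.vb nv l ∈ k6b_binsF j M then some ⟨_, h⟩ else none
  pal := fun J => J.elim 0 fun J => D.pal (k6aCube nv J.1)
  cen := fun J => Fin.cons 1 (J.elim 0 fun J a => ((J.1 a : ℝ) + 1 / 2) * k6aW nv)
  u0 := fun l => k6aU Pk.H zc (k6b_t0 Pk q, D.y l (k6b_t0 Pk q))
  vel := fun l => Fin.cons 1 (D.V l)
  x := fun e => D.X e.1 (k6b_t0 Pk q + Pk.H * e.2) / Pk.H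
  Lg := {l | l ∈ Pk.asg q ∧ Pk.H / Kl ≤ volume.real (D.fib Es l)}

/-- the exact-base cap at the width `a2` about an arbitrary measurable moving centre (density form; NOT a consequence of the cube caps `K6aPhys.capW`) -/
def k6b_Cap2 (D : K6aDat j) (Es : Set (D.L × ℝ)) (a2 Kc : ℝ) : Prop :=
  ∀ (U : Set (ℝ × (Fin j → ℝ))) (f : ℝ × (Fin j → ℝ) → ℝ), MeasurableSet U → Measurable f →
    D.prior (Es ∩ {e | D.base e ∈ U ∧ |D.X e.1 e.2 - f (D.base e)| ≤ a2}) ≤ ENNReal.ofReal Kc * volume U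

/-- **the hypotheses of the entry**.  Beyond `K6aField`: breadth constant `1/2^30`; the density cap `k6b_Cap2`.   The long lines have duration `≥ H/(64 K)` (`K6aField.line` with `K1 = 64 K`), so that the shorter lines
carry `≤ 1/64` of the mass.   NONDEGENERATE: `fld.pos`, `fld.mass` give `prior Es ≠ 0`, hence `Es.Nonempty`, `(E ∩ inc q).Nonempty`, `pk.ν_lo`. -/
structure k6b_EntryHyp (D : K6aDat j) (Pk : K6aPk D) (d k K εT a1 a2 w : ℝ) (nb nx nv Dg : ℕ)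
    (E Ep Es : Set (D.L × ℝ)) (g : K6aWc j → K6aRow j) (q : Pk.Q) (zc : ℝ × (Fin j → ℝ))
    (T : Fin (j + 1) → MvPolynomial (Fin (j + 1)) ℝ) : Prop where
  j12 : j = 1 ∨ j = 2
  K_ge : 1 ≤ K
  d_nonneg : 0 ≤ d
  a1_pos : 0 < a1
  a2_pos : 0 < a2
  εT_nonneg : 0 ≤ εT
  w_pos : 0 < w
  w_lo : 1 ≤ K * w
  wf : D.WF K
  pk : Pk.Ok d k K E
  E_time : E ⊆ Set.univ ×ˢ Set.Icc (0 : ℝ) 1
  Ep_sub : Ep ⊆ E
  fld : K6aField D Pk d K εT nb nx nv Dg a1 a2 (1 / 2 ^ 30) w Ep Es g q zc T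
  cap2 : k6b_Cap2 D Es a2 (K * a2 ^ d)

/-- the range of the indices -/
def k6b_M (K : ℝ) (nb nv : ℕ) : ℤ := ⌈3 * K * 2 ^ (nb + nv)⌉ + 1

/-- the counts of (6.29) -/
def k6b_Nc (j : ℕ) (K a a' d : ℝ) (nx : ℕ) : ℕ := ⌊K * ((2 : ℝ) ^ nx) ^ (j + 1) * (a / a') ^ d⌋₊

theorem k6b_entry_defs_cite : True := by
  have := @k6b_t0.eq_1
  have := @k6b_phys.eq_1
  have := @k6b_norm.eq_1
  have := @k6b_cellsF.eq_1
  have := @k6b_binsF.eq_1
  have := @k6b_swOf.eq_1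
  have := @k6b_Cap2.eq_1
  have := @k6b_M.eq_1
  have := @k6b_Nc.eq_1
  trivial

/-! ## 2. The entry -/

/-- **E0** change of variables.  (1) position, (2) law, (3) weighted duration, (4) the support.
PLAN.  (1) `Fin.cons` componentwise (`Fin.cases`), `field_simp`.  (2),(3): `withDensity_apply`, `Measure.prod` + `lintegral_prod`, for fixed `l` the map `τ ↦ t0 + H τ` scales Lebesgue measure by `H`
(`Measure.addHaar_preimage_smul` / `Real.volume_preimage_mul_left`, `measure_preimage_add`); `Es ⊆ asg q ×ˢ (blk q ∩ [0,1])`, `blk q = [t0, t0 + H)`. -/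
def k6b_sw_cov_stmt : Prop :=
  ∀ (j : ℕ) (D : K6aDat j) (Pk : K6aPk D) (q : Pk.Q) (zc : ℝ × (Fin j → ℝ)) (Es : Set (D.L × ℝ))
    (nb nv : ℕ) (Kl K : ℝ) (M : ℤ), D.WF K → MeasurableSet Es → MeasurableSet (Pk.asg q) →
    Es ⊆ Pk.inc q → Es ⊆ Set.univ ×ˢ Set.Icc (0 : ℝ) 1 → Pk.νQ q ≠ 0 → D.prior Es ≠ 0 →
    (∀ e, (k6b_swOf D Pk q zc Es nb nv Kl M).pos e = k6aU Pk.H zc (D.base (k6b_phys Pk q e))) ∧
    (∀ F : Set (D.L × ℝ), MeasurableSet F →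
      (k6b_swOf D Pk q zc Es nb nv Kl M).mu F = D.prior (Es ∩ k6b_norm Pk q ⁻¹' F) / D.prior Es) ∧
    (∀ (F : Set (D.L × ℝ)) (l : D.L), MeasurableSet F →
      (k6b_swOf D Pk q zc Es nb nv Kl M).durF F l =
        Pk.νQ q / D.prior Es * volume {t | (l, t) ∈ Es ∧ k6b_norm Pk q (l, t) ∈ F}) ∧
    (∀ e, e ∈ (k6b_swOf D Pk q zc Es nb nv Kl M).sup ↔ k6b_phys Pk q e ∈ Es)

/-- **E1** well-formedness, total prior, bounded density.   PLAN: E0(2) with `F = univ`; measurability of `wc`, `vb`, `X`, `y` from `D.WF`; `Lg`: `measurable_measure_prodMk_left`. -/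
def k6b_entry_wf_stmt : Prop :=
  ∀ (j : ℕ) (D : K6aDat j) (Pk : K6aPk D) (d k K εT a1 a2 w : ℝ) (nb nx nv Dg : ℕ)
    (E Ep Es : Set (D.L × ℝ)) (g : K6aWc j → K6aRow j) (q : Pk.Q) (zc : ℝ × (Fin j → ℝ))
    (T : Fin (j + 1) → MvPolynomial (Fin (j + 1)) ℝ) (M : ℤ),
    k6b_EntryHyp D Pk d k K εT a1 a2 w nb nx nv Dg E Ep Es g q zc T →
    (k6b_swOf D Pk q zc Es nb nv (64 * K) M).WF ∧
    (k6b_swOf D Pk q zc Es nb nv (64 * K) M).nu Set.univ ≤ ENNReal.ofReal K ∧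
    ∀ e, (k6b_swOf D Pk q zc Es nb nv (64 * K) M).g e ≤ ENNReal.ofReal K

/-- **E2** the probabilistic hypotheses.
PLAN.  `long_mass`: E0(2); the lines of duration `< H/(64K)` carry `prior ≤ ν_Q H/(64K) ≤ prior(Es)/64` (`fld.mass`).  `long_dens`: E0(3) with `F = univ`.  `pal_dom`: `K6aField.dom`; the state `none` is `mu`-null, the bin `none` is empty
(all indices are `≤ k6b_M`: `D.WF.bd`, `t ∈ [0,1]`).  `strip`: `a = (a₀, a')`.  If `|a'|₂ < 1/(4K)`: `|a₀| ≥ 1`, `|a'·V| ≤ 1/2`: the strip is empty.  Otherwise `n = a'/|a'|₂`, the strip lies in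
`{|n·V + a₀/|a'|₂| ≤ 4K w'} ⊆ {.. ≤ w}` for `w' = 1/(4K²)`; `K6aField.broad`. -/
def k6b_entry_chain_stmt : Prop :=
  ∀ (j : ℕ) (D : K6aDat j) (Pk : K6aPk D) (d k K εT a1 a2 w : ℝ) (nb nx nv Dg : ℕ)
    (E Ep Es : Set (D.L × ℝ)) (g : K6aWc j → K6aRow j) (q : Pk.Q) (zc : ℝ × (Fin j → ℝ))
    (T : Fin (j + 1) → MvPolynomial (Fin (j + 1)) ℝ),
    k6b_EntryHyp D Pk d k K εT a1 a2 w nb nx nv Dg E Ep Es g q zc T →
    (k6b_swOf D Pk q zc Es nb nv (64 * K) (k6b_M K nb nv)).Chain (ENNReal.ofReal (64 * K ^ 2)) (1 / 2 ^ 30) (1 / 64)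
      (1 / (4 * K ^ 2))

/-- **E3** the geometric hypotheses.
PLAN.  `box0`, `box`: `K6aField.u_bd` (the end point `τ = 1` by continuity: closed condition).  `velb`: `D.WF.bd`.  `close`: two points of one dyadic cell of level `nb` differ by `≤ (1/2)^nb`.  `bins`: half a cube.
`fit`: `x(τ) = X(t0 + Hτ)/H` has derivative `Xd`; `K6aField.line` with `K1 = 64 K`; `intervalIntegral.norm_integral_le_of_norm_le_const`. -/
def k6b_entry_geo_stmt : Prop :=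
  ∀ (j : ℕ) (D : K6aDat j) (Pk : K6aPk D) (d k K εT a1 a2 w : ℝ) (nb nx nv Dg : ℕ)
    (E Ep Es : Set (D.L × ℝ)) (g : K6aWc j → K6aRow j) (q : Pk.Q) (zc : ℝ × (Fin j → ℝ))
    (T : Fin (j + 1) → MvPolynomial (Fin (j + 1)) ℝ),
    k6b_EntryHyp D Pk d k K εT a1 a2 w nb nx nv Dg E Ep Es g q zc T →
    (k6b_swOf D Pk q zc Es nb nv (64 * K) (k6b_M K nb nv)).Geo T (K + 1) (k6aW nb / Pk.H) (k6aW nv) (K * (64 * K) ^ (Dg + 1) * εT) ∧
    (∀ l, (k6b_swOf D Pk q zc Es nb nv (64 * K) (k6b_M K nb nv)).vel l 0 = 1) ∧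
    (∀ J, (k6b_swOf D Pk q zc Es nb nv (64 * K) (k6b_M K nb nv)).cen J 0 = 1) ∧
    ∀ l, ∃ x0 x1 x2 : ℝ, ∀ τ, (k6b_swOf D Pk q zc Es nb nv (64 * K) (k6b_M K nb nv)).x (l, τ) = x0 + x1 * τ + x2 * τ ^ 2

/-- **E4** densities and counts.
PLAN.  `u = k6aU H zc z` is affine with Jacobian `H^{-(j+1)}`; `volume` on `ℝ × (Fin j → ℝ)` versus `Fin (j+1) → ℝ`: `MeasureTheory.volume_preserving_piFinSuccAbove`.  `dens`: `K6aPk.Ok.capQ`, `K6aField.mass`.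
`cells`, `cells2`: `K6aField.joint1/2` (`u/(1/2)^nx = u 2^nx`, `(X/H)/(a_i/H) = X/a_i`).  `pal_sum`: disjoint cubes, `pal_le`.  `cap2`: `k6b_Cap2` with `f = H φ(k6aU ..)`, `K6aPk.Ok.ν_lo`, `K6aField.mass`. -/
def k6b_entry_supp_stmt : Prop :=
  ∀ (j : ℕ) (D : K6aDat j) (Pk : K6aPk D) (d k K εT a1 a2 w : ℝ) (nb nx nv Dg : ℕ)
    (E Ep Es : Set (D.L × ℝ)) (g : K6aWc j → K6aRow j) (q : Pk.Q) (zc : ℝ × (Fin j → ℝ))
    (T : Fin (j + 1) → MvPolynomial (Fin (j + 1)) ℝ),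
    k6b_EntryHyp D Pk d k K εT a1 a2 w nb nx nv Dg E Ep Es g q zc T →
    (k6b_swOf D Pk q zc Es nb nv (64 * K) (k6b_M K nb nv)).Supp (K ^ 2) (k6aW nx) (a1 / Pk.H) (k6b_Nc j K Pk.a a1 d nx) ∧
    (∃ S : Finset ((Fin (j + 1) → ℤ) × ℤ), S.card ≤ k6b_Nc j K Pk.a a2 d nx ∧
      ∀ e ∈ (k6b_swOf D Pk q zc Es nb nv (64 * K) (k6b_M K nb nv)).sup,
        ((fun i => ⌊(k6b_swOf D Pk q zc Es nb nv (64 * K) (k6b_M K nb nv)).pos e i / k6aW nx⌋),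
          ⌊(k6b_swOf D Pk q zc Es nb nv (64 * K) (k6b_M K nb nv)).x e / (a2 / Pk.H)⌋) ∈ S) ∧
    (∀ (φ : MvPolynomial (Fin (j + 1)) ℝ) (B : Set (Fin (j + 1) → ℝ)), MeasurableSet B →
      (k6b_swOf D Pk q zc Es nb nv (64 * K) (k6b_M K nb nv)).mu
          {e | (k6b_swOf D Pk q zc Es nb nv (64 * K) (k6b_M K nb nv)).pos e ∈ B ∧
            |(k6b_swOf D Pk q zc Es nb nv (64 * K) (k6b_M K nb nv)).x e
              - eval ((k6b_swOf D Pk q zc Es nb nv (64 * K) (k6b_M K nb nv)).pos e) φ| ≤ a2 / Pk.H}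
        ≤ ENNReal.ofReal (K ^ 3 * (a2 / Pk.a) ^ d) * volume B) ∧
    (k6b_Nc j K Pk.a a2 d nx : ℝ) * k6aW nx ^ (j + 1) * (a2 / Pk.a) ^ d ≤ K

/-- **E = THE ENTRY**: glue of E1-E4 (monotonicity of all clauses in the slack; `rmzNm (T i) ≤ (number of monomials of degree ≤ Dg) * K`). -/
def k6b_entry_stmt : Prop :=
  ∀ (j Dg : ℕ), ∃ c : ℕ, ∀ (D : K6aDat j) (Pk : K6aPk D) (d k K εT a1 a2 w : ℝ) (nb nx nv : ℕ)
    (E Ep Es : Set (D.L × ℝ)) (g : K6aWc j → K6aRow j) (q : Pk.Q) (zc : ℝ × (Fin j → ℝ))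
    (T : Fin (j + 1) → MvPolynomial (Fin (j + 1)) ℝ),
    k6b_EntryHyp D Pk d k K εT a1 a2 w nb nx nv Dg E Ep Es g q zc T →
    (k6b_swOf D Pk q zc Es nb nv (64 * K) (k6b_M K nb nv)).Ctx T Dg (c * K ^ c) (k6aW nb / Pk.H) (k6aW nv) (K * (64 * K) ^ (Dg + 1) * εT)
      (k6aW nx) (a1 / Pk.H) (a2 / Pk.H) ((a2 / Pk.a) ^ d) (k6b_Nc j K Pk.a a1 d nx) (k6b_Nc j K Pk.a a2 d nx)

/-! ## 3. Tests: `KbQuad` ↔ `k6b_QW`, `MvPolynomial` -/

/-- **Q1** a quadratic test of version 2 in the coordinates `(u, w)`, `z = zc + h u`. -/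
def k6b_qw_of_quad_stmt : Prop :=
  ∀ (Q : KbQuad KbVer.two) (h : ℝ) (zc : ℝ × (Fin 2 → ℝ)), ∃ W : k6b_QW, W.Quad ∧
    ∀ (u : Fin 3 → ℝ) (w : ℝ), W.ev u w = Q.ev (zc.1 + h * u 0) (fun a => zc.2 a + h * u a.succ) w

/-- **Q2** back: a `k6b_QW` of degree `≤ 2` in `u = k6aU h zc (t, y)` is a quadratic test.
PLAN: a polynomial of total degree `≤ 2` in three variables is `c + ∑ b_i u_i + ∑ m_ik u_i u_k` (values/partials at `0`, or `MvPolynomial.as_sum` + `Finsupp` of degree `≤ 2`). -/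
def k6b_quad_of_qw_stmt : Prop :=
  ∀ (W : k6b_QW) (h : ℝ) (zc : ℝ × (Fin 2 → ℝ)), W.Quad → ∃ Q : KbQuad KbVer.two,
    ∀ (t : ℝ) (y : Fin 2 → ℝ) (w : ℝ), Q.ev t y w = W.ev (k6aU h zc (t, y)) w

/-- **Q3** the same in version 1 for `w - h P2(u)`. -/
def k6b_quad_of_p2_stmt : Prop :=
  ∀ (P2 : MvPolynomial (Fin 2) ℝ) (h : ℝ) (zc : ℝ × (Fin 1 → ℝ)), P2.totalDegree ≤ 2 →
    ∃ Q : KbQuad KbVer.one, ∀ (t : ℝ) (y : Fin 1 → ℝ) (w : ℝ),
      Q.ev t y w = w - h * eval (k6aU h zc (t, y)) P2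

end

end Claimed.Agent.R252
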