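import Claimed.Agent.R252.S6b.EntryDefs

/-!
# Row252, unit S6b, leaf E3: the geometric hypotheses of the switching system of a packet   (helper140; prefix `k6b_eg_`)

`k6b_entry_geo_of : k6b_sw_cov_stmt → k6b_entry_geo_stmt`.
-/

set_option autoImplicit false

namespace Claimed.Agent.R252

open MeasureTheory MvPolynomial
open scoped ENNReal BigOperators

noncomputable section

variable {j : ℕ}

/-! ## 1. dyadic bins -/

theorem k6b_eg_W_pos (i : ℕ) : 0 < k6aW i := by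
  unfold k6aW
  positivity

theorem k6b_eg_W_mul (i : ℕ) : k6aW i * 2 ^ i = 1 := by
  unfold k6aW
  rw [← mul_pow]
  norm_num

theorem k6b_eg_H_pos {D : K6aDat j} (Pk : K6aPk D) : 0 < Pk.H := k6b_eg_W_pos _

/-- two points of one bin are close -/
theorem k6b_eg_bin_close (i : ℕ) (x y : ℝ) (h : k6aBin i x = k6aBin i y) : |x - y| ≤ k6aW i := by
  unfold k6aBin at h
  have hW := k6b_eg_W_mul i
  have hp : (0 : ℝ) < 2 ^ i := by positivity
  have h1 := Int.floor_le (x * 2 ^ i)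
  have h2 := Int.lt_floor_add_one (x * 2 ^ i)
  have h3 := Int.floor_le (y * 2 ^ i)
  have h4 := Int.lt_floor_add_one (y * 2 ^ i)
  rw [h] at h1 h2
  have e2 : (x - y) * 2 ^ i = x * 2 ^ i - y * 2 ^ i := by ring
  rw [abs_le]
  constructor
  · have h5 : (-(k6aW i)) * 2 ^ i ≤ (x - y) * 2 ^ i := by
      rw [neg_mul, hW, e2]
      linarith
    exact le_of_mul_le_mul_right h5 hp
  · have h5 : (x - y) * 2 ^ i ≤ k6aW i * 2 ^ i := by
      rw [hW, e2]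
      linarith
    exact le_of_mul_le_mul_right h5 hp

/-- the centre of the bin is close -/
theorem k6b_eg_bin_cen (i : ℕ) (x : ℝ) : |x - ((k6aBin i x : ℝ) + 1 / 2) * k6aW i| ≤ k6aW i := by
  unfold k6aBin
  have hW := k6b_eg_W_mul i
  have hp : (0 : ℝ) < 2 ^ i := by positivity
  have h1 := Int.floor_le (x * 2 ^ i)
  have h2 := Int.lt_floor_add_one (x * 2 ^ i)
  have e2 : (x - ((⌊x * 2 ^ i⌋ : ℝ) + 1 / 2) * k6aW i) * 2 ^ i = x * 2 ^ i - ((⌊x * 2 ^ i⌋ : ℝ) + 1 / 2) := by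
    linear_combination (-((⌊x * 2 ^ i⌋ : ℝ) + 1 / 2)) * hW
  rw [abs_le]
  constructor
  · have h5 : (-(k6aW i)) * 2 ^ i ≤ (x - ((⌊x * 2 ^ i⌋ : ℝ) + 1 / 2) * k6aW i) * 2 ^ i := by
      rw [neg_mul, hW, e2]
      linarith
    exact le_of_mul_le_mul_right h5 hp
  · have h5 : (x - ((⌊x * 2 ^ i⌋ : ℝ) + 1 / 2) * k6aW i) * 2 ^ i ≤ k6aW i * 2 ^ i := by
      rw [hW, e2]
      linarith
    exact le_of_mul_le_mul_right h5 hp

/-- the range of the indices -/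
theorem k6b_eg_bin_range (K : ℝ) (hK : 1 ≤ K) (nb nv i : ℕ) (hi : i ≤ nb + nv) (x : ℝ) (hx : |x| ≤ 3 * K) :
    k6aBin i x ∈ Finset.Icc (-(k6b_M K nb nv)) (k6b_M K nb nv) := by
  unfold k6aBin k6b_M
  have hp : (0 : ℝ) < 2 ^ i := by positivity
  have hpp : (2 : ℝ) ^ i ≤ 2 ^ (nb + nv) := pow_le_pow_right₀ (by norm_num) hi
  have hc := Int.le_ceil (3 * K * 2 ^ (nb + nv))
  have h3 : 3 * K * 2 ^ i ≤ 3 * K * 2 ^ (nb + nv) := by
    have : 0 ≤ 3 * K := by linarith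
    exact mul_le_mul_of_nonneg_left hpp this
  obtain ⟨hx1, hx2⟩ := abs_le.1 hx
  have h4 : x * 2 ^ i ≤ 3 * K * 2 ^ i := mul_le_mul_of_nonneg_right hx2 hp.le
  have h5 : -(3 * K) * 2 ^ i ≤ x * 2 ^ i := mul_le_mul_of_nonneg_right hx1 hp.le
  rw [Finset.mem_Icc]
  constructor
  · rw [Int.le_floor]
    push_cast
    linarith
  · have h6 := Int.floor_le (x * 2 ^ i)
    have h7 : ((⌊x * 2 ^ i⌋ : ℤ) : ℝ) ≤ ((⌈3 * K * 2 ^ (nb + nv)⌉ + 1 : ℤ) : ℝ) := by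
      push_cast
      linarith
    exact_mod_cast h7

/-! ## 2. bounds of the record -/

theorem k6b_eg_coord {n : ℕ} (v : Fin n → ℝ) (a : Fin n) : |v a| ≤ ‖v‖ := by
  rw [← Real.norm_eq_abs]
  exact norm_le_pi_norm v a

theorem k6b_eg_y_bd (D : K6aDat j) (K : ℝ) (h : D.WF K) (l : D.L) (t : ℝ) (ht : t ∈ Set.Icc (0 : ℝ) 1) (a : Fin j) :
    |D.y l t a| ≤ 3 * K := by
  obtain ⟨h1, h2, -⟩ := h.bd l
  have h3 := (k6b_eg_coord (D.y0 l) a).trans h1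
  have h4 := (k6b_eg_coord (D.V l) a).trans h2
  have e : D.y l t a = D.y0 l a + t * D.V l a := rfl
  rw [e]
  have h5 : |t * D.V l a| ≤ 1 * K := by
    rw [abs_mul]
    exact mul_le_mul (by rw [abs_of_nonneg ht.1]; exact ht.2) h4 (abs_nonneg _) (by norm_num)
  have h6 := abs_add_le (D.y0 l a) (t * D.V l a)
  have : 0 ≤ K := (abs_nonneg _).trans h3
  linarith

theorem k6b_eg_X_bd (D : K6aDat j) (K : ℝ) (h : D.WF K) (l : D.L) (t : ℝ) (ht : t ∈ Set.Icc (0 : ℝ) 1) :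
    |D.X l t| ≤ 3 * K := by
  obtain ⟨-, -, h1⟩ := h.bd l
  have h3 := (k6b_eg_coord (D.xc l) 0).trans h1
  have h4 := (k6b_eg_coord (D.xc l) 1).trans h1
  have h5 := (k6b_eg_coord (D.xc l) 2).trans h1
  unfold K6aDat.X
  have ht1 : |t| ≤ 1 := by rw [abs_of_nonneg ht.1]; exact ht.2
  have h6 : |D.xc l 1 * t| ≤ K * 1 := by
    rw [abs_mul]
    exact mul_le_mul h4 ht1 (abs_nonneg _) ((abs_nonneg _).trans h4)
  have h7 : |D.xc l 2 * t ^ 2| ≤ K * 1 := by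
    rw [abs_mul, abs_pow]
    exact mul_le_mul h5 (pow_le_one₀ (abs_nonneg _) ht1) (by positivity) ((abs_nonneg _).trans h5)
  have h8 := abs_add_le (D.xc l 0 + D.xc l 1 * t) (D.xc l 2 * t ^ 2)
  have h9 := abs_add_le (D.xc l 0) (D.xc l 1 * t)
  linarith

theorem k6b_eg_wc_mem (D : K6aDat j) (K : ℝ) (hK : 1 ≤ K) (h : D.WF K) (nb nv : ℕ) (e : D.L × ℝ)
    (ht : e.2 ∈ Set.Icc (0 : ℝ) 1) : D.wc nb e ∈ k6b_cellsF j (k6b_M K nb nv) := by
  unfold k6b_cellsF K6aDat.wc K6aDat.zc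
  have hi : nb ≤ nb + nv := Nat.le_add_right _ _
  rw [Finset.mem_product, Finset.mem_product]
  refine ⟨⟨?_, ?_⟩, ?_⟩
  · refine k6b_eg_bin_range K hK nb nv nb hi _ ?_
    rw [abs_of_nonneg ht.1]
    linarith [ht.2]
  · rw [Fintype.mem_piFinset]
    intro a
    exact k6b_eg_bin_range K hK nb nv nb hi _ (k6b_eg_y_bd D K h e.1 e.2 ht a)
  · exact k6b_eg_bin_range K hK nb nv nb hi _ (k6b_eg_X_bd D K h e.1 e.2 ht)

theorem k6b_eg_vb_mem (D : K6aDat j) (K : ℝ) (hK : 1 ≤ K) (h : D.WF K) (nb nv : ℕ) (l : D.L) :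
    D.vb nv l ∈ k6b_binsF j (k6b_M K nb nv) := by
  unfold k6b_binsF K6aDat.vb
  rw [Fintype.mem_piFinset]
  intro a
  refine k6b_eg_bin_range K hK nb nv nv (Nat.le_add_left _ _) _ ?_
  have := (k6b_eg_coord (D.V l) a).trans (h.bd l).2.1
  linarith

/-! ## 3. states and bins of the switching system -/

theorem k6b_eg_st_inj (D : K6aDat j) (Pk : K6aPk D) (q : Pk.Q) (zc : ℝ × (Fin j → ℝ)) (Es : Set (D.L × ℝ))
    (nb nv : ℕ) (Kl : ℝ) (M : ℤ) (e e' : D.L × ℝ) (h : D.wc nb (k6b_phys Pk q e) ∈ k6b_cellsF j M)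
    (hs : (k6b_swOf D Pk q zc Es nb nv Kl M).st e = (k6b_swOf D Pk q zc Es nb nv Kl M).st e') :
    D.wc nb (k6b_phys Pk q e) = D.wc nb (k6b_phys Pk q e') := by
  have h1 : (k6b_swOf D Pk q zc Es nb nv Kl M).st e = some ⟨_, h⟩ := dif_pos h
  by_cases h' : D.wc nb (k6b_phys Pk q e') ∈ k6b_cellsF j M
  · have h2 : (k6b_swOf D Pk q zc Es nb nv Kl M).st e' = some ⟨_, h'⟩ := dif_pos h'
    rw [h1, h2] at hs
    exact congrArg Subtype.val (Option.some.inj hs)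
  · have h2 : (k6b_swOf D Pk q zc Es nb nv Kl M).st e' = none := dif_neg h'
    rw [h1, h2] at hs
    cases hs

theorem k6b_eg_cen (D : K6aDat j) (Pk : K6aPk D) (q : Pk.Q) (zc : ℝ × (Fin j → ℝ)) (Es : Set (D.L × ℝ))
    (nb nv : ℕ) (Kl : ℝ) (M : ℤ) (l : D.L) (h : D.vb nv l ∈ k6b_binsF j M) :
    (k6b_swOf D Pk q zc Es nb nv Kl M).cen ((k6b_swOf D Pk q zc Es nb nv Kl M).bin l)
      = Fin.cons 1 (fun a => ((D.vb nv l a : ℝ) + 1 / 2) * k6aW nv) := by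
  have h1 : (k6b_swOf D Pk q zc Es nb nv Kl M).bin l = some ⟨_, h⟩ := dif_pos h
  rw [h1]
  rfl

/-! ## 4. the block -/

theorem k6b_eg_blk {D : K6aDat j} (Pk : K6aPk D) (q : Pk.Q) (τ : ℝ) (hτ : τ ∈ Set.Ico (0 : ℝ) 1) :
    k6b_t0 Pk q + Pk.H * τ ∈ Pk.blk q := by
  have h1 : (k6b_t0 Pk q + Pk.H * τ) * 2 ^ Pk.lev = (Pk.iv q : ℝ) + τ := by
    unfold k6b_t0
    have : Pk.H * 2 ^ Pk.lev = 1 := k6b_eg_W_mul _
    linear_combination ((Pk.iv q : ℝ) + τ) * this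
  show k6aBin Pk.lev (k6b_t0 Pk q + Pk.H * τ) = Pk.iv q
  unfold k6aBin
  rw [h1, Int.floor_eq_iff]
  exact ⟨by linarith [hτ.1], by linarith [hτ.2]⟩

/-! ## 5. the fundamental theorem along a line -/

theorem k6b_eg_hasDeriv (D : K6aDat j) (l : D.L) (t0 H : ℝ) (hH : H ≠ 0) (τ : ℝ) :
    HasDerivAt (fun τ => D.X l (t0 + H * τ) / H) (D.Xd l (t0 + H * τ)) τ := by
  unfold K6aDat.X K6aDat.Xd
  have h1 : HasDerivAt (fun τ : ℝ => t0 + H * τ) H τ := by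
    simpa using ((hasDerivAt_id τ).const_mul H).const_add t0
  have h2 := (((h1.const_mul (D.xc l 1)).const_add (D.xc l 0)).add ((h1.pow 2).const_mul (D.xc l 2))).div_const H
  have h3 : HasDerivAt (fun τ => (D.xc l 0 + D.xc l 1 * (t0 + H * τ) + D.xc l 2 * (t0 + H * τ) ^ 2) / H)
      ((D.xc l 1 * H + D.xc l 2 * (((2 : ℕ) : ℝ) * (t0 + H * τ) ^ (2 - 1) * H)) / H) τ := h2
  refine h3.congr_deriv ?_
  rw [div_eq_iff hH]
  norm_num
  ring

theorem k6b_eg_fld_dot (T : Fin (j + 1) → MvPolynomial (Fin (j + 1)) ℝ) (u : Fin (j + 1) → ℝ) (V : Fin j → ℝ) :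
    k6b_fld T u ⬝ᵥ (Fin.cons 1 V : Fin (j + 1) → ℝ) = k6aAt (k6aFld T u) V := by
  unfold k6b_fld k6aAt k6aFld dotProduct
  rw [Fin.sum_univ_succ]
  simp [Fin.cons_zero, Fin.cons_succ]

theorem k6b_eg_cont {m : ℕ} (T : Fin m → MvPolynomial (Fin m) ℝ) (u0 v w : Fin m → ℝ) :
    Continuous fun τ : ℝ => k6b_fld T (u0 + τ • v) ⬝ᵥ w := by
  unfold k6b_fld dotProduct
  refine continuous_finsetSum _ fun i _ => ?_
  exact ((MvPolynomial.continuous_eval (T i)).comp (by fun_prop)).mul continuous_const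

theorem k6b_eg_ftc (F F' G : ℝ → ℝ) (C : ℝ) (hF : ∀ τ, HasDerivAt F (F' τ) τ) (hF' : Continuous F')
    (hG : Continuous G) (hb : ∀ τ ∈ Set.Ico (0 : ℝ) 1, |F' τ - G τ| ≤ C) (τ₁ τ₂ : ℝ)
    (h1 : τ₁ ∈ Set.Icc (0 : ℝ) 1) (h2 : τ₂ ∈ Set.Icc (0 : ℝ) 1) :
    |F τ₂ - F τ₁ - ∫ τ in τ₁..τ₂, G τ| ≤ C := by
  have hC : 0 ≤ C := le_trans (abs_nonneg _) (hb 0 ⟨le_rfl, one_pos⟩)
  have hb' : ∀ τ ∈ Set.Icc (0 : ℝ) 1, |F' τ - G τ| ≤ C := by
    have hcl : IsClosed {τ | |F' τ - G τ| ≤ C} := isClosed_le (by fun_prop) continuous_const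
    have := closure_minimal (show Set.Ico (0 : ℝ) 1 ⊆ {τ | |F' τ - G τ| ≤ C} from hb) hcl
    rwa [closure_Ico (by norm_num)] at this
  have e1 : ∫ τ in τ₁..τ₂, F' τ = F τ₂ - F τ₁ :=
    intervalIntegral.integral_eq_sub_of_hasDerivAt (fun τ _ => hF τ) (hF'.intervalIntegrable _ _)
  rw [← e1, ← intervalIntegral.integral_sub (hF'.intervalIntegrable _ _) (hG.intervalIntegrable _ _)]
  have h3 : ∀ x ∈ Set.uIoc τ₁ τ₂, ‖F' x - G x‖ ≤ C := by
    intro x hx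
    rw [Real.norm_eq_abs]
    apply hb'
    rcases Set.mem_uIoc.1 hx with h | h
    · exact ⟨by linarith [h1.1, h.1], by linarith [h2.2, h.2]⟩
    · exact ⟨by linarith [h2.1, h.1], by linarith [h1.2, h.2]⟩
  have h4 := intervalIntegral.norm_integral_le_of_norm_le_const h3
  rw [Real.norm_eq_abs] at h4
  calc _ ≤ C * |τ₂ - τ₁| := h4
    _ ≤ C * 1 := by
        refine mul_le_mul_of_nonneg_left ?_ hC
        rw [abs_le]
        constructor <;> linarith [h1.1, h1.2, h2.1, h2.2]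
    _ = C := mul_one _

theorem k6b_eg_Xd_cont (D : K6aDat j) (l : D.L) (t0 H : ℝ) : Continuous fun τ : ℝ => D.Xd l (t0 + H * τ) := by
  unfold K6aDat.Xd
  fun_prop

/-! ## 6. vectors `Fin.cons` -/

theorem k6b_eg_cons_norm {n : ℕ} (x : ℝ) (v : Fin n → ℝ) (C : ℝ) (hC : 0 ≤ C) (hx : |x| ≤ C) (hv : ∀ a, |v a| ≤ C) :
    ‖(Fin.cons x v : Fin (n + 1) → ℝ)‖ ≤ C := by
  rw [pi_norm_le_iff_of_nonneg hC]
  intro i
  refine Fin.cases ?_ (fun a => ?_) i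
  · rw [Fin.cons_zero, Real.norm_eq_abs]
    exact hx
  · rw [Fin.cons_succ, Real.norm_eq_abs]
    exact hv a

theorem k6b_eg_cons_sub {n : ℕ} (x x' : ℝ) (v v' : Fin n → ℝ) :
    (Fin.cons x v : Fin (n + 1) → ℝ) - Fin.cons x' v' = Fin.cons (x - x') (fun a => v a - v' a) := by
  funext i
  refine Fin.cases ?_ (fun a => ?_) i
  · simp only [Pi.sub_apply, Fin.cons_zero]
  · simp only [Pi.sub_apply, Fin.cons_succ]

theorem k6b_eg_U_sub (H : ℝ) (zc z z' : ℝ × (Fin j → ℝ)) :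
    k6aU H zc z - k6aU H zc z' = Fin.cons ((z.1 - z'.1) / H) (fun a => (z.2 a - z'.2 a) / H) := by
  unfold k6aU
  rw [k6b_eg_cons_sub]
  congr 1
  · ring
  · funext a
    ring

theorem k6b_eg_div_le (x W H : ℝ) (hH : 0 < H) (hx : |x| ≤ W) : |x / H| ≤ W / H := by
  rw [abs_div, abs_of_pos hH]
  exact div_le_div_of_nonneg_right hx hH.le

/-! ## 7. the leaf -/

theorem k6b_entry_geo_of : k6b_sw_cov_stmt → k6b_entry_geo_stmt := by
  intro hcov j D Pk d k K εT a1 a2 w nb nx nv Dg E Ep Es g q zc T h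
  have hK := h.K_ge
  have hK0 : (0 : ℝ) ≤ K := by linarith
  have hH := k6b_eg_H_pos Pk
  have hsub : Es ⊆ Pk.inc q := fun e he => (h.fld.Es_sub he).2
  have htime : Es ⊆ Set.univ ×ˢ Set.Icc (0 : ℝ) 1 := fun e he => h.E_time (h.Ep_sub (h.fld.Es_sub he).1)
  have hprior : D.prior Es ≠ 0 := by
    intro h0
    have := h.fld.mass
    rw [h0, mul_zero, nonpos_iff_eq_zero, mul_eq_zero] at this
    rcases this with h1 | h1
    · exact absurd (ENNReal.ofReal_eq_zero.1 h1) (not_le.2 hH)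
    · exact h.fld.pos h1
  obtain ⟨cov1, -, -, cov4⟩ := hcov j D Pk q zc Es nb nv (64 * K) K (k6b_M K nb nv) h.wf h.fld.Es_meas
    (h.pk.asg_meas q) hsub htime h.fld.pos hprior
  set Y := k6b_swOf D Pk q zc Es nb nv (64 * K) (k6b_M K nb nv) with hY
  have hvelK : ∀ l, ‖Y.vel l‖ ≤ K := by
    intro l
    show ‖(Fin.cons 1 (D.V l) : Fin (j + 1) → ℝ)‖ ≤ K
    refine k6b_eg_cons_norm _ _ _ hK0 (by rw [abs_one]; exact hK) fun a => ?_
    exact (k6b_eg_coord (D.V l) a).trans (h.wf.bd l).2.1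
  have hboxI : ∀ l ∈ Pk.asg q, ∀ τ ∈ Set.Ico (0 : ℝ) 1, ‖Y.pos (l, τ)‖ ≤ K := by
    intro l hl τ hτ
    rw [cov1]
    exact h.fld.u_bd l hl _ (k6b_eg_blk Pk q τ hτ)
  refine ⟨⟨?_, ?_, ?_, ?_, ?_, ?_⟩, fun l => rfl, fun J => rfl, ?_⟩
  · -- box0
    intro e he
    have he' := (cov4 e).1 he
    rw [cov1]
    have := h.fld.u_bd _ (hsub he').1 _ (hsub he').2
    exact this.trans (by linarith)
  · -- box
    intro l hl τ hτ
    rcases lt_or_eq_of_le hτ.2 with h1 | h1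
    · exact (hboxI l hl.1 τ ⟨hτ.1, h1⟩).trans (by linarith)
    · subst h1
      have hKp : 0 < K := by linarith
      have e1 : Y.pos (l, 1) = Y.pos (l, 1 - 1 / K) + (1 / K) • Y.vel l := by
        show Y.u0 l + (1 : ℝ) • Y.vel l = (Y.u0 l + (1 - 1 / K) • Y.vel l) + (1 / K) • Y.vel l
        rw [add_assoc, ← add_smul]
        congr 2
        ring
      have h2 : (1 : ℝ) / K ≤ 1 := by
        rw [div_le_one hKp]
        exact hK
      have h3 : 0 < (1 : ℝ) / K := by positivity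
      have h4 := hboxI l hl.1 (1 - 1 / K) ⟨by linarith, by linarith⟩
      have h5 : ‖(1 / K) • Y.vel l‖ ≤ 1 := by
        rw [norm_smul, Real.norm_eq_abs, abs_of_pos h3]
        calc 1 / K * ‖Y.vel l‖ ≤ 1 / K * K := mul_le_mul_of_nonneg_left (hvelK l) h3.le
          _ = 1 := by field_simp
      rw [e1]
      exact (norm_add_le _ _).trans (by linarith)
  · -- velb
    intro l
    exact (hvelK l).trans (by linarith)
  · -- close
    intro e he e' he' hs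
    have h1 := (cov4 e).1 he
    have h1' := (cov4 e').1 he'
    have hw := k6b_eg_st_inj D Pk q zc Es nb nv (64 * K) (k6b_M K nb nv) e e'
      (k6b_eg_wc_mem D K hK h.wf nb nv _ (htime h1).2) hs
    have ht : k6aBin nb (k6b_phys Pk q e).2 = k6aBin nb (k6b_phys Pk q e').2 := congrArg (fun c => c.1.1) hw
    have hy : k6aVBin nb (D.y e.1 (k6b_phys Pk q e).2) = k6aVBin nb (D.y e'.1 (k6b_phys Pk q e').2) :=
      congrArg (fun c => c.1.2) hw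
    have hX : k6aBin nb (D.X e.1 (k6b_phys Pk q e).2) = k6aBin nb (D.X e'.1 (k6b_phys Pk q e').2) :=
      congrArg (fun c => c.2) hw
    have ht' := k6b_eg_bin_close nb _ _ ht
    have hX' := k6b_eg_bin_close nb _ _ hX
    have hβ : 0 ≤ k6aW nb / Pk.H := div_nonneg (k6b_eg_W_pos nb).le hH.le
    refine ⟨?_, ?_, ?_⟩
    · rw [cov1, cov1, k6b_eg_U_sub]
      refine k6b_eg_cons_norm _ _ _ hβ (k6b_eg_div_le _ _ _ hH ht') fun a => k6b_eg_div_le _ _ _ hH ?_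
      exact k6b_eg_bin_close nb _ _ (congrFun hy a)
    · show |D.X e.1 (k6b_phys Pk q e).2 / Pk.H - D.X e'.1 (k6b_phys Pk q e').2 / Pk.H| ≤ _
      rw [← sub_div]
      exact k6b_eg_div_le _ _ _ hH hX'
    · have e1 : e.2 - e'.2 = ((k6b_phys Pk q e).2 - (k6b_phys Pk q e').2) / Pk.H := by
        unfold k6b_phys
        field_simp
        ring
      rw [e1]
      exact k6b_eg_div_le _ _ _ hH ht'
  · -- bins
    intro l
    rw [k6b_eg_cen D Pk q zc Es nb nv (64 * K) (k6b_M K nb nv) l (k6b_eg_vb_mem D K hK h.wf nb nv l)]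
    show ‖(Fin.cons 1 (D.V l) : Fin (j + 1) → ℝ) - _‖ ≤ _
    rw [k6b_eg_cons_sub]
    refine k6b_eg_cons_norm _ _ _ (k6b_eg_W_pos nv).le ?_ fun a => ?_
    · rw [sub_self, abs_zero]
      exact (k6b_eg_W_pos nv).le
    · exact k6b_eg_bin_cen nv (D.V l a)
  · -- fit
    intro l hl τ₁ h1 τ₂ h2
    refine k6b_eg_ftc (fun τ => D.X l (k6b_t0 Pk q + Pk.H * τ) / Pk.H) (fun τ => D.Xd l (k6b_t0 Pk q + Pk.H * τ))
      (fun τ => k6b_fld T (Y.pos (l, τ)) ⬝ᵥ Y.vel l) _ (fun τ => k6b_eg_hasDeriv D l _ _ hH.ne' τ)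
      (k6b_eg_Xd_cont D l _ _) (k6b_eg_cont T (Y.u0 l) (Y.vel l) (Y.vel l)) ?_ τ₁ τ₂ h1 h2
    intro τ hτ
    have e1 : k6b_fld T (Y.pos (l, τ)) ⬝ᵥ Y.vel l
        = k6aAt (k6aFld T (k6aU Pk.H zc (k6b_t0 Pk q + Pk.H * τ, D.y l (k6b_t0 Pk q + Pk.H * τ)))) (D.V l) := by
      rw [cov1]
      exact k6b_eg_fld_dot T _ _
    show |D.Xd l (k6b_t0 Pk q + Pk.H * τ) - k6b_fld T (Y.pos (l, τ)) ⬝ᵥ Y.vel l| ≤ _
    rw [e1]
    exact h.fld.line (64 * K) (by linarith) l hl.2 _ (k6b_eg_blk Pk q τ hτ)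
  · -- quad
    intro l
    refine ⟨(D.xc l 0 + D.xc l 1 * k6b_t0 Pk q + D.xc l 2 * k6b_t0 Pk q ^ 2) / Pk.H,
      D.xc l 1 + 2 * D.xc l 2 * k6b_t0 Pk q, D.xc l 2 * Pk.H, fun τ => ?_⟩
    show D.X l (k6b_t0 Pk q + Pk.H * τ) / Pk.H = _
    unfold K6aDat.X
    field_simp
    ring

end

end Claimed.Agent.R252
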