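import Claimed.Agent.R252.S6b.EntryDefs

/-!
# Row252, unit S6b, part H, leaf E4: densities and counts of the switching system of a packet      (helper250)
`k6b_entry_supp_of : k6b_sw_cov_stmt → k6b_entry_supp_stmt`.
The degenerate case `ν_Q = 0` (then `g = 0`, `mu = 0`, `sup = ∅`) is treated separately.
-/

set_option autoImplicit false

namespace Claimed.Agent.R252

open MeasureTheory MvPolynomial
open scoped ENNReal BigOperators

noncomputable section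

variable {j : ℕ}

/-! ## 1. elementary facts -/

theorem k6b_es_W_pos (i : ℕ) : 0 < k6aW i := by
  unfold k6aW; positivity

theorem k6b_es_H_pos {D : K6aDat j} (Pk : K6aPk D) : 0 < Pk.H := k6b_es_W_pos _

theorem k6b_es_phys_norm {D : K6aDat j} (Pk : K6aPk D) (q : Pk.Q) (e : D.L × ℝ) : k6b_phys Pk q (k6b_norm Pk q e) = e := by
  have h := (k6b_es_H_pos Pk).ne'
  unfold k6b_phys k6b_norm
  refine Prod.ext rfl ?_
  simp only
  field_simp
  ring

theorem k6b_es_meas_U (h : ℝ) (zc : ℝ × (Fin j → ℝ)) : Measurable (k6aU (j := j) h zc) := by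
  unfold k6aU
  rw [measurable_pi_iff]
  intro i
  refine Fin.cases ?_ (fun a => ?_) i
  · simp only [Fin.cons_zero]
    exact (measurable_fst.sub_const _).div_const _
  · simp only [Fin.cons_succ]
    exact (((measurable_pi_apply a).comp measurable_snd).sub_const _).div_const _

theorem k6b_es_meas_y {D : K6aDat j} {K : ℝ} (h : D.WF K) : Measurable fun e : D.L × ℝ => D.y e.1 e.2 := by
  unfold K6aDat.y
  exact (h.m_y0.comp measurable_fst).add (measurable_snd.smul (h.m_V.comp measurable_fst))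

theorem k6b_es_meas_base {D : K6aDat j} {K : ℝ} (h : D.WF K) : Measurable D.base :=
  measurable_snd.prodMk (k6b_es_meas_y h)

theorem k6b_es_meas_X {D : K6aDat j} {K : ℝ} (h : D.WF K) : Measurable fun e : D.L × ℝ => D.X e.1 e.2 := by
  unfold K6aDat.X
  have hc : ∀ i : Fin 3, Measurable fun e : D.L × ℝ => D.xc e.1 i := fun i => (measurable_pi_apply i).comp (h.m_xc.comp measurable_fst)
  exact ((hc 0).add ((hc 1).mul measurable_snd)).add ((hc 2).mul (measurable_snd.pow_const 2))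

theorem k6b_es_meas_norm {D : K6aDat j} (Pk : K6aPk D) (q : Pk.Q) : Measurable (k6b_norm Pk q) := by
  unfold k6b_norm
  exact measurable_fst.prodMk ((measurable_snd.sub_const _).div_const _)

theorem k6b_es_meas_phys {D : K6aDat j} (Pk : K6aPk D) (q : Pk.Q) : Measurable (k6b_phys Pk q) := by
  unfold k6b_phys
  exact measurable_fst.prodMk ((measurable_snd.const_mul _).const_add _)

/-- the Jacobian of the block normalisation -/
theorem k6b_es_vol (h : ℝ) (hh : 0 < h) (zc : ℝ × (Fin j → ℝ)) (B : Set (Fin (j + 1) → ℝ)) (hB : MeasurableSet B) :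
    volume (k6aU h zc ⁻¹' B) = ENNReal.ofReal (h ^ (j + 1)) * volume B := by
  have mp := (volume_preserving_piFinSuccAbove (fun _ : Fin (j + 1) => ℝ) 0).symm
  have he : ∀ z : ℝ × (Fin j → ℝ), (MeasurableEquiv.piFinSuccAbove (fun _ : Fin (j + 1) => ℝ) 0).symm z
      = Fin.cons (α := fun _ => ℝ) z.1 z.2 := by
    intro z
    show Fin.insertNth (α := fun _ => ℝ) 0 z.1 z.2 = _
    rw [Fin.insertNth_zero]
    rfl
  set c : Fin (j + 1) → ℝ := Fin.cons (α := fun _ => ℝ) zc.1 zc.2 with hc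
  have hU : k6aU h zc = (fun x : Fin (j + 1) → ℝ => h⁻¹ • x) ∘ (fun x : Fin (j + 1) → ℝ => x + (-c))
      ∘ (MeasurableEquiv.piFinSuccAbove (fun _ : Fin (j + 1) => ℝ) 0).symm := by
    funext z
    simp only [Function.comp_apply, he]
    unfold k6aU
    funext i
    refine Fin.cases ?_ (fun a => ?_) i
    · simp only [Fin.cons_zero, Pi.smul_apply, Pi.add_apply, Pi.neg_apply, hc, smul_eq_mul]
      rw [div_eq_inv_mul, sub_eq_add_neg]
    · simp only [Fin.cons_succ, Pi.smul_apply, Pi.add_apply, Pi.neg_apply, hc, smul_eq_mul]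
      rw [div_eq_inv_mul, sub_eq_add_neg]
  have hm1 : Measurable fun x : Fin (j + 1) → ℝ => h⁻¹ • x := measurable_const_smul _
  have hm2 : Measurable fun x : Fin (j + 1) → ℝ => x + (-c) := measurable_add_const _
  rw [hU, Set.preimage_comp, Set.preimage_comp, mp.measure_preimage (hm2 (hm1 hB)).nullMeasurableSet,
    measure_preimage_add_right, Measure.addHaar_preimage_smul _ (inv_ne_zero hh.ne')]
  congr 2
  rw [Module.finrank_fin_fun, inv_pow, inv_inv, abs_of_pos (by positivity)]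

theorem k6b_es_cube_meas {n : ℕ} (i : ℕ) (J : Fin n → ℤ) : MeasurableSet (k6aCube i J) := by
  have h : k6aCube i J = ⋂ a, {u : Fin n → ℝ | k6aBin i (u a) = J a} := by
    ext u
    simp only [k6aCube, k6aVBin, Set.mem_ofPred_eq, Set.mem_iInter, funext_iff]
  rw [h]
  refine MeasurableSet.iInter fun a => ?_
  have hm : Measurable fun u : Fin n → ℝ => k6aBin i (u a) := by
    unfold k6aBin
    exact Int.measurable_floor.comp ((measurable_pi_apply a).mul_const _)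
  exact hm (measurableSet_singleton (J a))

theorem k6b_es_pal_sum {D : K6aDat j} {K : ℝ} (h : D.WF K) (i : ℕ) (S : Finset (Fin j → ℤ)) :
    ∑ J ∈ S, D.pal (k6aCube i J) ≤ 1 := by
  rw [← measure_biUnion_finset (fun J _ J' _ hJ => ?_) (fun J _ => k6b_es_cube_meas i J)]
  · exact (measure_mono (Set.subset_univ _)).trans h.pal_le
  · rw [Function.onFun, Set.disjoint_left]
    intro u hu hu'
    exact hJ (hu.symm.trans hu')

/-! ## 2. the switching system -/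

theorem k6b_es_pos (D : K6aDat j) (Pk : K6aPk D) (q : Pk.Q) (zc : ℝ × (Fin j → ℝ)) (Es : Set (D.L × ℝ)) (nb nv : ℕ) (Kl : ℝ) (M : ℤ)
    (e : D.L × ℝ) : (k6b_swOf D Pk q zc Es nb nv Kl M).pos e = k6aU Pk.H zc (D.base (k6b_phys Pk q e)) := by
  have h := (k6b_es_H_pos Pk).ne'
  show k6aU Pk.H zc (k6b_t0 Pk q, D.y e.1 (k6b_t0 Pk q)) + e.2 • (Fin.cons 1 (D.V e.1) : Fin (j + 1) → ℝ) = _
  unfold k6aU K6aDat.base k6b_phys K6aDat.y
  funext i
  refine Fin.cases ?_ (fun a => ?_) i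
  · simp only [Pi.add_apply, Pi.smul_apply, Fin.cons_zero, smul_eq_mul]
    field_simp
    ring
  · simp only [Pi.add_apply, Pi.smul_apply, Fin.cons_succ, smul_eq_mul]
    field_simp
    ring

theorem k6b_es_x (D : K6aDat j) (Pk : K6aPk D) (q : Pk.Q) (zc : ℝ × (Fin j → ℝ)) (Es : Set (D.L × ℝ)) (nb nv : ℕ) (Kl : ℝ) (M : ℤ)
    (e : D.L × ℝ) : (k6b_swOf D Pk q zc Es nb nv Kl M).x e = D.X (k6b_phys Pk q e).1 (k6b_phys Pk q e).2 / Pk.H := rfl

theorem k6b_es_sup (D : K6aDat j) (Pk : K6aPk D) (q : Pk.Q) (zc : ℝ × (Fin j → ℝ)) (Es : Set (D.L × ℝ)) (nb nv : ℕ) (Kl : ℝ) (M : ℤ)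
    (e : D.L × ℝ) (he : e ∈ (k6b_swOf D Pk q zc Es nb nv Kl M).sup) : k6b_phys Pk q e ∈ Es := by
  classical
  have h : (k6b_swOf D Pk q zc Es nb nv Kl M).g e ≠ 0 := he.1
  by_contra hn
  apply h
  show (if k6b_phys Pk q e ∈ Es then ENNReal.ofReal Pk.H * Pk.νQ q / D.prior Es else 0) = 0
  rw [if_neg hn]

theorem k6b_es_mu_zero (D : K6aDat j) (Pk : K6aPk D) (q : Pk.Q) (zc : ℝ × (Fin j → ℝ)) (Es : Set (D.L × ℝ)) (nb nv : ℕ) (Kl : ℝ) (M : ℤ)
    (hν : Pk.νQ q = 0) : (k6b_swOf D Pk q zc Es nb nv Kl M).mu = 0 := by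
  classical
  have hg : (k6b_swOf D Pk q zc Es nb nv Kl M).g = 0 := by
    funext e
    show (if k6b_phys Pk q e ∈ Es then ENNReal.ofReal Pk.H * Pk.νQ q / D.prior Es else 0) = 0
    rw [hν, mul_zero, ENNReal.zero_div, ite_self]
  unfold k6b_Sw.mu
  rw [hg, withDensity_zero]

theorem k6b_es_meas_pos {D : K6aDat j} {K : ℝ} (h : D.WF K) (Pk : K6aPk D) (q : Pk.Q) (zc : ℝ × (Fin j → ℝ)) (Es : Set (D.L × ℝ))
    (nb nv : ℕ) (Kl : ℝ) (M : ℤ) : Measurable (k6b_swOf D Pk q zc Es nb nv Kl M).pos := by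
  have e : (k6b_swOf D Pk q zc Es nb nv Kl M).pos = fun e => k6aU Pk.H zc (D.base (k6b_phys Pk q e)) :=
    funext (k6b_es_pos D Pk q zc Es nb nv Kl M)
  rw [e]
  exact (k6b_es_meas_U _ _).comp ((k6b_es_meas_base h).comp (k6b_es_meas_phys Pk q))

theorem k6b_es_meas_x {D : K6aDat j} {K : ℝ} (h : D.WF K) (Pk : K6aPk D) (q : Pk.Q) (zc : ℝ × (Fin j → ℝ)) (Es : Set (D.L × ℝ))
    (nb nv : ℕ) (Kl : ℝ) (M : ℤ) : Measurable (k6b_swOf D Pk q zc Es nb nv Kl M).x := by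
  have e : (k6b_swOf D Pk q zc Es nb nv Kl M).x = fun e => D.X (k6b_phys Pk q e).1 (k6b_phys Pk q e).2 / Pk.H :=
    funext (k6b_es_x D Pk q zc Es nb nv Kl M)
  rw [e]
  exact ((k6b_es_meas_X h).comp (k6b_es_meas_phys Pk q)).div_const _

/-- the joint cells -/
theorem k6b_es_cells (D : K6aDat j) (Pk : K6aPk D) (q : Pk.Q) (zc : ℝ × (Fin j → ℝ)) (Es : Set (D.L × ℝ)) (nb nv nx : ℕ) (Kl : ℝ) (M : ℤ)
    (K d a' : ℝ) (h : ∃ F : Finset ((Fin (j + 1) → ℤ) × ℤ), (F.card : ℝ) ≤ K * ((2 : ℝ) ^ nx) ^ (j + 1) * (Pk.a / a') ^ d ∧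
      ∀ e ∈ Es, (k6aVBin nx (k6aU Pk.H zc (D.base e)), ⌊D.X e.1 e.2 / a'⌋) ∈ F) :
    ∃ S : Finset ((Fin (j + 1) → ℤ) × ℤ), S.card ≤ k6b_Nc j K Pk.a a' d nx ∧
      ∀ e ∈ (k6b_swOf D Pk q zc Es nb nv Kl M).sup,
        ((fun i => ⌊(k6b_swOf D Pk q zc Es nb nv Kl M).pos e i / k6aW nx⌋),
          ⌊(k6b_swOf D Pk q zc Es nb nv Kl M).x e / (a' / Pk.H)⌋) ∈ S := by
  obtain ⟨F, hc, hF⟩ := h
  refine ⟨F, Nat.le_floor hc, fun (e : D.L × ℝ) he => ?_⟩
  have h1 := hF _ (k6b_es_sup D Pk q zc Es nb nv Kl M e he)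
  have e1 : (fun i => ⌊(k6b_swOf D Pk q zc Es nb nv Kl M).pos e i / k6aW nx⌋)
      = k6aVBin nx (k6aU Pk.H zc (D.base (k6b_phys Pk q e))) := by
    funext i
    rw [k6b_es_pos]
    unfold k6aVBin k6aBin k6aW
    rw [one_div, inv_pow, div_inv_eq_mul]
  have e2 : (k6b_swOf D Pk q zc Es nb nv Kl M).x e / (a' / Pk.H) = D.X (k6b_phys Pk q e).1 (k6b_phys Pk q e).2 / a' := by
    rw [k6b_es_x, div_div_div_cancel_right₀ (k6b_es_H_pos Pk).ne']
  rw [e1, e2]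
  exact h1

theorem k6b_es_count (j : ℕ) (K a a' d : ℝ) (nx : ℕ) (hK : 0 ≤ K) (ha : 0 < a) (ha' : 0 < a') :
    (k6b_Nc j K a a' d nx : ℝ) * k6aW nx ^ (j + 1) * (a' / a) ^ d ≤ K := by
  have h1 : (0 : ℝ) ≤ K * ((2 : ℝ) ^ nx) ^ (j + 1) * (a / a') ^ d := by positivity
  have h2 : (k6b_Nc j K a a' d nx : ℝ) ≤ K * ((2 : ℝ) ^ nx) ^ (j + 1) * (a / a') ^ d := Nat.floor_le h1
  have h3 : ((2 : ℝ) ^ nx) ^ (j + 1) * k6aW nx ^ (j + 1) = 1 := by
    unfold k6aW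
    rw [← mul_pow, ← mul_pow]
    norm_num
  have h4 : (a / a') ^ d * (a' / a) ^ d = 1 := by
    rw [← Real.mul_rpow (by positivity) (by positivity)]
    have : a / a' * (a' / a) = 1 := by field_simp
    rw [this, Real.one_rpow]
  have h5 : (0 : ℝ) ≤ k6aW nx ^ (j + 1) * (a' / a) ^ d := by
    have := k6b_es_W_pos nx
    positivity
  calc (k6b_Nc j K a a' d nx : ℝ) * k6aW nx ^ (j + 1) * (a' / a) ^ d
      = (k6b_Nc j K a a' d nx : ℝ) * (k6aW nx ^ (j + 1) * (a' / a) ^ d) := by ring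
    _ ≤ K * ((2 : ℝ) ^ nx) ^ (j + 1) * (a / a') ^ d * (k6aW nx ^ (j + 1) * (a' / a) ^ d) := mul_le_mul_of_nonneg_right h2 h5
    _ = K * (((2 : ℝ) ^ nx) ^ (j + 1) * k6aW nx ^ (j + 1)) * ((a / a') ^ d * (a' / a) ^ d) := by ring
    _ = K := by rw [h3, h4]; ring

theorem k6b_es_pal (D : K6aDat j) {K : ℝ} (h : D.WF K) (Pk : K6aPk D) (q : Pk.Q) (zc : ℝ × (Fin j → ℝ)) (Es : Set (D.L × ℝ)) (nb nv : ℕ)
    (Kl : ℝ) (M : ℤ) : ∑ J, (k6b_swOf D Pk q zc Es nb nv Kl M).pal J ≤ 1 := by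
  show ∑ J : Option (k6b_binsF j M), (J.elim 0 fun J => D.pal (k6aCube nv J.1)) ≤ 1
  rw [Fintype.sum_option]
  simp only [Option.elim_none, Option.elim_some, zero_add]
  rw [Finset.sum_coe_sort (k6b_binsF j M) (fun J => D.pal (k6aCube nv J))]
  exact k6b_es_pal_sum h nv _

/-! ## 3. the law -/

/-- the law through E0, as an upper bound (both cases) -/
theorem k6b_es_mu_le (h0 : k6b_sw_cov_stmt) {D : K6aDat j} {Pk : K6aPk D} {d k K εT a1 a2 w : ℝ} {nb nx nv Dg : ℕ}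
    {E Ep Es : Set (D.L × ℝ)} {g : K6aWc j → K6aRow j} {q : Pk.Q} {zc : ℝ × (Fin j → ℝ)}
    {T : Fin (j + 1) → MvPolynomial (Fin (j + 1)) ℝ} (hyp : k6b_EntryHyp D Pk d k K εT a1 a2 w nb nx nv Dg E Ep Es g q zc T) (Kl : ℝ) (M : ℤ)
    (F : Set (D.L × ℝ)) (hF : MeasurableSet F) (c : ℝ≥0∞)
    (h : (E ∩ Pk.inc q).Nonempty → D.prior (Es ∩ k6b_norm Pk q ⁻¹' F) ≤ c * D.prior Es) :
    (k6b_swOf D Pk q zc Es nb nv Kl M).mu F ≤ c := by
  by_cases hν : Pk.νQ q = 0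
  · rw [k6b_es_mu_zero _ _ _ _ _ _ _ _ _ hν]
    show (0 : Measure (D.L × ℝ)) F ≤ c
    rw [Measure.coe_zero]
    exact zero_le
  · have hH := k6b_es_H_pos Pk
    have hP : D.prior Es ≠ 0 := by
      intro hP
      have h1 := hyp.fld.mass
      rw [hP, mul_zero, nonpos_iff_eq_zero, mul_eq_zero] at h1
      rcases h1 with h1 | h1
      · rw [ENNReal.ofReal_eq_zero] at h1
        linarith
      · exact hν h1
    have hne : Es.Nonempty := by
      by_contra hcon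
      rw [Set.not_nonempty_iff_eq_empty] at hcon
      rw [hcon, measure_empty] at hP
      exact hP rfl
    obtain ⟨e, he⟩ := hne
    have hne2 : (E ∩ Pk.inc q).Nonempty := ⟨e, hyp.Ep_sub (hyp.fld.Es_sub he).1, (hyp.fld.Es_sub he).2⟩
    obtain ⟨-, hmu, -, -⟩ := h0 j D Pk q zc Es nb nv Kl K M hyp.wf hyp.fld.Es_meas (hyp.pk.asg_meas q)
      (fun e he => (hyp.fld.Es_sub he).2) (fun e he => hyp.E_time (hyp.Ep_sub (hyp.fld.Es_sub he).1)) hν hP
    rw [hmu F hF]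
    exact ENNReal.div_le_of_le_mul (h hne2)

theorem k6b_es_dens (h0 : k6b_sw_cov_stmt) {D : K6aDat j} {Pk : K6aPk D} {d k K εT a1 a2 w : ℝ} {nb nx nv Dg : ℕ}
    {E Ep Es : Set (D.L × ℝ)} {g : K6aWc j → K6aRow j} {q : Pk.Q} {zc : ℝ × (Fin j → ℝ)}
    {T : Fin (j + 1) → MvPolynomial (Fin (j + 1)) ℝ} (hyp : k6b_EntryHyp D Pk d k K εT a1 a2 w nb nx nv Dg E Ep Es g q zc T) (Kl : ℝ) (M : ℤ)
    (B : Set (Fin (j + 1) → ℝ)) (hB : MeasurableSet B) :
    (k6b_swOf D Pk q zc Es nb nv Kl M).mu {e | (k6b_swOf D Pk q zc Es nb nv Kl M).pos e ∈ B} ≤ ENNReal.ofReal (K ^ 2) * volume B := by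
  have hH := k6b_es_H_pos Pk
  have hK0 : (0 : ℝ) ≤ K := le_trans zero_le_one hyp.K_ge
  set F : Set (D.L × ℝ) := {e : D.L × ℝ | (k6b_swOf D Pk q zc Es nb nv Kl M).pos e ∈ B} with hFdef
  have hFm : MeasurableSet F := k6b_es_meas_pos hyp.wf Pk q zc Es nb nv Kl M hB
  refine k6b_es_mu_le h0 hyp Kl M F hFm _ fun _ => ?_
  set U : Set (ℝ × (Fin j → ℝ)) := k6aU Pk.H zc ⁻¹' B with hU
  have hUm : MeasurableSet U := k6b_es_meas_U _ _ hB
  have hpre : k6b_norm Pk q ⁻¹' F = D.base ⁻¹' U := by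
    ext e
    simp only [Set.mem_preimage, Set.mem_ofPred_eq, hU, hFdef]
    rw [k6b_es_pos, k6b_es_phys_norm]
  rw [hpre]
  have h1 := hyp.pk.capQ q U hUm
  have h2 : D.prior (Es ∩ D.base ⁻¹' U) ≤ D.prior (E ∩ Pk.inc q ∩ D.base ⁻¹' U) :=
    measure_mono (Set.inter_subset_inter_left _ fun e he => ⟨hyp.Ep_sub (hyp.fld.Es_sub he).1, (hyp.fld.Es_sub he).2⟩)
  have h3 := hyp.fld.mass
  rw [hU, k6b_es_vol Pk.H hH zc B hB, pow_succ, ENNReal.ofReal_mul (by positivity)] at h1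
  have hj0 : ENNReal.ofReal (Pk.H ^ j) ≠ 0 := by
    rw [Ne, ENNReal.ofReal_eq_zero, not_le]; positivity
  have h4 : ENNReal.ofReal (Pk.H ^ j) * D.prior (Es ∩ D.base ⁻¹' U)
      ≤ ENNReal.ofReal (Pk.H ^ j) * (ENNReal.ofReal (K ^ 2) * volume B * D.prior Es) := by
    calc ENNReal.ofReal (Pk.H ^ j) * D.prior (Es ∩ D.base ⁻¹' U)
        ≤ ENNReal.ofReal (Pk.H ^ j) * D.prior (E ∩ Pk.inc q ∩ D.base ⁻¹' U) := by gcongr
      _ ≤ ENNReal.ofReal K * Pk.νQ q * (ENNReal.ofReal (Pk.H ^ j) * ENNReal.ofReal Pk.H * volume B) := h1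
      _ = ENNReal.ofReal (Pk.H ^ j) * (ENNReal.ofReal K * (ENNReal.ofReal Pk.H * Pk.νQ q) * volume B) := by ring
      _ ≤ ENNReal.ofReal (Pk.H ^ j) * (ENNReal.ofReal K * (ENNReal.ofReal K * D.prior Es) * volume B) := by gcongr
      _ = ENNReal.ofReal (Pk.H ^ j) * (ENNReal.ofReal (K ^ 2) * volume B * D.prior Es) := by
          rw [sq, ENNReal.ofReal_mul hK0]; ring
  exact (ENNReal.mul_le_mul_iff_right hj0 ENNReal.ofReal_ne_top).1 h4

theorem k6b_es_cap (h0 : k6b_sw_cov_stmt) {D : K6aDat j} {Pk : K6aPk D} {d k K εT a1 a2 w : ℝ} {nb nx nv Dg : ℕ}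
    {E Ep Es : Set (D.L × ℝ)} {g : K6aWc j → K6aRow j} {q : Pk.Q} {zc : ℝ × (Fin j → ℝ)}
    {T : Fin (j + 1) → MvPolynomial (Fin (j + 1)) ℝ} (hyp : k6b_EntryHyp D Pk d k K εT a1 a2 w nb nx nv Dg E Ep Es g q zc T) (Kl : ℝ) (M : ℤ)
    (φ : MvPolynomial (Fin (j + 1)) ℝ) (B : Set (Fin (j + 1) → ℝ)) (hB : MeasurableSet B) :
    (k6b_swOf D Pk q zc Es nb nv Kl M).mu
        {e | (k6b_swOf D Pk q zc Es nb nv Kl M).pos e ∈ B ∧
          |(k6b_swOf D Pk q zc Es nb nv Kl M).x e - eval ((k6b_swOf D Pk q zc Es nb nv Kl M).pos e) φ| ≤ a2 / Pk.H}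
      ≤ ENNReal.ofReal (K ^ 3 * (a2 / Pk.a) ^ d) * volume B := by
  have hH := k6b_es_H_pos Pk
  have hK0 : (0 : ℝ) ≤ K := le_trans zero_le_one hyp.K_ge
  have ha := hyp.pk.a_pos
  have ha2 := hyp.a2_pos
  have hmp := k6b_es_meas_pos hyp.wf Pk q zc Es nb nv Kl M
  have hmx := k6b_es_meas_x hyp.wf Pk q zc Es nb nv Kl M
  have hφ : Measurable fun u : Fin (j + 1) → ℝ => eval u φ := (MvPolynomial.continuous_eval φ).measurable
  set F : Set (D.L × ℝ) := {e : D.L × ℝ | (k6b_swOf D Pk q zc Es nb nv Kl M).pos e ∈ B ∧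
      |(k6b_swOf D Pk q zc Es nb nv Kl M).x e - eval ((k6b_swOf D Pk q zc Es nb nv Kl M).pos e) φ| ≤ a2 / Pk.H} with hFdef
  have hFm : MeasurableSet F := by
    refine (hmp hB).inter ?_
    exact measurableSet_le ((hmx.sub (hφ.comp hmp)).abs) measurable_const
  refine k6b_es_mu_le h0 hyp Kl M F hFm _ fun hne => ?_
  set U : Set (ℝ × (Fin j → ℝ)) := k6aU Pk.H zc ⁻¹' B with hU
  have hUm : MeasurableSet U := k6b_es_meas_U _ _ hB
  set f : ℝ × (Fin j → ℝ) → ℝ := fun z => Pk.H * eval (k6aU Pk.H zc z) φ with hf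
  have hfm : Measurable f := (hφ.comp (k6b_es_meas_U _ _)).const_mul _
  have hpre : k6b_norm Pk q ⁻¹' F = {e | D.base e ∈ U ∧ |D.X e.1 e.2 - f (D.base e)| ≤ a2} := by
    ext e
    simp only [Set.mem_preimage, Set.mem_ofPred_eq, hU, hf, hFdef]
    rw [k6b_es_pos, k6b_es_x, k6b_es_phys_norm]
    have e1 : D.X e.1 e.2 / Pk.H - eval (k6aU Pk.H zc (D.base e)) φ
        = (D.X e.1 e.2 - Pk.H * eval (k6aU Pk.H zc (D.base e)) φ) / Pk.H := by
      field_simp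
    rw [e1, abs_div, abs_of_pos hH, div_le_div_iff_of_pos_right hH]
  rw [hpre]
  have h1 := hyp.cap2 U f hUm hfm
  have h2 := hyp.pk.ν_lo q hne
  have h3 := hyp.fld.mass
  rw [hU, k6b_es_vol Pk.H hH zc B hB] at h1
  have had : 0 < Pk.a ^ d := Real.rpow_pos_of_pos ha d
  have hlow : ENNReal.ofReal (Pk.a ^ d * Pk.H ^ (j + 1)) ≤ ENNReal.ofReal K * (ENNReal.ofReal K * D.prior Es) := by
    calc ENNReal.ofReal (Pk.a ^ d * Pk.H ^ (j + 1)) = ENNReal.ofReal Pk.H * ENNReal.ofReal (Pk.a ^ d * Pk.H ^ j) := by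
          rw [← ENNReal.ofReal_mul hH.le]; congr 1; ring
      _ ≤ ENNReal.ofReal Pk.H * (ENNReal.ofReal K * Pk.νQ q) := by gcongr
      _ = ENNReal.ofReal K * (ENNReal.ofReal Pk.H * Pk.νQ q) := by ring
      _ ≤ ENNReal.ofReal K * (ENNReal.ofReal K * D.prior Es) := by gcongr
  have hr : (a2 / Pk.a) ^ d * Pk.a ^ d = a2 ^ d := by
    rw [Real.div_rpow ha2.le ha.le]
    field_simp
  have hrd : 0 ≤ (a2 / Pk.a) ^ d := by positivity
  calc D.prior (Es ∩ {e | D.base e ∈ U ∧ |D.X e.1 e.2 - f (D.base e)| ≤ a2})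
      ≤ ENNReal.ofReal (K * a2 ^ d) * (ENNReal.ofReal (Pk.H ^ (j + 1)) * volume B) := h1
    _ = ENNReal.ofReal (K * (a2 / Pk.a) ^ d) * ENNReal.ofReal (Pk.a ^ d * Pk.H ^ (j + 1)) * volume B := by
        rw [← mul_assoc, ← ENNReal.ofReal_mul (by positivity), ← ENNReal.ofReal_mul (by positivity), ← hr]
        congr 2
        ring
    _ ≤ ENNReal.ofReal (K * (a2 / Pk.a) ^ d) * (ENNReal.ofReal K * (ENNReal.ofReal K * D.prior Es)) * volume B := by gcongr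
    _ = ENNReal.ofReal (K ^ 3 * (a2 / Pk.a) ^ d) * volume B * D.prior Es := by
        have e3 : K ^ 3 * (a2 / Pk.a) ^ d = K * (a2 / Pk.a) ^ d * K * K := by ring
        have e4 : ENNReal.ofReal (K * (a2 / Pk.a) ^ d * K * K)
            = ENNReal.ofReal (K * (a2 / Pk.a) ^ d) * ENNReal.ofReal K * ENNReal.ofReal K := by
          rw [ENNReal.ofReal_mul (by positivity), ENNReal.ofReal_mul (by positivity)]
        rw [e3, e4]
        ring

theorem k6b_entry_supp_of (h0 : k6b_sw_cov_stmt) : k6b_entry_supp_stmt := by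
  intro j D Pk d k K εT a1 a2 w nb nx nv Dg E Ep Es g q zc T hyp
  have hK0 : (0 : ℝ) ≤ K := le_trans zero_le_one hyp.K_ge
  refine ⟨⟨fun B hB => k6b_es_dens h0 hyp _ _ B hB, k6b_es_cells D Pk q zc Es nb nv nx _ _ K d a1 hyp.fld.joint1, ?_⟩,
    k6b_es_cells D Pk q zc Es nb nv nx _ _ K d a2 hyp.fld.joint2, fun φ B hB => k6b_es_cap h0 hyp _ _ φ B hB,
    k6b_es_count j K Pk.a a2 d nx hK0 hyp.pk.a_pos hyp.a2_pos⟩
  refine (k6b_es_pal D hyp.wf Pk q zc Es nb nv _ _).trans ?_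
  rw [← ENNReal.ofReal_one]
  refine ENNReal.ofReal_le_ofReal ?_
  have := hyp.K_ge
  nlinarith

end

end Claimed.Agent.R252
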