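import Claimed.Agent.R252.S6b.EntryDefs

/-!
# Row252, unit S6b, part H, leaf E1: the switching system of a packet is well formed      (helper254; prefix `k6b_ew_`)

`k6b_entry_wf_of : k6b_sw_cov_stmt → k6b_entry_wf_stmt`.   Also the elementary facts on `k6b_swOf` shared with E2 (`S6b/EntryChain.lean`).
-/

set_option autoImplicit false

namespace Claimed.Agent.R252

open MeasureTheory MvPolynomial
open scoped ENNReal BigOperators

noncomputable section

variable {j : ℕ}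

/-! ## 1. Elementary facts -/

theorem k6b_ew_H_pos {D : K6aDat j} (Pk : K6aPk D) : 0 < Pk.H := by
  unfold K6aPk.H k6aW
  positivity

theorem k6b_ew_phys_norm {D : K6aDat j} (Pk : K6aPk D) (q : Pk.Q) (e : D.L × ℝ) : k6b_phys Pk q (k6b_norm Pk q e) = e := by
  have hH := (k6b_ew_H_pos Pk).ne'
  unfold k6b_phys k6b_norm
  ext
  · rfl
  · simp only
    field_simp
    ring

theorem k6b_ew_phys_meas {D : K6aDat j} (Pk : K6aPk D) (q : Pk.Q) : Measurable (k6b_phys Pk q) := by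
  unfold k6b_phys
  fun_prop

theorem k6b_ew_norm_meas {D : K6aDat j} (Pk : K6aPk D) (q : Pk.Q) : Measurable (k6b_norm Pk q) := by
  unfold k6b_norm
  fun_prop

section meas

variable {D : K6aDat j} {K : ℝ}

theorem k6b_ew_y_meas (h : D.WF K) : Measurable fun e : D.L × ℝ => D.y e.1 e.2 := by
  have h1 := h.m_y0
  have h2 := h.m_V
  unfold K6aDat.y
  fun_prop

theorem k6b_ew_X_meas (h : D.WF K) : Measurable fun e : D.L × ℝ => D.X e.1 e.2 := by
  have h1 := h.m_xc
  have h2 : ∀ i, Measurable fun l => D.xc l i := fun i => (measurable_pi_apply i).comp h1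
  unfold K6aDat.X
  have a0 := (h2 0).comp (measurable_fst : Measurable (Prod.fst : D.L × ℝ → D.L))
  have a1 := (h2 1).comp (measurable_fst : Measurable (Prod.fst : D.L × ℝ → D.L))
  have a2 := (h2 2).comp (measurable_fst : Measurable (Prod.fst : D.L × ℝ → D.L))
  exact (a0.add (a1.mul measurable_snd)).add (a2.mul (measurable_snd.pow_const 2))

theorem k6b_ew_bin_meas (i : ℕ) : Measurable (k6aBin i) := by
  unfold k6aBin
  exact Int.measurable_floor.comp (measurable_id.mul_const _)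

theorem k6b_ew_vbin_meas {n : ℕ} (i : ℕ) : Measurable (k6aVBin (n := n) i) := by
  unfold k6aVBin
  exact measurable_pi_iff.2 fun a => (k6b_ew_bin_meas i).comp (measurable_pi_apply a)

theorem k6b_ew_wc_meas (h : D.WF K) (i : ℕ) : Measurable (D.wc i) := by
  unfold K6aDat.wc K6aDat.zc
  exact (((k6b_ew_bin_meas i).comp measurable_snd).prodMk ((k6b_ew_vbin_meas i).comp (k6b_ew_y_meas h))).prodMk
    ((k6b_ew_bin_meas i).comp (k6b_ew_X_meas h))

theorem k6b_ew_vb_meas (h : D.WF K) (i : ℕ) : Measurable (D.vb i) := by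
  unfold K6aDat.vb
  exact (k6b_ew_vbin_meas i).comp h.m_V

theorem k6b_ew_prior_fin (h : D.WF K) (S : Set (D.L × ℝ)) : D.prior S ≠ ⊤ := by
  have := h.prob
  unfold K6aDat.prior
  exact measure_ne_top _ _

end meas

/-! ## 2. The non-degeneracy -/

section hyp

variable {D : K6aDat j} {Pk : K6aPk D} {d k K εT a1 a2 w : ℝ} {nb nx nv Dg : ℕ} {E Ep Es : Set (D.L × ℝ)} {g : K6aWc j → K6aRow j}
  {q : Pk.Q} {zc : ℝ × (Fin j → ℝ)} {T : Fin (j + 1) → MvPolynomial (Fin (j + 1)) ℝ}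

theorem k6b_ew_sub_inc (h : k6b_EntryHyp D Pk d k K εT a1 a2 w nb nx nv Dg E Ep Es g q zc T) : Es ⊆ Pk.inc q :=
  fun _ he => (h.fld.Es_sub he).2

theorem k6b_ew_sub_time (h : k6b_EntryHyp D Pk d k K εT a1 a2 w nb nx nv Dg E Ep Es g q zc T) : Es ⊆ Set.univ ×ˢ Set.Icc (0 : ℝ) 1 :=
  fun _ he => h.E_time (h.Ep_sub (h.fld.Es_sub he).1)

theorem k6b_ew_nuQ_top (h : k6b_EntryHyp D Pk d k K εT a1 a2 w nb nx nv Dg E Ep Es g q zc T) : Pk.νQ q ≠ ⊤ := by
  have := h.wf.prob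
  unfold K6aPk.νQ
  exact measure_ne_top _ _

theorem k6b_ew_nuQ_ne (h : k6b_EntryHyp D Pk d k K εT a1 a2 w nb nx nv Dg E Ep Es g q zc T) : Pk.νQ q ≠ 0 := h.fld.pos

theorem k6b_ew_prior_ne (h : k6b_EntryHyp D Pk d k K εT a1 a2 w nb nx nv Dg E Ep Es g q zc T) : D.prior Es ≠ 0 := by
  intro h0
  have h1 := h.fld.mass
  rw [h0, mul_zero, nonpos_iff_eq_zero, mul_eq_zero, ENNReal.ofReal_eq_zero] at h1
  rcases h1 with h1 | h1
  · exact absurd h1 (not_le.2 (k6b_ew_H_pos Pk))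
  · exact k6b_ew_nuQ_ne h h1

/-- the four clauses of E0 for the data of the entry -/
theorem k6b_ew_cov (hcov : k6b_sw_cov_stmt) (h : k6b_EntryHyp D Pk d k K εT a1 a2 w nb nx nv Dg E Ep Es g q zc T)
    (Kl : ℝ) (M : ℤ) :
    (∀ e, (k6b_swOf D Pk q zc Es nb nv Kl M).pos e = k6aU Pk.H zc (D.base (k6b_phys Pk q e))) ∧
    (∀ F : Set (D.L × ℝ), MeasurableSet F →
      (k6b_swOf D Pk q zc Es nb nv Kl M).mu F = D.prior (Es ∩ k6b_norm Pk q ⁻¹' F) / D.prior Es) ∧
    (∀ (F : Set (D.L × ℝ)) (l : D.L), MeasurableSet F →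
      (k6b_swOf D Pk q zc Es nb nv Kl M).durF F l =
        Pk.νQ q / D.prior Es * volume {t | (l, t) ∈ Es ∧ k6b_norm Pk q (l, t) ∈ F}) ∧
    (∀ e, e ∈ (k6b_swOf D Pk q zc Es nb nv Kl M).sup ↔ k6b_phys Pk q e ∈ Es) :=
  hcov j D Pk q zc Es nb nv Kl K M h.wf h.fld.Es_meas (h.pk.asg_meas q) (k6b_ew_sub_inc h) (k6b_ew_sub_time h) (k6b_ew_nuQ_ne h)
    (k6b_ew_prior_ne h)

/-! ## 3. Well-formedness -/

theorem k6b_ew_st_pre (M : ℤ) (Kl : ℝ) (c : k6b_cellsF j M) :
    (k6b_swOf D Pk q zc Es nb nv Kl M).stE (some c) = {e | D.wc nb (k6b_phys Pk q e) = c.1} := by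
  ext e
  show (if h : D.wc nb (k6b_phys Pk q e) ∈ k6b_cellsF j M then some (⟨_, h⟩ : k6b_cellsF j M) else none) = some c ↔
    D.wc nb (k6b_phys Pk q e) = c.1
  split_ifs with hc
  · rw [Option.some_inj]
    exact ⟨fun h' => by rw [← h'], fun h' => Subtype.ext h'⟩
  · constructor
    · intro h'
      exact absurd h' (by simp)
    · intro h'
      exact absurd (h' ▸ c.2) hc

theorem k6b_ew_st_none (M : ℤ) (Kl : ℝ) :
    (k6b_swOf D Pk q zc Es nb nv Kl M).stE none = {e | D.wc nb (k6b_phys Pk q e) ∉ k6b_cellsF j M} := by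
  ext e
  show (if h : D.wc nb (k6b_phys Pk q e) ∈ k6b_cellsF j M then some (⟨_, h⟩ : k6b_cellsF j M) else none) = none ↔
    D.wc nb (k6b_phys Pk q e) ∉ k6b_cellsF j M
  split_ifs with hc
  · simp [hc]
  · simp [hc]

theorem k6b_ew_bin_pre (M : ℤ) (Kl : ℝ) (J : k6b_binsF j M) :
    (k6b_swOf D Pk q zc Es nb nv Kl M).bin ⁻¹' {some J} = {l | D.vb nv l = J.1} := by
  ext l
  show (if h : D.vb nv l ∈ k6b_binsF j M then some (⟨_, h⟩ : k6b_binsF j M) else none) = some J ↔ D.vb nv l = J.1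
  split_ifs with hc
  · rw [Option.some_inj]
    exact ⟨fun h' => by rw [← h'], fun h' => Subtype.ext h'⟩
  · constructor
    · intro h'
      exact absurd h' (by simp)
    · intro h'
      exact absurd (h' ▸ J.2) hc

theorem k6b_ew_bin_none (M : ℤ) (Kl : ℝ) :
    (k6b_swOf D Pk q zc Es nb nv Kl M).bin ⁻¹' {none} = {l | D.vb nv l ∉ k6b_binsF j M} := by
  ext l
  show (if h : D.vb nv l ∈ k6b_binsF j M then some (⟨_, h⟩ : k6b_binsF j M) else none) = none ↔ D.vb nv l ∉ k6b_binsF j M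
  split_ifs with hc
  · simp [hc]
  · simp [hc]

theorem k6b_ew_st_meas (hD : D.WF K) (M : ℤ) (Kl : ℝ) (s : (k6b_swOf D Pk q zc Es nb nv Kl M).St) :
    MeasurableSet ((k6b_swOf D Pk q zc Es nb nv Kl M).stE s) := by
  have hm : Measurable fun e => D.wc nb (k6b_phys Pk q e) := (k6b_ew_wc_meas hD nb).comp (k6b_ew_phys_meas Pk q)
  cases s with
  | none => exact MeasurableSet.congr (hm (Finset.measurableSet _)).compl (k6b_ew_st_none M Kl).symm
  | some c => exact MeasurableSet.congr (hm (measurableSet_singleton _)) (k6b_ew_st_pre M Kl c).symm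

theorem k6b_ew_bin_measS (hD : D.WF K) (M : ℤ) (Kl : ℝ) (J : (k6b_swOf D Pk q zc Es nb nv Kl M).Bn) :
    MeasurableSet ((k6b_swOf D Pk q zc Es nb nv Kl M).bin ⁻¹' {J}) := by
  have hm := k6b_ew_vb_meas hD nv
  cases J with
  | none => exact MeasurableSet.congr (hm (Finset.measurableSet _)).compl (k6b_ew_bin_none M Kl).symm
  | some c => exact MeasurableSet.congr (hm (measurableSet_singleton _)) (k6b_ew_bin_pre M Kl c).symm

theorem k6b_ew_Lg_meas (hEs : MeasurableSet Es) (hasg : MeasurableSet (Pk.asg q)) (M : ℤ) (Kl : ℝ) :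
    MeasurableSet (k6b_swOf D Pk q zc Es nb nv Kl M).Lg := by
  have h1 : Measurable fun l => volume.real (D.fib Es l) := (measurable_measure_prodMk_left hEs).ennreal_toReal
  exact hasg.inter (measurableSet_le measurable_const h1)

theorem k6b_ew_nu_univ (h0 : Pk.νQ q ≠ 0) (ht : Pk.νQ q ≠ ⊤) (M : ℤ) (Kl : ℝ) : (k6b_swOf D Pk q zc Es nb nv Kl M).nu Set.univ = 1 := by
  show ((Pk.νQ q)⁻¹ • D.ν.restrict (Pk.asg q)) Set.univ = 1
  rw [Measure.smul_apply, Measure.restrict_apply_univ, smul_eq_mul]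
  exact ENNReal.inv_mul_cancel h0 ht

theorem k6b_ew_g_le (h : k6b_EntryHyp D Pk d k K εT a1 a2 w nb nx nv Dg E Ep Es g q zc T) (M : ℤ) (Kl : ℝ) (e : D.L × ℝ) :
    (k6b_swOf D Pk q zc Es nb nv Kl M).g e ≤ ENNReal.ofReal K := by
  classical
  show (if k6b_phys Pk q e ∈ Es then ENNReal.ofReal Pk.H * Pk.νQ q / D.prior Es else 0) ≤ _
  split_ifs
  · exact ENNReal.div_le_of_le_mul h.fld.mass
  · exact zero_le

theorem k6b_ew_wf (hcov : k6b_sw_cov_stmt) (h : k6b_EntryHyp D Pk d k K εT a1 a2 w nb nx nv Dg E Ep Es g q zc T)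
    (M : ℤ) (Kl : ℝ) : (k6b_swOf D Pk q zc Es nb nv Kl M).WF where
  fin := ⟨by rw [k6b_ew_nu_univ (k6b_ew_nuQ_ne h) (k6b_ew_nuQ_top h)]; exact ENNReal.one_lt_top⟩
  g_meas := Measurable.ite (k6b_ew_phys_meas Pk q h.fld.Es_meas) measurable_const measurable_const
  st_meas := k6b_ew_st_meas h.wf M Kl
  bin_meas := k6b_ew_bin_measS h.wf M Kl
  u0_meas := by
    have h1 : Measurable fun l => D.y l (k6b_t0 Pk q) := (k6b_ew_y_meas h.wf).comp (measurable_id.prodMk measurable_const)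
    show Measurable fun l => k6aU Pk.H zc (k6b_t0 Pk q, D.y l (k6b_t0 Pk q))
    unfold k6aU
    refine measurable_pi_iff.2 fun i => ?_
    refine Fin.cases ?_ (fun a => ?_) i
    · simp only [Fin.cons_zero]
      exact measurable_const
    · simp only [Fin.cons_succ]
      exact (((measurable_pi_apply a).comp h1).sub_const _).div_const _
  vel_meas := by
    show Measurable fun l => (Fin.cons 1 (D.V l) : Fin (j + 1) → ℝ)
    refine measurable_pi_iff.2 fun i => ?_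
    refine Fin.cases ?_ (fun a => ?_) i
    · simp only [Fin.cons_zero]
      exact measurable_const
    · simp only [Fin.cons_succ]
      exact (measurable_pi_apply a).comp h.wf.m_V
  x_meas := by
    show Measurable fun e : D.L × ℝ => D.X e.1 (k6b_t0 Pk q + Pk.H * e.2) / Pk.H
    exact ((k6b_ew_X_meas h.wf).comp (k6b_ew_phys_meas Pk q)).div_const _
  Lg_meas := k6b_ew_Lg_meas h.fld.Es_meas (h.pk.asg_meas q) M Kl
  prob := by
    refine ((k6b_ew_cov hcov h Kl M).2.1 Set.univ MeasurableSet.univ).trans ?_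
    rw [Set.preimage_univ, Set.inter_univ]
    exact ENNReal.div_self (k6b_ew_prior_ne h) (k6b_ew_prior_fin h.wf _)

/-- **E1** -/
theorem k6b_entry_wf_of (hcov : k6b_sw_cov_stmt) : k6b_entry_wf_stmt := by
  intro j D Pk d k K εT a1 a2 w nb nx nv Dg E Ep Es g q zc T M h
  refine ⟨k6b_ew_wf hcov h M (64 * K), ?_, k6b_ew_g_le h M (64 * K)⟩
  rw [k6b_ew_nu_univ (k6b_ew_nuQ_ne h) (k6b_ew_nuQ_top h)]
  rw [← ENNReal.ofReal_one]
  exact ENNReal.ofReal_le_ofReal h.K_ge

end hyp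

end

end Claimed.Agent.R252
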