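import Claimed.Agent.R252.S6b.ExitDefs
import Claimed.Agent.R252.S6b.EntryWf

/-!
# Row252, unit S6b, part I, leaf X1: the exit of version 1      (helper60; prefix `k6b_ex_`)

* the dictionary `k6b_pk` ↔ `KsRef` for the label `q` (`k6b_ex_H .. k6b_ex_nuQ`), shared with X2 (`S6b/Exit2.lean`) and HD (`S6b/Hid.lean`);
* `k6b_ex_core`: the common part of X1, X2 (any version): a test `P` with bounds along the normalised events of `Fam` is a `KsTimeCand`;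
* `k6b_exit1_of : k6b_bridge_stmt → k6b_sw_cov_stmt → k6b_quad_of_p2_stmt → k6b_exit1_stmt`.
-/

set_option autoImplicit false

namespace Claimed.Agent.R252

open MeasureTheory MvPolynomial
open scoped ENNReal BigOperators

noncomputable section

variable {v : KbVer}

/-! ## 1. The dictionary -/

section dict

variable (R : KsRef v) (A : R.Par) (s s1 s2 : ℝ) (lv : ℕ) (q : R.Lab)

theorem k6b_ex_H : (k6b_pk R A s s1 s2 lv).H = kbQ lv := rfl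

theorem k6b_ex_Q_pos : 0 < kbQ lv := by unfold kbQ; positivity

variable {R s lv q}

theorem k6b_ex_asg (hdep : R.dep q = s) (hlev : R.lev q = lv) : (k6b_pk R A s s1 s2 lv).asg q = R.asg q :=
  if_pos ⟨hdep, hlev⟩

theorem k6b_ex_t0 (hlev : R.lev q = lv) : k6b_t0 (k6b_pk R A s s1 s2 lv) q = R.t0 q := by
  unfold k6b_t0 KsRef.t0
  rw [k6b_ex_H, hlev]
  show (((R.iv q : ℕ) : ℤ) : ℝ) * kbQ lv = _
  rw [Int.cast_natCast]

theorem k6b_ex_blk (hlev : R.lev q = lv) : (k6b_pk R A s s1 s2 lv).blk q = R.blk q := by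
  ext t
  unfold K6aPk.blk KsRef.blk kbI k6aBin
  rw [hlev]
  show ⌊t * 2 ^ lv⌋ = ((R.iv q : ℕ) : ℤ) ↔ _
  have h2 : (0 : ℝ) < 2 ^ lv := by positivity
  have e : kbQ lv = (2 ^ lv : ℝ)⁻¹ := by unfold kbQ; rw [one_div, inv_pow]
  rw [Int.floor_eq_iff, Set.mem_Ico, e, Int.cast_natCast, ← div_eq_mul_inv, ← div_eq_mul_inv, div_le_iff₀ h2, lt_div_iff₀ h2]

theorem k6b_ex_inc (hdep : R.dep q = s) (hlev : R.lev q = lv) : (k6b_pk R A s s1 s2 lv).inc q = R.inc q := by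
  unfold K6aPk.inc KsRef.inc
  rw [k6b_ex_asg A s1 s2 hdep hlev, k6b_ex_blk A s1 s2 hlev]
  rfl

theorem k6b_ex_nuQ (hdep : R.dep q = s) (hlev : R.lev q = lv) : (k6b_pk R A s s1 s2 lv).νQ q = R.νQ q := by
  unfold K6aPk.νQ KsRef.νQ
  rw [k6b_ex_asg A s1 s2 hdep hlev]
  rfl

/-- a time of the block in normalised units -/
theorem k6b_ex_tau (hlev : R.lev q = lv) {t : ℝ} (ht : t ∈ R.blk q) :
    (t - R.t0 q) / kbQ lv ∈ Set.Icc (0 : ℝ) 1 ∧ R.t0 q + kbQ lv * ((t - R.t0 q) / kbQ lv) = t := by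
  have hQ := k6b_ex_Q_pos lv
  unfold KsRef.blk kbI at ht
  rw [hlev] at ht
  have e : R.t0 q = (R.iv q : ℝ) * kbQ lv := by unfold KsRef.t0; rw [hlev]
  refine ⟨⟨?_, ?_⟩, ?_⟩
  · rw [e]
    exact div_nonneg (by linarith [ht.1]) hQ.le
  · rw [e, div_le_one hQ]
    have := ht.2
    nlinarith
  · field_simp
    ring

end dict

theorem k6b_ex_a_pos {R : KsRef v} {K : ℝ} (h : R.Ok K) (s : ℝ) : 0 < R.a s :=
  Real.rpow_pos_of_pos (by linarith [h.N_ge]) _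

theorem k6b_ex_a_ratio {R : KsRef v} {K : ℝ} (h : R.Ok K) (s s2 : ℝ) : R.a (R.d * (s2 - s)) = (R.a s2 / R.a s) ^ R.d := by
  have hN : 0 < R.N := by linarith [h.N_ge]
  unfold KsRef.a
  rw [← Real.rpow_sub hN, ← Real.rpow_mul hN.le]
  congr 1
  ring

/-- nondegenerate selection -/
theorem k6b_ex_prior_ne {R : KsRef v} {K : ℝ} {lv : ℕ} {q : R.Lab} {Es : Set (R.L × ℝ)}
    (hmass : ENNReal.ofReal (kbQ lv) * R.νQ q ≤ ENNReal.ofReal K * R.prior Es) (hν : R.νQ q ≠ 0) : R.prior Es ≠ 0 := by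
  intro h0
  rw [h0, mul_zero, nonpos_iff_eq_zero, mul_eq_zero, ENNReal.ofReal_eq_zero] at hmass
  rcases hmass with h1 | h1
  · exact absurd h1 (not_le.2 (k6b_ex_Q_pos lv))
  · exact hν h1

/-- **E0 in the language of `KsRef`** -/
theorem k6b_ex_cov (hbr : k6b_bridge_stmt) (hcov : k6b_sw_cov_stmt) (R : KsRef v) (A : R.Par) (s s1 s2 K Kl : ℝ) (lv nb nv : ℕ) (q : R.Lab)
    (zc : ℝ × (Fin v.j → ℝ)) (Es : Set (R.L × ℝ))
    (hOk : R.Ok K) (hdep : R.dep q = s) (hlev : R.lev q = lv) (hEs : MeasurableSet Es) (hsub : Es ⊆ R.Ev0 ∩ R.inc q)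
    (hWF : (k6aOf R A s s1 s2).WF K) (hν : R.νQ q ≠ 0) (hpE : R.prior Es ≠ 0) :
    (∀ e : R.L × ℝ, e.1 ∈ R.Sp → (k6b_swR R A s s1 s2 lv q zc Es nb nv Kl).pos e
      = k6aU (kbQ lv) zc (R.t0 q + kbQ lv * e.2, R.y e.1 (R.t0 q + kbQ lv * e.2))) ∧
    (∀ e : R.L × ℝ, e.1 ∈ R.Sp → (k6b_swR R A s s1 s2 lv q zc Es nb nv Kl).x e = R.X e.1 (R.t0 q + kbQ lv * e.2) / kbQ lv) ∧
    (∀ F : Set (R.L × ℝ), MeasurableSet F → (k6b_swR R A s s1 s2 lv q zc Es nb nv Kl).mu F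
      = R.prior (Es ∩ k6b_norm (k6b_pk R A s s1 s2 lv) q ⁻¹' F) / R.prior Es) ∧
    (∀ e : R.L × ℝ, e ∈ (k6b_swR R A s s1 s2 lv q zc Es nb nv Kl).sup ↔ (e.1, R.t0 q + kbQ lv * e.2) ∈ Es) := by
  obtain ⟨hpr, hb⟩ := hbr v R A s s1 s2 K hOk
  obtain ⟨c1, c2, -, c4⟩ := hcov v.j (k6aOf R A s s1 s2) (k6b_pk R A s s1 s2 lv) q zc Es nb nv (64 * Kl) K (k6b_M Kl nb nv) hWF hEs
      (by rw [k6b_ex_asg A s1 s2 hdep hlev]; exact hOk.m_asg q)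
      (by rw [k6b_ex_inc A s1 s2 hdep hlev]; exact fun p hp => (hsub hp).2)
      (fun p hp => ⟨Set.mem_univ _, (hOk.Ev0_sub (hsub hp).1).2⟩)
      (by rw [k6b_ex_nuQ A s1 s2 hdep hlev]; exact hν)
      (by rw [hpr]; exact hpE)
  have hph : ∀ e : R.L × ℝ, k6b_phys (k6b_pk R A s s1 s2 lv) q e = (e.1, R.t0 q + kbQ lv * e.2) := by
    intro e
    unfold k6b_phys
    rw [k6b_ex_t0 A s1 s2 hlev, k6b_ex_H]
    rfl
  refine ⟨fun e he => ?_, fun e he => ?_, fun F hF => ?_, fun e => ?_⟩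
  · refine (c1 e).trans ?_
    rw [hph, k6b_ex_H]
    unfold K6aDat.base
    rw [((hb e.1 he).2 _).1]
  · show (k6aOf R A s s1 s2).X e.1 (k6b_t0 (k6b_pk R A s s1 s2 lv) q + (k6b_pk R A s s1 s2 lv).H * e.2) / (k6b_pk R A s s1 s2 lv).H = _
    rw [k6b_ex_t0 A s1 s2 hlev, k6b_ex_H, ((hb e.1 he).2 _).2]
  · refine (c2 F hF).trans ?_
    rw [hpr]
    rfl
  · refine (c4 e).trans ?_
    rw [hph]
    exact Iff.rfl

/-! ## 2. The common core of the exits -/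

/-- **the common part of X1, X2** -/
theorem k6b_ex_core (hbr : k6b_bridge_stmt) (hcov : k6b_sw_cov_stmt) (R : KsRef v) (A : R.Par) (s s1 s2 K Kl A' : ℝ) (lv nb nv : ℕ) (q : R.Lab)
    (zc : ℝ × (Fin v.j → ℝ)) (E Es : Set (R.L × ℝ)) (Fam : Set (R.L × ℝ)) (P : KbTest v)
    (hOk : R.Ok K) (hdep : R.dep q = s) (hlev : R.lev q = lv) (hEs : MeasurableSet Es) (hsub : Es ⊆ E ∩ R.inc q) (hE : E ⊆ R.Ev0)
    (hWF : (k6aOf R A s s1 s2).WF K) (hmass : ENNReal.ofReal (kbQ lv) * R.νQ q ≤ ENNReal.ofReal K * R.prior Es) (hν : R.νQ q ≠ 0) (hA' : 1 ≤ A')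
    (hFam : MeasurableSet Fam)
    (hmu : ENNReal.ofReal ((R.a s2 / R.a s) ^ R.d) ≤ ENNReal.ofReal A' * (k6b_swR R A s s1 s2 lv q zc Es nb nv Kl).mu Fam)
    (hadm : KbAdm P)
    (hval : ∀ e ∈ Fam, e.1 ∈ R.Sp → ∀ τ ∈ Set.Icc (0 : ℝ) 1, |R.ev P e.1 (R.t0 q + kbQ lv * τ)| ≤ A' * R.a s2)
    (hdw : ∀ e ∈ Fam, e.1 ∈ R.Sp → ∀ τ ∈ Set.Icc (0 : ℝ) 1, |R.ev (kbDw P) e.1 (R.t0 q + kbQ lv * τ)| ≤ A')
    (hdww : ∀ t y w, |kbDww P t y w| * R.a s2 ≤ A')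
    (hlo : ∀ e ∈ Fam, e.1 ∈ R.Sp → 1 ≤ A' * |R.ev (kbDw P) e.1 (R.t0 q + kbQ lv * e.2)|) :
    KsTimeCand R E (A' * K) (s2 - s) q P (Es ∩ k6b_norm (k6b_pk R A s s1 s2 lv) q ⁻¹' Fam) := by
  have hK : 1 ≤ K := hOk.K_ge
  have hQ := k6b_ex_Q_pos lv
  have hpr : (k6aOf R A s s1 s2).prior = R.prior := (hbr v R A s s1 s2 K hOk).1
  have hAK : A' ≤ A' * K := le_mul_of_one_le_right (by linarith) hK
  have has2 : R.a (R.dep q + (s2 - s)) = R.a s2 := by rw [hdep]; congr 1; ring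
  have ha2 := k6b_ex_a_pos hOk s2
  have hSp : ∀ p ∈ Es, p.1 ∈ R.Sp := fun p hp => (hOk.Ev0_sub (hE (hsub hp).1)).1
  have hnorm1 : ∀ p : R.L × ℝ, (k6b_norm (k6b_pk R A s s1 s2 lv) q p).1 = p.1 := fun _ => rfl
  have hnorm2 : ∀ p : R.L × ℝ, (k6b_norm (k6b_pk R A s s1 s2 lv) q p).2 = (p.2 - R.t0 q) / kbQ lv := by
    intro p
    unfold k6b_norm
    rw [k6b_ex_t0 A s1 s2 hlev, k6b_ex_H]
  have hprE0 : R.prior Es ≠ 0 := k6b_ex_prior_ne hmass hν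
  have hprET : R.prior Es ≠ ⊤ := by rw [← hpr]; exact k6b_ew_prior_fin hWF Es
  refine
    { adm := hadm
      pos := hν
      meas := hEs.inter (k6b_ew_norm_meas (k6b_pk R A s s1 s2 lv) q hFam)
      sub := fun p hp => hsub hp.1
      val := ?_
      dw := ?_
      dww := ?_
      dw_lo := ?_
      mass := ?_ }
  · rintro p ⟨hp1, hp2⟩ t ht
    obtain ⟨h1, h2⟩ := k6b_ex_tau hlev ht
    have := hval _ hp2 (hSp p hp1) _ h1
    rw [h2, hnorm1] at this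
    rw [has2]
    exact this.trans (mul_le_mul_of_nonneg_right hAK ha2.le)
  · rintro p ⟨hp1, hp2⟩ t ht
    obtain ⟨h1, h2⟩ := k6b_ex_tau hlev ht
    have := hdw _ hp2 (hSp p hp1) _ h1
    rw [h2, hnorm1] at this
    exact this.trans hAK
  · intro t y w
    rw [has2]
    exact (hdww t y w).trans hAK
  · rintro p ⟨hp1, hp2⟩
    have ht : p.2 ∈ R.blk q := ((hsub hp1).2).2
    obtain ⟨-, h2⟩ := k6b_ex_tau hlev ht
    have := hlo _ hp2 (hSp p hp1)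
    rw [hnorm2, h2, hnorm1] at this
    exact this.trans (mul_le_mul_of_nonneg_right hAK (abs_nonneg _))
  · -- the mass
    have hc := (k6b_ex_cov hbr hcov R A s s1 s2 K Kl lv nb nv q zc Es hOk hdep hlev hEs (fun p hp => ⟨hE (hsub hp).1, (hsub hp).2⟩) hWF hν
      hprE0).2.2.1 Fam hFam
    have hmu' : ENNReal.ofReal ((R.a s2 / R.a s) ^ R.d)
        ≤ ENNReal.ofReal A' * (R.prior (Es ∩ k6b_norm (k6b_pk R A s s1 s2 lv) q ⁻¹' Fam) / R.prior Es) :=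
      hmu.trans (le_of_eq (congrArg (fun x => ENNReal.ofReal A' * x) hc))
    have hq : R.q q = kbQ lv := by unfold KsRef.q; rw [hlev]
    rw [hq, k6b_ex_a_ratio hOk, mul_comm (kbQ lv), ENNReal.ofReal_mul (Real.rpow_nonneg (div_nonneg ha2.le (k6b_ex_a_pos hOk s).le) _), mul_assoc]
    calc ENNReal.ofReal ((R.a s2 / R.a s) ^ R.d) * (ENNReal.ofReal (kbQ lv) * R.νQ q)
        ≤ (ENNReal.ofReal A' * (R.prior (Es ∩ k6b_norm (k6b_pk R A s s1 s2 lv) q ⁻¹' Fam) / R.prior Es)) * (ENNReal.ofReal K * R.prior Es) :=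
          mul_le_mul' hmu' hmass
      _ = ENNReal.ofReal A' * ENNReal.ofReal K * (R.prior (Es ∩ k6b_norm (k6b_pk R A s s1 s2 lv) q ⁻¹' Fam) / R.prior Es * R.prior Es) := by ring
      _ = ENNReal.ofReal (A' * K) * R.prior (Es ∩ k6b_norm (k6b_pk R A s s1 s2 lv) q ⁻¹' Fam) := by
          rw [ENNReal.div_mul_cancel hprE0 hprET, ENNReal.ofReal_mul (by linarith)]

/-! ## 3. The exit of version 1 -/

theorem k6b_exit1_of (hbr : k6b_bridge_stmt) (hcov : k6b_sw_cov_stmt) (hQ3 : k6b_quad_of_p2_stmt) : k6b_exit1_stmt := by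
  intro R A s s1 s2 K Kl A' lv nb nv q zc E Es P2 Fam hOk _ hdep hlev hEs hsub hE hWF hmass hν hA' hP2 hFam _ hmu hfit
  obtain ⟨Q, hQ0⟩ := hQ3 P2 (kbQ lv) zc hP2
  have hQ : ∀ (t : ℝ) (y : KbB KbVer.one) (w : ℝ), Q.ev t y w = w - kbQ lv * eval (k6aU (kbQ lv) zc (t, y)) P2 := hQ0
  have hH := k6b_ex_Q_pos lv
  obtain ⟨c1, c2, -, -⟩ := k6b_ex_cov hbr hcov R A s s1 s2 K Kl lv nb nv q zc Es hOk hdep hlev hEs (fun p hp => ⟨hE (hsub hp).1, (hsub hp).2⟩) hWF hν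
    (k6b_ex_prior_ne hmass hν)
  have hDw : ∀ t y w, kbDw Q.ev t y w = 1 := by
    intro t y w
    unfold kbDw
    rw [hQ, hQ]
    ring
  have hDww : ∀ t y w, kbDww Q.ev t y w = 0 := by
    intro t y w
    unfold kbDww
    rw [hQ, hQ, hQ]
    ring
  have hev1 : ∀ l t, R.ev (kbDw Q.ev) l t = 1 := fun l t => hDw _ _ _
  refine ⟨Q.ev, Es ∩ k6b_norm (k6b_pk R A s s1 s2 lv) q ⁻¹' Fam, k6b_ex_core hbr hcov R A s s1 s2 K Kl A' lv nb nv q zc E Es Fam Q.ev hOk hdep hlev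
    hEs hsub hE hWF hmass hν hA' hFam hmu ⟨⟨Q, fun _ _ _ => rfl⟩, fun _ t y w => by rw [hQ, hQ]; ring⟩ ?_ ?_ ?_ ?_⟩
  · intro e he hSp τ hτ
    have h1 : |(k6b_swR R A s s1 s2 lv q zc Es nb nv Kl).x ((e.1, τ) : R.L × ℝ)
        - eval ((k6b_swR R A s s1 s2 lv q zc Es nb nv Kl).pos ((e.1, τ) : R.L × ℝ)) P2| ≤ A' * (R.a s2 / kbQ lv) := hfit e he τ hτ
    rw [c1 (e.1, τ) hSp, c2 (e.1, τ) hSp] at h1
    have hX : R.X e.1 (R.t0 q + kbQ lv * τ) = R.w e.1 (R.t0 q + kbQ lv * τ) := hOk.nat_v1 rfl _ _ _ _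
    have hev : R.ev Q.ev e.1 (R.t0 q + kbQ lv * τ)
        = kbQ lv * (R.X e.1 (R.t0 q + kbQ lv * τ) / kbQ lv - eval (k6aU (kbQ lv) zc (R.t0 q + kbQ lv * τ, R.y e.1 (R.t0 q + kbQ lv * τ))) P2) := by
      rw [hX]
      unfold KsRef.ev kbX
      rw [hQ]
      unfold KsRef.w KsRef.y
      field_simp
    rw [hev, abs_mul, abs_of_pos hH]
    calc kbQ lv * _ ≤ kbQ lv * (A' * (R.a s2 / kbQ lv)) := mul_le_mul_of_nonneg_left h1 hH.le
      _ = A' * R.a s2 := by field_simp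
  · intro e _ _ τ _
    rw [hev1, abs_one]
    exact hA'
  · intro t y w
    rw [hDww, abs_zero, zero_mul]
    linarith
  · intro e _ _
    rw [hev1, abs_one, mul_one]
    exact hA'

end

end Claimed.Agent.R252
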