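import Claimed.Agent.R252.S6b.Exit1

/-!
# Row252, unit S6b, part I, leaf X2: the exit of version 2      (helper60; prefix `k6b_ex_`)

`k6b_exit2_of : k6b_bridge_stmt → k6b_sw_cov_stmt → k6b_quad_of_qw_stmt → k6b_exit2_stmt`.   `P = Q.ev`, `Q` from Q2 for `Pn`, `h = kbQ lv`; common part: `k6b_ex_core` (`S6b/Exit1.lean`).
-/

set_option autoImplicit false

namespace Claimed.Agent.R252

open MeasureTheory MvPolynomial
open scoped ENNReal BigOperators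

noncomputable section

theorem k6b_exit2_of (hbr : k6b_bridge_stmt) (hcov : k6b_sw_cov_stmt) (hQ2 : k6b_quad_of_qw_stmt) : k6b_exit2_stmt := by
  intro R A s s1 s2 K Kl A' lv nb nv q zc E Es Hd Pn Fam hOk _ hdep hlev hEs hsub hE hWF hmass hν hA' hwd hPn hFam _ hmu hdww hlo hfit
  obtain ⟨Q, hQ0⟩ := hQ2 Pn (kbQ lv) zc hPn
  have hQ : ∀ (t : ℝ) (y : KbB KbVer.two) (w : ℝ), Q.ev t y w = Pn.ev (k6aU (kbQ lv) zc (t, y)) w := hQ0
  have ha2 := k6b_ex_a_pos hOk s2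
  obtain ⟨c1, -, -, -⟩ := k6b_ex_cov hbr hcov R A s s1 s2 K Kl lv nb nv q zc Es hOk hdep hlev hEs (fun p hp => ⟨hE (hsub hp).1, (hsub hp).2⟩) hWF hν
    (k6b_ex_prior_ne hmass hν)
  have hDw : ∀ (t : ℝ) (y : KbB KbVer.two) (w : ℝ), kbDw Q.ev t y w = Pn.dw (k6aU (kbQ lv) zc (t, y)) w := by
    intro t y w
    unfold kbDw
    rw [hQ, hQ]
    unfold k6b_QW.ev k6b_QW.dw
    ring
  have hDww : ∀ (t : ℝ) (y : KbB KbVer.two) (w : ℝ), kbDww Q.ev t y w = Pn.dww := by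
    intro t y w
    unfold kbDww
    rw [hQ, hQ, hQ]
    unfold k6b_QW.ev k6b_QW.dww
    ring
  -- the test along a trajectory
  have hev : ∀ (l : R.L) (τ : ℝ), l ∈ R.Sp → R.ev Q.ev l (R.t0 q + kbQ lv * τ)
      = Pn.ev ((k6b_swR R A s s1 s2 lv q zc Es nb nv Kl).pos ((l, τ) : R.L × ℝ)) (Hd.wd ((l, τ) : R.L × ℝ)) := by
    intro l τ hl
    rw [c1 (l, τ) hl]
    have e := hwd l τ
    rw [show Hd.wd ((l, τ) : R.L × ℝ) = R.w l (R.t0 q + kbQ lv * τ) from e]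
    exact hQ _ _ _
  have hevd : ∀ (l : R.L) (τ : ℝ), l ∈ R.Sp → R.ev (kbDw Q.ev) l (R.t0 q + kbQ lv * τ)
      = Pn.dw ((k6b_swR R A s s1 s2 lv q zc Es nb nv Kl).pos ((l, τ) : R.L × ℝ)) (Hd.wd ((l, τ) : R.L × ℝ)) := by
    intro l τ hl
    rw [c1 (l, τ) hl]
    have e := hwd l τ
    rw [show Hd.wd ((l, τ) : R.L × ℝ) = R.w l (R.t0 q + kbQ lv * τ) from e]
    exact hDw _ _ _
  refine ⟨Q.ev, Es ∩ k6b_norm (k6b_pk R A s s1 s2 lv) q ⁻¹' Fam, k6b_ex_core hbr hcov R A s s1 s2 K Kl A' lv nb nv q zc E Es Fam Q.ev hOk hdep hlev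
    hEs hsub hE hWF hmass hν hA' hFam hmu ⟨⟨Q, fun _ _ _ => rfl⟩, fun h => by cases h⟩ ?_ ?_ ?_ ?_⟩
  · intro e he hSp τ hτ
    rw [hev e.1 τ hSp]
    exact (hfit e he τ hτ).1
  · intro e he hSp τ hτ
    rw [hevd e.1 τ hSp]
    exact (hfit e he τ hτ).2
  · intro t y w
    rw [hDww]
    calc |Pn.dww| * R.a s2 ≤ A' / R.a s2 * R.a s2 := mul_le_mul_of_nonneg_right hdww ha2.le
      _ = A' := div_mul_cancel₀ _ ha2.ne'
  · intro e he hSp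
    rw [hevd e.1 e.2 hSp]
    exact hlo e he

end

end Claimed.Agent.R252
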