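import Claimed.Agent.R252.S6b.Exit1

/-!
# Row252, unit S6b, part I, leaf HD: the hidden data of version 2      (helper60; prefix `k6b_hd_`)

`k6b_hid_of : k6b_bridge_stmt → k6b_sw_cov_stmt → k6b_qw_of_quad_stmt → k6b_hid_stmt`.   Dictionary: `S6b/Exit1.lean` (`k6b_ex_cov`).
-/

set_option autoImplicit false

namespace Claimed.Agent.R252

open MeasureTheory MvPolynomial
open scoped ENNReal BigOperators

noncomputable section

/-- a quadratic test of version 2 in the coordinates `(u, w)`, with its hidden derivatives -/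
theorem k6b_hd_qw (hQ1 : k6b_qw_of_quad_stmt) (T : KbTest KbVer.two) (hT : KbIsQuad T) (h : ℝ) (hh : h ≠ 0) (zc : ℝ × (Fin KbVer.two.j → ℝ)) :
    ∃ W : k6b_QW, W.Quad ∧ (∀ (t : ℝ) (y : KbB KbVer.two) (w : ℝ), W.ev (k6aU h zc (t, y)) w = T t y w) ∧
      (∀ (t : ℝ) (y : KbB KbVer.two) (w : ℝ), W.dw (k6aU h zc (t, y)) w = kbDw T t y w) ∧
      (∀ (t : ℝ) (y : KbB KbVer.two) (w : ℝ), W.dww = kbDww T t y w) := by
  obtain ⟨Qn, hQn⟩ := hT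
  obtain ⟨W, hW, hev⟩ := hQ1 Qn h zc
  have h1 : ∀ (t : ℝ) (y : KbB KbVer.two) (w : ℝ), W.ev (k6aU h zc (t, y)) w = T t y w := by
    intro t y w
    rw [hQn]
    refine (hev (k6aU h zc (t, y)) w).trans ?_
    have e1 : zc.1 + h * (k6aU h zc (t, y)) 0 = t := by
      unfold k6aU
      rw [Fin.cons_zero]
      field_simp
      ring
    have e2 : (fun a : Fin KbVer.two.j => zc.2 a + h * (k6aU h zc (t, y)) a.succ) = y := by
      funext a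
      unfold k6aU
      rw [Fin.cons_succ]
      field_simp
      ring
    exact congrArg₂ (fun a b => Qn.ev a b w) e1 e2
  refine ⟨W, hW, h1, fun t y w => ?_, fun t y w => ?_⟩
  · unfold kbDw
    rw [← h1, ← h1]
    unfold k6b_QW.ev k6b_QW.dw
    ring
  · unfold kbDww
    rw [← h1, ← h1, ← h1]
    unfold k6b_QW.ev k6b_QW.dww
    ring

/-- the hidden coordinate is affine in version 2 -/
theorem k6b_hd_w (R : KsRef KbVer.two) (l : R.L) (a b τ : ℝ) : R.w l (a + b * τ) = R.w l a + τ * (b * (R.w l 1 - R.w l 0)) := by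
  unfold KsRef.w kbW
  have e : ∀ f : Fin KbVer.two.e → ℝ, ∑ i, f i = f (0 : Fin 2) + f (1 : Fin 2) := fun f => Fin.sum_univ_two f
  rw [e, e, e, e]
  simp
  ring

theorem k6b_hd_w_meas {R : KsRef KbVer.two} {K : ℝ} (h : R.Ok K) (t : ℝ) : Measurable fun l => R.w l t := by
  unfold KsRef.w kbW
  have h1 := h.m_co
  refine Finset.measurable_sum _ fun i _ => ?_
  exact ((measurable_pi_apply i).comp (measurable_snd.comp (measurable_snd.comp h1))).mul_const _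

theorem k6b_hid_of (hbr : k6b_bridge_stmt) (hcov : k6b_sw_cov_stmt) (hQ1 : k6b_qw_of_quad_stmt) : k6b_hid_stmt := by
  intro R A s s1 s2 K Kl lv nb nv q zc Es hOk hOne hdep hlev hsub hWF hEs hν hpE
  have hH := k6b_ex_Q_pos lv
  obtain ⟨c1, c2, -, c4⟩ := k6b_ex_cov hbr hcov R A s s1 s2 K Kl lv nb nv q zc Es hOk hdep hlev hEs hsub hWF hν hpE
  obtain ⟨Wn, hWn, n1, n2, n3⟩ := k6b_hd_qw hQ1 (R.nat A) (hOk.nat_adm A).1 (kbQ lv) hH.ne' zc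
  obtain ⟨Ws, hWs, t1, t2, t3⟩ := k6b_hd_qw hQ1 (R.tst q) (hOk.tst_adm q).1 (kbQ lv) hH.ne' zc
  have has := k6b_ex_a_pos hOk s
  have hwd : ∀ (l : R.L) (τ : ℝ), R.w l (R.t0 q) + τ * (kbQ lv * (R.w l 1 - R.w l 0)) = R.w l (R.t0 q + kbQ lv * τ) :=
    fun l τ => (k6b_hd_w R l _ _ τ).symm
  -- the facts at an event of the support
  have key : ∀ e : R.L × ℝ, e ∈ (k6b_swR R A s s1 s2 lv q zc Es nb nv Kl).sup →
      (e.1, R.t0 q + kbQ lv * e.2) ∈ Es ∧ e.1 ∈ R.Sp ∧ R.par e.1 = A ∧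
      (k6b_swR R A s s1 s2 lv q zc Es nb nv Kl).pos e = k6aU (kbQ lv) zc (R.t0 q + kbQ lv * e.2, R.y e.1 (R.t0 q + kbQ lv * e.2)) := by
    intro e he
    have h1 := (c4 e).1 he
    have h2 : e.1 ∈ R.Sp := (hOk.Ev0_sub (hsub h1).1).1
    exact ⟨h1, h2, hOne.par (e.1, R.t0 q + kbQ lv * e.2) (hsub h1).1, c1 e h2⟩
  have g : ∀ (F : (Fin 3 → ℝ) → ℝ → ℝ) (e : R.L × ℝ), e ∈ (k6b_swR R A s s1 s2 lv q zc Es nb nv Kl).sup →
      F ((k6b_swR R A s s1 s2 lv q zc Es nb nv Kl).pos e) (R.w e.1 (R.t0 q) + e.2 * (kbQ lv * (R.w e.1 1 - R.w e.1 0)))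
        = F (k6aU (kbQ lv) zc (R.t0 q + kbQ lv * e.2, R.y e.1 (R.t0 q + kbQ lv * e.2))) (R.w e.1 (R.t0 q + kbQ lv * e.2)) :=
    fun F e he => congrArg₂ F (key e he).2.2.2 (hwd e.1 e.2)
  have f1 : ∀ e : R.L × ℝ, e ∈ (k6b_swR R A s s1 s2 lv q zc Es nb nv Kl).sup →
      kbQ lv * (k6b_swR R A s s1 s2 lv q zc Es nb nv Kl).x e = Wn.ev ((k6b_swR R A s s1 s2 lv q zc Es nb nv Kl).pos e)
        (R.w e.1 (R.t0 q) + e.2 * (kbQ lv * (R.w e.1 1 - R.w e.1 0))) := by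
    intro e he
    obtain ⟨k1, k2, k3, k4⟩ := key e he
    rw [(g Wn.ev e he).trans (n1 _ _ _), c2 e k2, mul_div_cancel₀ _ hH.ne']
    unfold KsRef.X
    rw [k3]
    rfl
  have f2 : ∀ e : R.L × ℝ, e ∈ (k6b_swR R A s s1 s2 lv q zc Es nb nv Kl).sup →
      |Wn.dw ((k6b_swR R A s s1 s2 lv q zc Es nb nv Kl).pos e) (R.w e.1 (R.t0 q) + e.2 * (kbQ lv * (R.w e.1 1 - R.w e.1 0)))| ≤ K ∧
      1 ≤ K * |Wn.dw ((k6b_swR R A s s1 s2 lv q zc Es nb nv Kl).pos e) (R.w e.1 (R.t0 q) + e.2 * (kbQ lv * (R.w e.1 1 - R.w e.1 0)))| := by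
    intro e he
    obtain ⟨k1, k2, k3, k4⟩ := key e he
    rw [(g Wn.dw e he).trans (n2 _ _ _)]
    have a1 := hOk.nat_w e.1 k2 _ (hOk.Ev0_sub (hsub k1).1).2
    have a2 := hOk.nat_lo _ (hsub k1).1
    simp only [k3] at a1 a2
    exact ⟨a1, a2⟩
  have f3 : |Wn.dww| ≤ K := by
    rw [n3 0 0 0]
    exact hOk.nat_ww A 0 0 0
  have f4 : ∀ e : R.L × ℝ, e ∈ (k6b_swR R A s s1 s2 lv q zc Es nb nv Kl).sup →
      |Ws.ev ((k6b_swR R A s s1 s2 lv q zc Es nb nv Kl).pos e) (R.w e.1 (R.t0 q) + e.2 * (kbQ lv * (R.w e.1 1 - R.w e.1 0)))| ≤ K * R.a s := by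
    intro e he
    obtain ⟨k1, k2, k3, k4⟩ := key e he
    rw [(g Ws.ev e he).trans (t1 _ _ _), ← hdep]
    exact hOk.tst_val q e.1 (hsub k1).2.1 _ (hsub k1).2.2
  have f5 : ∀ e : R.L × ℝ, e ∈ (k6b_swR R A s s1 s2 lv q zc Es nb nv Kl).sup →
      |Ws.dw ((k6b_swR R A s s1 s2 lv q zc Es nb nv Kl).pos e) (R.w e.1 (R.t0 q) + e.2 * (kbQ lv * (R.w e.1 1 - R.w e.1 0)))| ≤ K ∧
      1 ≤ K * |Ws.dw ((k6b_swR R A s s1 s2 lv q zc Es nb nv Kl).pos e) (R.w e.1 (R.t0 q) + e.2 * (kbQ lv * (R.w e.1 1 - R.w e.1 0)))| := by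
    intro e he
    obtain ⟨k1, k2, k3, k4⟩ := key e he
    rw [(g Ws.dw e he).trans (t2 _ _ _)]
    exact ⟨hOk.tst_w q e.1 (hsub k1).2.1 _ (hsub k1).2.2, hOk.tst_lo q _ (hsub k1)⟩
  have f6 : |Ws.dww| ≤ K / R.a s := by
    rw [t3 0 0 0, le_div_iff₀ has, ← hdep]
    exact hOk.tst_ww q 0 0 0
  exact ⟨⟨fun l => R.w l (R.t0 q), fun l => kbQ lv * (R.w l 1 - R.w l 0), Wn, Ws⟩,
    { w0_meas := k6b_hd_w_meas hOk _
      w1_meas := ((k6b_hd_w_meas hOk 1).sub (k6b_hd_w_meas hOk 0)).const_mul _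
      qst := hWn
      qs := hWs
      native := f1
      st_dw := f2
      st_dww := f3
      s_ev := f4
      s_dw := f5
      s_dww := f6
      time0 := fun l => rfl
      cen0 := fun J => rfl }, hwd⟩

end

end Claimed.Agent.R252
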