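import Claimed.Agent.R252.S6b.ExitDefs

/-!
# Row252, unit S6b: THE HUB `k6b_hub_of` (glue of the entry, the two main statements and the two exits).
-/

set_option autoImplicit false

namespace Claimed.Agent.R252

open MeasureTheory MvPolynomial
open scoped ENNReal BigOperators

noncomputable section

/-- `((1/2)^n)^x = 2^(-(n x))` -/
theorem k6b_hub_half_rpow (n : ℕ) (x : ℝ) : ((1 / 2 : ℝ) ^ n) ^ x = (2 : ℝ) ^ (-((n : ℝ) * x)) := by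
  rw [← Real.rpow_natCast, ← Real.rpow_mul (by norm_num), Real.rpow_neg (by norm_num), one_div,
    Real.inv_rpow (by norm_num)]

theorem k6b_hub_W_pos (i : ℕ) : 0 < k6aW i := by
  show 0 < (1 / 2 : ℝ) ^ i
  positivity

theorem k6b_hub_W_le (i : ℕ) : k6aW i ≤ 1 := by
  show (1 / 2 : ℝ) ^ i ≤ 1
  exact pow_le_one₀ (by norm_num) (by norm_num)

/-- the exponent arithmetic of the hub -/
theorem k6b_hub_num {c m Rm K : ℝ} {k c₀ k0 lv nx p : ℕ} (hm : 0 < m) (hRm : 0 < Rm)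
    (hk0 : c * (c₀ : ℝ) ^ k ≤ (2 : ℝ) ^ (m * k0 / 4)) (hlv : k0 ≤ lv) (hK1 : 1 ≤ K) (hp : 1 ≤ p)
    (hK : K ≤ (2 : ℝ) ^ (m / (4 * (c₀ * k + p)) * lv)) (hnx : (nx : ℝ) ≤ Rm * lv) :
    c * ((c₀ : ℝ) * K ^ c₀) ^ k * (k6aW nx) ^ (-(m / (4 * Rm))) * K ^ p ≤ (2 : ℝ) ^ (3 / 4 * m * lv) := by
  have h2 : (1 : ℝ) ≤ 2 := by norm_num
  have hlv' : (k0 : ℝ) ≤ lv := by exact_mod_cast hlv
  have hlv0 : (0 : ℝ) ≤ lv := Nat.cast_nonneg _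
  have hp' : (1 : ℝ) ≤ p := by exact_mod_cast hp
  have e1 : c * (c₀ : ℝ) ^ k ≤ (2 : ℝ) ^ (m * lv / 4) :=
    hk0.trans (Real.rpow_le_rpow_of_exponent_le h2 (by nlinarith))
  have e2 : (k6aW nx) ^ (-(m / (4 * Rm))) ≤ (2 : ℝ) ^ (m * lv / 4) := by
    show ((1 / 2 : ℝ) ^ nx) ^ (-(m / (4 * Rm))) ≤ _
    rw [k6b_hub_half_rpow]
    apply Real.rpow_le_rpow_of_exponent_le h2
    have h1 : (nx : ℝ) * (m / (4 * Rm)) ≤ Rm * lv * (m / (4 * Rm)) :=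
      mul_le_mul_of_nonneg_right hnx (by positivity)
    have e : Rm * lv * (m / (4 * Rm)) = m * lv / 4 := by field_simp
    linarith
  have e3 : K ^ (c₀ * k + p) ≤ (2 : ℝ) ^ (m * lv / 4) := by
    calc K ^ (c₀ * k + p) ≤ ((2 : ℝ) ^ (m / (4 * (c₀ * k + p)) * lv)) ^ (c₀ * k + p) :=
          pow_le_pow_left₀ (by linarith) hK _
      _ = (2 : ℝ) ^ (m / (4 * (c₀ * k + p)) * lv * ((c₀ * k + p : ℕ) : ℝ)) := by
          rw [← Real.rpow_natCast, ← Real.rpow_mul (by norm_num)]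
      _ = _ := by
          congr 1
          push_cast
          have hX : (0 : ℝ) < (c₀ : ℝ) * k + p := by positivity
          field_simp
  have hW : 0 ≤ (k6aW nx) ^ (-(m / (4 * Rm))) := Real.rpow_nonneg (k6b_hub_W_pos nx).le _
  calc c * ((c₀ : ℝ) * K ^ c₀) ^ k * (k6aW nx) ^ (-(m / (4 * Rm))) * K ^ p
      = (c * (c₀ : ℝ) ^ k) * (k6aW nx) ^ (-(m / (4 * Rm))) * K ^ (c₀ * k + p) := by
        rw [mul_pow, ← pow_mul, pow_add]; ring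
    _ ≤ (2 : ℝ) ^ (m * lv / 4) * (2 : ℝ) ^ (m * lv / 4) * (2 : ℝ) ^ (m * lv / 4) := by
        gcongr
    _ = (2 : ℝ) ^ (3 / 4 * m * lv) := by
        rw [← Real.rpow_add (by norm_num), ← Real.rpow_add (by norm_num)]
        congr 1; ring

/-- a slack `≤ 2^(t lv)` with `t ≤ μ` is absorbed by the margin `h^μ` -/
theorem k6b_hub_theta {X t μ : ℝ} {lv : ℕ} (hX : X ≤ (2 : ℝ) ^ (t * lv)) (ht : t ≤ μ) :
    X * (kbQ lv) ^ μ ≤ 1 := by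
  have e : (kbQ lv) ^ μ = (2 : ℝ) ^ (-((lv : ℝ) * μ)) := k6b_hub_half_rpow lv μ
  rw [e]
  calc X * (2 : ℝ) ^ (-((lv : ℝ) * μ)) ≤ (2 : ℝ) ^ (t * lv) * (2 : ℝ) ^ (-((lv : ℝ) * μ)) :=
        mul_le_mul_of_nonneg_right hX (by positivity)
    _ = (2 : ℝ) ^ (t * lv + -((lv : ℝ) * μ)) := by rw [← Real.rpow_add (by norm_num)]
    _ ≤ (2 : ℝ) ^ (0 : ℝ) := Real.rpow_le_rpow_of_exponent_le (by norm_num) (by
        have : (0 : ℝ) ≤ lv := Nat.cast_nonneg _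
        nlinarith)
    _ = 1 := Real.rpow_zero _

/-- the margins of the main statements from the scale inequalities (`L` = the factor of the field error) -/
theorem k6b_hub_margins {j : ℕ} {A' K L θ d h a a1 a2 εT : ℝ} {nb nx nv : ℕ}
    (hA : 0 ≤ A') (hK1 : 1 ≤ K) (hKL : K ≤ L) (hAL : A' * L * θ ≤ 1) (hLθ : L * θ ≤ 1) (hh : 0 < h)
    (ha : 0 < a) (ha1 : 0 < a1) (ha2 : 0 < a2) (hεT : 0 ≤ εT)
    (sim_u : k6aW nb / h + k6aW nv ≤ k6aW nx)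
    (sim_x : k6aW nb / h + k6aW nv + εT ≤ θ * (a1 / h))
    (main : εT + (a / a1) ^ d * (a1 / h) + k6aW nb / h + k6aW nv + k6aW nx ≤ θ * (a2 / h))
    (a2_le_h : a2 ≤ h) :
    k6b_Margins (j + 1) A' (k6aW nb / h) (k6aW nv) (L * εT) (k6aW nx) (a1 / h) (a2 / h)
      (k6b_Nc j K a a1 d nx) := by
  have hβ : 0 ≤ k6aW nb / h := (div_pos (k6b_hub_W_pos nb) hh).le
  have hpv : 0 ≤ k6aW nv := (k6b_hub_W_pos nv).le
  have hξ : 0 ≤ k6aW nx := (k6b_hub_W_pos nx).le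
  have hρ1 : 0 < a1 / h := div_pos ha1 hh
  have hρ2 : 0 < a2 / h := div_pos ha2 hh
  have hr : 0 ≤ (a / a1) ^ d := Real.rpow_nonneg (div_pos ha ha1).le _
  have hL1 : 1 ≤ L := hK1.trans hKL
  refine ⟨⟨k6b_hub_W_pos nx, k6b_hub_W_le nx, hρ1, hρ2, (div_le_one hh).2 a2_le_h, hβ, hpv,
    mul_nonneg (by linarith) hεT⟩, sim_u, ?_, ?_⟩
  · calc k6aW nb / h + k6aW nv + L * εT ≤ L * (k6aW nb / h + k6aW nv + εT) := by nlinarith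
      _ ≤ L * (θ * (a1 / h)) := mul_le_mul_of_nonneg_left sim_x (by linarith)
      _ = L * θ * (a1 / h) := by ring
      _ ≤ 1 * (a1 / h) := mul_le_mul_of_nonneg_right hLθ hρ1.le
      _ = a1 / h := one_mul _
  · have hN : ((k6b_Nc j K a a1 d nx : ℕ) : ℝ) * k6aW nx ^ (j + 1) ≤ L * (a / a1) ^ d := by
      have h1 : ((k6b_Nc j K a a1 d nx : ℕ) : ℝ) ≤ K * ((2 : ℝ) ^ nx) ^ (j + 1) * (a / a1) ^ d := by
        unfold k6b_Nc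
        exact Nat.floor_le (by positivity)
      have h2 : ((2 : ℝ) ^ nx) ^ (j + 1) * k6aW nx ^ (j + 1) = 1 := by
        show ((2 : ℝ) ^ nx) ^ (j + 1) * ((1 / 2 : ℝ) ^ nx) ^ (j + 1) = 1
        rw [← mul_pow, ← mul_pow]; norm_num
      calc ((k6b_Nc j K a a1 d nx : ℕ) : ℝ) * k6aW nx ^ (j + 1)
          ≤ K * ((2 : ℝ) ^ nx) ^ (j + 1) * (a / a1) ^ d * k6aW nx ^ (j + 1) :=
            mul_le_mul_of_nonneg_right h1 (by positivity)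
        _ = K * (a / a1) ^ d * (((2 : ℝ) ^ nx) ^ (j + 1) * k6aW nx ^ (j + 1)) := by ring
        _ = K * (a / a1) ^ d := by rw [h2, mul_one]
        _ ≤ L * (a / a1) ^ d := mul_le_mul_of_nonneg_right hKL hr
    have h3 : L * εT + (k6b_Nc j K a a1 d nx : ℕ) * k6aW nx ^ (j + 1) * (a1 / h) + k6aW nb / h + k6aW nv
        + k6aW nx ≤ L * (θ * (a2 / h)) := by
      have h4 : ((k6b_Nc j K a a1 d nx : ℕ) : ℝ) * k6aW nx ^ (j + 1) * (a1 / h)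
          ≤ L * (a / a1) ^ d * (a1 / h) := mul_le_mul_of_nonneg_right hN hρ1.le
      have h5 : L * (εT + (a / a1) ^ d * (a1 / h) + k6aW nb / h + k6aW nv + k6aW nx)
          ≤ L * (θ * (a2 / h)) := mul_le_mul_of_nonneg_left main (by linarith)
      nlinarith
    calc A' * (L * εT + (k6b_Nc j K a a1 d nx : ℕ) * k6aW nx ^ (j + 1) * (a1 / h) + k6aW nb / h
          + k6aW nv + k6aW nx) ≤ A' * (L * (θ * (a2 / h))) := mul_le_mul_of_nonneg_left h3 hA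
      _ = A' * L * θ * (a2 / h) := by ring
      _ ≤ 1 * (a2 / h) := mul_le_mul_of_nonneg_right hAL hρ2.le
      _ = a2 / h := one_mul _

/-- the hidden data are monotone in the slack -/
theorem k6b_hub_hid_mono {Y : k6b_Sw 3} {H : k6b_Hid Y} {K K' a h : ℝ} (hK : K ≤ K') (ha : 0 < a)
    (hO : H.Ok K a h) : H.Ok K' a h where
  w0_meas := hO.w0_meas
  w1_meas := hO.w1_meas
  qst := hO.qst
  qs := hO.qs
  native := hO.native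
  st_dw := fun e he => ⟨(hO.st_dw e he).1.trans hK,
    (hO.st_dw e he).2.trans (mul_le_mul_of_nonneg_right hK (abs_nonneg _))⟩
  st_dww := hO.st_dww.trans hK
  s_ev := fun e he => (hO.s_ev e he).trans (mul_le_mul_of_nonneg_right hK ha.le)
  s_dw := fun e he => ⟨(hO.s_dw e he).1.trans hK,
    (hO.s_dw e he).2.trans (mul_le_mul_of_nonneg_right hK (abs_nonneg _))⟩
  s_dww := hO.s_dww.trans (div_le_div_of_nonneg_right hK ha.le)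
  time0 := hO.time0
  cen0 := hO.cen0

/-! ## the record -/

variable {v : KbVer}

theorem k6b_hub_a_pos {R : KsRef v} {K : ℝ} (hOk : R.Ok K) (s : ℝ) : 0 < R.a s := by
  show 0 < R.N ^ (-s)
  exact Real.rpow_pos_of_pos (by linarith [hOk.N_ge]) _

theorem k6b_hub_Q_pos (lv : ℕ) : 0 < kbQ lv := k6b_hub_W_pos lv

theorem k6b_hub_Q_le (lv : ℕ) : kbQ lv ≤ 1 := k6b_hub_W_le lv

/-- the assignment of the packet node -/
theorem k6b_hub_asg (R : KsRef v) (A : R.Par) (s s1 s2 : ℝ) (lv : ℕ) (q : R.Lab) (hdep : R.dep q = s)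
    (hlev : R.lev q = lv) : (k6b_pk R A s s1 s2 lv).asg q = R.asg q := by
  show (if R.dep q = s ∧ R.lev q = lv then R.asg q else ∅) = R.asg q
  exact if_pos ⟨hdep, hlev⟩

theorem k6b_hub_νQ (R : KsRef v) (A : R.Par) (s s1 s2 : ℝ) (lv : ℕ) (q : R.Lab) (hdep : R.dep q = s)
    (hlev : R.lev q = lv) : (k6b_pk R A s s1 s2 lv).νQ q = R.νQ q := by
  show R.ν ((k6b_pk R A s s1 s2 lv).asg q) = R.ν (R.asg q)
  rw [k6b_hub_asg R A s s1 s2 lv q hdep hlev]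

/-- the incidences of the packet node are those of the label -/
theorem k6b_hub_inc (R : KsRef v) (A : R.Par) (s s1 s2 : ℝ) (lv : ℕ) (q : R.Lab) (hdep : R.dep q = s)
    (hlev : R.lev q = lv) : (k6b_pk R A s s1 s2 lv).inc q ⊆ R.inc q := by
  rintro ⟨l, t⟩ ⟨h1, h2⟩
  refine ⟨?_, ?_⟩
  · rw [k6b_hub_asg R A s s1 s2 lv q hdep hlev] at h1
    exact h1
  · have h3 : ⌊t * 2 ^ lv⌋ = (R.iv q : ℤ) := h2
    rw [Int.floor_eq_iff] at h3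
    show t ∈ Set.Ico ((R.iv q : ℝ) * (1 / 2 : ℝ) ^ (R.lev q)) (((R.iv q : ℝ) + 1) * (1 / 2 : ℝ) ^ (R.lev q))
    rw [hlev]
    have hp : (0 : ℝ) < 2 ^ lv := by positivity
    have e : (1 / 2 : ℝ) ^ lv = 1 / 2 ^ lv := by rw [one_div_pow]
    rw [e]
    push_cast at h3
    constructor
    · rw [mul_one_div, div_le_iff₀ hp]; exact h3.1
    · rw [mul_one_div, lt_div_iff₀ hp]; exact h3.2

/-- the hypotheses of the entry -/
theorem k6b_hub_entryHyp (hCP : k6b_cap2_of_ref_stmt) (R : KsRef v) (A : R.Par) (s s1 s2 K εT w : ℝ)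
    (lv nb nx nv Dg : ℕ) (E Ep Es : Set (R.L × ℝ)) (g : K6aWc v.j → K6aRow v.j) (q : R.Lab)
    (zc : ℝ × (Fin v.j → ℝ)) (T : Fin (v.j + 1) → MvPolynomial (Fin (v.j + 1)) ℝ)
    (hK1 : 1 ≤ K) (hOk : R.Ok K) (hOne : R.One A) (hs2 : s2 ∈ R.widths)
    (hE : E ⊆ R.Ev0) (hEp : Ep ⊆ E) (hεT : 0 ≤ εT) (hw : 0 < w) (hKw : 1 ≤ K * w)
    (hWF : (k6aOf R A s s1 s2).WF K) (hPk : (k6b_pk R A s s1 s2 lv).Ok R.d R.k K E)
    (hF : K6aField (k6aOf R A s s1 s2) (k6b_pk R A s s1 s2 lv) R.d K εT nb nx nv Dg (R.a s1) (R.a s2)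
      (1 / 2 ^ 30) w Ep Es g q zc T) :
    k6b_EntryHyp (k6aOf R A s s1 s2) (k6b_pk R A s s1 s2 lv) R.d R.k K εT (R.a s1) (R.a s2) w nb nx nv Dg
      E Ep Es g q zc T where
  j12 := by cases v; exacts [Or.inl rfl, Or.inr rfl]
  K_ge := hK1
  d_nonneg := hOk.prm.d_nonneg
  a1_pos := k6b_hub_a_pos hOk s1
  a2_pos := k6b_hub_a_pos hOk s2
  εT_nonneg := hεT
  w_pos := hw
  w_lo := hKw
  wf := hWF
  pk := hPk
  E_time := fun e he => ⟨Set.mem_univ _, (hOk.Ev0_sub (hE he)).2⟩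
  Ep_sub := hEp
  fld := hF
  cap2 := hCP v R A s s1 s2 K Es hOk hOne hs2
    (fun e he => hE (hEp (hF.Es_sub he).1))

/-- the constant of the entry is positive -/
theorem k6b_hub_c_pos {m : ℕ} {Y : k6b_Sw m} {c : ℕ} {K : ℝ} (hwf : Y.WF)
    (hg : ∀ e, Y.g e ≤ ENNReal.ofReal ((c : ℝ) * K ^ c)) : 1 ≤ c := by
  by_contra hc
  have hc0 : c = 0 := by omega
  subst hc0
  have hg0 : Y.g = fun _ => 0 := funext fun e => le_antisymm ((hg e).trans (by simp)) bot_le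
  have hmu : Y.mu Set.univ = 0 := by
    show ((Y.nu.prod (volume.restrict (Set.Icc (0 : ℝ) 1))).withDensity Y.g) Set.univ = 0
    rw [hg0]
    simp
  have := hwf.prob
  rw [hmu] at this
  exact zero_ne_one this

theorem k6b_hub_K' {c : ℕ} {K : ℝ} (hc : 1 ≤ c) (hK1 : 1 ≤ K) : K ≤ (c : ℝ) * K ^ c := by
  have h1 : (1 : ℝ) ≤ c := by exact_mod_cast hc
  have h2 : K ≤ K ^ c := le_self_pow₀ hK1 (by omega)
  nlinarith

/-- existence of `k0` -/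
theorem k6b_hub_k0 (x m : ℝ) (hm : 0 < m) : ∃ k0 : ℕ, x ≤ (2 : ℝ) ^ (m * k0 / 4) := by
  have hb : (1 : ℝ) < (2 : ℝ) ^ (m / 4) := Real.one_lt_rpow (by norm_num) (by positivity)
  obtain ⟨n, hn⟩ := pow_unbounded_of_one_lt x hb
  refine ⟨n, hn.le.trans (le_of_eq ?_)⟩
  rw [← Real.rpow_natCast, ← Real.rpow_mul (by norm_num)]
  congr 1; ring

/-- all the numerical consequences of the choice of `ε₁`, `η`, `k0` -/
theorem k6b_hub_consts {c μ Rm ε K : ℝ} {k c₀ k0 lv nx Dg : ℕ} (hc : 0 < c) (hμ : 0 < μ) (hRm : 0 < Rm)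
    (hε : 0 < ε) (hk0 : (c * (c₀ : ℝ) ^ k + 1) * 64 ^ (Dg + 1) ≤ (2 : ℝ) ^ (min ε μ * k0 / 4)) (hlv : k0 ≤ lv)
    (hK1 : 1 ≤ K) (hc₀ : 1 ≤ c₀)
    (hK : K ≤ (2 : ℝ) ^ (min ε μ / (4 * (c₀ * k + (Dg + 2 : ℕ))) * lv)) (hnx : (nx : ℝ) ≤ Rm * lv) :
    0 < c * ((c₀ : ℝ) * K ^ c₀) ^ k * (k6aW nx) ^ (-(min ε μ / (4 * Rm))) ∧
    c * ((c₀ : ℝ) * K ^ c₀) ^ k * (k6aW nx) ^ (-(min ε μ / (4 * Rm))) ≤ (2 : ℝ) ^ (ε * lv) / K ∧
    1 ≤ (2 : ℝ) ^ (ε * lv) / K ∧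
    c * ((c₀ : ℝ) * K ^ c₀) ^ k * (k6aW nx) ^ (-(min ε μ / (4 * Rm))) * (K * (64 * K) ^ (Dg + 1))
      * (kbQ lv) ^ μ ≤ 1 ∧
    K * (64 * K) ^ (Dg + 1) * (kbQ lv) ^ μ ≤ 1 ∧
    c * ((c₀ : ℝ) * K ^ c₀) ^ k * (k6aW nx) ^ (-(min ε μ / (4 * Rm))) * (kbQ lv) ^ μ ≤ 1 ∧
    K ≤ K * (64 * K) ^ (Dg + 1) := by
  have hm : 0 < min ε μ := lt_min hε hμ
  have hmε : min ε μ ≤ ε := min_le_left _ _
  have hmμ : min ε μ ≤ μ := min_le_right _ _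
  have hc₀' : (0 : ℝ) < c₀ := by exact_mod_cast hc₀
  have hk0' : (c + 1 / (c₀ : ℝ) ^ k) * 64 ^ (Dg + 1) * (c₀ : ℝ) ^ k ≤ (2 : ℝ) ^ (min ε μ * k0 / 4) := by
    refine le_trans (le_of_eq ?_) hk0
    field_simp
  have hnum := k6b_hub_num (p := Dg + 2) hm hRm hk0' hlv hK1 (by omega) hK hnx
  obtain ⟨m, hmdef⟩ : ∃ m, m = min ε μ := ⟨_, rfl⟩
  rw [← hmdef] at hm hmε hmμ hnum hK ⊢
  obtain ⟨X, hXdef⟩ : ∃ X, X = (k6aW nx) ^ (-(m / (4 * Rm))) := ⟨_, rfl⟩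
  rw [← hXdef] at hnum ⊢
  have hX1 : 1 ≤ X := by
    rw [hXdef]
    exact Real.one_le_rpow_of_pos_of_le_one_of_nonpos (k6b_hub_W_pos nx) (k6b_hub_W_le nx) (by
      have : 0 < m / (4 * Rm) := by positivity
      linarith)
  obtain ⟨A', hA'def⟩ : ∃ A', A' = c * ((c₀ : ℝ) * K ^ c₀) ^ k * X := ⟨_, rfl⟩
  rw [← hA'def]
  obtain ⟨L, hLdef⟩ : ∃ L, L = K * (64 * K) ^ (Dg + 1) := ⟨_, rfl⟩
  rw [← hLdef]
  have hK0 : 0 < K := by linarith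
  have hlv0 : (0 : ℝ) ≤ lv := Nat.cast_nonneg _
  have hA0 : 0 < A' := by rw [hA'def]; positivity
  have hKL : K ≤ L := by
    rw [hLdef]
    exact le_mul_of_one_le_right hK0.le (one_le_pow₀ (by linarith))
  have hL1 : 1 ≤ L := hK1.trans hKL
  have hKc : 1 ≤ (K ^ c₀) ^ k := one_le_pow₀ (one_le_pow₀ hK1)
  have key : (A' + 1) * L ≤ (2 : ℝ) ^ (3 / 4 * m * lv) := by
    refine le_trans ?_ hnum
    have e : (c + 1 / (c₀ : ℝ) ^ k) * 64 ^ (Dg + 1) * ((c₀ : ℝ) * K ^ c₀) ^ k * X * K ^ (Dg + 2)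
        = (A' + (K ^ c₀) ^ k * X) * L := by
      rw [hA'def, hLdef, mul_pow, mul_pow]
      field_simp
      ring
    rw [e]
    refine mul_le_mul_of_nonneg_right ?_ (by linarith)
    nlinarith
  have hη : m / (4 * ((c₀ : ℝ) * k + ((Dg + 2 : ℕ) : ℝ))) ≤ m := div_le_self hm.le (by
    have h1 : (0 : ℝ) ≤ (c₀ : ℝ) * k := by positivity
    have h2 : (2 : ℝ) ≤ ((Dg + 2 : ℕ) : ℝ) := by push_cast; linarith [Nat.cast_nonneg (α := ℝ) Dg]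
    linarith)
  have hθ0 : 0 ≤ (kbQ lv) ^ μ := Real.rpow_nonneg (k6b_hub_Q_pos lv).le _
  have h4 : (A' + 1) * L * (kbQ lv) ^ μ ≤ 1 := k6b_hub_theta key (by linarith)
  have hLθ0 : 0 ≤ L * (kbQ lv) ^ μ := mul_nonneg (by linarith) hθ0
  have h5 : A' * L * (kbQ lv) ^ μ ≤ 1 := by nlinarith
  refine ⟨hA0, ?_, ?_, h5, by nlinarith, ?_, hKL⟩
  · rw [le_div_iff₀ hK0]
    have h6 : A' * K ≤ (A' + 1) * L := by nlinarith
    exact (h6.trans key).trans (Real.rpow_le_rpow_of_exponent_le (by norm_num) (by nlinarith))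
  · rw [le_div_iff₀ hK0, one_mul]
    exact hK.trans (Real.rpow_le_rpow_of_exponent_le (by norm_num)
      (mul_le_mul_of_nonneg_right (hη.trans hmε) hlv0))
  · refine le_trans ?_ h5
    have : A' * (kbQ lv) ^ μ * 1 ≤ A' * (kbQ lv) ^ μ * L :=
      mul_le_mul_of_nonneg_left hL1 (mul_nonneg hA0.le hθ0)
    nlinarith

/-- the mass floor of the field, in the record -/
theorem k6b_hub_mass {R : KsRef v} {A : R.Par} {s s1 s2 K εT w : ℝ} {lv nb nx nv Dg : ℕ}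
    {Ep Es : Set (R.L × ℝ)} {g : K6aWc v.j → K6aRow v.j} {q : R.Lab} {zc : ℝ × (Fin v.j → ℝ)}
    {T : Fin (v.j + 1) → MvPolynomial (Fin (v.j + 1)) ℝ} (hdep : R.dep q = s) (hlev : R.lev q = lv)
    (hF : K6aField (k6aOf R A s s1 s2) (k6b_pk R A s s1 s2 lv) R.d K εT nb nx nv Dg (R.a s1) (R.a s2)
      (1 / 2 ^ 30) w Ep Es g q zc T) :
    ENNReal.ofReal (kbQ lv) * R.νQ q ≤ ENNReal.ofReal K * R.prior Es ∧ R.νQ q ≠ 0 ∧ R.prior Es ≠ 0 := by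
  have h1 : ENNReal.ofReal (kbQ lv) * R.νQ q ≤ ENNReal.ofReal K * R.prior Es := by
    have := hF.mass
    rw [k6b_hub_νQ R A s s1 s2 lv q hdep hlev] at this
    exact this
  have h2 : R.νQ q ≠ 0 := by
    rw [← k6b_hub_νQ R A s s1 s2 lv q hdep hlev]; exact hF.pos
  refine ⟨h1, h2, fun h0 => ?_⟩
  rw [h0, mul_zero] at h1
  have h3 : ENNReal.ofReal (kbQ lv) * R.νQ q = 0 := le_antisymm h1 bot_le
  rcases mul_eq_zero.1 h3 with h | h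
  · exact absurd (ENNReal.ofReal_eq_zero.1 h) (not_le.2 (k6b_hub_Q_pos lv))
  · exact h2 h

/-- **the hub, version 1** -/
theorem k6b_hub_one (hE : k6b_entry_stmt) (hCP : k6b_cap2_of_ref_stmt) (hM1 : k6b_main_v1_stmt)
    (hX1 : k6b_exit1_stmt) (Dg : ℕ) (μ Rm ε : ℝ) (hμ : 0 < μ) (hRm : 0 < Rm) (hε : 0 < ε) :
    ∃ (η : ℝ) (k0 : ℕ), 0 < η ∧
  ∀ (R : KsRef KbVer.one) (A : R.Par) (s s1 s2 K εT w : ℝ) (lv nb nx nv : ℕ) (E Ep Es : Set (R.L × ℝ))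
    (g : K6aWc KbVer.one.j → K6aRow KbVer.one.j) (q : R.Lab) (zc : ℝ × (Fin KbVer.one.j → ℝ))
    (T : Fin (KbVer.one.j + 1) → MvPolynomial (Fin (KbVer.one.j + 1)) ℝ),
    k0 ≤ lv → 1 ≤ K → K ≤ (2 : ℝ) ^ (η * lv) → R.Ok K → R.One A → s2 ∈ R.widths →
    R.dep q = s → R.lev q = lv → E ⊆ R.Ev0 → Ep ⊆ E → 0 ≤ εT → 0 < w → 1 ≤ K * w →
    (k6aOf R A s s1 s2).WF K → (k6b_pk R A s s1 s2 lv).Ok R.d R.k K E →
    K6aField (k6aOf R A s s1 s2) (k6b_pk R A s s1 s2 lv) R.d K εT nb nx nv Dg (R.a s1) (R.a s2) (1 / 2 ^ 30) w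
      Ep Es g q zc T →
    K6bLv R.d μ Rm (kbQ lv) (R.a s) (R.a s1) (R.a s2) εT lv nb nx nv →
    ∃ P Cn, KsTimeCand R E ((2 : ℝ) ^ (ε * lv)) (s2 - s) q P Cn := by
  obtain ⟨c₀, hc₀⟩ := hE KbVer.one.j Dg
  have hm : 0 < min ε μ := lt_min hε hμ
  obtain ⟨c, k, hc, hmain⟩ := hM1 Dg (min ε μ / (4 * Rm)) (by positivity)
  obtain ⟨k0, hk0⟩ := k6b_hub_k0 ((c * (c₀ : ℝ) ^ k + 1) * 64 ^ (Dg + 1)) (min ε μ) hm
  refine ⟨min ε μ / (4 * (c₀ * k + (Dg + 2 : ℕ))), k0, by positivity, ?_⟩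
  intro R A s s1 s2 K εT w lv nb nx nv E Ep Es g q zc T hlv hK1 hK hOk hOne hs2 hdep hlev hEE hEp hεT hw
    hKw hWF hPk hF hLv
  have hEH := k6b_hub_entryHyp hCP R A s s1 s2 K εT w lv nb nx nv Dg E Ep Es g q zc T hK1 hOk hOne hs2
    hEE hEp hεT hw hKw hWF hPk hF
  have hCtx : (k6b_swR R A s s1 s2 lv q zc Es nb nv K).Ctx T Dg ((c₀ : ℝ) * K ^ c₀) (k6aW nb / kbQ lv)
      (k6aW nv) (K * (64 * K) ^ (Dg + 1) * εT) (k6aW nx) (R.a s1 / kbQ lv) (R.a s2 / kbQ lv)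
      ((R.a s2 / R.a s) ^ R.d)
      (k6b_Nc KbVer.one.j K (R.a s) (R.a s1) R.d nx) (k6b_Nc KbVer.one.j K (R.a s) (R.a s2) R.d nx) :=
    hc₀ _ _ _ _ _ _ _ _ _ _ _ _ _ _ _ _ _ _ _ hEH
  have hc₀1 : 1 ≤ c₀ := k6b_hub_c_pos hCtx.wf hCtx.g_le
  have hKK' : K ≤ (c₀ : ℝ) * K ^ c₀ := k6b_hub_K' hc₀1 hK1
  obtain ⟨hA0, hAB, hB1, hALθ, hLθ, hAθ, hKL⟩ :=
    k6b_hub_consts (Dg := Dg) hc hμ hRm hε hk0 hlv hK1 hc₀1 hK hLv.nx_le
  obtain ⟨hmass, hν, -⟩ := k6b_hub_mass hdep hlev hF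
  have ha := k6b_hub_a_pos hOk s
  have ha1 := k6b_hub_a_pos hOk s1
  have ha2 := k6b_hub_a_pos hOk s2
  have hh := k6b_hub_Q_pos lv
  have hMarg := k6b_hub_margins (j := KbVer.one.j) (d := R.d) hA0.le hK1 hKL hALθ hLθ hh ha ha1 ha2 hεT
    hLv.sim_u hLv.sim_x hLv.main hLv.a2_le_h
  have hκ : 0 < (R.a s2 / R.a s) ^ R.d := Real.rpow_pos_of_pos (div_pos ha2 ha) _
  obtain ⟨P2, Fam, hdeg, hFm, hFs, hmassF, hfit⟩ := hmain (k6b_swR R A s s1 s2 lv q zc Es nb nv K) T _ _ _ _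
    _ _ _ _ _ _ (hK1.trans hKK') hκ hCtx hMarg
  have hK0 : 0 < K := by linarith
  have hres := hX1 R A s s1 s2 K K ((2 : ℝ) ^ (ε * lv) / K) lv nb nv q zc E Es P2 Fam hOk hOne hdep hlev
    hF.Es_meas (fun e he => ⟨hEp (hF.Es_sub he).1, k6b_hub_inc R A s s1 s2 lv q hdep hlev (hF.Es_sub he).2⟩)
    hEE hWF hmass hν hB1 hdeg hFm hFs
    (hmassF.trans (mul_le_mul_left (ENNReal.ofReal_le_ofReal hAB) _))
    (fun e he τ hτ => (hfit e he τ hτ).trans (mul_le_mul_of_nonneg_right hAB (div_pos ha2 hh).le))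
  rw [div_mul_cancel₀ _ hK0.ne'] at hres
  exact hres

/-- **the hub, version 2** -/
theorem k6b_hub_two (hE : k6b_entry_stmt) (hCP : k6b_cap2_of_ref_stmt) (hHD : k6b_hid_stmt)
    (hM2 : k6b_main_v2_stmt) (hX2 : k6b_exit2_stmt) (Dg : ℕ) (μ Rm ε : ℝ) (hμ : 0 < μ) (hRm : 0 < Rm)
    (hε : 0 < ε) :
    ∃ (η : ℝ) (k0 : ℕ), 0 < η ∧
  ∀ (R : KsRef KbVer.two) (A : R.Par) (s s1 s2 K εT w : ℝ) (lv nb nx nv : ℕ) (E Ep Es : Set (R.L × ℝ))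
    (g : K6aWc KbVer.two.j → K6aRow KbVer.two.j) (q : R.Lab) (zc : ℝ × (Fin KbVer.two.j → ℝ))
    (T : Fin (KbVer.two.j + 1) → MvPolynomial (Fin (KbVer.two.j + 1)) ℝ),
    k0 ≤ lv → 1 ≤ K → K ≤ (2 : ℝ) ^ (η * lv) → R.Ok K → R.One A → s2 ∈ R.widths →
    R.dep q = s → R.lev q = lv → E ⊆ R.Ev0 → Ep ⊆ E → 0 ≤ εT → 0 < w → 1 ≤ K * w →
    (k6aOf R A s s1 s2).WF K → (k6b_pk R A s s1 s2 lv).Ok R.d R.k K E →
    K6aField (k6aOf R A s s1 s2) (k6b_pk R A s s1 s2 lv) R.d K εT nb nx nv Dg (R.a s1) (R.a s2) (1 / 2 ^ 30) w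
      Ep Es g q zc T →
    K6bLv R.d μ Rm (kbQ lv) (R.a s) (R.a s1) (R.a s2) εT lv nb nx nv →
    ∃ P Cn, KsTimeCand R E ((2 : ℝ) ^ (ε * lv)) (s2 - s) q P Cn := by
  obtain ⟨c₀, hc₀⟩ := hE KbVer.two.j Dg
  have hm : 0 < min ε μ := lt_min hε hμ
  obtain ⟨c, k, hc, hmain⟩ := hM2 Dg (min ε μ / (4 * Rm)) (by positivity)
  obtain ⟨k0, hk0⟩ := k6b_hub_k0 ((c * (c₀ : ℝ) ^ k + 1) * 64 ^ (Dg + 1)) (min ε μ) hm
  refine ⟨min ε μ / (4 * (c₀ * k + (Dg + 2 : ℕ))), k0, by positivity, ?_⟩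
  intro R A s s1 s2 K εT w lv nb nx nv E Ep Es g q zc T hlv hK1 hK hOk hOne hs2 hdep hlev hEE hEp hεT hw
    hKw hWF hPk hF hLv
  have hEH := k6b_hub_entryHyp hCP R A s s1 s2 K εT w lv nb nx nv Dg E Ep Es g q zc T hK1 hOk hOne hs2
    hEE hEp hεT hw hKw hWF hPk hF
  have hCtx : (k6b_swR R A s s1 s2 lv q zc Es nb nv K).Ctx T Dg ((c₀ : ℝ) * K ^ c₀) (k6aW nb / kbQ lv)
      (k6aW nv) (K * (64 * K) ^ (Dg + 1) * εT) (k6aW nx) (R.a s1 / kbQ lv) (R.a s2 / kbQ lv)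
      ((R.a s2 / R.a s) ^ R.d)
      (k6b_Nc KbVer.two.j K (R.a s) (R.a s1) R.d nx) (k6b_Nc KbVer.two.j K (R.a s) (R.a s2) R.d nx) :=
    hc₀ _ _ _ _ _ _ _ _ _ _ _ _ _ _ _ _ _ _ _ hEH
  have hc₀1 : 1 ≤ c₀ := k6b_hub_c_pos hCtx.wf hCtx.g_le
  have hKK' : K ≤ (c₀ : ℝ) * K ^ c₀ := k6b_hub_K' hc₀1 hK1
  obtain ⟨hA0, hAB, hB1, hALθ, hLθ, hAθ, hKL⟩ :=
    k6b_hub_consts (Dg := Dg) hc hμ hRm hε hk0 hlv hK1 hc₀1 hK hLv.nx_le
  obtain ⟨hmass, hν, hprior⟩ := k6b_hub_mass hdep hlev hF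
  have ha := k6b_hub_a_pos hOk s
  have ha1 := k6b_hub_a_pos hOk s1
  have ha2 := k6b_hub_a_pos hOk s2
  have hh := k6b_hub_Q_pos lv
  have hMarg := k6b_hub_margins (j := KbVer.two.j) (d := R.d) hA0.le hK1 hKL hALθ hLθ hh ha ha1 ha2 hεT
    hLv.sim_u hLv.sim_x hLv.main hLv.a2_le_h
  have hκ : 0 < (R.a s2 / R.a s) ^ R.d := Real.rpow_pos_of_pos (div_pos ha2 ha) _
  have hEsub : Es ⊆ E ∩ R.inc q := fun e he =>
    ⟨hEp (hF.Es_sub he).1, k6b_hub_inc R A s s1 s2 lv q hdep hlev (hF.Es_sub he).2⟩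
  obtain ⟨Hd, hHdOk, hHdw⟩ := hHD R A s s1 s2 K K lv nb nv q zc Es hOk hOne hdep hlev
    (fun e he => ⟨hEE (hEsub he).1, (hEsub he).2⟩) hWF hF.Es_meas hν hprior
  -- absorption of the slack by a margin `h^μ`
  have habs : ∀ x y : ℝ, 0 ≤ y → x ≤ (kbQ lv) ^ μ * y →
      c * ((c₀ : ℝ) * K ^ c₀) ^ k * (k6aW nx) ^ (-(min ε μ / (4 * Rm))) * x ≤ y := by
    intro x y hy hxy
    calc c * ((c₀ : ℝ) * K ^ c₀) ^ k * (k6aW nx) ^ (-(min ε μ / (4 * Rm))) * x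
        ≤ c * ((c₀ : ℝ) * K ^ c₀) ^ k * (k6aW nx) ^ (-(min ε μ / (4 * Rm))) * ((kbQ lv) ^ μ * y) :=
          mul_le_mul_of_nonneg_left hxy hA0.le
      _ = c * ((c₀ : ℝ) * K ^ c₀) ^ k * (k6aW nx) ^ (-(min ε μ / (4 * Rm))) * (kbQ lv) ^ μ * y := by ring
      _ ≤ 1 * y := mul_le_mul_of_nonneg_right hAθ hy
      _ = y := one_mul _
  obtain ⟨Pn, Fam, hquad, hFm, hFs, hmassF, hdww, hlo, hblk⟩ :=
    hmain (k6b_swR R A s s1 s2 lv q zc Es nb nv K) Hd T _ _ _ _ _ _ _ (R.a s) (R.a s2) (kbQ lv) _ _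
      (hK1.trans hKK') hκ hh (k6b_hub_Q_le lv) ha2 hLv.a2_le_a hCtx (k6b_hub_hid_mono hKK' ha hHdOk) hMarg
      (habs _ _ (div_pos ha2 ha).le hLv.curv) (habs _ _ (by positivity) hLv.fine)
      (habs _ _ zero_le_one (by rw [mul_one]; exact hLv.small))
  have hK0 : 0 < K := by linarith
  have hres := hX2 R A s s1 s2 K K ((2 : ℝ) ^ (ε * lv) / K) lv nb nv q zc E Es Hd Pn Fam hOk hOne hdep hlev
    hF.Es_meas hEsub hEE hWF hmass hν hB1 hHdw hquad hFm hFs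
    (hmassF.trans (mul_le_mul_left (ENNReal.ofReal_le_ofReal hAB) _))
    (hdww.trans (div_le_div_of_nonneg_right hAB ha2.le))
    (fun e he => (hlo e he).trans (mul_le_mul_of_nonneg_right hAB (abs_nonneg _)))
    (fun e he τ hτ => ⟨(hblk e he τ hτ).1.trans (mul_le_mul_of_nonneg_right hAB ha2.le),
      (hblk e he τ hτ).2.trans hAB⟩)
  rw [div_mul_cancel₀ _ hK0.ne'] at hres
  exact hres

/-- **L-252-S6b-HUB**: the hub of S6b from the entry, the density cap, the hidden data, the two main statements and the two exits. -/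
theorem k6b_hub_of (hE : k6b_entry_stmt) (hCP : k6b_cap2_of_ref_stmt) (hHD : k6b_hid_stmt)
    (hM1 : k6b_main_v1_stmt) (hM2 : k6b_main_v2_stmt) (hX1 : k6b_exit1_stmt) (hX2 : k6b_exit2_stmt) :
    k6b_hub_stmt := by
  intro v
  cases v
  · exact k6b_hub_one hE hCP hM1 hX1
  · exact k6b_hub_two hE hCP hHD hM2 hX2

end

end Claimed.Agent.R252
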