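import Claimed.Agent.R252.S6b.MainV1Kit

/-!
# Row252, unit S6b, leaf M1: VERSION 1 OF THE MAIN STATEMENT AT ONE SCALE (glue)      (helper147; prefix `k6b_m1_`)

`k6b_main_v1_of`: C5 → P1 → P2 → G → V1a (`k6b_m1_partI`), S4 + S3 → transfer → volume by `cap2` → V1b (`k6b_m1_partII`), constants (`MainV1Kit`).
-/

set_option autoImplicit false

namespace Claimed.Agent.R252

open MeasureTheory MvPolynomial
open scoped ENNReal BigOperators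

noncomputable section

/-- **Part I**: the potential, the heavy intercept group, the third derivative along its lines -/
theorem k6b_m1_partI (hC5 : k6b_conservative_stmt) (hP1 : k6b_potential_stmt) (hP2 : k6b_line_var_stmt)
    (hG : k6b_heavy_group_stmt) (hV1a : k6b_v1_line_stmt) (D : ℕ) (ε : ℝ) (hε : 0 < ε) :
    ∃ (c5 c2 : ℕ) (cG : ℝ) (kG cV : ℕ), 0 < cG ∧ ∀ (Y : k6b_Sw 2) (T : Fin 2 → MvPolynomial (Fin 2) ℝ)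
      (K β pv εT ξ ρ₁ ρ₂ κ εP : ℝ) (Nc1 Nc2 : ℕ), 1 ≤ K → Y.Ctx T D K β pv εT ξ ρ₁ ρ₂ κ Nc1 Nc2 →
      0 < ξ → ξ ≤ 1 → 0 < ρ₁ → 0 < ρ₂ → 0 ≤ β → 0 ≤ pv → 0 ≤ εT → β + pv ≤ ξ → β + pv + εT ≤ ρ₁ →
      εP = εT + c2 * K ^ c2 * (((2 : ℕ) : ℝ) * (c5 * K ^ c5 * (Nc1 * ξ ^ 2 * ρ₁))) →
      c5 * K ^ c5 * pv ≤ 1 → cG * (2 * K) ^ kG * (εP + β + ξ) ≤ ρ₂ →
      ∃ (P : MvPolynomial (Fin 2) ℝ) (Cg : ℤ) (F4 : Set (Y.Lam × ℝ)), P.totalDegree ≤ D + 1 ∧ rmzNm P ≤ 2 * K ∧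
        MeasurableSet F4 ∧ F4 ⊆ Y.sup ∧ (∀ e ∈ F4, e.1 ∈ Y.Lg) ∧
        (∀ e ∈ F4, ∀ τ ∈ Set.Icc (0 : ℝ) 1,
          |Y.x (e.1, τ) - eval (Y.pos (e.1, τ)) P - ((Cg : ℝ) + 1 / 2) * ρ₂| ≤ εP + ρ₂ / 2) ∧
        1 ≤ ENNReal.ofReal (cG * (2 * K) ^ kG * (Nc2 * ξ ^ (((2 : ℕ) : ℝ) - ε))) * Y.mu F4 ∧
        (∀ e ∈ F4, Y.mu (Y.stE (Y.st e)) ≤ 64 * Y.mu (F4 ∩ Y.stE (Y.st e))) ∧
        (∀ e ∈ F4, ∀ τ ∈ Set.Icc (0 : ℝ) 1,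
          |eval (Y.pos (e.1, τ)) (k6b_dP (Y.vel e.1) (k6b_dP (Y.vel e.1) (k6b_dP (Y.vel e.1) P)))| ≤ cV * εP) := by
  obtain ⟨c5, h5⟩ := hC5 2 D (Or.inl rfl)
  obtain ⟨c2, h2⟩ := hP2 2 D
  obtain ⟨cG, kG, hcG, hGG⟩ := hG 2 (D + 1) ε (Or.inl rfl) hε
  obtain ⟨cV, hV⟩ := hV1a 2 (D + 1)
  refine ⟨c5, c2, cG, kG, cV, hcG, ?_⟩
  intro Y T K β pv εT ξ ρ₁ ρ₂ κ εP Nc1 Nc2 hK hC hξ0 hξ1 hρ1 hρ2 hβ0 hpv0 hεT0 hsu hsx hεPdef n1 n3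
  have hβ1 : β ≤ 1 := by linarith
  -- C5
  have hchain64 : Y.Chain (ENNReal.ofReal K) (1 / 64) (1 / 64) (1 / K) :=
    k6b_m1_chain_mono hC.chain le_rfl k6b_m1_pow30_le64 le_rfl le_rfl
  have hcurl := h5 Y T K β pv εT ξ ρ₁ Nc1 hK hξ0 hρ1 hβ0 hβ1 hpv0 hεT0 hC.degT hC.nmT hC.wf hchain64 hC.geo hC.supp n1
    (by nlinarith) (by nlinarith)
  -- P1
  obtain ⟨P, hPd, hPn, hPc⟩ := hP1 2 D T _ hC.degT hcurl
  have hPn' : rmzNm P ≤ 2 * K := hPn.trans (by rw [Fin.sum_univ_two]; linarith [hC.nmT 0, hC.nmT 1])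
  -- P2
  have hfit0 := h2 Y T P K β pv εT _ hK (by positivity) hC.degT hPd hPc hC.geo
  rw [← hεPdef] at hfit0
  have hεP0 : 0 ≤ εP := by rw [hεPdef]; positivity
  have hic_meas := k6b_m1_ic_meas Y hC.wf P (1 / 2)
  have hhalf : (1 / 2 : ℝ) ∈ Set.Icc (0 : ℝ) 1 := ⟨by norm_num, by norm_num⟩
  have hfit : ∀ l ∈ Y.Lg, ∀ τ ∈ Set.Icc (0 : ℝ) 1,
      |Y.x (l, τ) - eval (Y.pos (l, τ)) P - (Y.x (l, 1 / 2) - eval (Y.pos (l, 1 / 2)) P)| ≤ εP :=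
    fun l hl τ hτ => hfit0 l hl (1 / 2) hhalf τ hτ
  -- G
  obtain ⟨Cg, F1, F4, hF1m, hF4m, hF41, hF1s, hF1L, hmass, hfat, hlong⟩ :=
    hGG Y T P (fun l => Y.x (l, 1 / 2) - eval (Y.pos (l, 1 / 2)) P) (2 * K) β pv εT ξ ρ₂ εP (1 / 2 ^ 30) Nc2
    (by linarith) hξ0 hξ1 hρ2 hβ0 hεP0 hPd hPn' hC.wf
    (k6b_m1_chain_mono hC.chain (ENNReal.ofReal_le_ofReal (by linarith)) le_rfl le_rfl
      (one_div_le_one_div_of_le (by linarith) (by linarith)))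
    k6b_m1_pow30_le1024 (k6b_m1_geo_mono hC.geo (by linarith))
    ⟨hC.nu_le.trans (ENNReal.ofReal_le_ofReal (by linarith)), fun e => (hC.g_le e).trans (ENNReal.ofReal_le_ofReal (by linarith)),
      hC.time, hic_meas, hfit, hC.cells2⟩ (by linarith) n3
  refine ⟨P, Cg, F4, hPd, hPn', hF4m, hF41.trans hF1s, fun e he => (hF1L e (hF41 he)).1, ?_, hmass, hfat, ?_⟩
  · intro e he τ hτ
    obtain ⟨hl, hfl⟩ := hF1L e (hF41 he)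
    have h1 := hfit e.1 hl τ hτ
    have h2 := k6b_m1_floor hρ2 hfl
    have h3 := abs_add_le (Y.x (e.1, τ) - eval (Y.pos (e.1, τ)) P - (Y.x (e.1, 1 / 2) - eval (Y.pos (e.1, 1 / 2)) P))
      ((Y.x (e.1, 1 / 2) - eval (Y.pos (e.1, 1 / 2)) P) - ((Cg : ℝ) + 1 / 2) * ρ₂)
    rw [sub_add_sub_cancel] at h3
    linarith
  · intro e he
    have hl := (hF1L e (hF41 he)).1
    obtain ⟨x0, x1, x2, hx⟩ := hC.quad e.1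
    refine hV P (Y.u0 e.1) (Y.vel e.1) (x0 - (Y.x (e.1, 1 / 2) - eval (Y.pos (e.1, 1 / 2)) P)) x1 x2 εP hPd fun τ hτ => ?_
    have := hfit e.1 hl τ hτ
    rw [hx τ] at this
    have e' : x0 - (Y.x (e.1, 1 / 2) - eval (Y.pos (e.1, 1 / 2)) P) + x1 * τ + x2 * τ ^ 2 - eval (Y.u0 e.1 + τ • Y.vel e.1) P
        = x0 + x1 * τ + x2 * τ ^ 2 - eval (Y.pos (e.1, τ)) P - (Y.x (e.1, 1 / 2) - eval (Y.pos (e.1, 1 / 2)) P) := by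
      unfold k6b_Sw.pos
      ring
    rw [e']
    exact this

theorem k6b_m1_rpow_split {ξ ε : ℝ} (hξ0 : 0 < ξ) : ξ ^ (((2 : ℕ) : ℝ) - ε) = ξ ^ 2 * ξ ^ (-ε) := by
  rw [sub_eq_add_neg, Real.rpow_add hξ0, Real.rpow_natCast]

/-- the volume of the set where the four third derivatives are small -/
theorem k6b_m1_vol {cG : ℝ} (hcG : 0 < cG) (kG : ℕ) {K ξ ε κ : ℝ} {Nc2 : ℕ} (hK : 1 ≤ K) (hξ0 : 0 < ξ) (hκ : 0 < κ)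
    (hcount : (Nc2 : ℝ) * ξ ^ 2 * κ ≤ K) {a b v : ℝ≥0∞}
    (hmass : 1 ≤ ENNReal.ofReal (cG * (2 * K) ^ kG * (Nc2 * ξ ^ (((2 : ℕ) : ℝ) - ε))) * a)
    (hJ : a ≤ ENNReal.ofReal (2 * (64 * K * K) ^ 4) * b) (hcap : b ≤ ENNReal.ofReal (K * κ) * v) :
    ENNReal.ofReal (1 / k6b_m1Th cG kG K (ξ ^ (-ε))) ≤ v := by
  have hX0 : 0 < ξ ^ (-ε) := Real.rpow_pos_of_pos hξ0 _
  have hK0 : 0 < K := by linarith
  have hTh0 : 0 < k6b_m1Th cG kG K (ξ ^ (-ε)) := by unfold k6b_m1Th; positivity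
  refine k6b_m1_ofReal_inv hTh0 ?_
  have h1 : (1 : ℝ≥0∞) ≤ ENNReal.ofReal (cG * (2 * K) ^ kG * (Nc2 * ξ ^ (((2 : ℕ) : ℝ) - ε))) *
      (ENNReal.ofReal (2 * (64 * K * K) ^ 4) * (ENNReal.ofReal (K * κ) * v)) := by
    refine hmass.trans ?_
    gcongr
    exact hJ.trans (by gcongr)
  refine h1.trans ?_
  rw [← mul_assoc, ← mul_assoc, ← ENNReal.ofReal_mul (by positivity), ← ENNReal.ofReal_mul (by positivity)]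
  gcongr
  rw [k6b_m1_rpow_split hξ0]
  unfold k6b_m1Th
  have e : cG * (2 * K) ^ kG * (↑Nc2 * (ξ ^ 2 * ξ ^ (-ε))) * (2 * (64 * K * K) ^ 4) * (K * κ)
      = cG * (2 * K) ^ kG * (2 * (64 * K * K) ^ 4) * (K * ((Nc2 * ξ ^ 2 * κ) * ξ ^ (-ε))) := by ring
  rw [e]
  have h2 : K * ((Nc2 * ξ ^ 2 * κ) * ξ ^ (-ε)) ≤ K * (K * ξ ^ (-ε)) := by gcongr
  have h3 : cG * (2 * K) ^ kG * (2 * (64 * K * K) ^ 4) ≤ (cG + 1) * (2 * K) ^ kG * (2 * (64 * K * K) ^ 4) := by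
    gcongr
    linarith
  exact mul_le_mul h3 h2 (by positivity) (by positivity)

/-- the mass of the final family -/
theorem k6b_m1_mass {cG : ℝ} (hcG : 0 < cG) (kG : ℕ) {K ξ ε κ A : ℝ} {Nc2 : ℕ} (hK : 1 ≤ K) (hξ0 : 0 < ξ) (hκ : 0 < κ)
    (hcount : (Nc2 : ℝ) * ξ ^ 2 * κ ≤ K) (hA : cG * (2 * K) ^ kG * (K * ξ ^ (-ε)) ≤ A) {a : ℝ≥0∞}
    (hmass : 1 ≤ ENNReal.ofReal (cG * (2 * K) ^ kG * (Nc2 * ξ ^ (((2 : ℕ) : ℝ) - ε))) * a) :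
    ENNReal.ofReal κ ≤ ENNReal.ofReal A * a := by
  have hX0 : 0 < ξ ^ (-ε) := Real.rpow_pos_of_pos hξ0 _
  have hK0 : 0 < K := by linarith
  calc ENNReal.ofReal κ = ENNReal.ofReal κ * 1 := (mul_one _).symm
    _ ≤ ENNReal.ofReal κ * (ENNReal.ofReal (cG * (2 * K) ^ kG * (Nc2 * ξ ^ (((2 : ℕ) : ℝ) - ε))) * a) := by gcongr
    _ = ENNReal.ofReal (κ * (cG * (2 * K) ^ kG * (Nc2 * ξ ^ (((2 : ℕ) : ℝ) - ε)))) * a := by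
        rw [← mul_assoc, ← ENNReal.ofReal_mul hκ.le]
    _ ≤ ENNReal.ofReal A * a := by
        gcongr
        refine le_trans ?_ hA
        rw [k6b_m1_rpow_split hξ0]
        have e : κ * (cG * (2 * K) ^ kG * (↑Nc2 * (ξ ^ 2 * ξ ^ (-ε)))) = cG * (2 * K) ^ kG * ((Nc2 * ξ ^ 2 * κ) * ξ ^ (-ε)) := by ring
        rw [e]
        gcongr

/-- transfer of the bound of the third derivative from an event of a bin to the centre of the bin and to another event of the state -/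
theorem k6b_m1_transfer {D : ℕ} {Y : k6b_Sw 2} {T : Fin 2 → MvPolynomial (Fin 2) ℝ} {K β pv εT a : ℝ} (hK : 1 ≤ K)
    (hgeo : Y.Geo T K β pv εT) {P : MvPolynomial (Fin 2) ℝ} (hPd : P.totalDegree ≤ D + 1) (hPn : rmzNm P ≤ 2 * K)
    {e e' : Y.Lam × ℝ} (hes : e ∈ Y.sup) (he's : e' ∈ Y.sup) (hst : Y.st e' = Y.st e) (hcen : ‖Y.cen (Y.bin e'.1)‖ ≤ K + 1)
    (h1 : |eval (Y.pos e') (k6b_dP (Y.vel e'.1) (k6b_dP (Y.vel e'.1) (k6b_dP (Y.vel e'.1) P)))| ≤ a) :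
    |eval (Y.pos e) (k6b_dP (Y.cen (Y.bin e'.1)) (k6b_dP (Y.cen (Y.bin e'.1)) (k6b_dP (Y.cen (Y.bin e'.1)) P)))|
      ≤ a + k6b_m1L D K * (β + pv) := by
  have h2 := (hgeo.close e hes e' he's hst.symm).1
  have h3 := hgeo.bins e'.1
  rw [norm_sub_rev] at h3
  have h4 := k6b_m1_lip 2 (D + 1) P hPd (K + 1) (by linarith) (Y.pos e) (Y.pos e') (Y.cen (Y.bin e'.1)) (Y.vel e'.1)
    ((hgeo.box0 e hes).trans (by linarith)) ((hgeo.box0 e' he's).trans (by linarith)) hcen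
    ((hgeo.velb e'.1).trans (by linarith))
  have h5 : ((((2 : ℕ) : ℝ) * ((D + 1 : ℕ) : ℝ)) ^ 4 + 3 * (((2 : ℕ) : ℝ) * ((D + 1 : ℕ) : ℝ)) ^ 3) * (K + 1) ^ (2 * (D + 1) + 3)
      * rmzNm P * (‖Y.pos e - Y.pos e'‖ + ‖Y.cen (Y.bin e'.1) - Y.vel e'.1‖) ≤ k6b_m1L D K * (β + pv) := by
    unfold k6b_m1L
    rw [mul_assoc _ (rmzNm P), mul_assoc _ (2 * K)]
    refine mul_le_mul_of_nonneg_left ?_ (by positivity)
    exact mul_le_mul hPn (by linarith) (by positivity) (by positivity)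
  have h6 := abs_sub_abs_le_abs_sub
    (eval (Y.pos e) (k6b_dP (Y.cen (Y.bin e'.1)) (k6b_dP (Y.cen (Y.bin e'.1)) (k6b_dP (Y.cen (Y.bin e'.1)) P))))
    (eval (Y.pos e') (k6b_dP (Y.vel e'.1) (k6b_dP (Y.vel e'.1) (k6b_dP (Y.vel e'.1) P))))
  linarith

/-- **Part II**: the common tuple, the transfer, the volume, the core -/
theorem k6b_m1_partII (hS3 : k6b_common_tuple_stmt) (hS4 : k6b_gp4_stmt) (hV1b : k6b_v1_core_stmt) (D : ℕ) :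
    ∃ (c4 cb : ℕ), ∀ (ε : ℝ), 0 < ε → ∀ (cG : ℝ) (kG cV : ℕ), 0 < cG → ∀ (Y : k6b_Sw 2) (T : Fin 2 → MvPolynomial (Fin 2) ℝ)
      (K β pv εT ξ ρ₁ ρ₂ κ εP : ℝ) (Nc1 Nc2 : ℕ), 1 ≤ K → 0 < κ → Y.Ctx T D K β pv εT ξ ρ₁ ρ₂ κ Nc1 Nc2 →
      0 < ξ → ξ ≤ 1 → 0 < ρ₂ → 0 ≤ β → 0 ≤ pv → 0 ≤ εP → 4 * K * pv ≤ 1 → 2 * εP ≤ ρ₂ →
      ∀ (P : MvPolynomial (Fin 2) ℝ) (Cg : ℤ) (F4 : Set (Y.Lam × ℝ)), P.totalDegree ≤ D + 1 → rmzNm P ≤ 2 * K →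
        MeasurableSet F4 → F4 ⊆ Y.sup → (∀ e ∈ F4, e.1 ∈ Y.Lg) →
        (∀ e ∈ F4, ∀ τ ∈ Set.Icc (0 : ℝ) 1,
          |Y.x (e.1, τ) - eval (Y.pos (e.1, τ)) P - ((Cg : ℝ) + 1 / 2) * ρ₂| ≤ εP + ρ₂ / 2) →
        1 ≤ ENNReal.ofReal (cG * (2 * K) ^ kG * (Nc2 * ξ ^ (((2 : ℕ) : ℝ) - ε))) * Y.mu F4 →
        (∀ e ∈ F4, Y.mu (Y.stE (Y.st e)) ≤ 64 * Y.mu (F4 ∩ Y.stE (Y.st e))) →
        (∀ e ∈ F4, ∀ τ ∈ Set.Icc (0 : ℝ) 1,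
          |eval (Y.pos (e.1, τ)) (k6b_dP (Y.vel e.1) (k6b_dP (Y.vel e.1) (k6b_dP (Y.vel e.1) P)))| ≤ cV * εP) →
        ∃ P2 : MvPolynomial (Fin 2) ℝ, P2.totalDegree ≤ 2 ∧ ∀ e ∈ F4, ∀ τ ∈ Set.Icc (0 : ℝ) 1,
          |Y.x (e.1, τ) - eval (Y.pos (e.1, τ)) P2| ≤ εP + ρ₂ / 2 + cb * (k6b_m1Kb c4 K * k6b_m1Th cG kG K (ξ ^ (-ε))) ^ cb *
            (cV * εP + k6b_m1L D K * (β + pv)) := by
  obtain ⟨c4, a4, ha4a, ha4n, h4⟩ := hS4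
  obtain ⟨cb, hb⟩ := hV1b (D + 1)
  refine ⟨c4, cb, ?_⟩
  intro ε hε cG kG cV hcG Y T K β pv εT ξ ρ₁ ρ₂ κ εP Nc1 Nc2 hK hκ hC hξ0 hξ1 hρ2 hβ0 hpv0 hεP0 n2' n4 P Cg F4 hPd hPn' hF4m hF4s hF4L
    hfit hmass hfat hD3
  have hX : 1 ≤ ξ ^ (-ε) := Real.one_le_rpow_of_pos_of_le_one_of_nonpos hξ0 hξ1 (by linarith)
  have hK0 : 0 < K := by linarith
  have hKbK : K + 1 ≤ k6b_m1Kb c4 K := k6b_m1Kb_ge c4 hK
  have hTh1 : 1 ≤ k6b_m1Th cG kG K (ξ ^ (-ε)) := k6b_m1Th_ge hcG.le kG hK hX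
  have hL0 := k6b_m1L_nonneg D hK
  have hKbc : (c4 : ℝ) * (2 * K * (K + 1)) ^ c4 ≤ k6b_m1Kb c4 K := by unfold k6b_m1Kb; linarith
  obtain ⟨Kb, hKbdef⟩ : ∃ x, x = k6b_m1Kb c4 K := ⟨_, rfl⟩
  obtain ⟨Th, hThdef⟩ : ∃ x, x = k6b_m1Th cG kG K (ξ ^ (-ε)) := ⟨_, rfl⟩
  obtain ⟨ε₃, hε₃def⟩ : ∃ x, x = cV * εP + k6b_m1L D K * (β + pv) := ⟨_, rfl⟩
  rw [← hKbdef] at hKbK hKbc
  rw [← hThdef] at hTh1
  rw [← hKbdef, ← hThdef, ← hε₃def]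
  have hε₃0 : 0 ≤ ε₃ := by rw [hε₃def]; positivity
  -- S3
  have hμF4 : 0 < Y.mu F4 := by
    rw [pos_iff_ne_zero]
    intro h0
    rw [h0, mul_zero] at hmass
    exact absurd hmass (by norm_num)
  have n2 : ((2 : ℕ) : ℝ) * pv ≤ 1 / K / 2 := by
    rw [div_div, le_div_iff₀ (by positivity)]
    push_cast
    linarith
  have e64 : ENNReal.ofReal 64 = 64 := by
    rw [show (64 : ℝ) = ((64 : ℕ) : ℝ) by norm_num, ENNReal.ofReal_natCast]; norm_num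
  obtain ⟨J, hJa, hJm⟩ := hS3 2 4 4 Y F4 K 64 (1 / K) pv (1 / 2 ^ 30) (1 / 64) a4 hK (by norm_num) (by positivity) (by positivity)
    hC.wf hF4m hμF4 ha4a ha4n (by rw [k6b_m1_ofReal_pow30]; exact hC.chain) hC.supp.pal_sum
    (by rw [e64]; exact hfat) hC.geo.bins n2 (by norm_num)
  have hwit : ∀ e, (∀ i, 0 < Y.mu (F4 ∩ Y.stE (Y.st e) ∩ {e' | Y.bin e'.1 = J i})) →
      ∀ i, ∃ e' ∈ F4, Y.st e' = Y.st e ∧ Y.bin e'.1 = J i := by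
    intro e he i
    obtain ⟨e', he'⟩ := nonempty_of_measure_ne_zero (he i).ne'
    exact ⟨e', he'.1.1, he'.1.2, he'.2⟩
  have hGne : (F4 ∩ {e | ∀ i, 0 < Y.mu (F4 ∩ Y.stE (Y.st e) ∩ {e' | Y.bin e'.1 = J i})}).Nonempty := by
    rw [Set.nonempty_iff_ne_empty]
    intro h0
    rw [h0, measure_empty, mul_zero] at hJm
    exact absurd hJm (not_le.2 hμF4)
  have hpv1 : pv ≤ 1 := by nlinarith
  have hcen : ∀ i, ‖Y.cen (J i)‖ ≤ K + 1 := by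
    intro i
    obtain ⟨e0, he0⟩ := hGne
    obtain ⟨e', -, -, hb'⟩ := hwit e0 he0.2 i
    have h1 := hC.geo.bins e'.1
    have h2 := hC.geo.velb e'.1
    rw [hb'] at h1
    have h3 : ‖Y.cen (J i)‖ ≤ ‖Y.vel e'.1‖ + ‖Y.vel e'.1 - Y.cen (J i)‖ := by
      have := norm_sub_le (Y.vel e'.1) (Y.vel e'.1 - Y.cen (J i))
      rwa [sub_sub_cancel] at this
    linarith
  -- S4
  have hdet := h4 (fun i => Y.cen (J i)) (K + 1) (1 / K / 2) (by linarith) (by positivity)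
    (by rw [div_div, div_le_one (by positivity)]; linarith) hcen hJa
  -- transfer
  have htr : ∀ e ∈ F4 ∩ {e | ∀ i, 0 < Y.mu (F4 ∩ Y.stE (Y.st e) ∩ {e' | Y.bin e'.1 = J i})}, ∀ i,
      |eval (Y.pos e) (k6b_dP (Y.cen (J i)) (k6b_dP (Y.cen (J i)) (k6b_dP (Y.cen (J i)) P)))| ≤ ε₃ := by
    intro e he i
    obtain ⟨e', he'F, hst, hb'⟩ := hwit e he.2 i
    have h1 := hD3 e' he'F e'.2 (hF4s he'F).2
    have h2 := k6b_m1_transfer hK hC.geo hPd hPn' (hF4s he.1) (hF4s he'F) hst (by rw [hb']; exact hcen i) h1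
    rw [hb'] at h2
    rw [hε₃def]
    exact h2
  -- the set `E`
  have hEm := k6b_m1_E_meas (fun i : Fin 4 => k6b_dP (Y.cen (J i)) (k6b_dP (Y.cen (J i)) (k6b_dP (Y.cen (J i)) P))) Kb ε₃
  have hcap := hC.cap2 (P + C (((Cg : ℝ) + 1 / 2) * ρ₂)) _ hEm
  have hsub : F4 ∩ {e | ∀ i, 0 < Y.mu (F4 ∩ Y.stE (Y.st e) ∩ {e' | Y.bin e'.1 = J i})} ⊆
      {e | Y.pos e ∈ {u : Fin 2 → ℝ | u ∈ Metric.closedBall (0 : Fin 2 → ℝ) Kb ∧ ∀ i : Fin 4,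
        |eval u ((fun i : Fin 4 => k6b_dP (Y.cen (J i)) (k6b_dP (Y.cen (J i)) (k6b_dP (Y.cen (J i)) P))) i)| ≤ ε₃} ∧
        |Y.x e - eval (Y.pos e) (P + C (((Cg : ℝ) + 1 / 2) * ρ₂))| ≤ ρ₂} := by
    intro e he
    refine ⟨⟨?_, htr e he⟩, ?_⟩
    · rw [mem_closedBall_zero_iff]
      exact (hC.geo.box0 e (hF4s he.1)).trans (by linarith)
    · have h1 := hfit e he.1 e.2 (hF4s he.1).2
      rw [map_add, eval_C, ← sub_sub]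
      exact h1.trans (by linarith)
  have hvol := k6b_m1_vol hcG kG (ε := ε) hK hξ0 hκ hC.count2 hmass hJm ((measure_mono hsub).trans hcap)
  rw [← hThdef] at hvol
  -- V1b
  obtain ⟨P2, hP2d, hP2⟩ := hb P (fun i => Y.cen (J i)) Kb (1 / Th) ε₃ _ (by linarith) (by positivity)
    (by rw [div_le_one (by linarith)]; exact hTh1) hε₃0 hPd
    (fun i => (hcen i).trans hKbK)
    (fun i j hij => by
      have h1 := hdet i j hij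
      have e1 : (K + 1) / (1 / K / 2) = 2 * K * (K + 1) := by field_simp
      rw [e1] at h1
      exact h1.trans (mul_le_mul_of_nonneg_right hKbc (abs_nonneg _)))
    hEm (fun u hu => hu.1) hvol (fun u hu i => hu.2 i)
  refine ⟨P2 + C (((Cg : ℝ) + 1 / 2) * ρ₂), ?_, ?_⟩
  · refine (totalDegree_add _ _).trans (max_le hP2d ?_)
    rw [totalDegree_C]
    exact Nat.zero_le _
  · intro e he τ hτ
    have h1 := hfit e he τ hτ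
    have h2 := hP2 (Y.pos (e.1, τ)) (by
      rw [mem_closedBall_zero_iff]
      exact (hC.geo.box e.1 (hF4L e he) τ hτ).trans (by linarith))
    have e1 : Kb / (1 / Th) = Kb * Th := by rw [div_div_eq_mul_div, div_one]
    rw [e1] at h2
    rw [map_add, eval_C]
    have e2 : Y.x (e.1, τ) - (eval (Y.pos (e.1, τ)) P2 + ((Cg : ℝ) + 1 / 2) * ρ₂)
        = (Y.x (e.1, τ) - eval (Y.pos (e.1, τ)) P - ((Cg : ℝ) + 1 / 2) * ρ₂) + (eval (Y.pos (e.1, τ)) P - eval (Y.pos (e.1, τ)) P2) := by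
      ring
    rw [e2]
    exact (abs_add_le _ _).trans (add_le_add h1 h2)

/-- the loss `X = ξ^{-ε₀}` enters the constant with the exponent `≤ cb + 1`, which does not depend on `ε₀` -/
theorem k6b_m1F_split (c5 c2 : ℕ) {cG : ℝ} (hcG : 0 ≤ cG) (kG cV c4 cb D : ℕ) {K X : ℝ} (hK : 1 ≤ K) (hX : 1 ≤ X) :
    k6b_m1F c5 c2 cG kG cV c4 cb D K X ≤ k6b_m1F c5 c2 cG kG cV c4 cb D K 1 * X ^ (cb + 1) := by
  have hB := k6b_m1B_ge c5 c2 hK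
  have hKb := k6b_m1Kb_ge c4 hK
  have hTh := k6b_m1Th_ge hcG kG hK (le_refl (1 : ℝ))
  have hL := k6b_m1L_nonneg D hK
  have hThX : k6b_m1Th cG kG K X = k6b_m1Th cG kG K 1 * X := by unfold k6b_m1Th; ring
  unfold k6b_m1F
  rw [hThX]
  generalize k6b_m1B c5 c2 K = B at *
  generalize k6b_m1Kb c4 K = Kb at *
  generalize k6b_m1Th cG kG K 1 = Th at *
  generalize k6b_m1L D K = L at *
  have hK0 : 0 ≤ K := by linarith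
  have hX0 : 0 ≤ X := by linarith
  have hp0 : 1 ≤ X ^ (cb + 1) := one_le_pow₀ hX
  have hp1 : X ^ cb ≤ X ^ (cb + 1) := pow_le_pow_right₀ hX (Nat.le_succ _)
  have hp2 : X ≤ X ^ (cb + 1) := by
    calc X = X ^ 1 := (pow_one X).symm
      _ ≤ X ^ (cb + 1) := pow_le_pow_right₀ hX (by omega)
  have a0 : 0 ≤ 1 + (c5 : ℝ) * K ^ c5 + 4 * K + cG * (2 * K) ^ kG * B + 2 * B + 3 / 2 := by positivity
  have a1 : 0 ≤ (cb : ℝ) * (Kb * Th) ^ cb * ((cV + L) * B) := by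
    have : 0 ≤ Kb * Th := mul_nonneg (by linarith) (by linarith)
    positivity
  have a2 : 0 ≤ cG * (2 * K) ^ kG * K := by positivity
  have e1 : (Kb * (Th * X)) ^ cb = (Kb * Th) ^ cb * X ^ cb := by rw [← mul_assoc, mul_pow]
  rw [e1]
  have t0 := mul_le_mul_of_nonneg_left hp0 a0
  have t1 := mul_le_mul_of_nonneg_left hp1 a1
  have t2 := mul_le_mul_of_nonneg_left hp2 a2
  nlinarith [t0, t1, t2]

/-- **MAIN, VERSION 1** from the cited statements -/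
theorem k6b_main_v1_of (hC5 : k6b_conservative_stmt) (hP1 : k6b_potential_stmt) (hP2 : k6b_line_var_stmt)
    (hG : k6b_heavy_group_stmt) (hV1a : k6b_v1_line_stmt) (hS3 : k6b_common_tuple_stmt) (hS4 : k6b_gp4_stmt)
    (hV1b : k6b_v1_core_stmt) : k6b_main_v1_stmt := by
  intro D ε' hε'
  obtain ⟨c4, cb, hII'⟩ := k6b_m1_partII hS3 hS4 hV1b D
  obtain ⟨ε, hεdef⟩ : ∃ x : ℝ, x = ε' / ((cb + 1 : ℕ) : ℝ) := ⟨_, rfl⟩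
  have hcb0 : (0 : ℝ) < ((cb + 1 : ℕ) : ℝ) := by positivity
  have hε : 0 < ε := by rw [hεdef]; positivity
  have hII := hII' ε hε
  obtain ⟨c5, c2, cG, kG, cV, hcG, hI⟩ := k6b_m1_partI hC5 hP1 hP2 hG hV1a D ε hε
  obtain ⟨c, k, hc0, hck⟩ := k6b_m1PB_pos (k6b_m1F_PB c5 c2 hcG.le kG cV c4 cb D)
  refine ⟨c, k, hc0, ?_⟩
  intro Y T K β pv εT ξ ρ₁ ρ₂ κ Nc1 Nc2 hK hκ hC hM
  obtain ⟨⟨hξ0, hξ1, hρ1, hρ2, hρ21, hβ0, hpv0, hεT0⟩, hsu, hsx, hmain⟩ := hM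
  have hX : 1 ≤ ξ ^ (-ε) := Real.one_le_rpow_of_pos_of_le_one_of_nonpos hξ0 hξ1 (by linarith)
  have hXp : (ξ ^ (-ε)) ^ (cb + 1) = ξ ^ (-ε') := by
    rw [← Real.rpow_natCast, ← Real.rpow_mul hξ0.le, hεdef]
    congr 1
    field_simp
  have hFA : k6b_m1F c5 c2 cG kG cV c4 cb D K (ξ ^ (-ε)) ≤ c * K ^ k * ξ ^ (-ε') := by
    refine (k6b_m1F_split c5 c2 hcG.le kG cV c4 cb D hK hX).trans ?_
    rw [hXp]
    have h1 := hck K 1 hK le_rfl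
    rw [mul_one] at h1
    exact mul_le_mul_of_nonneg_right h1 (Real.rpow_nonneg hξ0.le _)
  obtain ⟨n1, n2, n3, n4, n5, n6⟩ := k6b_m1_num c5 c2 hcG.le kG cV c4 cb D hK hX hFA hεT0
    (by positivity : (0 : ℝ) ≤ Nc1 * ξ ^ 2 * ρ₁) hβ0 hpv0 hξ0.le hρ21 hmain
  obtain ⟨P, Cg, F4, hPd, hPn, hF4m, hF4s, hF4L, hfit, hmass, hfat, hD3⟩ :=
    hI Y T K β pv εT ξ ρ₁ ρ₂ κ _ Nc1 Nc2 hK hC hξ0 hξ1 hρ1 hρ2 hβ0 hpv0 hεT0 hsu hsx rfl n1 n3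
  obtain ⟨P2, hP2d, hP2⟩ := hII cG kG cV hcG Y T K β pv εT ξ ρ₁ ρ₂ κ _ Nc1 Nc2 hK hκ hC hξ0 hξ1 hρ2 hβ0 hpv0 (by positivity) n2 n4
    P Cg F4 hPd hPn hF4m hF4s hF4L hfit hmass hfat hD3
  exact ⟨P2, F4, hP2d, hF4m, hF4s, k6b_m1_mass hcG kG hK hξ0 hκ hC.count2 n6 hmass,
    fun e he τ hτ => (hP2 e he τ hτ).trans n5⟩

end

end Claimed.Agent.R252
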