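import Claimed.Agent.R252.S6b.V2Cut

/-!
# Row252, unit S6b: THE GLUE `k6b_main_v2_of` of the five parts M2a .. M2e (`V2Cut.lean`).
-/

set_option autoImplicit false

namespace Claimed.Agent.R252

open MeasureTheory MvPolynomial
open scoped ENNReal BigOperators

noncomputable section

/-! ## 1. polynomially bounded functions of the incoming slack -/

/-- `F A ≤ C A^M` for `A ≥ 1` -/
def k6b_m2_PB (F : ℝ → ℝ) : Prop := ∃ C M : ℕ, ∀ A : ℝ, 1 ≤ A → 0 ≤ F A ∧ F A ≤ C * A ^ M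

theorem k6b_m2_PB_id : k6b_m2_PB (fun A => A) :=
  ⟨1, 1, fun A hA => ⟨by linarith, by simp⟩⟩

theorem k6b_m2_PB_const (c : ℝ) (hc : 0 ≤ c) : k6b_m2_PB (fun _ => c) :=
  ⟨⌈c⌉₊, 0, fun A _ => ⟨hc, by simpa using Nat.le_ceil c⟩⟩

theorem k6b_m2_PB_add {F G : ℝ → ℝ} (hF : k6b_m2_PB F) (hG : k6b_m2_PB G) :
    k6b_m2_PB (fun A => F A + G A) := by
  obtain ⟨C1, M1, h1⟩ := hF
  obtain ⟨C2, M2, h2⟩ := hG
  refine ⟨C1 + C2, M1 + M2, fun A hA => ⟨add_nonneg (h1 A hA).1 (h2 A hA).1, ?_⟩⟩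
  have e1 : A ^ M1 ≤ A ^ (M1 + M2) := pow_le_pow_right₀ hA (by omega)
  have e2 : A ^ M2 ≤ A ^ (M1 + M2) := pow_le_pow_right₀ hA (by omega)
  have f1 := mul_le_mul_of_nonneg_left e1 (Nat.cast_nonneg (α := ℝ) C1)
  have f2 := mul_le_mul_of_nonneg_left e2 (Nat.cast_nonneg (α := ℝ) C2)
  push_cast
  linarith [(h1 A hA).2, (h2 A hA).2]

theorem k6b_m2_PB_mul {F G : ℝ → ℝ} (hF : k6b_m2_PB F) (hG : k6b_m2_PB G) :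
    k6b_m2_PB (fun A => F A * G A) := by
  obtain ⟨C1, M1, h1⟩ := hF
  obtain ⟨C2, M2, h2⟩ := hG
  refine ⟨C1 * C2, M1 + M2, fun A hA => ⟨mul_nonneg (h1 A hA).1 (h2 A hA).1, ?_⟩⟩
  calc F A * G A ≤ (C1 * A ^ M1) * (C2 * A ^ M2) :=
        mul_le_mul (h1 A hA).2 (h2 A hA).2 (h2 A hA).1 ((h1 A hA).1.trans (h1 A hA).2)
    _ = ((C1 * C2 : ℕ) : ℝ) * A ^ (M1 + M2) := by push_cast; rw [pow_add]; ring

theorem k6b_m2_PB_pow {F : ℝ → ℝ} (hF : k6b_m2_PB F) (n : ℕ) : k6b_m2_PB (fun A => F A ^ n) := by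
  obtain ⟨C1, M1, h1⟩ := hF
  refine ⟨C1 ^ n, M1 * n, fun A hA => ⟨pow_nonneg (h1 A hA).1 _, ?_⟩⟩
  calc F A ^ n ≤ (C1 * A ^ M1) ^ n := pow_le_pow_left₀ (h1 A hA).1 (h1 A hA).2 _
    _ = ((C1 ^ n : ℕ) : ℝ) * A ^ (M1 * n) := by push_cast; rw [mul_pow, ← pow_mul]

/-- `c A^c` -/
theorem k6b_m2_PB_step {F : ℝ → ℝ} (hF : k6b_m2_PB F) (c : ℕ) :
    k6b_m2_PB (fun A => (c : ℝ) * F A ^ c) :=
  k6b_m2_PB_mul (k6b_m2_PB_const c (Nat.cast_nonneg _)) (k6b_m2_PB_pow hF c)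

theorem k6b_m2_le {c : ℕ} {A : ℝ} (hA : 1 ≤ A) (hpos : 0 < (c : ℝ) * A ^ c) : A ≤ (c : ℝ) * A ^ c := by
  have hc : 1 ≤ c := by
    by_contra hc
    have hc0 : c = 0 := by omega
    subst hc0
    simp at hpos
  have h1 : (1 : ℝ) ≤ c := by exact_mod_cast hc
  have h2 : A ≤ A ^ c := le_self_pow₀ hA (by omega)
  nlinarith

/-! ## 2. monotonicity in the slack -/

theorem k6b_m2_V2B_mono {Y : k6b_Sw 3} {H : k6b_Hid Y} {Φ : MvPolynomial (Fin 3) ℝ}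
    {G1 G4 : Set (Y.Lam × ℝ)} {uc : Fin 3 → ℝ} {r sg A A' : ℝ} (hA : 0 < A) (hAA : A ≤ A')
    (h : k6b_V2B H Φ G1 G4 uc r sg A) : k6b_V2B H Φ G1 G4 uc r sg A' where
  r_pos := h.r_pos
  r_le := h.r_le
  r_lo := h.r_lo.trans (mul_le_mul_of_nonneg_right hAA h.r_pos.le)
  sg1 := h.sg1
  dl := fun u hu => ⟨(div_le_div_of_nonneg_left zero_le_one hA hAA).trans (h.dl u hu).1,
    (h.dl u hu).2.trans (mul_le_mul_of_nonneg_right hAA zero_le_one)⟩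
  lin := h.lin
  G1_meas := h.G1_meas
  G4_meas := h.G4_meas
  G41 := h.G41
  inU := h.inU
  sign := h.sign
  fat := h.fat
  wit := fun e he => (h.wit e he).trans (mul_le_mul_left (ENNReal.ofReal_le_ofReal hAA) _)

theorem k6b_m2_margins_mono {m : ℕ} {A A' β pv εT ξ ρ₁ ρ₂ : ℝ} {Nc1 : ℕ} (hAA : A ≤ A')
    (h : k6b_Margins m A' β pv εT ξ ρ₁ ρ₂ Nc1) : k6b_Margins m A β pv εT ξ ρ₁ ρ₂ Nc1 := by
  obtain ⟨hξ, _, hρ₁, _, _, hβ, hpv, hεT⟩ := h.pos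
  refine ⟨h.pos, h.sim_u, h.sim_x, le_trans (mul_le_mul_of_nonneg_right hAA ?_) h.main⟩
  positivity

/-! ## 3. parts B .. E: the slack `C A₀^M` depends on the degree only -/

theorem k6b_m2_core (hB : k6b_v2b_stmt) (hC : k6b_v2c_stmt) (hD : k6b_v2d_stmt) (hE : k6b_v2e_stmt)
    (hW1 : k6b_branch_stmt) (hR0 : k6b_dev_exists_stmt) (D : ℕ) :
    ∃ C M : ℕ, ∀ (Y : k6b_Sw 3) (H : k6b_Hid Y) (T : Fin 3 → MvPolynomial (Fin 3) ℝ)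
      (Φ : MvPolynomial (Fin 3) ℝ) (F1 F4 : Set (Y.Lam × ℝ))
      (K A₀ β pv εT ξ ρ₁ κ a a₂ h : ℝ) (Nc1 Nc2 : ℕ),
      1 ≤ K → K ≤ A₀ → 0 < κ → 0 < h → h ≤ 1 → 0 < a₂ → a₂ ≤ a → 0 ≤ β → 0 ≤ pv →
      Y.Ctx T D K β pv εT ξ ρ₁ (a₂ / h) κ Nc1 Nc2 → H.Ok K a h →
      k6b_V2A H Φ F1 F4 D A₀ κ a₂ →
      (C : ℝ) * A₀ ^ M * h ≤ a₂ / a → (C : ℝ) * A₀ ^ M * (β + pv) ≤ h ^ 2 → (C : ℝ) * A₀ ^ M * a₂ ≤ 1 →
      ∃ (Pn : k6b_QW) (Fam : Set (Y.Lam × ℝ)), Pn.Quad ∧ MeasurableSet Fam ∧ Fam ⊆ Y.sup ∧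
        ENNReal.ofReal κ ≤ ENNReal.ofReal ((C : ℝ) * A₀ ^ M) * Y.mu Fam ∧
        |Pn.dww| ≤ (C : ℝ) * A₀ ^ M / a₂ ∧
        (∀ e ∈ Fam, 1 ≤ (C : ℝ) * A₀ ^ M * |Pn.dw (Y.pos e) (H.wd e)|) ∧
        ∀ e ∈ Fam, ∀ τ ∈ Set.Icc (0 : ℝ) 1,
          |Pn.ev (Y.pos (e.1, τ)) (H.wd (e.1, τ))| ≤ (C : ℝ) * A₀ ^ M * a₂ ∧
          |Pn.dw (Y.pos (e.1, τ)) (H.wd (e.1, τ))| ≤ (C : ℝ) * A₀ ^ M := by
  obtain ⟨D', hW1⟩ := hW1 (D + 1)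
  obtain ⟨cB, hB⟩ := hB D
  obtain ⟨cC, hC⟩ := hC D'
  obtain ⟨cD, hD⟩ := hD D'
  obtain ⟨cE, hE⟩ := hE D'
  have p1 : k6b_m2_PB (fun A => (cB : ℝ) * A ^ cB) := k6b_m2_PB_step k6b_m2_PB_id cB
  have p2 : k6b_m2_PB (fun A => (cC : ℝ) * ((cB : ℝ) * A ^ cB) ^ cC + 5 * ((cB : ℝ) * A ^ cB) ^ 3
      + A * ((cB : ℝ) * A ^ cB)) :=
    k6b_m2_PB_add (k6b_m2_PB_add (k6b_m2_PB_step p1 cC)
      (k6b_m2_PB_mul (k6b_m2_PB_const 5 (by norm_num)) (k6b_m2_PB_pow p1 3)))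
      (k6b_m2_PB_mul k6b_m2_PB_id p1)
  have p3 := k6b_m2_PB_step p2 cD
  have p4 := k6b_m2_PB_step p3 cE
  obtain ⟨C, M, hCM⟩ := k6b_m2_PB_add (k6b_m2_PB_add (k6b_m2_PB_add (k6b_m2_PB_add p1 p3) p4)
    (k6b_m2_PB_mul k6b_m2_PB_id p1)) (k6b_m2_PB_const 1 zero_le_one)
  refine ⟨C, M, ?_⟩
  intro Y H T Φ F1 F4 K A₀ β pv εT ξ ρ₁ κ a a₂ h Nc1 Nc2 hK1 hKA hκ hh hh1 ha₂ ha hβ hpv hCtx hOk hA
    m1 m2 m3
  have hA₀1 : 1 ≤ A₀ := hK1.trans hKA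
  have hb := (hCM A₀ hA₀1).2
  dsimp only at hb
  obtain ⟨A₁, hA₁⟩ : ∃ x, x = (cB : ℝ) * A₀ ^ cB := ⟨_, rfl⟩
  rw [← hA₁] at hb
  obtain ⟨A₂, hA₂⟩ : ∃ x, x = (cC : ℝ) * A₁ ^ cC + 5 * A₁ ^ 3 + A₀ * A₁ := ⟨_, rfl⟩
  rw [← hA₂] at hb
  obtain ⟨A₃, hA₃⟩ : ∃ x, x = (cD : ℝ) * A₂ ^ cD := ⟨_, rfl⟩
  rw [← hA₃] at hb
  obtain ⟨A₄, hA₄⟩ : ∃ x, x = (cE : ℝ) * A₃ ^ cE := ⟨_, rfl⟩
  rw [← hA₄] at hb
  obtain ⟨B, hBdef⟩ : ∃ x, x = (C : ℝ) * A₀ ^ M := ⟨_, rfl⟩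
  rw [← hBdef] at hb m1 m2 m3 ⊢
  have hA₀0 : 0 ≤ A₀ := by linarith
  have hA₁0 : 0 ≤ A₁ := by rw [hA₁]; positivity
  have hA₂0 : 0 ≤ A₂ := by rw [hA₂]; positivity
  have hA₃0 : 0 ≤ A₃ := by rw [hA₃]; positivity
  have hA₄0 : 0 ≤ A₄ := by rw [hA₄]; positivity
  have hA01 : 0 ≤ A₀ * A₁ := by positivity
  have hB1 : A₁ ≤ B := by linarith
  have hB3 : A₃ ≤ B := by linarith
  have hB4 : A₄ ≤ B := by linarith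
  have hB01 : A₀ * A₁ ≤ B := by linarith
  have hBone : 1 ≤ B := by linarith
  have hh2 : h ^ 2 ≤ h := by nlinarith
  have ha0 : 0 < a := lt_of_lt_of_le ha₂ ha
  -- part B
  have s1 : (cB : ℝ) * A₀ ^ cB * a₂ ≤ 1 := by
    rw [← hA₁]; exact (mul_le_mul_of_nonneg_right hB1 ha₂.le).trans m3
  have s2 : (cB : ℝ) * A₀ ^ cB * β ≤ 1 := by
    rw [← hA₁]
    calc A₁ * β ≤ B * (β + pv) := mul_le_mul hB1 (by linarith) hβ (by linarith)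
      _ ≤ h ^ 2 := m2
      _ ≤ 1 := hh2.trans hh1
  obtain ⟨G1, G4, uc, r, sg, hG1F4, hV2B, hmassB⟩ := hB Y H T Φ F1 F4 K A₀ β pv εT κ a a₂ h hK1 hKA hκ
    ha₂ hβ hCtx.wf hCtx.geo hOk hA s1 s2
  rw [← hA₁] at hV2B hmassB
  have hA₁pos : 0 < A₁ := by
    by_contra hn
    have h0 : A₁ * r ≤ 0 := mul_nonpos_of_nonpos_of_nonneg (not_lt.1 hn) hV2B.r_pos.le
    linarith [hV2B.r_lo]
  have hA₀A₁ : A₀ ≤ A₁ := by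
    rw [hA₁]; exact k6b_m2_le hA₀1 (by rw [← hA₁]; exact hA₁pos)
  have hA₁1 : 1 ≤ A₁ := hA₀1.trans hA₀A₁
  have hG1F1 : G1 ⊆ F1 := hG1F4.trans hA.F41
  have hG1sup : G1 ⊆ Y.sup := hG1F1.trans hA.F1_sup
  have hDlpos : ∀ u ∈ Metric.closedBall uc r, 0 < eval u (k6b_disc H.Pst Φ) := fun u hu =>
    lt_of_lt_of_le (div_pos one_pos hA₁pos) (hV2B.dl u hu).1
  -- the branch
  obtain ⟨f, R, hdf, hdR, hfR⟩ := hW1 H.Pst H.Ps Φ sg a hOk.qst hOk.qs hA.deg hV2B.sg1 ha0.ne'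
  have hBr : k6b_IsBranch H.Pst H.Ps Φ sg a f R D' (Metric.closedBall uc r) :=
    ⟨hdf, hdR, fun u hu => (hfR u (hDlpos u hu) (fun h0 => hV2B.lin h0 u hu)).1,
      fun u hu => (hfR u (hDlpos u hu) (fun h0 => hV2B.lin h0 u hu)).2.1,
      fun u hu => (hfR u (hDlpos u hu) (fun h0 => hV2B.lin h0 u hu)).2.2⟩
  -- part C
  obtain ⟨hnear, hline⟩ := hC Y H Φ G1 G4 uc r sg K A₁ a a₂ h f R hK1 (hKA.trans hA₀A₁) ha₂ ha hCtx.wf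
    hCtx.g_le hOk hG1sup (fun e he => hA.fit e (hG1F1 he)) hV2B hBr
  -- the deviation
  obtain ⟨S, hS⟩ := hR0 (k6b_disc H.Pst Φ) f uc r hV2B.r_pos.le hDlpos
  -- the slack of part D
  have hcC0 : 0 ≤ (cC : ℝ) * A₁ ^ cC := by positivity
  have h50 : 0 ≤ 5 * A₁ ^ 3 := by positivity
  have hcC : (cC : ℝ) * A₁ ^ cC ≤ A₂ := by rw [hA₂]; linarith
  have h5 : 5 * A₁ ^ 3 ≤ A₂ := by rw [hA₂]; linarith
  have h01 : A₀ * A₁ ≤ A₂ := by rw [hA₂]; linarith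
  have hA₁A₂ : A₁ ≤ A₂ := le_trans (by nlinarith) h01
  have hA₀A₂ : A₀ ≤ A₂ := hA₀A₁.trans hA₁A₂
  have hA₂1 : 1 ≤ A₂ := hA₁1.trans hA₁A₂
  have hmass4 : ENNReal.ofReal κ ≤ ENNReal.ofReal (A₀ * A₁) * Y.mu G4 := by
    calc ENNReal.ofReal κ ≤ ENNReal.ofReal A₀ * Y.mu F4 := hA.mass
      _ ≤ ENNReal.ofReal A₀ * (ENNReal.ofReal A₁ * Y.mu G4) := mul_le_mul_right hmassB _
      _ = ENNReal.ofReal (A₀ * A₁) * Y.mu G4 := by rw [ENNReal.ofReal_mul hA₀0, mul_assoc]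
  have s3 : (cD : ℝ) * A₂ ^ cD * (β + pv) ≤ h := by
    rw [← hA₃]
    exact ((mul_le_mul_of_nonneg_right hB3 (by linarith)).trans m2).trans hh2
  have s4 : h ≤ a₂ / a := le_trans (by nlinarith) m1
  have ha₂a : 0 ≤ a₂ / a := (div_pos ha₂ ha0).le
  obtain ⟨v, ER, E7, hCore⟩ := hD Y H T Φ G1 G4 uc r sg K A₂ β pv εT κ a a₂ h S f R hK1
    (hKA.trans hA₀A₂) hκ ha₂ ha hh hβ hpv hCtx.wf hCtx.chain hCtx.geo hCtx.supp.pal_sum hOk hG1sup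
    (fun Bs G hBs hG hpos => (hA.vol Bs G hBs (hG.trans hG1F1) hpos).trans
      (mul_le_mul_left (ENNReal.ofReal_le_ofReal (mul_le_mul_of_nonneg_right hA₀A₂ hκ.le)) _))
    (hmass4.trans (mul_le_mul_left (ENNReal.ofReal_le_ofReal h01) _))
    (k6b_m2_V2B_mono hA₁pos hA₁A₂ hV2B) hdf hdR hS
    (fun e he => (hnear e he).2.trans (le_trans (by
      have : K ^ 3 ≤ A₁ ^ 3 := pow_le_pow_left₀ (by linarith) (hKA.trans hA₀A₁) 3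
      linarith) h5))
    (fun e he => ⟨(hline e he).1.trans (mul_le_mul_of_nonneg_right hcC ha₂.le),
      (hline e he).2.trans (mul_le_mul_of_nonneg_right hcC ha₂a)⟩) s3 s4
  rw [← hA₃] at hCore
  have hA₃2 : 2 ≤ A₃ := hCore.pos.2.2.2.2.1
  have hA₂A₃ : A₂ ≤ A₃ := by
    rw [hA₃]; exact k6b_m2_le hA₂1 (by rw [← hA₃]; linarith)
  -- part E
  have s5 : (cE : ℝ) * A₃ ^ cE * h ≤ a₂ / a := by
    rw [← hA₄]; exact (mul_le_mul_of_nonneg_right hB4 hh.le).trans m1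
  obtain ⟨Pn, hquad, hdww, hlo, hblk⟩ := hE Y H Φ G1 G4 uc r sg K A₃ a a₂ h S f R v ER E7 hK1
    ((hKA.trans hA₀A₂).trans hA₂A₃) hh1 hCtx.wf hCtx.g_le hOk hG1sup
    (k6b_m2_V2B_mono hA₁pos (hA₁A₂.trans hA₂A₃) hV2B) hBr (fun e he => (hnear e he).1) hCore s5
  rw [← hA₄] at hdww hlo hblk
  refine ⟨Pn, G4, hquad, hV2B.G4_meas, hV2B.G41.trans hG1sup,
    hmass4.trans (mul_le_mul_left (ENNReal.ofReal_le_ofReal hB01) _),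
    hdww.trans (div_le_div_of_nonneg_right hB4 ha₂.le),
    fun e he => (hlo e he).trans (mul_le_mul_of_nonneg_right hB4 (abs_nonneg _)),
    fun e he τ hτ => ⟨(hblk e he τ hτ).1.trans (mul_le_mul_of_nonneg_right hB4 ha₂.le),
      (hblk e he τ hτ).2.trans hB4⟩⟩

/-! ## 4. part A and the choice of `ε₀` -/

/-- **L-252-S6b-M2**: the main statement of version 2 from the five parts, the branch (W1) and the deviation (R0). -/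
theorem k6b_main_v2_of (hA : k6b_v2a_stmt) (hB : k6b_v2b_stmt) (hC : k6b_v2c_stmt) (hD : k6b_v2d_stmt)
    (hE : k6b_v2e_stmt) (hW1 : k6b_branch_stmt) (hR0 : k6b_dev_exists_stmt) : k6b_main_v2_stmt := by
  intro D ε hε
  obtain ⟨C, M, hcore⟩ := k6b_m2_core hB hC hD hE hW1 hR0 D
  obtain ⟨cA, kA, hcA, hkA, hA⟩ := hA D (ε / (M + 1)) (by positivity)
  have hcA0 : 0 < cA := by linarith
  refine ⟨((C : ℝ) + 1) * cA ^ (M + 1), kA * (M + 1), by positivity, ?_⟩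
  intro Y H T K β pv εT ξ ρ₁ κ a a₂ h Nc1 Nc2 hK1 hκ hh hh1 ha₂ ha hCtx hOk hMarg m1 m2 m3
  obtain ⟨hξ, hξ1, hρ₁, _, _, hβ, hpv, hεT⟩ := hMarg.pos
  obtain ⟨A₀, hA₀⟩ : ∃ x, x = cA * K ^ kA * ξ ^ (-(ε / (M + 1))) := ⟨_, rfl⟩
  have hfin : ((C : ℝ) + 1) * cA ^ (M + 1) * K ^ (kA * (M + 1)) * ξ ^ (-ε)
      = ((C : ℝ) + 1) * A₀ ^ (M + 1) := by
    have e : -(ε / ((M : ℝ) + 1)) * ((M + 1 : ℕ) : ℝ) = -ε := by push_cast; field_simp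
    rw [hA₀, mul_pow, mul_pow, ← pow_mul, ← Real.rpow_natCast (ξ ^ (-(ε / ((M : ℝ) + 1)))),
      ← Real.rpow_mul hξ.le, e]
    ring
  rw [hfin] at hMarg m1 m2 m3 ⊢
  have hX : 1 ≤ ξ ^ (-(ε / ((M : ℝ) + 1))) :=
    Real.one_le_rpow_of_pos_of_le_one_of_nonpos hξ hξ1 (by
      have : 0 < ε / ((M : ℝ) + 1) := by positivity
      linarith)
  have hK0 : 0 < K := by linarith
  have h1 : K ≤ cA * K ^ kA :=
    (le_self_pow₀ hK1 (by omega)).trans (le_mul_of_one_le_left (by positivity) hcA)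
  have h2 : cA * K ^ kA ≤ A₀ := by
    rw [hA₀]; exact le_mul_of_one_le_right (by positivity) hX
  have hKA : K ≤ A₀ := h1.trans h2
  have hA₀1 : 1 ≤ A₀ := hK1.trans hKA
  have hA₀0 : 0 ≤ A₀ := by linarith
  have hC0 : (0 : ℝ) ≤ C := Nat.cast_nonneg _
  have hBF : (C : ℝ) * A₀ ^ M ≤ ((C : ℝ) + 1) * A₀ ^ (M + 1) :=
    mul_le_mul (by linarith) (pow_le_pow_right₀ hA₀1 (by omega)) (by positivity) (by linarith)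
  have hAF : A₀ ≤ ((C : ℝ) + 1) * A₀ ^ (M + 1) :=
    (le_self_pow₀ hA₀1 (by omega)).trans (le_mul_of_one_le_left (by positivity) (by linarith))
  obtain ⟨Φ, F1, F4, hV2A⟩ := hA Y H T K β pv εT ξ ρ₁ κ a a₂ h Nc1 Nc2 hK1 hκ hh hh1 ha₂ ha hCtx hOk
    (k6b_m2_margins_mono (h2.trans hAF) hMarg)
  rw [← hA₀] at hV2A
  obtain ⟨Pn, Fam, hquad, hFm, hFs, hmass, hdww, hlo, hblk⟩ := hcore Y H T Φ F1 F4 K A₀ β pv εT ξ ρ₁ κ a a₂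
    h Nc1 Nc2 hK1 hKA hκ hh hh1 ha₂ ha hβ hpv hCtx hOk hV2A
    ((mul_le_mul_of_nonneg_right hBF hh.le).trans m1)
    ((mul_le_mul_of_nonneg_right hBF (by linarith)).trans m2)
    ((mul_le_mul_of_nonneg_right hBF ha₂.le).trans m3)
  exact ⟨Pn, Fam, hquad, hFm, hFs,
    hmass.trans (mul_le_mul_left (ENNReal.ofReal_le_ofReal hBF) _),
    hdww.trans (div_le_div_of_nonneg_right hBF ha₂.le),
    fun e he => (hlo e he).trans (mul_le_mul_of_nonneg_right hBF (abs_nonneg _)),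
    fun e he τ hτ => ⟨(hblk e he τ hτ).1.trans (mul_le_mul_of_nonneg_right hBF ha₂.le),
      (hblk e he τ hτ).2.trans hBF⟩⟩

end

end Claimed.Agent.R252
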