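import Claimed.Agent.R252.S6b.EntryDefs

/-!
# Row252, unit S6b, leaf Q: conversion `KbQuad` ↔ `k6b_QW`, `MvPolynomial`   (helper140; prefix `k6b_qc_`)

`k6b_qw_of_quad : k6b_qw_of_quad_stmt`, `k6b_quad_of_qw : k6b_quad_of_qw_stmt`, `k6b_quad_of_p2 : k6b_quad_of_p2_stmt`.
-/

set_option autoImplicit false

namespace Claimed.Agent.R252

open MeasureTheory MvPolynomial
open scoped ENNReal BigOperators

noncomputable section

variable {v : KbVer}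

/-! ## 1. polynomials of degree `≤ 2` in affine arguments are quadratic tests -/

/-- an argument all of whose coordinates are affine in `(t, y, w)` -/
def k6b_qc_Aff {σ : Type} (A : ℝ → KbB v → ℝ → σ → ℝ) : Prop :=
  ∀ a, ∃ (c0 ct : ℝ) (cy : KbB v) (cw : ℝ), ∀ (t : ℝ) (y : KbB v) (w : ℝ), A t y w a = c0 + ct * t + cy ⬝ᵥ y + cw * w

theorem k6b_qc_monomial {σ : Type} (A : ℝ → KbB v → ℝ → σ → ℝ) (hA : k6b_qc_Aff A) (m : σ →₀ ℕ) (c : ℝ)
    (hm : m.degree ≤ 2) : KbIsQuad (v := v) fun t y w => eval (A t y w) (monomial m c) := by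
  by_cases h0 : m = 0
  · subst h0
    refine ksl18_quad_congr (ksl18_quad_mul c 0 0 0 1 0 0 0) fun t y w => ?_
    simp
  obtain ⟨a, m1, rfl⟩ := ksl18_fs_dec m h0
  rw [map_add, Finsupp.degree_single] at hm
  obtain ⟨a0, at', ay, aw, ha⟩ := hA a
  by_cases h1 : m1 = 0
  · subst h1
    refine ksl18_quad_congr (ksl18_quad_mul c 0 0 0 a0 at' ay aw) fun t y w => ?_
    rw [monomial_add_single, map_mul, map_pow, eval_X, ha]
    simp
  obtain ⟨b, m2, rfl⟩ := ksl18_fs_dec m1 h1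
  rw [map_add, Finsupp.degree_single] at hm
  have h2 : m2 = 0 := (Finsupp.degree_eq_zero_iff m2).1 (by omega)
  subst h2
  obtain ⟨b0, bt, by', bw, hb⟩ := hA b
  refine ksl18_quad_congr (ksl18_quad_mul (c * b0) (c * bt) (c • by') (c * bw) a0 at' ay aw) fun t y w => ?_
  rw [monomial_add_single, monomial_add_single, map_mul, map_mul, map_pow, map_pow, eval_X, eval_X, ha, hb]
  simp only [monomial_zero', eval_C, pow_one, smul_dotProduct, smul_eq_mul]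
  ring

theorem k6b_qc_poly {σ : Type} (A : ℝ → KbB v → ℝ → σ → ℝ) (hA : k6b_qc_Aff A) (P : MvPolynomial σ ℝ)
    (hP : P.totalDegree ≤ 2) : KbIsQuad (v := v) fun t y w => eval (A t y w) P := by
  have e : ∀ (t : ℝ) (y : KbB v) (w : ℝ), eval (A t y w) P
      = ∑ m ∈ P.support, eval (A t y w) (monomial m (coeff m P)) := by
    intro t y w
    conv_lhs => rw [P.as_sum]
    rw [map_sum]
  exact ksl18_quad_congr (ksl18_quad_sum P.support (fun m t y w => eval (A t y w) (monomial m (coeff m P)))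
    fun m hm => k6b_qc_monomial A hA m _ ((le_totalDegree hm).trans hP)) e

/-- the argument `(u, w)`, `u = k6aU h zc (t, y)` -/
def k6b_qc_arg (h : ℝ) (zc : ℝ × (Fin v.j → ℝ)) (t : ℝ) (y : KbB v) (w : ℝ) : Fin (v.j + 1 + 1) → ℝ :=
  Fin.snoc (α := fun _ => ℝ) (k6aU h zc (t, y)) w

theorem k6b_qc_arg_aff (h : ℝ) (zc : ℝ × (Fin v.j → ℝ)) : k6b_qc_Aff (v := v) (k6b_qc_arg h zc) := by
  intro a
  refine Fin.lastCases ?_ (fun b => ?_) a
  · exact ⟨0, 0, 0, 1, fun t y w => by unfold k6b_qc_arg; rw [Fin.snoc_last]; simp⟩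
  · refine Fin.cases ?_ (fun i => ?_) b
    · refine ⟨-(zc.1 / h), 1 / h, 0, 0, fun t y w => ?_⟩
      unfold k6b_qc_arg k6aU
      rw [Fin.snoc_castSucc, Fin.cons_zero]
      simp only [zero_dotProduct]
      ring
    · refine ⟨-(zc.2 i / h), 0, Pi.single i (1 / h), 0, fun t y w => ?_⟩
      unfold k6b_qc_arg k6aU
      rw [Fin.snoc_castSucc, Fin.cons_succ]
      simp only [single_dotProduct]
      ring

theorem k6b_qc_main (v : KbVer) (c0 c1 : MvPolynomial (Fin (v.j + 1)) ℝ) (c2 h : ℝ) (zc : ℝ × (Fin v.j → ℝ))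
    (h0 : c0.totalDegree ≤ 2) (h1 : c1.totalDegree ≤ 1) :
    KbIsQuad (v := v) fun t y w => eval (k6aU h zc (t, y)) c0 + eval (k6aU h zc (t, y)) c1 * w + c2 * w ^ 2 := by
  have hP : (rename Fin.castSucc c0 + rename Fin.castSucc c1 * X (Fin.last (v.j + 1))
      + C c2 * (X (Fin.last (v.j + 1)) * X (Fin.last (v.j + 1))) : MvPolynomial (Fin (v.j + 1 + 1)) ℝ).totalDegree ≤ 2 := by
    refine ksl18_deg_add (ksl18_deg_add ?_ ?_) ?_
    · exact (totalDegree_rename_le _ _).trans h0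
    · exact ksl18_deg_mul 1 1 ((totalDegree_rename_le _ _).trans h1) (ksl18_deg_X _) le_rfl
    · exact ksl18_deg_mul 0 2 (ksl18_deg_C _) (ksl18_deg_mul 1 1 (ksl18_deg_X _) (ksl18_deg_X _) le_rfl) le_rfl
  refine ksl18_quad_congr (k6b_qc_poly (k6b_qc_arg h zc) (k6b_qc_arg_aff h zc) _ hP) fun t y w => ?_
  have e : (k6b_qc_arg h zc t y w) ∘ Fin.castSucc = k6aU h zc (t, y) := by
    funext i
    unfold k6b_qc_arg
    exact Fin.snoc_castSucc (α := fun _ => ℝ) _ _ _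
  have e' : k6b_qc_arg h zc t y w (Fin.last (v.j + 1)) = w := by
    unfold k6b_qc_arg
    exact Fin.snoc_last (α := fun _ => ℝ) _ _
  simp only [map_add, map_mul, eval_rename, eval_X, eval_C, e, e']
  ring

/-! ## 2. a quadratic test by powers of `w` -/

/-- the time as a polynomial in `u` -/
def k6b_qc_t (h : ℝ) (zc : ℝ × (Fin v.j → ℝ)) : MvPolynomial (Fin (v.j + 1)) ℝ := C zc.1 + C h * X 0

/-- the base point as a polynomial in `u` -/
def k6b_qc_y (h : ℝ) (zc : ℝ × (Fin v.j → ℝ)) (a : Fin v.j) : MvPolynomial (Fin (v.j + 1)) ℝ := C (zc.2 a) + C h * X a.succ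

/-- a linear form of the base point -/
def k6b_qc_lin (h : ℝ) (zc : ℝ × (Fin v.j → ℝ)) (c : KbB v) : MvPolynomial (Fin (v.j + 1)) ℝ :=
  ∑ a, C (c a) * k6b_qc_y h zc a

theorem k6b_qc_t_deg (h : ℝ) (zc : ℝ × (Fin v.j → ℝ)) : (k6b_qc_t h zc).totalDegree ≤ 1 :=
  ksl18_deg_add ((ksl18_deg_C _).trans (by norm_num)) (ksl18_deg_mul 0 1 (ksl18_deg_C _) (ksl18_deg_X _) le_rfl)

theorem k6b_qc_y_deg (h : ℝ) (zc : ℝ × (Fin v.j → ℝ)) (a : Fin v.j) : (k6b_qc_y h zc a).totalDegree ≤ 1 :=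
  ksl18_deg_add ((ksl18_deg_C _).trans (by norm_num)) (ksl18_deg_mul 0 1 (ksl18_deg_C _) (ksl18_deg_X _) le_rfl)

theorem k6b_qc_lin_deg (h : ℝ) (zc : ℝ × (Fin v.j → ℝ)) (c : KbB v) : (k6b_qc_lin h zc c).totalDegree ≤ 1 :=
  ksl18_deg_sum _ _ fun a _ => ksl18_deg_mul 0 1 (ksl18_deg_C _) (k6b_qc_y_deg h zc a) le_rfl

theorem k6b_qc_t_eval (h : ℝ) (zc : ℝ × (Fin v.j → ℝ)) (u : Fin (v.j + 1) → ℝ) :
    eval u (k6b_qc_t h zc) = zc.1 + h * u 0 := by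
  unfold k6b_qc_t
  simp only [map_add, map_mul, eval_C, eval_X]

theorem k6b_qc_y_eval (h : ℝ) (zc : ℝ × (Fin v.j → ℝ)) (a : Fin v.j) (u : Fin (v.j + 1) → ℝ) :
    eval u (k6b_qc_y h zc a) = zc.2 a + h * u a.succ := by
  unfold k6b_qc_y
  simp only [map_add, map_mul, eval_C, eval_X]

theorem k6b_qc_lin_eval (h : ℝ) (zc : ℝ × (Fin v.j → ℝ)) (c : KbB v) (u : Fin (v.j + 1) → ℝ) :
    eval u (k6b_qc_lin h zc c) = c ⬝ᵥ (fun a => zc.2 a + h * u a.succ) := by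
  unfold k6b_qc_lin
  rw [map_sum]
  simp only [map_mul, eval_C, k6b_qc_y_eval]
  rfl

theorem k6b_qc_of_quad (v : KbVer) (Q : KbQuad v) (h : ℝ) (zc : ℝ × (Fin v.j → ℝ)) :
    ∃ (c0 c1 : MvPolynomial (Fin (v.j + 1)) ℝ) (c2 : ℝ), c0.totalDegree ≤ 2 ∧ c1.totalDegree ≤ 1 ∧
      ∀ (u : Fin (v.j + 1) → ℝ) (w : ℝ),
        eval u c0 + eval u c1 * w + c2 * w ^ 2 = Q.ev (zc.1 + h * u 0) (fun a => zc.2 a + h * u a.succ) w := by
  have dC := @ksl18_deg_C (Fin (v.j + 1))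
  have dt := k6b_qc_t_deg (v := v) h zc
  have dy := k6b_qc_y_deg (v := v) h zc
  have dL := k6b_qc_lin_deg (v := v) h zc
  refine ⟨C Q.c0 + C Q.ct * k6b_qc_t h zc + k6b_qc_lin h zc Q.cy + C Q.ctt * (k6b_qc_t h zc * k6b_qc_t h zc)
      + k6b_qc_t h zc * k6b_qc_lin h zc Q.cty + ∑ a, k6b_qc_y h zc a * k6b_qc_lin h zc (Q.cyy a),
    C Q.cw + C Q.ctw * k6b_qc_t h zc + k6b_qc_lin h zc Q.cyw, Q.cww, ?_, ?_, fun u w => ?_⟩
  · refine ksl18_deg_add (ksl18_deg_add (ksl18_deg_add (ksl18_deg_add (ksl18_deg_add ?_ ?_) ?_) ?_) ?_) ?_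
    · exact (dC _).trans (by norm_num)
    · exact ksl18_deg_mul 0 1 (dC _) dt (by norm_num)
    · exact (dL _).trans (by norm_num)
    · exact ksl18_deg_mul 0 2 (dC _) (ksl18_deg_mul 1 1 dt dt le_rfl) le_rfl
    · exact ksl18_deg_mul 1 1 dt (dL _) le_rfl
    · exact ksl18_deg_sum _ _ fun a _ => ksl18_deg_mul 1 1 (dy a) (dL _) le_rfl
  · refine ksl18_deg_add (ksl18_deg_add ?_ ?_) ?_
    · exact (dC _).trans (by norm_num)
    · exact ksl18_deg_mul 0 1 (dC _) dt le_rfl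
    · exact dL _
  · simp only [map_add, map_mul, map_sum, eval_C, k6b_qc_t_eval, k6b_qc_y_eval, k6b_qc_lin_eval]
    have e : ∀ y : KbB v, y ⬝ᵥ Q.cyy.mulVec y = ∑ i, y i * (Q.cyy i ⬝ᵥ y) := fun _ => rfl
    unfold KbQuad.ev
    rw [e]
    ring

/-! ## 3. the three statements -/

/-- **Q1** -/
theorem k6b_qw_of_quad : k6b_qw_of_quad_stmt := by
  intro Q h zc
  obtain ⟨c0, c1, c2, h0, h1, he⟩ := k6b_qc_of_quad KbVer.two Q h zc
  exact ⟨⟨c0, c1, c2⟩, ⟨h0, h1⟩, he⟩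

/-- **Q2** -/
theorem k6b_quad_of_qw : k6b_quad_of_qw_stmt := by
  intro W h zc hW
  obtain ⟨Q, hQ⟩ := k6b_qc_main KbVer.two W.c0 W.c1 W.c2 h zc hW.d0 hW.d1
  exact ⟨Q, fun t y w => (hQ t y w).symm⟩

theorem k6b_qc_p2 (v : KbVer) (P : MvPolynomial (Fin (v.j + 1)) ℝ) (h : ℝ) (zc : ℝ × (Fin v.j → ℝ))
    (hP : P.totalDegree ≤ 2) :
    ∃ Q : KbQuad v, ∀ (t : ℝ) (y : KbB v) (w : ℝ), Q.ev t y w = w - h * eval (k6aU h zc (t, y)) P := by
  obtain ⟨Q, hQ⟩ := k6b_qc_main v (C (-h) * P) (C 1) 0 h zc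
    (ksl18_deg_mul 0 2 (ksl18_deg_C _) hP le_rfl) ((ksl18_deg_C _).trans (by norm_num))
  refine ⟨Q, fun t y w => ?_⟩
  rw [← hQ t y w]
  simp only [map_mul, eval_C]
  ring

/-- **Q3** -/
theorem k6b_quad_of_p2 : k6b_quad_of_p2_stmt := by
  intro P2 h zc hP
  exact k6b_qc_p2 KbVer.one P2 h zc hP

end

end Claimed.Agent.R252
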