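import Claimed.Agent.R252.S6b.V2Cut
import Claimed.Agent.R252.S6b.MainV1Kit

/-!
# Row252, unit S6b, part G, leaf M2a: the heavy intercept group in version 2, physical units      (helper250; prefix `k6b_va_`)
`k6b_v2a_of : C5 → P1 → P2 → G → k6b_v2a_stmt`   (copy of `k6b_m1_partI` with `m = 3`, keeping `F1` and the prior weight; volume lemma from `cap2`).
-/

set_option autoImplicit false

namespace Claimed.Agent.R252

open MeasureTheory MvPolynomial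
open scoped ENNReal BigOperators

noncomputable section

/-! ## 1. constants -/

/-- `εP ≤ B (εT + N)` -/
def k6b_va_B (c5 c2 : ℕ) (K : ℝ) : ℝ := 1 + c2 * K ^ c2 * (3 * (c5 * K ^ c5))

/-- the lower bound of the constant -/
def k6b_va_F (c5 c2 : ℕ) (cG : ℝ) (kG : ℕ) (K : ℝ) : ℝ :=
  1 + c5 * K ^ c5 + cG * (3 * K) ^ kG * k6b_va_B c5 c2 K + 2 * k6b_va_B c5 c2 K + 384 * K + cG * (3 * K) ^ kG * K

theorem k6b_va_eqns_cite : True := by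
  have := @k6b_va_B.eq_1
  have := @k6b_va_F.eq_1
  trivial

theorem k6b_va_B_PB (c5 c2 : ℕ) : k6b_m1PB fun K _ => k6b_va_B c5 c2 K := by
  unfold k6b_va_B
  exact k6b_m1PB_add (k6b_m1PB_const zero_le_one) (k6b_m1PB_mul (k6b_m1PB_mul (k6b_m1PB_nat c2) (k6b_m1PB_pow k6b_m1PB_fst c2))
    (k6b_m1PB_mul (k6b_m1PB_const (by norm_num)) (k6b_m1PB_mul (k6b_m1PB_nat c5) (k6b_m1PB_pow k6b_m1PB_fst c5))))

theorem k6b_va_F_PB (c5 c2 : ℕ) {cG : ℝ} (hcG : 0 ≤ cG) (kG : ℕ) : k6b_m1PB fun K _ => k6b_va_F c5 c2 cG kG K := by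
  unfold k6b_va_F
  have h3 : k6b_m1PB fun K _ => 3 * K := k6b_m1PB_mul (k6b_m1PB_const (by norm_num)) k6b_m1PB_fst
  have hG : k6b_m1PB fun K _ => cG * (3 * K) ^ kG := k6b_m1PB_mul (k6b_m1PB_const hcG) (k6b_m1PB_pow h3 kG)
  refine k6b_m1PB_add (k6b_m1PB_add (k6b_m1PB_add (k6b_m1PB_add (k6b_m1PB_add (k6b_m1PB_const zero_le_one) ?_) ?_) ?_) ?_) ?_
  · exact k6b_m1PB_mul (k6b_m1PB_nat c5) (k6b_m1PB_pow k6b_m1PB_fst c5)
  · exact k6b_m1PB_mul hG (k6b_va_B_PB c5 c2)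
  · exact k6b_m1PB_mul (k6b_m1PB_const zero_le_two) (k6b_va_B_PB c5 c2)
  · exact k6b_m1PB_mul (k6b_m1PB_const (by norm_num)) k6b_m1PB_fst
  · exact k6b_m1PB_mul hG k6b_m1PB_fst

theorem k6b_va_num (c5 c2 : ℕ) {cG : ℝ} (hcG : 0 ≤ cG) (kG : ℕ) {K A εT N β pv ξ ρ₂ : ℝ} (hK : 1 ≤ K)
    (hFA : k6b_va_F c5 c2 cG kG K ≤ A) (hεT : 0 ≤ εT) (hN : 0 ≤ N) (hβ : 0 ≤ β) (hpv : 0 ≤ pv) (hξ : 0 ≤ ξ)
    (hρ : ρ₂ ≤ 1) (hmain : A * (εT + N + β + pv + ξ) ≤ ρ₂) :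
    c5 * K ^ c5 * pv ≤ 1 ∧
    cG * (3 * K) ^ kG * (εT + c2 * K ^ c2 * (((3 : ℕ) : ℝ) * (c5 * K ^ c5 * N)) + β + ξ) ≤ ρ₂ ∧
    2 * (εT + c2 * K ^ c2 * (((3 : ℕ) : ℝ) * (c5 * K ^ c5 * N))) ≤ ρ₂ ∧
    K ≤ A ∧ 384 * K ≤ A ∧ cG * (3 * K) ^ kG * K ≤ A := by
  have hK0 : 0 ≤ K := by linarith
  have hB : 1 ≤ k6b_va_B c5 c2 K := by
    unfold k6b_va_B
    have : 0 ≤ (c2 : ℝ) * K ^ c2 * (3 * (c5 * K ^ c5)) := by positivity
    linarith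
  set B := k6b_va_B c5 c2 K with hBdef
  set S := εT + N + β + pv + ξ with hS
  set εP := εT + c2 * K ^ c2 * (((3 : ℕ) : ℝ) * (c5 * K ^ c5 * N)) with hεP
  have hS0 : 0 ≤ S := by positivity
  have t1 : 0 ≤ (c5 : ℝ) * K ^ c5 := by positivity
  have t3 : 0 ≤ cG * (3 * K) ^ kG * B := by positivity
  have t4 : 0 ≤ 2 * B := by positivity
  have t6 : 0 ≤ cG * (3 * K) ^ kG * K := by positivity
  have hF : k6b_va_F c5 c2 cG kG K = 1 + c5 * K ^ c5 + cG * (3 * K) ^ kG * B + 2 * B + 384 * K + cG * (3 * K) ^ kG * K := rfl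
  rw [hF] at hFA
  have key : ∀ a : ℝ, a ≤ A → a * S ≤ ρ₂ := fun a ha => (mul_le_mul_of_nonneg_right ha hS0).trans hmain
  have hεPB : εP ≤ B * (εT + N) := by
    have e : εP = εT + (B - 1) * N := by
      rw [hεP, hBdef]; unfold k6b_va_B; push_cast; ring
    have e1 : εT ≤ B * εT := le_mul_of_one_le_left hεT hB
    rw [e]
    linarith
  have b1 : β ≤ B * β := le_mul_of_one_le_left hβ hB
  have b2 : pv ≤ B * pv := le_mul_of_one_le_left hpv hB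
  have b3 : ξ ≤ B * ξ := le_mul_of_one_le_left hξ hB
  have hBS : B * S = B * (εT + N) + B * β + B * pv + B * ξ := by rw [hS]; ring
  have hpvS : pv ≤ S := by rw [hS]; linarith
  refine ⟨?_, ?_, ?_, by linarith, by linarith, by linarith⟩
  · have := key (c5 * K ^ c5) (by linarith)
    have h2 : (c5 : ℝ) * K ^ c5 * pv ≤ c5 * K ^ c5 * S := mul_le_mul_of_nonneg_left hpvS t1
    linarith
  · have := key (cG * (3 * K) ^ kG * B) (by linarith)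
    have h2 : εP + β + ξ ≤ B * S := by linarith
    have h3 : cG * (3 * K) ^ kG * (εP + β + ξ) ≤ cG * (3 * K) ^ kG * (B * S) := mul_le_mul_of_nonneg_left h2 (by positivity)
    calc _ ≤ _ := h3
      _ = cG * (3 * K) ^ kG * B * S := by ring
      _ ≤ ρ₂ := this
  · have := key (2 * B) (by linarith)
    calc 2 * εP ≤ 2 * (B * S) := by linarith
      _ = 2 * B * S := by ring
      _ ≤ ρ₂ := this

theorem k6b_va_rpow_split {ξ ε : ℝ} (hξ0 : 0 < ξ) : ξ ^ (((3 : ℕ) : ℝ) - ε) = ξ ^ 3 * ξ ^ (-ε) := by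
  rw [sub_eq_add_neg, Real.rpow_add hξ0, Real.rpow_natCast]

/-- the mass of the heavy group against `κ` -/
theorem k6b_va_mass {cG : ℝ} (hcG : 0 < cG) (kG : ℕ) {K ξ ε κ A : ℝ} {Nc2 : ℕ} (hK : 1 ≤ K) (hξ0 : 0 < ξ) (hκ : 0 < κ)
    (hcount : (Nc2 : ℝ) * ξ ^ 3 * κ ≤ K) (hA : cG * (3 * K) ^ kG * (K * ξ ^ (-ε)) ≤ A) {a : ℝ≥0∞}
    (hmass : 1 ≤ ENNReal.ofReal (cG * (3 * K) ^ kG * (Nc2 * ξ ^ (((3 : ℕ) : ℝ) - ε))) * a) :
    ENNReal.ofReal κ ≤ ENNReal.ofReal A * a := by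
  have hX0 : 0 < ξ ^ (-ε) := Real.rpow_pos_of_pos hξ0 _
  have hK0 : 0 < K := by linarith
  calc ENNReal.ofReal κ = ENNReal.ofReal κ * 1 := (mul_one _).symm
    _ ≤ ENNReal.ofReal κ * (ENNReal.ofReal (cG * (3 * K) ^ kG * (Nc2 * ξ ^ (((3 : ℕ) : ℝ) - ε))) * a) := by gcongr
    _ = ENNReal.ofReal (κ * (cG * (3 * K) ^ kG * (Nc2 * ξ ^ (((3 : ℕ) : ℝ) - ε)))) * a := by
        rw [← mul_assoc, ← ENNReal.ofReal_mul hκ.le]
    _ ≤ ENNReal.ofReal A * a := by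
        gcongr
        refine le_trans ?_ hA
        rw [k6b_va_rpow_split hξ0]
        have e : κ * (cG * (3 * K) ^ kG * (↑Nc2 * (ξ ^ 3 * ξ ^ (-ε)))) = cG * (3 * K) ^ kG * ((Nc2 * ξ ^ 3 * κ) * ξ ^ (-ε)) := by ring
        rw [e]
        gcongr

/-! ## 2. the statement -/

theorem k6b_v2a_of (hC5 : k6b_conservative_stmt) (hP1 : k6b_potential_stmt) (hP2 : k6b_line_var_stmt)
    (hG : k6b_heavy_group_stmt) : k6b_v2a_stmt := by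
  intro D ε hε
  obtain ⟨c5, h5⟩ := hC5 3 D (Or.inr rfl)
  obtain ⟨c2, h2⟩ := hP2 3 D
  obtain ⟨cG, kG, hcG, hGG⟩ := hG 3 (D + 1) ε (Or.inr rfl) hε
  obtain ⟨c, k, hc0, hck⟩ := k6b_m1PB_pos (k6b_va_F_PB c5 c2 hcG.le kG)
  refine ⟨c + 1, k + 1, by linarith, by omega, ?_⟩
  intro Y H T K β pv εT ξ ρ₁ κ a a₂ h Nc1 Nc2 hK hκ hh hh1 ha₂ haa hC hH hM
  obtain ⟨⟨hξ0, hξ1, hρ1, hρ2, hρ21, hβ0, hpv0, hεT0⟩, hsu, hsx, hmain⟩ := hM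
  set ρ₂ : ℝ := a₂ / h with hρ₂
  have hK0 : 0 < K := by linarith
  have hX : 1 ≤ ξ ^ (-ε) := Real.one_le_rpow_of_pos_of_le_one_of_nonpos hξ0 hξ1 (by linarith)
  have hFA : k6b_va_F c5 c2 cG kG K ≤ (c + 1) * K ^ (k + 1) := by
    refine (hck K 1 hK le_rfl).trans ?_
    rw [mul_one]
    have h1 : K ^ k ≤ K ^ (k + 1) := pow_le_pow_right₀ hK (Nat.le_succ k)
    have h2 : 0 ≤ K ^ k := by positivity
    nlinarith
  obtain ⟨n1, n3, n4, n5, n6, n7⟩ := k6b_va_num c5 c2 hcG.le kG hK hFA hεT0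
    (by positivity : (0 : ℝ) ≤ Nc1 * ξ ^ 3 * ρ₁) hβ0 hpv0 hξ0.le hρ21 hmain
  set εP : ℝ := εT + c2 * K ^ c2 * (((3 : ℕ) : ℝ) * (c5 * K ^ c5 * (Nc1 * ξ ^ 3 * ρ₁))) with hεPdef
  set A0 : ℝ := (c + 1) * K ^ (k + 1) with hA0
  have hA00 : 0 ≤ A0 := by rw [hA0]; positivity
  have hAA : A0 ≤ A0 * ξ ^ (-ε) := le_mul_of_one_le_right hA00 hX
  have hβ1 : β ≤ 1 := by linarith
  -- C5
  have hchain64 : Y.Chain (ENNReal.ofReal K) (1 / 64) (1 / 64) (1 / K) :=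
    k6b_m1_chain_mono hC.chain le_rfl k6b_m1_pow30_le64 le_rfl le_rfl
  have hcurl := h5 Y T K β pv εT ξ ρ₁ Nc1 hK hξ0 hρ1 hβ0 hβ1 hpv0 hεT0 hC.degT hC.nmT hC.wf hchain64 hC.geo hC.supp n1
    (by nlinarith) (by nlinarith)
  -- P1
  obtain ⟨P, hPd, hPn, hPc⟩ := hP1 3 D T _ hC.degT hcurl
  have hPn' : rmzNm P ≤ 3 * K := hPn.trans (by rw [Fin.sum_univ_three]; linarith [hC.nmT 0, hC.nmT 1, hC.nmT 2])
  -- P2
  have hfit0 := h2 Y T P K β pv εT _ hK (by positivity) hC.degT hPd hPc hC.geo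
  rw [← hεPdef] at hfit0
  have hεP0 : 0 ≤ εP := by rw [hεPdef]; positivity
  have hic_meas := k6b_m1_ic_meas Y hC.wf P (1 / 2)
  have hhalf : (1 / 2 : ℝ) ∈ Set.Icc (0 : ℝ) 1 := ⟨by norm_num, by norm_num⟩
  have hfit : ∀ l ∈ Y.Lg, ∀ τ ∈ Set.Icc (0 : ℝ) 1,
      |Y.x (l, τ) - eval (Y.pos (l, τ)) P - (Y.x (l, 1 / 2) - eval (Y.pos (l, 1 / 2)) P)| ≤ εP :=
    fun l hl τ hτ => hfit0 l hl (1 / 2) hhalf τ hτ
  -- G
  obtain ⟨Cg, F1, F4, hF1m, hF4m, hF41, hF1s, hF1L, hmass, hfat, -, hprior⟩ :=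
    hGG Y T P (fun l => Y.x (l, 1 / 2) - eval (Y.pos (l, 1 / 2)) P) (3 * K) β pv εT ξ ρ₂ εP (1 / 2 ^ 30) Nc2
    (by linarith) hξ0 hξ1 hρ2 hβ0 hεP0 hPd hPn' hC.wf
    (k6b_m1_chain_mono hC.chain (ENNReal.ofReal_le_ofReal (by linarith)) le_rfl le_rfl
      (one_div_le_one_div_of_le (by linarith) (by linarith)))
    k6b_m1_pow30_le1024 (k6b_m1_geo_mono hC.geo (by linarith))
    ⟨hC.nu_le.trans (ENNReal.ofReal_le_ofReal (by linarith)), fun e => (hC.g_le e).trans (ENNReal.ofReal_le_ofReal (by linarith)),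
      hC.time, hic_meas, hfit, hC.cells2⟩ (by linarith) n3
  -- the normalised fit on `F1`
  have hfitN : ∀ e ∈ F1, |Y.x e - eval (Y.pos e) (P + C (((Cg : ℝ) + 1 / 2) * ρ₂))| ≤ ρ₂ := by
    intro e he
    obtain ⟨hl, hfl⟩ := hF1L e he
    have h1 := hfit e.1 hl e.2 (hF1s he).2
    have h2 := k6b_m1_floor hρ2 hfl
    have h3 := abs_add_le (Y.x (e.1, e.2) - eval (Y.pos (e.1, e.2)) P - (Y.x (e.1, 1 / 2) - eval (Y.pos (e.1, 1 / 2)) P))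
      ((Y.x (e.1, 1 / 2) - eval (Y.pos (e.1, 1 / 2)) P) - ((Cg : ℝ) + 1 / 2) * ρ₂)
    rw [sub_add_sub_cancel] at h3
    rw [map_add, eval_C, ← sub_sub]
    have e0 : (e.1, e.2) = e := rfl
    rw [e0] at h3 h1
    linarith
  refine ⟨C h * (P + C (((Cg : ℝ) + 1 / 2) * ρ₂)), F1, F4, ?_, hF1m, hF4m, hF41, hF1s, ?_, ?_, ?_, hfat, ?_⟩
  · refine (totalDegree_mul _ _).trans ?_
    rw [totalDegree_C, zero_add]
    refine (totalDegree_add _ _).trans (max_le hPd ?_)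
    rw [totalDegree_C]
    exact Nat.zero_le _
  · intro e he
    have h1 := hfitN e he
    rw [← hH.native e (hF1s he), map_mul, eval_C, ← mul_sub, abs_mul, abs_of_pos hh]
    have h2 : h * |Y.x e - eval (Y.pos e) (P + C (((Cg : ℝ) + 1 / 2) * ρ₂))| ≤ h * ρ₂ := mul_le_mul_of_nonneg_left h1 hh.le
    have h3 : h * ρ₂ = a₂ := by rw [hρ₂]; field_simp
    linarith
  · intro B G hB hGF hGB
    have hcap := hC.cap2 (P + C (((Cg : ℝ) + 1 / 2) * ρ₂)) B hB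
    have hsub : G ⊆ {e | Y.pos e ∈ B ∧ |Y.x e - eval (Y.pos e) (P + C (((Cg : ℝ) + 1 / 2) * ρ₂))| ≤ ρ₂} :=
      fun e he => ⟨hGB e he, hfitN e (hGF he)⟩
    refine ((measure_mono hsub).trans hcap).trans ?_
    gcongr ?_ * _
    refine ENNReal.ofReal_le_ofReal (mul_le_mul_of_nonneg_right ?_ hκ.le)
    linarith
  · refine k6b_va_mass hcG kG hK hξ0 hκ hC.count2 ?_ hmass
    calc cG * (3 * K) ^ kG * (K * ξ ^ (-ε)) = cG * (3 * K) ^ kG * K * ξ ^ (-ε) := by ring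
      _ ≤ A0 * ξ ^ (-ε) := mul_le_mul_of_nonneg_right n7 (by linarith)
  · refine hprior.trans ?_
    gcongr ?_ * _
    refine ENNReal.ofReal_le_ofReal ?_
    linarith

end

end Claimed.Agent.R252
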