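import Claimed.Agent.R252.S6b.Prune

/-!
# Row252, unit S6b, part D: THE PRUNING LEMMA WITH THE FINE LOSS TERM `k6b_prune_fine`      (helper193; the proof of `k6b_prune` of helper247,
# the loss of the short line/label portions is counted on `{l | 0 < durF F0 l}` only)
-/

set_option autoImplicit false

namespace Claimed.Agent.R252

open MeasureTheory
open scoped ENNReal BigOperators

section sw

variable {m : ℕ} (Y : k6b_Sw m)

/-- **the Fubini loss, fine form**: only the lines which meet `F0` with positive duration are paid -/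
theorem k6b_prf_short (hY : Y.WF) {Lb : Type} (lab : Y.Lam × ℝ → Lb) (hlab : ∀ b, MeasurableSet (lab ⁻¹' {b}))
    {F F0 : Set (Y.Lam × ℝ)} (hF : MeasurableSet F) (hFF0 : F ⊆ F0) (Λ : Finset Lb) (hΛ : ∀ e ∈ F, lab e ∈ Λ) (nl : ℕ) (K1 : ℝ≥0∞)
    (hl : ∀ l, ∃ L : Finset Lb, L.card ≤ nl ∧ ∀ τ, (l, τ) ∈ F → lab (l, τ) ∈ L) :
    MeasurableSet {e | e ∈ F ∧ 1 ≤ K1 * Y.durF (F ∩ lab ⁻¹' {lab e}) e.1} ∧
      Y.mu (F \ {e | e ∈ F ∧ 1 ≤ K1 * Y.durF (F ∩ lab ⁻¹' {lab e}) e.1}) ≤ nl * Y.nu {l | 0 < Y.durF F0 l} / K1 := by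
  classical
  have hd : ∀ b, Measurable (Y.durF (F ∩ lab ⁻¹' {b})) := fun b => k6b_pr_durF_meas Y hY (hF.inter (hlab b))
  have hS : ∀ b, MeasurableSet {l | 1 ≤ K1 * Y.durF (F ∩ lab ⁻¹' {b}) l} := fun b =>
    measurableSet_le measurable_const ((hd b).const_mul K1)
  have hG : ∀ b, MeasurableSet {e : Y.Lam × ℝ | e.1 ∈ {l | 1 ≤ K1 * Y.durF (F ∩ lab ⁻¹' {b}) l}} :=
    fun b => measurable_fst (hS b)
  have hG' : ∀ b, MeasurableSet {e : Y.Lam × ℝ | e.1 ∈ {l | 1 ≤ K1 * Y.durF (F ∩ lab ⁻¹' {b}) l}ᶜ} :=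
    fun b => measurable_fst (hS b).compl
  refine ⟨k6b_pr_meas hF hlab Λ hΛ hG, ?_⟩
  have h1 : F \ {e | e ∈ F ∧ 1 ≤ K1 * Y.durF (F ∩ lab ⁻¹' {lab e}) e.1}
      = {e | e ∈ F ∧ e ∈ (fun b => {e : Y.Lam × ℝ | e.1 ∈ {l | 1 ≤ K1 * Y.durF (F ∩ lab ⁻¹' {b}) l}ᶜ}) (lab e)} := by
    ext e
    simp only [Set.mem_sdiff, Set.mem_ofPred_eq, not_and, Set.mem_compl_iff]
    constructor
    · rintro ⟨h1, h2⟩
      exact ⟨h1, h2 h1⟩
    · rintro ⟨h1, h2⟩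
      exact ⟨h1, fun _ => h2⟩
  rw [h1, k6b_pr_sum Y.mu hF hlab Λ hΛ hG']
  have h2 : ∀ b ∈ Λ, Y.mu (F ∩ lab ⁻¹' {b} ∩ {e : Y.Lam × ℝ | e.1 ∈ {l | 1 ≤ K1 * Y.durF (F ∩ lab ⁻¹' {b}) l}ᶜ})
      = ∫⁻ l, ({l | 1 ≤ K1 * Y.durF (F ∩ lab ⁻¹' {b}) l}ᶜ).indicator (Y.durF (F ∩ lab ⁻¹' {b})) l ∂Y.nu := by
    intro b _
    rw [k6b_pr_mu_apply Y hY ((hF.inter (hlab b)).inter (hG' b))]
    exact lintegral_congr fun l => k6b_pr_durF_lines Y _ _ l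
  rw [Finset.sum_congr rfl h2, ← lintegral_finsetSum Λ (fun b _ => (hd b).indicator (hS b).compl)]
  have h3 : ∀ l, ∑ b ∈ Λ, ({l | 1 ≤ K1 * Y.durF (F ∩ lab ⁻¹' {b}) l}ᶜ).indicator (Y.durF (F ∩ lab ⁻¹' {b})) l
      ≤ {l | 0 < Y.durF F0 l}.indicator (fun _ => (nl : ℝ≥0∞) / K1) l := by
    intro l
    by_cases hA : l ∈ {l | 0 < Y.durF F0 l}
    swap
    · rw [Set.indicator_of_notMem hA]
      have h0 : Y.durF F0 l = 0 := by
        by_contra hne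
        exact hA (pos_iff_ne_zero.2 hne)
      refine (Finset.sum_eq_zero fun b _ => ?_).le
      have h6 : Y.durF (F ∩ lab ⁻¹' {b}) l = 0 := by
        refine le_antisymm (le_trans ?_ h0.le) zero_le
        unfold k6b_Sw.durF
        exact lintegral_mono fun τ =>
          Set.indicator_le_indicator_of_subset (Set.inter_subset_left.trans hFF0) (fun _ => zero_le) _
      by_cases hm : l ∈ {l | 1 ≤ K1 * Y.durF (F ∩ lab ⁻¹' {b}) l}ᶜ
      · rw [Set.indicator_of_mem hm, h6]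
      · rw [Set.indicator_of_notMem hm]
    rw [Set.indicator_of_mem hA]
    obtain ⟨L, hLc, hL⟩ := hl l
    have h4 : ∀ b ∈ Λ, ({l | 1 ≤ K1 * Y.durF (F ∩ lab ⁻¹' {b}) l}ᶜ).indicator (Y.durF (F ∩ lab ⁻¹' {b})) l
        ≤ if b ∈ L then 1 / K1 else 0 := by
      intro b _
      by_cases hb : b ∈ L
      · rw [if_pos hb]
        by_cases hm : l ∈ {l | 1 ≤ K1 * Y.durF (F ∩ lab ⁻¹' {b}) l}ᶜ
        · rw [Set.indicator_of_mem hm]
          have h5 : K1 * Y.durF (F ∩ lab ⁻¹' {b}) l < 1 := not_le.1 hm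
          rw [ENNReal.le_div_iff_mul_le (Or.inr one_ne_zero) (Or.inr ENNReal.one_ne_top), mul_comm]
          exact h5.le
        · rw [Set.indicator_of_notMem hm]
          exact zero_le
      · rw [if_neg hb]
        have h6 : Y.durF (F ∩ lab ⁻¹' {b}) l = 0 := by
          refine k6b_pr_durF_zero Y _ l fun τ hτ => hb ?_
          have := hL τ hτ.1
          rwa [show lab (l, τ) = b from hτ.2] at this
        by_cases hm : l ∈ {l | 1 ≤ K1 * Y.durF (F ∩ lab ⁻¹' {b}) l}ᶜ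
        · rw [Set.indicator_of_mem hm, h6]
        · rw [Set.indicator_of_notMem hm]
    refine (Finset.sum_le_sum h4).trans ?_
    rw [← Finset.sum_filter, Finset.sum_const, nsmul_eq_mul, mul_one_div]
    refine ENNReal.div_le_div_right ?_ _
    have h7 : (Λ.filter fun b => b ∈ L).card ≤ nl :=
      (Finset.card_le_card (fun b hb => (Finset.mem_filter.1 hb).2)).trans hLc
    exact_mod_cast h7
  refine (lintegral_mono h3).trans ((lintegral_indicator_const_le _ _).trans (le_of_eq ?_))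
  rw [ENNReal.mul_div_right_comm]

/-- **PRf: THE PRUNING LEMMA WITH THE FINE LOSS TERM** -/
theorem k6b_prune_fine : k6b_prune_fine_stmt := by
  classical
  intro m Y Lb lab F0 ns nl φ K1 hY hF0 hlab hs hl
  choose L hLc hL using hs
  obtain ⟨Λ, hΛdef⟩ : ∃ Λ : Finset Lb, Λ = Finset.univ.biUnion L := ⟨_, rfl⟩
  have hΛ : ∀ e ∈ F0, lab e ∈ Λ := by
    intro e he
    rw [hΛdef, Finset.mem_biUnion]
    exact ⟨Y.st e, Finset.mem_univ _, hL _ e he rfl⟩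
  obtain ⟨κ, hκdef⟩ : ∃ κ : Y.Lam × ℝ → Y.St × Lb, κ = fun e => (Y.st e, lab e) := ⟨_, rfl⟩
  have hκe : ∀ e, κ e = (Y.st e, lab e) := fun e => by rw [hκdef]
  have hκfib : ∀ s b, κ ⁻¹' {(s, b)} = Y.stE s ∩ lab ⁻¹' {b} := by
    intro s b
    ext e
    simp only [Set.mem_preimage, Set.mem_singleton_iff, hκe, Prod.mk.injEq, k6b_Sw.stE, Set.mem_inter_iff]
  have hκ : ∀ i, MeasurableSet (κ ⁻¹' {i}) := by
    rintro ⟨s, b⟩
    rw [hκfib]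
    exact (hY.st_meas s).inter (hlab b)
  have hJ : ∀ e ∈ F0, κ e ∈ (Finset.univ : Finset Y.St) ×ˢ Λ := by
    intro e he
    rw [hκe, Finset.mem_product]
    exact ⟨Finset.mem_univ _, hΛ e he⟩
  -- first deletion
  obtain ⟨P1, hP1⟩ : ∃ P1 : Y.St × Lb → Prop,
      P1 = fun i => φ * Y.mu (F0 ∩ Y.stE i.1) ≤ Y.mu (F0 ∩ κ ⁻¹' {i}) := ⟨_, rfl⟩
  obtain ⟨F1, hF1def⟩ : ∃ F1 : Set (Y.Lam × ℝ), F1 = {e | e ∈ F0 ∧ P1 (κ e)} := ⟨_, rfl⟩
  have hF1 : MeasurableSet F1 := by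
    rw [hF1def]
    exact k6b_pr_keep_meas hF0 hκ _ hJ P1
  have h10 : F1 ⊆ F0 := by
    rw [hF1def]
    exact fun e he => he.1
  have hloss1 : Y.mu (F0 \ F1) ≤ ns * φ * Y.mu F0 := by
    have e1 : F0 \ F1 = {e | e ∈ F0 ∧ ¬ P1 (κ e)} := by
      rw [hF1def]
      ext e
      simp only [Set.mem_sdiff, Set.mem_ofPred_eq, not_and]
      constructor
      · rintro ⟨h1, h2⟩
        exact ⟨h1, h2 h1⟩
      · rintro ⟨h1, h2⟩
        exact ⟨h1, fun _ => h2⟩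
    rw [e1]
    refine (k6b_pr_keep_le Y.mu hF0 hκ _ hJ (fun i => ¬ P1 i)
      (fun i => if i.2 ∈ L i.1 then φ * Y.mu (F0 ∩ Y.stE i.1) else 0) ?_).trans ?_
    · rintro ⟨s, b⟩ _ hi
      by_cases hb : b ∈ L s
      · simp only [if_pos hb]
        rw [hP1] at hi
        exact (not_le.1 hi).le
      · simp only [if_neg hb]
        have : F0 ∩ κ ⁻¹' {(s, b)} = ∅ := by
          rw [hκfib, Set.eq_empty_iff_forall_notMem]
          rintro e ⟨he, hs', hb'⟩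
          apply hb
          have := hL s e he hs'
          rwa [show lab e = b from hb'] at this
        rw [this, measure_empty]
    · rw [Finset.sum_product]
      have e2 : ∀ s ∈ (Finset.univ : Finset Y.St),
          ∑ b ∈ Λ, (if b ∈ L s then φ * Y.mu (F0 ∩ Y.stE s) else 0) ≤ ns * φ * Y.mu (F0 ∩ Y.st ⁻¹' {s}) := by
        intro s _
        rw [← Finset.sum_filter, Finset.sum_const, nsmul_eq_mul, mul_assoc]
        refine mul_le_mul' ?_ le_rfl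
        have h7 : (Λ.filter fun b => b ∈ L s).card ≤ ns :=
          (Finset.card_le_card (fun b hb => (Finset.mem_filter.1 hb).2)).trans (hLc s)
        exact_mod_cast h7
      refine (Finset.sum_le_sum e2).trans (le_of_eq ?_)
      rw [← Finset.mul_sum, ← k6b_pr_tot Y.mu hF0 hY.st_meas Finset.univ (fun _ _ => Finset.mem_univ _)]
  have hΛ1 : ∀ e ∈ F1, lab e ∈ Λ := fun e he => hΛ e (h10 he)
  have hJ1 : ∀ e ∈ F1, κ e ∈ (Finset.univ : Finset Y.St) ×ˢ Λ := fun e he => hJ e (h10 he)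
  -- second deletion
  obtain ⟨hF2', hloss2'⟩ := k6b_prf_short Y hY lab hlab hF1 h10 Λ hΛ1 nl K1 (by
    intro l
    obtain ⟨L', h1, h2⟩ := hl l
    exact ⟨L', h1, fun τ hτ => h2 τ (h10 hτ)⟩)
  obtain ⟨F2, hF2def⟩ : ∃ F2 : Set (Y.Lam × ℝ),
      F2 = {e | e ∈ F1 ∧ 1 ≤ K1 * Y.durF (F1 ∩ lab ⁻¹' {lab e}) e.1} := ⟨_, rfl⟩
  rw [← hF2def] at hF2' hloss2'
  have h21 : F2 ⊆ F1 := by
    rw [hF2def]
    exact fun e he => he.1
  -- third deletion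
  obtain ⟨hF3', hloss3'⟩ := k6b_pr_del Y.mu hF1 hF2' h21 hκ _ hJ1
  obtain ⟨F3, hF3def⟩ : ∃ F3 : Set (Y.Lam × ℝ),
      F3 = {e | e ∈ F2 ∧ Y.mu (F1 ∩ κ ⁻¹' {κ e}) ≤ 2 * Y.mu (F2 ∩ κ ⁻¹' {κ e})} := ⟨_, rfl⟩
  rw [← hF3def] at hF3' hloss3'
  have h32 : F3 ⊆ F2 := by
    rw [hF3def]
    exact fun e he => he.1
  -- fourth deletion
  obtain ⟨hF4', hloss4'⟩ := k6b_pr_del Y.mu hF1 hF3' (h32.trans h21) hlab Λ hΛ1
  obtain ⟨F4, hF4def⟩ : ∃ F4 : Set (Y.Lam × ℝ),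
      F4 = {e | e ∈ F3 ∧ Y.mu (F1 ∩ lab ⁻¹' {lab e}) ≤ 2 * Y.mu (F3 ∩ lab ⁻¹' {lab e})} := ⟨_, rfl⟩
  rw [← hF4def] at hF4' hloss4'
  have h43 : F4 ⊆ F3 := by
    rw [hF4def]
    exact fun e he => he.1
  have hfib4 : ∀ e ∈ F4, F4 ∩ lab ⁻¹' {lab e} = F3 ∩ lab ⁻¹' {lab e} := by
    intro e he
    rw [hF4def] at he ⊢
    exact k6b_pr_keep_fib F3 lab (fun b => Y.mu (F1 ∩ lab ⁻¹' {b}) ≤ 2 * Y.mu (F3 ∩ lab ⁻¹' {b})) (lab e) he.2
  refine ⟨F1, F4, hF1, hF4', h43.trans (h32.trans h21), h10, ?_, ?_, ?_, ?_⟩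
  · obtain ⟨X, hX⟩ : ∃ X : ℝ≥0∞, X = nl * Y.nu {l | 0 < Y.durF F0 l} / K1 := ⟨_, rfl⟩
    rw [← hX] at hloss2'
    have hX4 : 4 * nl * Y.nu {l | 0 < Y.durF F0 l} / K1 = X + X + X + X := by
      rw [hX, mul_assoc, mul_div_assoc]
      ring
    have l3 : Y.mu (F2 \ F3) ≤ X := hloss3'.trans hloss2'
    have l4 : Y.mu (F3 \ F4) ≤ X + X := by
      refine hloss4'.trans ?_
      have : F1 \ F3 ⊆ (F1 \ F2) ∪ (F2 \ F3) := by
        intro e he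
        by_cases h : e ∈ F2
        · exact Or.inr ⟨h, he.2⟩
        · exact Or.inl ⟨he.1, h⟩
      exact (measure_mono this).trans ((measure_union_le _ _).trans (add_le_add hloss2' l3))
    rw [hX4]
    calc Y.mu F0 ≤ Y.mu F1 + Y.mu (F0 \ F1) := k6b_pr_split _ _ _
      _ ≤ (Y.mu F2 + Y.mu (F1 \ F2)) + Y.mu (F0 \ F1) := add_le_add (k6b_pr_split _ _ _) le_rfl
      _ ≤ ((Y.mu F3 + Y.mu (F2 \ F3)) + Y.mu (F1 \ F2)) + Y.mu (F0 \ F1) :=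
          add_le_add (add_le_add (k6b_pr_split _ _ _) le_rfl) le_rfl
      _ ≤ (((Y.mu F4 + Y.mu (F3 \ F4)) + Y.mu (F2 \ F3)) + Y.mu (F1 \ F2)) + Y.mu (F0 \ F1) :=
          add_le_add (add_le_add (add_le_add (k6b_pr_split _ _ _) le_rfl) le_rfl) le_rfl
      _ ≤ (((Y.mu F4 + (X + X)) + X) + X) + ns * φ * Y.mu F0 :=
          add_le_add (add_le_add (add_le_add (add_le_add le_rfl l4) l3) hloss2') hloss1
      _ = Y.mu F4 + ns * φ * Y.mu F0 + (X + X + X + X) := by ring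
  · intro e he
    have he3 : e ∈ F3 := h43 he
    have he1 : e ∈ F1 := h21 (h32 he3)
    have a1 : P1 (κ e) := by
      rw [hF1def] at he1
      exact he1.2
    have a2 : F1 ∩ κ ⁻¹' {κ e} = F0 ∩ κ ⁻¹' {κ e} := by
      rw [hF1def]
      exact k6b_pr_keep_fib F0 κ P1 (κ e) a1
    have a3 : Y.mu (F1 ∩ κ ⁻¹' {κ e}) ≤ 2 * Y.mu (F2 ∩ κ ⁻¹' {κ e}) := by
      rw [hF3def] at he3
      exact he3.2
    have a4 : F3 ∩ κ ⁻¹' {κ e} = F2 ∩ κ ⁻¹' {κ e} := by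
      rw [hF3def]
      exact k6b_pr_keep_fib F2 κ (fun i => Y.mu (F1 ∩ κ ⁻¹' {i}) ≤ 2 * Y.mu (F2 ∩ κ ⁻¹' {i})) (κ e) a3
    have a5 : F4 ∩ Y.stE (Y.st e) ∩ lab ⁻¹' {lab e} = F3 ∩ κ ⁻¹' {κ e} := by
      rw [Set.inter_right_comm, hfib4 e he, Set.inter_right_comm, hκe, hκfib, Set.inter_assoc]
    rw [hP1] at a1
    rw [a5, a4]
    have a6 : (κ e).1 = Y.st e := by rw [hκe]
    rw [a6] at a1
    rw [a2] at a3
    exact a1.trans a3
  · intro e he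
    have he2 : e ∈ F2 := h32 (h43 he)
    rw [hF2def] at he2
    exact he2.2
  · intro e he
    rw [hfib4 e he]
    rw [hF4def] at he
    exact he.2

end sw

end Claimed.Agent.R252
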