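import Claimed.Agent.R252.S6b.V2Cut
import Claimed.Agent.R252.S6b.PruneFine
import Claimed.Agent.R252.S6b.HeavyGroup
import Claimed.Agent.R252.S6b.HeightPoly
import Claimed.Agent.R252.S6b.RootNear

/-!
# Row252, unit S6b, part G, leaf M2b: `k6b_v2b : k6b_v2b_stmt`   (helper224, architect helper295; prefix `k6b_v2b_`)

Discriminant bounds at the events, Remez ⟹ Lipschitz, lattice cube + sign labels, `k6b_prune_fine`, heaviest label, IVT for the linear case.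
Difference with the plan: `ns = 54` (three values per index), loss `55/64`.
-/

set_option autoImplicit false

namespace Claimed.Agent.R252

open MeasureTheory MvPolynomial
open scoped ENNReal BigOperators

noncomputable section

/-! ### polynomials -/

theorem k6b_v2b_disc_deg (Pst : k6b_QW) (Φ : MvPolynomial (Fin 3) ℝ) (D : ℕ) (hq : Pst.Quad)
    (hΦ : Φ.totalDegree ≤ D + 1) : (k6b_disc Pst Φ).totalDegree ≤ D + 2 := by
  unfold k6b_disc
  refine (totalDegree_sub _ _).trans (max_le ?_ ?_)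
  · refine (totalDegree_pow _ _).trans ?_
    have := hq.d1
    omega
  · refine (totalDegree_mul _ _).trans ?_
    rw [totalDegree_C, zero_add]
    refine (totalDegree_sub _ _).trans (max_le ?_ ?_)
    · have := hq.d0
      omega
    · omega

/-- Remez ⟹ Lipschitz on a cube -/
theorem k6b_v2b_lip (d : ℕ) (P : MvPolynomial (Fin 3) ℝ) (hP : P.totalDegree ≤ d) (R θ M : ℝ) (hR : 1 ≤ R)
    (hθ : 0 < θ) (E : Set (Fin 3 → ℝ)) (hE : E ⊆ Set.Icc (fun _ => -R) (fun _ => R))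
    (hvol : ENNReal.ofReal θ * volume (Set.Icc (fun _ : Fin 3 => -R) (fun _ => R)) ≤ volume E)
    (hM : ∀ x ∈ E, |eval x P| ≤ M) (u u' : Fin 3 → ℝ) (hu : ∀ i, |u i| ≤ R) (hu' : ∀ i, |u' i| ≤ R) :
    |eval u P - eval u' P| ≤ d * (rmzCm 3 d θ * M) * ‖u - u'‖ := by
  have hR0 : 0 < R := by linarith
  have hab : ∀ _i : Fin 3, -R < R := fun _ => by linarith
  have hQ := rmz_box 3 d P (fun i => rmz_degreeOf_le P d hP i) (fun _ => -R) (fun _ => R) hab θ M hθ E hE hvol hM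
  set Q := rmzAffm (fun _ : Fin 3 => -R) (fun _ => R) P with hQdef
  have hQd : Q.totalDegree ≤ d := by
    refine (k6b_totalDegree_bind₁_le _ (fun i => ?_) P).trans hP
    refine (totalDegree_add _ _).trans (max_le ?_ ?_)
    · rw [totalDegree_C]
      exact Nat.zero_le _
    · refine (totalDegree_mul _ _).trans ?_
      rw [totalDegree_C, zero_add]
      exact (totalDegree_X _).le
  have hev : ∀ x : Fin 3 → ℝ, eval x P = eval (fun i => (x i + R) / (2 * R)) Q := by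
    intro x
    rw [hQdef, rmz_affm_eval]
    congr 2
    funext i
    field_simp
    ring
  have hs : ∀ x : Fin 3 → ℝ, (∀ i, |x i| ≤ R) → ∀ i, |(x i + R) / (2 * R)| ≤ 1 := by
    intro x hx i
    have h1 := abs_le.1 (hx i)
    rw [abs_le]
    constructor
    · rw [le_div_iff₀ (by positivity)]
      linarith
    · rw [div_le_one (by positivity)]
      linarith
  have hd : ∀ i, |(u i + R) / (2 * R) - (u' i + R) / (2 * R)| ≤ ‖u - u'‖ := by
    intro i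
    have h1 : (u i + R) / (2 * R) - (u' i + R) / (2 * R) = (u - u') i / (2 * R) := by
      rw [Pi.sub_apply]
      ring
    have h2 : |(u - u') i| ≤ ‖u - u'‖ := norm_le_pi_norm (u - u') i
    rw [h1, abs_div, abs_of_pos (show 0 < 2 * R by positivity), div_le_iff₀ (by positivity)]
    nlinarith [norm_nonneg (u - u')]
  have h := k6b_hg_eval_sub d Q hQd _ _ 1 ‖u - u'‖ le_rfl (hs u hu) (hs u' hu') hd (norm_nonneg _)
  rw [hev u, hev u']
  refine h.trans ?_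
  rw [one_pow, mul_one]
  have : (d : ℝ) * ‖u - u'‖ * rmzNm Q ≤ (d : ℝ) * ‖u - u'‖ * (rmzCm 3 d θ * M) :=
    mul_le_mul_of_nonneg_left hQ (by positivity)
  linarith

/-- the constant of the Lipschitz bound -/
def k6b_v2bC (d : ℕ) : ℕ := 2 * d * ((d + 1) ^ 2 * (8 * (d + 1) * 2 ^ 3) ^ d) ^ 3 * 64 ^ (3 * d)

theorem k6b_v2b_const (d : ℕ) (K A : ℝ) (hK : 1 ≤ K) (hA : K ≤ A) :
    (d : ℝ) * (rmzCm 3 d (1 / (A ^ 2 * (2 * (K + 1)) ^ 3)) * (2 * K ^ 2)) ≤ (k6b_v2bC d : ℝ) * A ^ (15 * d + 2) := by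
  have hA1 : 1 ≤ A := hK.trans hA
  have hA0 : 0 < A := by linarith
  have hK0 : 0 < K := by linarith
  have hθ : 0 < 1 / (A ^ 2 * (2 * (K + 1)) ^ 3) := by positivity
  have h1 := rmz_Cm_le 3 d _ hθ
  have h2 : (1 / (A ^ 2 * (2 * (K + 1)) ^ 3))⁻¹ ≤ 64 * A ^ 5 := by
    rw [one_div, inv_inv]
    have h3 : 2 * (K + 1) ≤ 4 * A := by linarith
    have h4 : (2 * (K + 1)) ^ 3 ≤ (4 * A) ^ 3 := pow_le_pow_left₀ (by positivity) h3 3
    calc A ^ 2 * (2 * (K + 1)) ^ 3 ≤ A ^ 2 * (4 * A) ^ 3 := mul_le_mul_of_nonneg_left h4 (by positivity)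
      _ = 64 * A ^ 5 := by ring
  have h5 : ((1 / (A ^ 2 * (2 * (K + 1)) ^ 3))⁻¹) ^ (3 * d) ≤ 64 ^ (3 * d) * A ^ (15 * d) := by
    refine (pow_le_pow_left₀ (by positivity) h2 _).trans (le_of_eq ?_)
    rw [mul_pow, ← pow_mul]
    congr 2
    ring
  have h6 : K ^ 2 ≤ A ^ 2 := pow_le_pow_left₀ hK0.le hA 2
  set C3 : ℝ := (((d : ℝ) + 1) ^ 2 * (8 * ((d : ℝ) + 1) * 2 ^ 3) ^ d) ^ 3 with hC3
  have hC30 : 0 ≤ C3 := by positivity
  have h7 : rmzCm 3 d (1 / (A ^ 2 * (2 * (K + 1)) ^ 3)) ≤ C3 * (64 ^ (3 * d) * A ^ (15 * d)) :=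
    h1.trans (mul_le_mul_of_nonneg_left h5 hC30)
  calc (d : ℝ) * (rmzCm 3 d (1 / (A ^ 2 * (2 * (K + 1)) ^ 3)) * (2 * K ^ 2))
      ≤ (d : ℝ) * ((C3 * (64 ^ (3 * d) * A ^ (15 * d))) * (2 * A ^ 2)) := by
        refine mul_le_mul_of_nonneg_left ?_ (by positivity)
        exact mul_le_mul h7 (by linarith) (by positivity) (by positivity)
    _ = (k6b_v2bC d : ℝ) * A ^ (15 * d + 2) := by
        rw [k6b_v2bC, hC3, pow_add]
        push_cast
        ring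

/-! ### floors -/

theorem k6b_v2b_floor_near {x x' r : ℝ} (hr : 0 < r) (h : |x - x'| ≤ r) :
    ⌊x / r⌋ - ⌊x' / r⌋ ∈ Finset.Icc (-1 : ℤ) 1 := by
  have h1 := abs_le.1 h
  have e1 : x / r ≤ x' / r + 1 := by
    rw [div_add_one hr.ne', div_le_div_iff_of_pos_right hr]
    linarith
  have e2 : x' / r ≤ x / r + 1 := by
    rw [div_add_one hr.ne', div_le_div_iff_of_pos_right hr]
    linarith
  have f1 := Int.floor_le_floor e1
  have f2 := Int.floor_le_floor e2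
  rw [Int.floor_add_one] at f1 f2
  rw [Finset.mem_Icc]
  constructor <;> omega

theorem k6b_v2b_floor_bd {x r K : ℝ} (hr : 0 < r) (h : |x| ≤ K) :
    ⌊x / r⌋ ∈ Finset.Icc (-((⌈K / r⌉₊ + 1 : ℕ) : ℤ)) ((⌈K / r⌉₊ + 1 : ℕ) : ℤ) := by
  have h1 := abs_le.1 h
  have h2 : K / r ≤ (⌈K / r⌉₊ : ℝ) := Nat.le_ceil _
  have e1 : x / r ≤ K / r := (div_le_div_iff_of_pos_right hr).2 h1.2
  have e2 : -(K / r) ≤ x / r := by
    rw [← neg_div]
    exact (div_le_div_iff_of_pos_right hr).2 h1.1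
  rw [Finset.mem_Icc]
  constructor
  · rw [Int.le_floor]
    push_cast
    linarith
  · have : ⌊x / r⌋ < ((⌈K / r⌉₊ + 1 : ℕ) : ℤ) := by
      rw [Int.floor_lt]
      push_cast
      linarith
    exact this.le

theorem k6b_v2b_cube {x r : ℝ} {k : ℤ} (hr : 0 < r) (h : ⌊x / r⌋ = k) : |x - ((k : ℝ) + 1 / 2) * r| ≤ r / 2 := by
  have h1 : (⌊x / r⌋ : ℝ) ≤ x / r := Int.floor_le _
  have h2 : x / r < (⌊x / r⌋ : ℝ) + 1 := Int.lt_floor_add_one _
  rw [h] at h1 h2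
  rw [le_div_iff₀ hr] at h1
  rw [div_lt_iff₀ hr] at h2
  rw [abs_le]
  constructor <;> nlinarith

/-! ### labels -/

theorem k6b_v2b_pos_meas {Y : k6b_Sw 3} (hY : Y.WF) : Measurable Y.pos := by
  unfold k6b_Sw.pos
  exact (hY.u0_meas.comp measurable_fst).add (measurable_snd.smul (hY.vel_meas.comp measurable_fst))

/-- the label: lattice cube of the base point and sign of the native hidden derivative -/
def k6b_v2bLab {Y : k6b_Sw 3} (H : k6b_Hid Y) (r : ℝ) (e : Y.Lam × ℝ) : (Fin 3 → ℤ) × Bool :=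
  (fun i => ⌊Y.pos e i / r⌋, decide (0 < H.Pst.dw (Y.pos e) (H.wd e)))

theorem k6b_v2b_dw_meas {Y : k6b_Sw 3} (H : k6b_Hid Y) {K a h : ℝ} (hY : Y.WF) (hOk : H.Ok K a h) :
    Measurable fun e : Y.Lam × ℝ => H.Pst.dw (Y.pos e) (H.wd e) := by
  unfold k6b_QW.dw k6b_Hid.wd
  exact ((MvPolynomial.continuous_eval _).measurable.comp (k6b_v2b_pos_meas hY)).add
    (measurable_const.mul ((hOk.w0_meas.comp measurable_fst).add
      (measurable_snd.mul (hOk.w1_meas.comp measurable_fst))))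

theorem k6b_v2b_lab_meas {Y : k6b_Sw 3} (H : k6b_Hid Y) {K a h : ℝ} (hY : Y.WF) (hOk : H.Ok K a h) (r : ℝ)
    (b : (Fin 3 → ℤ) × Bool) : MeasurableSet (k6b_v2bLab H r ⁻¹' {b}) := by
  have e : k6b_v2bLab H r ⁻¹' {b} = (⋂ i, {e | ⌊Y.pos e i / r⌋ = b.1 i}) ∩
      {e | decide (0 < H.Pst.dw (Y.pos e) (H.wd e)) = b.2} := by
    ext e
    simp only [k6b_v2bLab, Set.mem_preimage, Set.mem_singleton_iff, Set.mem_inter_iff, Set.mem_iInter,
      Set.mem_ofPred_eq, Prod.ext_iff, funext_iff]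
  rw [e]
  refine (MeasurableSet.iInter fun i => ?_).inter ?_
  · have h1 : Measurable fun e : Y.Lam × ℝ => ⌊Y.pos e i / r⌋ :=
      Int.measurable_floor.comp (((measurable_pi_apply i).comp (k6b_v2b_pos_meas hY)).div_const r)
    exact h1 (measurableSet_singleton _)
  · have h2 : MeasurableSet {e : Y.Lam × ℝ | 0 < H.Pst.dw (Y.pos e) (H.wd e)} :=
      measurableSet_lt measurable_const (k6b_v2b_dw_meas H hY hOk)
    cases hb : b.2 with
    | true =>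
      simpa only [decide_eq_true_eq] using h2
    | false =>
      simp only [decide_eq_false_iff_not]
      exact h2.compl

/-- the number of all labels -/
def k6b_v2bNt (K r : ℝ) : ℕ := (2 * (⌈K / r⌉₊ + 1) + 1) ^ 3 * 2

/-- all labels -/
def k6b_v2bAll (K r : ℝ) : Finset ((Fin 3 → ℤ) × Bool) :=
  (Fintype.piFinset fun _ : Fin 3 => Finset.Icc (-((⌈K / r⌉₊ + 1 : ℕ) : ℤ)) ((⌈K / r⌉₊ + 1 : ℕ) : ℤ)) ×ˢ Finset.univ

theorem k6b_v2b_all_card (K r : ℝ) : (k6b_v2bAll K r).card = k6b_v2bNt K r := by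
  rw [k6b_v2bAll, k6b_v2bNt, Finset.card_product, Fintype.card_piFinset, Finset.prod_const, Finset.card_univ,
    Fintype.card_fin, Int.card_Icc, Finset.card_univ, Fintype.card_bool]
  congr 2
  omega

/-- **the selection** (steps 4 of the plan): pruning and the heaviest label -/
theorem k6b_v2b_select {Y : k6b_Sw 3} (H : k6b_Hid Y) (T : Fin 3 → MvPolynomial (Fin 3) ℝ) (F4 : Set (Y.Lam × ℝ))
    (K A β pv εT a h r₁ : ℝ) (hA : 1 ≤ A) (hr₁ : 0 < r₁) (hβ : β ≤ r₁) (hWF : Y.WF)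
    (hGeo : Y.Geo T K β pv εT) (hOk : H.Ok K a h) (hF4m : MeasurableSet F4) (hF4s : F4 ⊆ Y.sup)
    (hfat : ∀ e ∈ F4, Y.mu (Y.stE (Y.st e)) ≤ 64 * Y.mu (F4 ∩ Y.stE (Y.st e)))
    (hprior : Y.nu {l | 0 < Y.durF F4 l} ≤ ENNReal.ofReal A * Y.mu F4) :
    ∃ (G1 G4 : Set (Y.Lam × ℝ)) (b : (Fin 3 → ℤ) × Bool), MeasurableSet G1 ∧ MeasurableSet G4 ∧ G4 ⊆ G1 ∧ G1 ⊆ F4 ∧
      (∀ e ∈ G1, k6b_v2bLab H r₁ e = b) ∧
      (∀ e ∈ G4, Y.mu (Y.stE (Y.st e)) ≤ 2 ^ 13 * Y.mu (G4 ∩ Y.stE (Y.st e))) ∧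
      (∀ e ∈ G4, 1 ≤ ENNReal.ofReal (256 * (k6b_v2bNt K r₁ : ℝ) * A) * Y.durF G1 e.1) ∧
      Y.mu F4 ≤ (64 * (k6b_v2bNt K r₁ : ℝ≥0∞)) * Y.mu G4 := by
  classical
  have hA0 : 0 < A := by linarith
  set lab := k6b_v2bLab H r₁ with hlab
  set Nt := k6b_v2bNt K r₁ with hNt
  have hNt0 : 0 < Nt := by
    rw [hNt, k6b_v2bNt]
    positivity
  have hNtR : (0 : ℝ) < Nt := by exact_mod_cast hNt0
  have hfin : IsFiniteMeasure Y.mu := ⟨by rw [hWF.prob]; exact ENNReal.one_lt_top⟩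
  have hall : ∀ e ∈ F4, lab e ∈ k6b_v2bAll K r₁ := by
    intro e he
    rw [k6b_v2bAll, Finset.mem_product]
    refine ⟨Fintype.mem_piFinset.2 fun i => ?_, Finset.mem_univ _⟩
    exact k6b_v2b_floor_bd hr₁ ((norm_le_pi_norm (Y.pos e) i).trans (hGeo.box0 e (hF4s he)))
  have hstate : ∀ s, ∃ L : Finset ((Fin 3 → ℤ) × Bool), L.card ≤ 54 ∧ ∀ e ∈ F4, Y.st e = s → lab e ∈ L := by
    intro s
    by_cases hs : ∃ e₀ ∈ F4, Y.st e₀ = s
    · obtain ⟨e₀, he₀, hs₀⟩ := hs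
      refine ⟨((Fintype.piFinset fun _ : Fin 3 => Finset.Icc (-1 : ℤ) 1) ×ˢ (Finset.univ : Finset Bool)).image
        (fun p => ((fun i => ⌊Y.pos e₀ i / r₁⌋ + p.1 i), p.2)), ?_, ?_⟩
      · refine Finset.card_image_le.trans (le_of_eq ?_)
        rw [Finset.card_product, Fintype.card_piFinset, Finset.prod_const, Finset.card_univ, Fintype.card_fin,
          Int.card_Icc, Finset.card_univ, Fintype.card_bool]
        rfl
      · intro e he hes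
        refine Finset.mem_image.2 ⟨((fun i => ⌊Y.pos e i / r₁⌋ - ⌊Y.pos e₀ i / r₁⌋), (lab e).2), ?_, ?_⟩
        · rw [Finset.mem_product]
          refine ⟨Fintype.mem_piFinset.2 fun i => ?_, Finset.mem_univ _⟩
          refine k6b_v2b_floor_near hr₁ ?_
          have h1 := (hGeo.close e (hF4s he) e₀ (hF4s he₀) (hes.trans hs₀.symm)).1
          exact ((norm_le_pi_norm (Y.pos e - Y.pos e₀) i).trans h1).trans hβ
        · refine Prod.ext ?_ rfl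
          funext i
          show ⌊Y.pos e₀ i / r₁⌋ + (⌊Y.pos e i / r₁⌋ - ⌊Y.pos e₀ i / r₁⌋) = ⌊Y.pos e i / r₁⌋
          ring
    · exact ⟨∅, by simp, fun e he hes => absurd ⟨e, he, hes⟩ hs⟩
  have hline : ∀ l, ∃ L : Finset ((Fin 3 → ℤ) × Bool), L.card ≤ Nt ∧ ∀ τ, (l, τ) ∈ F4 → lab (l, τ) ∈ L :=
    fun l => ⟨k6b_v2bAll K r₁, (k6b_v2b_all_card K r₁).le, fun τ hτ => hall _ hτ⟩
  obtain ⟨F1', F4', m1, m4, h41, h10, hloss, hfat', hwit', -⟩ :=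
    k6b_prune_fine 3 Y _ lab F4 54 Nt (64 : ℝ≥0∞)⁻¹ (ENNReal.ofReal (256 * (Nt : ℝ) * A)) hWF hF4m
      (k6b_v2b_lab_meas H hWF hOk r₁) hstate hline
  -- the loss
  have h64 : (64 : ℝ≥0∞) * (64 : ℝ≥0∞)⁻¹ = 1 := ENNReal.mul_inv_cancel (by simp) (by simp)
  have hL2 : 4 * (Nt : ℝ≥0∞) * Y.nu {l | 0 < Y.durF F4 l} / ENNReal.ofReal (256 * (Nt : ℝ) * A)
      ≤ (64 : ℝ≥0∞)⁻¹ * Y.mu F4 := by
    have e1 : 4 * (Nt : ℝ≥0∞) * ENNReal.ofReal A = ENNReal.ofReal (4 * (Nt : ℝ) * A) := by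
      rw [ENNReal.ofReal_mul (by positivity), ENNReal.ofReal_mul (by positivity), ENNReal.ofReal_natCast]
      norm_num
    have e2 : ENNReal.ofReal (4 * (Nt : ℝ) * A) / ENNReal.ofReal (256 * (Nt : ℝ) * A) = (64 : ℝ≥0∞)⁻¹ := by
      rw [← ENNReal.ofReal_div_of_pos (by positivity)]
      have : 4 * (Nt : ℝ) * A / (256 * (Nt : ℝ) * A) = (64 : ℝ)⁻¹ := by
        field_simp
        norm_num
      rw [this, ENNReal.ofReal_inv_of_pos (by norm_num)]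
      norm_num
    calc 4 * (Nt : ℝ≥0∞) * Y.nu {l | 0 < Y.durF F4 l} / ENNReal.ofReal (256 * (Nt : ℝ) * A)
        ≤ 4 * (Nt : ℝ≥0∞) * (ENNReal.ofReal A * Y.mu F4) / ENNReal.ofReal (256 * (Nt : ℝ) * A) :=
          ENNReal.div_le_div_right (mul_le_mul_right hprior _) _
      _ = (ENNReal.ofReal (4 * (Nt : ℝ) * A) / ENNReal.ofReal (256 * (Nt : ℝ) * A)) * Y.mu F4 := by
          rw [← e1, div_eq_mul_inv, div_eq_mul_inv]
          ring
      _ = (64 : ℝ≥0∞)⁻¹ * Y.mu F4 := by rw [e2]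
  have h9 : 9 * Y.mu F4 ≤ 64 * Y.mu F4' := by
    have h1 : 64 * Y.mu F4 ≤ 64 * Y.mu F4' + 55 * Y.mu F4 :=
      calc 64 * Y.mu F4 ≤ 64 * (Y.mu F4' + ((54 : ℕ) : ℝ≥0∞) * (64 : ℝ≥0∞)⁻¹ * Y.mu F4 + (64 : ℝ≥0∞)⁻¹ * Y.mu F4) :=
            mul_le_mul_right (hloss.trans (add_le_add le_rfl hL2)) _
        _ = 64 * Y.mu F4' + 54 * (64 * (64 : ℝ≥0∞)⁻¹) * Y.mu F4 + (64 * (64 : ℝ≥0∞)⁻¹) * Y.mu F4 := by
            push_cast
            ring
        _ = 64 * Y.mu F4' + 55 * Y.mu F4 := by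
            rw [h64]
            ring
    have h2 : 9 * Y.mu F4 + 55 * Y.mu F4 ≤ 64 * Y.mu F4' + 55 * Y.mu F4 := by
      have : 9 * Y.mu F4 + 55 * Y.mu F4 = 64 * Y.mu F4 := by ring
      rw [this]
      exact h1
    exact (ENNReal.add_le_add_iff_right (ENNReal.mul_ne_top (by simp) (measure_ne_top _ _))).1 h2
  -- the heaviest label
  have hne : (k6b_v2bAll K r₁).Nonempty := by
    rw [← Finset.card_pos, k6b_v2b_all_card]
    exact hNt0
  obtain ⟨b, -, hb⟩ := Finset.exists_max_image (k6b_v2bAll K r₁) (fun b => Y.mu (F4' ∩ lab ⁻¹' {b})) hne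
  have hsum : Y.mu F4' ≤ (Nt : ℝ≥0∞) * Y.mu (F4' ∩ lab ⁻¹' {b}) :=
    calc Y.mu F4' ≤ Y.mu (⋃ b' ∈ k6b_v2bAll K r₁, F4' ∩ lab ⁻¹' {b'}) := by
          refine measure_mono fun e he => ?_
          exact Set.mem_biUnion (hall e (h10 (h41 he))) ⟨he, rfl⟩
      _ ≤ ∑ b' ∈ k6b_v2bAll K r₁, Y.mu (F4' ∩ lab ⁻¹' {b'}) := measure_biUnion_finset_le _ _
      _ ≤ ∑ _b' ∈ k6b_v2bAll K r₁, Y.mu (F4' ∩ lab ⁻¹' {b}) := Finset.sum_le_sum hb
      _ = (Nt : ℝ≥0∞) * Y.mu (F4' ∩ lab ⁻¹' {b}) := by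
          rw [Finset.sum_const, k6b_v2b_all_card, nsmul_eq_mul]
  have hmb := k6b_v2b_lab_meas H hWF hOk r₁ b
  refine ⟨F1' ∩ lab ⁻¹' {b}, F4' ∩ lab ⁻¹' {b}, b, m1.inter hmb, m4.inter hmb,
    Set.inter_subset_inter_left _ h41, fun e he => h10 he.1, fun e he => he.2, fun e he => ?_, fun e he => ?_, ?_⟩
  · have hle : lab e = b := he.2
    have h1 := hfat' e he.1
    rw [hle] at h1
    have h2 := hfat e (h10 (h41 he.1))
    have e3 : F4' ∩ Y.stE (Y.st e) ∩ lab ⁻¹' {b} = F4' ∩ lab ⁻¹' {b} ∩ Y.stE (Y.st e) := by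
      rw [Set.inter_assoc, Set.inter_assoc, Set.inter_comm (Y.stE _)]
    rw [e3] at h1
    calc Y.mu (Y.stE (Y.st e)) ≤ 64 * Y.mu (F4 ∩ Y.stE (Y.st e)) := h2
      _ = 64 * (64 * ((64 : ℝ≥0∞)⁻¹ * Y.mu (F4 ∩ Y.stE (Y.st e)))) := by
          rw [← mul_assoc 64 (64 : ℝ≥0∞)⁻¹, h64, one_mul]
      _ ≤ 64 * (64 * (2 * Y.mu (F4' ∩ lab ⁻¹' {b} ∩ Y.stE (Y.st e)))) :=
          mul_le_mul_right (mul_le_mul_right h1 _) _
      _ = 2 ^ 13 * Y.mu (F4' ∩ lab ⁻¹' {b} ∩ Y.stE (Y.st e)) := by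
          rw [← mul_assoc, ← mul_assoc]
          norm_num
  · have hle : lab e = b := he.2
    have h1 := hwit' e he.1
    rwa [hle] at h1
  · calc Y.mu F4 ≤ 9 * Y.mu F4 := by
          conv_lhs => rw [← one_mul (Y.mu F4)]
          exact mul_le_mul_left (by norm_num) _
      _ ≤ 64 * Y.mu F4' := h9
      _ ≤ 64 * ((Nt : ℝ≥0∞) * Y.mu (F4' ∩ lab ⁻¹' {b})) := mul_le_mul_right hsum _
      _ = 64 * (Nt : ℝ≥0∞) * Y.mu (F4' ∩ lab ⁻¹' {b}) := by rw [mul_assoc]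


/-! ### the discriminant at the events, the volume, the Lipschitz bound -/

theorem k6b_v2b_disc_at {Y : k6b_Sw 3} (H : k6b_Hid Y) (Φ : MvPolynomial (Fin 3) ℝ) (K a h a₂ : ℝ) (hK : 1 ≤ K)
    (hOk : H.Ok K a h) (ha₂ : 4 * K ^ 3 * a₂ ≤ 1) (e : Y.Lam × ℝ) (he : e ∈ Y.sup)
    (hfit : |H.Pst.ev (Y.pos e) (H.wd e) - eval (Y.pos e) Φ| ≤ a₂) :
    1 / (2 * K ^ 2) ≤ eval (Y.pos e) (k6b_disc H.Pst Φ) ∧ eval (Y.pos e) (k6b_disc H.Pst Φ) ≤ 2 * K ^ 2 := by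
  have hK0 : 0 < K := by linarith
  rw [(k6b_root_near H.Pst Φ (Y.pos e) (H.wd e) 0 0).1]
  obtain ⟨h1, h2⟩ := hOk.st_dw e he
  have h3 := hOk.st_dww
  set x := H.Pst.dw (Y.pos e) (H.wd e)
  set y := H.Pst.ev (Y.pos e) (H.wd e) - eval (Y.pos e) Φ
  set z := H.Pst.dww
  have h4 : |z * y| ≤ K * a₂ := by
    rw [abs_mul]
    exact mul_le_mul h3 hfit (abs_nonneg _) hK0.le
  have h5 : x ^ 2 = |x| ^ 2 := (sq_abs x).symm
  have h6 : |x| ^ 2 ≤ K ^ 2 := pow_le_pow_left₀ (abs_nonneg _) h1 2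
  have h7 : 1 / K ^ 2 ≤ |x| ^ 2 := by
    rw [div_le_iff₀ (by positivity)]
    have := pow_le_pow_left₀ zero_le_one h2 2
    nlinarith
  have h8 : 2 * (K * a₂) ≤ 1 / (2 * K ^ 2) := by
    rw [le_div_iff₀ (by positivity)]
    nlinarith
  have h9 : 1 / (2 * K ^ 2) ≤ K ^ 2 := by
    rw [div_le_iff₀ (by positivity)]
    have : 1 ≤ K ^ 2 := one_le_pow₀ hK
    nlinarith
  have h10 : 1 / K ^ 2 = 1 / (2 * K ^ 2) + 1 / (2 * K ^ 2) := by
    field_simp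
    norm_num
  have h11 := abs_le.1 h4
  constructor
  · nlinarith [h11.1, h11.2]
  · nlinarith [h11.1, h11.2]


theorem k6b_v2b_lipD {Y : k6b_Sw 3} (H : k6b_Hid Y) (T : Fin 3 → MvPolynomial (Fin 3) ℝ)
    (Φ : MvPolynomial (Fin 3) ℝ) (F1 F4 : Set (Y.Lam × ℝ)) (D : ℕ) (K A β pv εT κ a a₂ h : ℝ)
    (hK : 1 ≤ K) (hA : K ≤ A) (hκ : 0 < κ) (hGeo : Y.Geo T K β pv εT) (hOk : H.Ok K a h)
    (hV : k6b_V2A H Φ F1 F4 D A κ a₂) (ha₂ : 4 * K ^ 3 * a₂ ≤ 1)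
    (u u' : Fin 3 → ℝ) (hu : ∀ i, |u i| ≤ K + 1) (hu' : ∀ i, |u' i| ≤ K + 1) :
    |eval u (k6b_disc H.Pst Φ) - eval u' (k6b_disc H.Pst Φ)|
      ≤ (k6b_v2bC (D + 2) : ℝ) * A ^ (15 * (D + 2) + 2) * ‖u - u'‖ := by
  have hK0 : 0 < K := by linarith
  have hA0 : 0 < A := by linarith
  set Dl := k6b_disc H.Pst Φ with hDl
  set B : Set (Fin 3 → ℝ) := {u | ‖u‖ ≤ K ∧ |eval u Dl| ≤ 2 * K ^ 2} with hB
  have hBm : MeasurableSet B :=
    ((isClosed_le continuous_norm continuous_const).inter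
      (isClosed_le (MvPolynomial.continuous_eval Dl).abs continuous_const)).measurableSet
  have hpos : ∀ e ∈ F4, Y.pos e ∈ B := by
    intro e he
    have he1 := hV.F41 he
    obtain ⟨h1, h2⟩ := k6b_v2b_disc_at H Φ K a h a₂ hK hOk ha₂ e (hV.F1_sup he1) (hV.fit e he1)
    refine ⟨hGeo.box0 e (hV.F1_sup he1), abs_le.2 ⟨?_, h2⟩⟩
    have : 0 < 1 / (2 * K ^ 2) := by positivity
    have : 0 < 2 * K ^ 2 := by positivity
    linarith
  have hvol := hV.vol B F4 hBm hV.F41 hpos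
  have hvB : ENNReal.ofReal (1 / A ^ 2) ≤ volume B :=
    calc ENNReal.ofReal (1 / A ^ 2) = ENNReal.ofReal (1 / (A ^ 2 * κ)) * ENNReal.ofReal κ := by
          rw [← ENNReal.ofReal_mul (by positivity)]
          congr 1
          field_simp
      _ ≤ ENNReal.ofReal (1 / (A ^ 2 * κ)) * (ENNReal.ofReal A * (ENNReal.ofReal (A * κ) * volume B)) :=
          mul_le_mul_right (hV.mass.trans (mul_le_mul_right hvol _)) _
      _ = ENNReal.ofReal (1 / (A ^ 2 * κ) * (A * (A * κ))) * volume B := by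
          rw [ENNReal.ofReal_mul (show 0 ≤ 1 / (A ^ 2 * κ) by positivity), ENNReal.ofReal_mul (q := A * κ) hA0.le]
          ring
      _ = volume B := by
          have : 1 / (A ^ 2 * κ) * (A * (A * κ)) = 1 := by
            field_simp
          rw [this, ENNReal.ofReal_one, one_mul]
  have hθ : 0 < 1 / (A ^ 2 * (2 * (K + 1)) ^ 3) := by positivity
  have hsub : B ⊆ Set.Icc (fun _ => -(K + 1)) (fun _ => K + 1) := by
    intro x hx
    have h1 : ∀ i, |x i| ≤ K := fun i => (norm_le_pi_norm x i).trans hx.1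
    exact ⟨fun i => by have := (abs_le.1 (h1 i)).1; show -(K + 1) ≤ x i; linarith,
      fun i => by have := (abs_le.1 (h1 i)).2; show x i ≤ K + 1; linarith⟩
  have hvol' : ENNReal.ofReal (1 / (A ^ 2 * (2 * (K + 1)) ^ 3)) *
      volume (Set.Icc (fun _ : Fin 3 => -(K + 1)) (fun _ => K + 1)) ≤ volume B := by
    refine le_trans (le_of_eq ?_) hvB
    rw [Real.volume_Icc_pi, Finset.prod_const, Finset.card_univ, Fintype.card_fin,
      ← ENNReal.ofReal_pow (by linarith), ← ENNReal.ofReal_mul hθ.le]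
    congr 1
    have : K + 1 - -(K + 1) = 2 * (K + 1) := by ring
    rw [this]
    field_simp
  have h := k6b_v2b_lip (D + 2) Dl (k6b_v2b_disc_deg H.Pst Φ D hOk.qst hV.deg) (K + 1) _ (2 * K ^ 2) (by linarith)
    hθ B hsub hvol' (fun x hx => hx.2) u u' hu hu'
  refine h.trans (mul_le_mul_of_nonneg_right ?_ (norm_nonneg _))
  exact_mod_cast k6b_v2b_const (D + 2) K A hK hA


/-! ### constants -/

theorem k6b_v2b_nt (K Λ : ℝ) (hK : 1 ≤ K) (hΛ : 1 ≤ Λ) :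
    16 * K ^ 3 * Λ ≤ (k6b_v2bNt K (1 / (4 * K ^ 2 * Λ)) : ℝ) ∧
      (k6b_v2bNt K (1 / (4 * K ^ 2 * Λ)) : ℝ) ≤ 4394 * K ^ 9 * Λ ^ 3 := by
  have hK0 : 0 < K := by linarith
  have hΛ0 : 0 < Λ := by linarith
  have hx : K / (1 / (4 * K ^ 2 * Λ)) = 4 * K ^ 3 * Λ := by
    field_simp
  rw [k6b_v2bNt, hx]
  set x := 4 * K ^ 3 * Λ with hxd
  have hx4 : 4 ≤ x := by
    have : 1 ≤ K ^ 3 * Λ := one_le_mul_of_one_le_of_one_le (one_le_pow₀ hK) hΛ
    rw [hxd]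
    linarith
  have h1 : x ≤ (⌈x⌉₊ : ℝ) := Nat.le_ceil x
  have h2 : (⌈x⌉₊ : ℝ) < x + 1 := Nat.ceil_lt_add_one (by linarith)
  push_cast
  set n : ℝ := (⌈x⌉₊ : ℝ)
  set m : ℝ := 2 * (n + 1) + 1 with hm
  have hm1 : 2 * x ≤ m := by linarith
  have hm2 : m ≤ 13 / 4 * x := by linarith
  have hm0 : 1 ≤ m := by linarith
  constructor
  · have : m ≤ m ^ 3 := le_self_pow₀ hm0 (by norm_num)
    linarith
  · have : m ^ 3 ≤ (13 / 4 * x) ^ 3 := pow_le_pow_left₀ (by linarith) hm2 3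
    calc m ^ 3 * 2 ≤ (13 / 4 * x) ^ 3 * 2 := by linarith
      _ = 4394 * K ^ 9 * Λ ^ 3 := by
          rw [hxd]
          ring

/-- the constant of M2b -/
def k6b_v2bc (D : ℕ) : ℕ := 256 * 4394 * (k6b_v2bC (D + 2)) ^ 3 + (10 + 3 * (15 * (D + 2) + 2))

theorem k6b_v2b_W (D : ℕ) (K A : ℝ) (hK : 1 ≤ K) (hA : K ≤ A) :
    256 * (4394 * K ^ 9 * ((k6b_v2bC (D + 2) : ℝ) * A ^ (15 * (D + 2) + 2)) ^ 3) * A
      ≤ (k6b_v2bc D : ℝ) * A ^ (k6b_v2bc D) := by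
  have hA1 : 1 ≤ A := hK.trans hA
  have hA0 : 0 < A := by linarith
  have hK0 : 0 < K := by linarith
  have h9 : K ^ 9 ≤ A ^ 9 := pow_le_pow_left₀ hK0.le hA 9
  set Cd : ℝ := (k6b_v2bC (D + 2) : ℝ) with hCd
  have hCd0 : 0 ≤ Cd := Nat.cast_nonneg _
  have hc1 : 256 * 4394 * Cd ^ 3 ≤ (k6b_v2bc D : ℝ) := by
    rw [k6b_v2bc]
    push_cast
    rw [← hCd]
    have : (0 : ℝ) ≤ 10 + 3 * (15 * ((D : ℝ) + 2) + 2) := by positivity
    linarith
  have hc2 : A ^ (10 + 3 * (15 * (D + 2) + 2)) ≤ A ^ (k6b_v2bc D) :=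
    pow_le_pow_right₀ hA1 (by rw [k6b_v2bc]; exact Nat.le_add_left _ _)
  calc 256 * (4394 * K ^ 9 * (Cd * A ^ (15 * (D + 2) + 2)) ^ 3) * A
      ≤ 256 * (4394 * A ^ 9 * (Cd * A ^ (15 * (D + 2) + 2)) ^ 3) * A := by
        have : 0 ≤ (Cd * A ^ (15 * (D + 2) + 2)) ^ 3 := by positivity
        gcongr
    _ = 256 * 4394 * Cd ^ 3 * A ^ (10 + 3 * (15 * (D + 2) + 2)) := by
        ring
    _ ≤ (k6b_v2bc D : ℝ) * A ^ (k6b_v2bc D) := mul_le_mul hc1 hc2 (by positivity) (Nat.cast_nonneg _)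

theorem k6b_v2b_C_pos (D : ℕ) : 1 ≤ k6b_v2bC (D + 2) := by
  rw [k6b_v2bC]
  exact Nat.succ_le_of_lt (by positivity)


/-! ### M2b -/

theorem k6b_v2b : k6b_v2b_stmt := by
  intro D
  refine ⟨k6b_v2bc D, ?_⟩
  intro Y H T Φ F1 F4 K A β pv εT κ a a₂ h hK hA hκ ha₂ hβ hWF hGeo hOk hV hs₂ hsβ
  have hK0 : 0 < K := by linarith
  have hA1 : 1 ≤ A := hK.trans hA
  have hA0 : 0 < A := by linarith
  set W : ℝ := (k6b_v2bc D : ℝ) * A ^ (k6b_v2bc D) with hW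
  set Λ : ℝ := (k6b_v2bC (D + 2) : ℝ) * A ^ (15 * (D + 2) + 2) with hΛ
  have hΛ1 : 1 ≤ Λ :=
    one_le_mul_of_one_le_of_one_le (by exact_mod_cast k6b_v2b_C_pos D) (one_le_pow₀ hA1)
  have hΛ0 : 0 < Λ := by linarith
  set r₁ : ℝ := 1 / (4 * K ^ 2 * Λ) with hr₁
  have hr₁0 : 0 < r₁ := by positivity
  obtain ⟨hN1, hN2⟩ := k6b_v2b_nt K Λ hK hΛ1
  rw [← hr₁] at hN1 hN2
  set Nt := k6b_v2bNt K r₁ with hNt
  have hNt0 : (0 : ℝ) ≤ Nt := Nat.cast_nonneg _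
  have hWN : 256 * (Nt : ℝ) * A ≤ W :=
    calc 256 * (Nt : ℝ) * A ≤ 256 * (4394 * K ^ 9 * Λ ^ 3) * A := by gcongr
      _ ≤ W := k6b_v2b_W D K A hK hA
  have hW64 : 64 * (Nt : ℝ) ≤ W := by nlinarith
  have hK2 : 1 ≤ K ^ 2 := one_le_pow₀ hK
  have hK3 : K ^ 2 ≤ K ^ 3 := pow_le_pow_right₀ hK (by norm_num)
  have hKΛ3 : K ^ 3 ≤ K ^ 3 * Λ := le_mul_of_one_le_right (by positivity) hΛ1
  have hKΛ2 : K ^ 2 * Λ ≤ K ^ 3 * Λ := mul_le_mul_of_nonneg_right hK3 hΛ0.le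
  have h16 : 16 * (K ^ 3 * Λ) ≤ W := by linarith
  have hW0 : 0 < W := by
    have : 0 < K ^ 3 * Λ := by positivity
    linarith
  have ha₂' : 4 * K ^ 3 * a₂ ≤ 1 :=
    (mul_le_mul_of_nonneg_right (by linarith) ha₂.le).trans hs₂
  have hβ' : β ≤ r₁ := by
    rw [hr₁, le_div_iff₀ (by positivity)]
    have : 4 * K ^ 2 * Λ * β ≤ W * β := mul_le_mul_of_nonneg_right (by linarith) hβ
    linarith
  have hr₁1 : r₁ ≤ 1 := by
    rw [hr₁, div_le_one (by positivity)]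
    have : 1 ≤ K ^ 2 * Λ := one_le_mul_of_one_le_of_one_le hK2 hΛ1
    linarith
  have hF4s : F4 ⊆ Y.sup := hV.F41.trans hV.F1_sup
  obtain ⟨G1, G4, b, mG1, mG4, h41, h14, hlab, hfat, hwit, hmass⟩ :=
    k6b_v2b_select H T F4 K A β pv εT a h r₁ hA1 hr₁0 hβ' hWF hGeo hOk hV.F4_meas hF4s hV.fat hV.prior
  rw [← hNt] at hwit hmass
  set Dl := k6b_disc H.Pst Φ with hDl
  set uc : Fin 3 → ℝ := fun i => ((b.1 i : ℝ) + 1 / 2) * r₁ with huc
  set sg : ℝ := if b.2 then 1 else -1 with hsg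
  have hinU : ∀ e ∈ G1, Y.pos e ∈ Metric.closedBall uc (r₁ / 2) := by
    intro e he
    rw [Metric.mem_closedBall, dist_pi_le_iff (by positivity)]
    intro i
    rw [Real.dist_eq]
    exact k6b_v2b_cube hr₁0 (congrFun (congrArg Prod.fst (hlab e he)) i)
  have hsign : ∀ e ∈ G1, 0 < sg * H.Pst.dw (Y.pos e) (H.wd e) := by
    intro e he
    have h1 : decide (0 < H.Pst.dw (Y.pos e) (H.wd e)) = b.2 := congrArg Prod.snd (hlab e he)
    have h2 := (hOk.st_dw e (hF4s (h14 he))).2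
    cases hb : b.2 with
    | true =>
      rw [hb, decide_eq_true_eq] at h1
      rw [hsg, hb]
      simpa using h1
    | false =>
      rw [hb, decide_eq_false_iff_not] at h1
      rw [hsg, hb]
      have h3 : H.Pst.dw (Y.pos e) (H.wd e) ≠ 0 := by
        intro h0
        rw [h0, abs_zero, mul_zero] at h2
        linarith
      have h4 : H.Pst.dw (Y.pos e) (H.wd e) < 0 := lt_of_le_of_ne (not_lt.1 h1) h3
      simp only [Bool.false_eq_true, if_false]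
      linarith
  -- a point of `G4`
  have hF40 : Y.mu F4 ≠ 0 := by
    intro h0
    have h1 := hV.mass
    rw [h0, mul_zero, nonpos_iff_eq_zero, ENNReal.ofReal_eq_zero] at h1
    linarith
  have hG40 : Y.mu G4 ≠ 0 := by
    intro h0
    rw [h0, mul_zero, nonpos_iff_eq_zero] at hmass
    exact hF40 hmass
  obtain ⟨e₀, he₀⟩ := nonempty_of_measure_ne_zero hG40
  have he₀1 : e₀ ∈ G1 := h41 he₀
  have he₀F : e₀ ∈ F1 := hV.F41 (h14 he₀1)
  obtain ⟨hd1, hd2⟩ := k6b_v2b_disc_at H Φ K a h a₂ hK hOk ha₂' e₀ (hV.F1_sup he₀F) (hV.fit e₀ he₀F)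
  rw [← hDl] at hd1 hd2
  have hp0 : ∀ i, |Y.pos e₀ i| ≤ K := fun i =>
    (norm_le_pi_norm (Y.pos e₀) i).trans (hGeo.box0 e₀ (hV.F1_sup he₀F))
  have hU : ∀ u ∈ Metric.closedBall uc (r₁ / 2), 1 / (4 * K ^ 2) ≤ eval u Dl ∧ eval u Dl ≤ 4 * K ^ 2 := by
    intro u hu
    have hd : ‖u - Y.pos e₀‖ ≤ r₁ := by
      have h1 : dist u uc ≤ r₁ / 2 := hu
      have h2 : dist (Y.pos e₀) uc ≤ r₁ / 2 := hinU e₀ he₀1
      rw [dist_comm] at h2
      have h3 := dist_triangle u uc (Y.pos e₀)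
      rw [← dist_eq_norm]
      linarith
    have hu' : ∀ i, |u i| ≤ K + 1 := by
      intro i
      have h1 : |(u - Y.pos e₀) i| ≤ ‖u - Y.pos e₀‖ := norm_le_pi_norm (u - Y.pos e₀) i
      have h2 : u i = Y.pos e₀ i + (u - Y.pos e₀) i := by
        rw [Pi.sub_apply]
        ring
      rw [h2]
      refine (abs_add_le _ _).trans ?_
      linarith [hp0 i]
    have hl := k6b_v2b_lipD H T Φ F1 F4 D K A β pv εT κ a a₂ h hK hA hκ hGeo hOk hV ha₂' u (Y.pos e₀) hu'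
      (fun i => (hp0 i).trans (by linarith))
    rw [← hDl, ← hΛ] at hl
    have h4 : Λ * ‖u - Y.pos e₀‖ ≤ 1 / (4 * K ^ 2) := by
      refine (mul_le_mul_of_nonneg_left hd hΛ0.le).trans (le_of_eq ?_)
      rw [hr₁]
      field_simp
    have h5 := abs_le.1 (hl.trans h4)
    have h6 : 1 / (2 * K ^ 2) = 1 / (4 * K ^ 2) + 1 / (4 * K ^ 2) := by
      field_simp
      norm_num
    have h7 : 1 / (4 * K ^ 2) ≤ 1 := by
      rw [div_le_one (by positivity)]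
      linarith
    constructor
    · linarith [h5.1]
    · linarith [h5.2]
  refine ⟨G1, G4, uc, r₁ / 2, sg, h14, ⟨by positivity, by linarith, ?_, ?_, ?_, ?_, mG1, mG4, h41, hinU, hsign,
    hfat, ?_⟩, ?_⟩
  · -- `r_lo`
    have e1 : W * (r₁ / 2) = W / (8 * K ^ 2 * Λ) := by
      rw [hr₁]
      field_simp
      norm_num
    rw [e1, le_div_iff₀ (by positivity)]
    linarith
  · -- `sg1`
    rw [hsg]
    cases b.2 with
    | true => left; simp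
    | false => right; simp
  · -- `dl`
    intro u hu
    obtain ⟨h1, h2⟩ := hU u hu
    constructor
    · refine le_trans ?_ h1
      exact one_div_le_one_div_of_le (by positivity) (by linarith)
    · rw [mul_one]
      linarith
  · -- `lin`
    intro hc2 u hu
    have hDc : ∀ x, eval x Dl = (eval x H.Pst.c1) ^ 2 := by
      intro x
      rw [hDl, k6b_disc, hc2]
      simp
    have hs0 : 0 < sg * eval (Y.pos e₀) H.Pst.c1 := by
      have := hsign e₀ he₀1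
      rw [k6b_QW.dw, hc2] at this
      simpa using this
    by_contra hneg
    have hneg' : sg * eval u H.Pst.c1 ≤ 0 := not_lt.1 hneg
    have hconn : IsPreconnected (Metric.closedBall uc (r₁ / 2)) := (convex_closedBall uc (r₁ / 2)).isPreconnected
    have hcont : ContinuousOn (fun x => sg * eval x H.Pst.c1) (Metric.closedBall uc (r₁ / 2)) :=
      (continuous_const.mul (MvPolynomial.continuous_eval _)).continuousOn
    obtain ⟨x, hx, hx0⟩ := hconn.intermediate_value hu (hinU e₀ he₀1) hcont ⟨hneg', hs0.le⟩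
    have hsg0 : sg ≠ 0 := by
      intro h0
      rw [h0, zero_mul] at hs0
      exact lt_irrefl _ hs0
    have hx1 : eval x H.Pst.c1 = 0 := by
      rcases mul_eq_zero.1 hx0 with h0 | h0
      · exact absurd h0 hsg0
      · exact h0
    have h1 := (hU x hx).1
    rw [hDc, hx1, zero_pow (by norm_num)] at h1
    have : 0 < 1 / (4 * K ^ 2) := by positivity
    linarith
  · -- `wit`
    intro e he
    exact (hwit e he).trans (mul_le_mul_left (ENNReal.ofReal_le_ofReal hWN) _)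
  · -- the mass
    refine hmass.trans (mul_le_mul_left ?_ _)
    have e1 : 64 * (Nt : ℝ≥0∞) = ENNReal.ofReal (64 * (Nt : ℝ)) := by
      rw [ENNReal.ofReal_mul (by norm_num), ENNReal.ofReal_natCast]
      norm_num
    rw [e1]
    exact ENNReal.ofReal_le_ofReal hW64

end

end Claimed.Agent.R252
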