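import Claimed.Agent.R252.S6b.V2Cut
import Claimed.Agent.R252.S6b.RootNear
import Claimed.Agent.R252.S6b.DevBound

/-!
# Row252, unit S6b, part G, leaf M2c (steps 6-8 of `k6b_main_v2`)      (helper112; prefix `k6b_v2c_`)

`k6b_v2c : k6b_v2c_stmt`: the observed `w` is near the branch, `R` is bounded at the events, and the tests along the witness lines (`k6b_sq_line`).
-/

set_option autoImplicit false

namespace Claimed.Agent.R252

open MeasureTheory MvPolynomial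
open scoped ENNReal BigOperators

noncomputable section

/-! ## 1. Algebra at one point -/

theorem k6b_v2c_quad (Q : k6b_QW) (u : Fin 3 → ℝ) (w y : ℝ) :
    Q.ev u y = Q.ev u w + Q.dw u w * (y - w) + Q.dww / 2 * (y - w) ^ 2 := by
  unfold k6b_QW.ev k6b_QW.dw k6b_QW.dww
  ring

/-- pure real form of step 7 -/
theorem k6b_v2c_real (K a a₂ E0 d1 d2 δ : ℝ) (hK : 1 ≤ K) (ha₂ : 0 < a₂) (ha : a₂ ≤ a) (hδ : |δ| ≤ 2 * K * a₂)
    (hE : |E0| ≤ K * a) (h1 : |d1| ≤ K) (h2 : |d2| ≤ K / a) :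
    |(d1 * δ + d2 / 2 * δ ^ 2) / a| ≤ (2 * K ^ 2 + 2 * K ^ 3) * (a₂ / a) ∧
      |(E0 + d1 * δ + d2 / 2 * δ ^ 2) / a| ≤ 5 * K ^ 3 := by
  have ha0 : 0 < a := lt_of_lt_of_le ha₂ ha
  have hq : a₂ / a ≤ 1 := (div_le_one ha0).2 ha
  have hq0 : 0 < a₂ / a := div_pos ha₂ ha0
  have hK0 : 0 < K := by linarith
  have e1 : |d1 * δ| ≤ K * (2 * K * a₂) := by
    rw [abs_mul]
    exact mul_le_mul h1 hδ (abs_nonneg _) hK0.le
  have e2 : |d2 / 2 * δ ^ 2| ≤ K / a / 2 * (2 * K * a₂) ^ 2 := by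
    rw [abs_mul, abs_div, abs_pow, abs_of_pos (by norm_num : (0 : ℝ) < 2)]
    exact mul_le_mul (div_le_div_of_nonneg_right h2 (by norm_num)) (pow_le_pow_left₀ (abs_nonneg _) hδ 2) (by positivity)
      (by positivity)
  have e3 : K / a / 2 * (2 * K * a₂) ^ 2 = 2 * K ^ 3 * a₂ * (a₂ / a) := by
    field_simp
  have e4 : 2 * K ^ 3 * a₂ * (a₂ / a) ≤ 2 * K ^ 3 * a₂ := by
    have : 0 < 2 * K ^ 3 * a₂ := by positivity
    nlinarith
  have h3 : |d1 * δ + d2 / 2 * δ ^ 2| ≤ (2 * K ^ 2 + 2 * K ^ 3) * a₂ := by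
    refine (abs_add_le _ _).trans ?_
    rw [e3] at e2
    nlinarith
  have first : |(d1 * δ + d2 / 2 * δ ^ 2) / a| ≤ (2 * K ^ 2 + 2 * K ^ 3) * (a₂ / a) := by
    rw [abs_div, abs_of_pos ha0, ← mul_div_assoc]
    exact div_le_div_of_nonneg_right h3 ha0.le
  refine ⟨first, ?_⟩
  have e5 : (E0 + d1 * δ + d2 / 2 * δ ^ 2) / a = E0 / a + (d1 * δ + d2 / 2 * δ ^ 2) / a := by ring
  have e6 : |E0 / a| ≤ K := by
    rw [abs_div, abs_of_pos ha0, div_le_iff₀ ha0]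
    exact hE
  rw [e5]
  refine (abs_add_le _ _).trans ?_
  have e7 : (2 * K ^ 2 + 2 * K ^ 3) * (a₂ / a) ≤ 2 * K ^ 2 + 2 * K ^ 3 := by
    have : 0 < 2 * K ^ 2 + 2 * K ^ 3 := by positivity
    nlinarith
  have e8 : K ≤ K ^ 3 := by nlinarith [mul_pos hK0 hK0]
  have e9 : K ^ 2 ≤ K ^ 3 := by nlinarith [mul_pos hK0 hK0]
  linarith

/-! ## 2. The witness times of a line -/

/-- `durF` is at most `K` times the Lebesgue measure of the witness times -/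
theorem k6b_v2c_dur {Y : k6b_Sw 3} (G : Set (Y.Lam × ℝ)) (hG : MeasurableSet G) (K : ℝ) (hg : ∀ e, Y.g e ≤ ENNReal.ofReal K)
    (l : Y.Lam) : Y.durF G l ≤ ENNReal.ofReal K * volume (Set.Icc (0 : ℝ) 1 ∩ {τ | (l, τ) ∈ G}) := by
  have hm : MeasurableSet {τ : ℝ | (l, τ) ∈ G} := measurable_prodMk_left hG
  unfold k6b_Sw.durF
  calc ∫⁻ τ in Set.Icc (0 : ℝ) 1, G.indicator Y.g (l, τ)
      ≤ ∫⁻ τ in Set.Icc (0 : ℝ) 1, {τ : ℝ | (l, τ) ∈ G}.indicator (fun _ => ENNReal.ofReal K) τ := by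
        refine lintegral_mono fun τ => ?_
        by_cases h : (l, τ) ∈ G
        · have h' : τ ∈ {τ : ℝ | (l, τ) ∈ G} := h
          rw [Set.indicator_of_mem h, Set.indicator_of_mem h']
          exact hg _
        · rw [Set.indicator_of_notMem h]
          exact zero_le
    _ = ENNReal.ofReal K * (volume.restrict (Set.Icc (0 : ℝ) 1)) {τ : ℝ | (l, τ) ∈ G} := lintegral_indicator_const hm _
    _ = _ := by rw [Measure.restrict_apply hm, Set.inter_comm]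

/-- the hull of the times at which a line is in the cube -/
theorem k6b_v2c_hull (u0 v uc : Fin 3 → ℝ) (r : ℝ) (W : Set ℝ) (hW : W ⊆ Set.Icc 0 1) (hne : W.Nonempty)
    (hU : ∀ τ ∈ W, u0 + τ • v ∈ Metric.closedBall uc r) :
    ∃ a b : ℝ, 0 ≤ a ∧ b ≤ 1 ∧ W ⊆ Set.Icc a b ∧ ∀ τ ∈ Set.Icc a b, u0 + τ • v ∈ Metric.closedBall uc r := by
  obtain ⟨I, hI⟩ : ∃ I : Set ℝ, I = Set.Icc (0 : ℝ) 1 ∩ (fun τ : ℝ => u0 + τ • v) ⁻¹' Metric.closedBall uc r := ⟨_, rfl⟩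
  have hcont : Continuous fun τ : ℝ => u0 + τ • v := by fun_prop
  have hIc : IsCompact I := by
    rw [hI]
    exact isCompact_Icc.inter_right (Metric.isClosed_closedBall.preimage hcont)
  have hWI : W ⊆ I := by
    intro τ hτ
    rw [hI]
    exact ⟨hW hτ, hU τ hτ⟩
  have hIne : I.Nonempty := hne.mono hWI
  have hmem : ∀ τ, τ ∈ I → τ ∈ Set.Icc (0 : ℝ) 1 ∧ u0 + τ • v ∈ Metric.closedBall uc r := by
    intro τ h
    rw [hI] at h
    exact h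
  have ha := hmem _ (hIc.sInf_mem hIne)
  have hb := hmem _ (hIc.sSup_mem hIne)
  refine ⟨sInf I, sSup I, ha.1.1, hb.1.2, ?_, ?_⟩
  · intro τ hτ
    exact ⟨csInf_le hIc.bddBelow (hWI hτ), le_csSup hIc.bddAbove (hWI hτ)⟩
  · intro τ hτ
    have hcv : Convex ℝ ((fun τ : ℝ => u0 + τ • v) ⁻¹' Metric.closedBall uc r) := by
      intro x hx y hy p q hp hq hpq
      have := (convex_closedBall uc r) hx hy hp hq hpq
      show u0 + (p • x + q • y) • v ∈ Metric.closedBall uc r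
      have e : u0 + (p • x + q • y) • v = p • (u0 + x • v) + q • (u0 + y • v) := by
        have : u0 = (p + q) • u0 := by rw [hpq, one_smul]
        rw [smul_add, smul_add, add_smul, smul_smul, smul_smul, smul_eq_mul, smul_eq_mul]
        nth_rewrite 1 [this]
        rw [add_smul]
        abel
      rw [e]
      exact this
    exact hcv.ordConnected.out ha.2 hb.2 hτ

/-! ## 3. Remez along a witness line -/

theorem k6b_v2c_line (D : ℕ) : ∃ c : ℕ, ∀ (Dl : MvPolynomial (Fin 3) ℝ) (F : k6b_Sheet 3) (u0 v uc : Fin 3 → ℝ)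
    (r A ε : ℝ) (W : Set ℝ), F.Deg D Dl → 1 ≤ A → k6b_DlOk Dl uc r A 1 → MeasurableSet W → W ⊆ Set.Icc 0 1 →
    (∀ τ ∈ W, u0 + τ • v ∈ Metric.closedBall uc r) → ENNReal.ofReal (1 / A ^ 2) ≤ volume W →
    (∀ τ ∈ W, |F.val Dl (u0 + τ • v)| ≤ ε) →
    ∀ j ≤ 3, ∀ τ ∈ W, |(((k6b_Sheet.dv Dl v)^[j]) F).val Dl (u0 + τ • v)| ≤ c * A ^ c * ε := by
  obtain ⟨c0, hc0⟩ := k6b_sq_line 3 D 3
  refine ⟨c0 + 3 * c0 + 6, ?_⟩
  intro Dl F u0 v uc r A ε W hdeg hA hDl hWm hW hU hvol hε j hj τ hτ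
  have hA0 : 0 < A := by linarith
  have hθ : 0 < 1 / A ^ 2 := by positivity
  have hε0 : 0 ≤ ε := (abs_nonneg _).trans (hε τ hτ)
  obtain ⟨a, b, ha, hb, hWab, hUab⟩ := k6b_v2c_hull u0 v uc r W hW ⟨τ, hτ⟩ hU
  have hlen : 1 / A ^ 2 ≤ b - a := by
    have h1 : ENNReal.ofReal (1 / A ^ 2) ≤ ENNReal.ofReal (b - a) := by
      rw [← Real.volume_Icc]
      exact hvol.trans (measure_mono hWab)
    by_contra hcon
    push Not at hcon
    exact absurd h1 (not_le.2 ((ENNReal.ofReal_lt_ofReal_iff hθ).2 hcon))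
  have hab : a < b := by linarith
  have hlen1 : b - a ≤ 1 := by linarith
  have key := hc0 Dl F u0 v a b A (1 / A ^ 2) ε 1 W hdeg hab hA hθ
    (by rw [div_le_one (by positivity)]; exact one_le_pow₀ hA) one_pos
    (fun s hs => hDl _ (hUab s hs)) hWm hWab
    (by
      refine le_trans (ENNReal.ofReal_le_ofReal ?_) hvol
      nlinarith) hε j hj τ (hWab hτ)
  have e1 : A / (1 / A ^ 2) = A ^ 3 := by
    field_simp
  rw [e1, ← pow_mul] at key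
  -- divide by `(b - a)^j`
  have h1 : (1 / A ^ 2) ^ j ≤ (b - a) ^ j := pow_le_pow_left₀ hθ.le hlen j
  have h2 : (1 / A ^ 6 : ℝ) ≤ (1 / A ^ 2) ^ j := by
    rw [one_div_pow, ← pow_mul]
    exact one_div_le_one_div_of_le (by positivity) (pow_le_pow_right₀ hA (by omega))
  obtain ⟨x, hx⟩ : ∃ x : ℝ, x = |(((k6b_Sheet.dv Dl v)^[j]) F).val Dl (u0 + τ • v)| := ⟨_, rfl⟩
  rw [← hx] at key ⊢
  have hx0 : 0 ≤ x := by rw [hx]; exact abs_nonneg _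
  have h3 : x * (1 / A ^ 6) ≤ c0 * A ^ (3 * c0) * ε :=
    (mul_le_mul_of_nonneg_left (h2.trans h1) hx0).trans key
  have h4 : x ≤ c0 * A ^ (3 * c0) * ε * A ^ 6 := by
    rw [mul_one_div, div_le_iff₀ (by positivity)] at h3
    exact h3
  refine h4.trans ?_
  have e2 : (c0 : ℝ) * A ^ (3 * c0) * ε * A ^ 6 = c0 * A ^ (3 * c0 + 6) * ε := by
    rw [pow_add]
    ring
  rw [e2]
  have h5 : A ^ (3 * c0 + 6) ≤ A ^ (c0 + 3 * c0 + 6) := pow_le_pow_right₀ hA (by omega)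
  have h6 : (c0 : ℝ) ≤ ((c0 + 3 * c0 + 6 : ℕ) : ℝ) := by exact_mod_cast (by omega : c0 ≤ c0 + 3 * c0 + 6)
  exact mul_le_mul_of_nonneg_right (mul_le_mul h6 h5 (by positivity) (by positivity)) hε0

/-! ## 4. The polynomials which restrict to `wd` and to `P_s(u, wd)/a` on a line -/

/-- the affine polynomial which restricts to `wd` on the line `l` -/
def k6b_v2c_L {Y : k6b_Sw 3} (H : k6b_Hid Y) (l : Y.Lam) : MvPolynomial (Fin 3) ℝ :=
  C (H.w0 l) + C (H.w1 l) * (X 0 - C (Y.u0 l 0))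

theorem k6b_v2c_L_deg {Y : k6b_Sw 3} (H : k6b_Hid Y) (l : Y.Lam) : (k6b_v2c_L H l).totalDegree ≤ 1 := by
  unfold k6b_v2c_L
  refine (totalDegree_add _ _).trans (max_le (by simp) ?_)
  refine (totalDegree_mul _ _).trans ?_
  rw [totalDegree_C, zero_add]
  refine (totalDegree_sub _ _).trans (max_le ?_ (by simp))
  rw [totalDegree_X]

theorem k6b_v2c_L_eval {Y : k6b_Sw 3} (H : k6b_Hid Y) (l : Y.Lam) (h : Y.vel l 0 = 1) (τ : ℝ) :
    eval (Y.pos (l, τ)) (k6b_v2c_L H l) = H.wd (l, τ) := by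
  unfold k6b_v2c_L k6b_Hid.wd k6b_Sw.pos
  simp only [map_add, map_mul, map_sub, eval_C, eval_X, Pi.add_apply, Pi.smul_apply, smul_eq_mul, h]
  ring

/-- `P_s(u, L_l(u))/a` -/
def k6b_v2c_Q {Y : k6b_Sw 3} (H : k6b_Hid Y) (a : ℝ) (l : Y.Lam) : MvPolynomial (Fin 3) ℝ :=
  C a⁻¹ * (H.Ps.c0 + H.Ps.c1 * k6b_v2c_L H l + C H.Ps.c2 * k6b_v2c_L H l ^ 2)

theorem k6b_v2c_Q_deg {Y : k6b_Sw 3} (H : k6b_Hid Y) (hq : H.Ps.Quad) (a : ℝ) (l : Y.Lam) :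
    (k6b_v2c_Q H a l).totalDegree ≤ 2 := by
  have hL := k6b_v2c_L_deg H l
  unfold k6b_v2c_Q
  refine (totalDegree_mul _ _).trans ?_
  rw [totalDegree_C, zero_add]
  refine (totalDegree_add _ _).trans (max_le ((totalDegree_add _ _).trans (max_le hq.d0 ?_)) ?_)
  · refine (totalDegree_mul _ _).trans ?_
    have := hq.d1
    omega
  · refine (totalDegree_mul _ _).trans ?_
    rw [totalDegree_C, zero_add]
    refine (totalDegree_pow _ _).trans ?_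
    omega

theorem k6b_v2c_Q_eval {Y : k6b_Sw 3} (H : k6b_Hid Y) (a : ℝ) (l : Y.Lam) (h : Y.vel l 0 = 1) (τ : ℝ) :
    eval (Y.pos (l, τ)) (k6b_v2c_Q H a l) = H.Ps.ev (Y.pos (l, τ)) (H.wd (l, τ)) / a := by
  unfold k6b_v2c_Q k6b_QW.ev
  simp only [map_add, map_mul, map_pow, eval_C, k6b_v2c_L_eval H l h τ]
  rw [div_eq_inv_mul]

/-! ## 5. Steps 6, 7 at one event -/

theorem k6b_v2c_pt {Y : k6b_Sw 3} (H : k6b_Hid Y) (Φ : MvPolynomial (Fin 3) ℝ) (G1 G4 : Set (Y.Lam × ℝ)) (uc : Fin 3 → ℝ)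
    (r sg K A a a₂ h : ℝ) (f R : k6b_Sheet 3) (D' : ℕ) (hK : 1 ≤ K) (hKA : K ≤ A) (ha₂ : 0 < a₂) (ha : a₂ ≤ a)
    (hOk : H.Ok K a h) (hG1 : G1 ⊆ Y.sup) (hfit : ∀ e ∈ G1, |H.Pst.ev (Y.pos e) (H.wd e) - eval (Y.pos e) Φ| ≤ a₂)
    (hB : k6b_V2B H Φ G1 G4 uc r sg A) (hBr : k6b_IsBranch H.Pst H.Ps Φ sg a f R D' (Metric.closedBall uc r))
    (e : Y.Lam × ℝ) (he : e ∈ G1) :
    |H.wd e - f.val (k6b_disc H.Pst Φ) (Y.pos e)| ≤ 2 * K * a₂ ∧ |R.val (k6b_disc H.Pst Φ) (Y.pos e)| ≤ 5 * K ^ 3 ∧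
      |R.val (k6b_disc H.Pst Φ) (Y.pos e) - H.Ps.ev (Y.pos e) (H.wd e) / a| ≤ (2 * K ^ 2 + 2 * K ^ 3) * (a₂ / a) := by
  have hU := hB.inU e he
  have hsup := hG1 he
  have hA0 : 0 < A := by linarith
  obtain ⟨y, hy⟩ : ∃ y : ℝ, y = f.val (k6b_disc H.Pst Φ) (Y.pos e) := ⟨_, rfl⟩
  have hDl0 : 0 ≤ eval (Y.pos e) (k6b_disc H.Pst Φ) := le_trans (by positivity) (hB.dl _ hU).1
  have h1 := (k6b_root_near H.Pst Φ (Y.pos e) (H.wd e) y sg).2 hB.sg1 (hB.sign e he) hDl0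
    (by rw [hy]; exact hBr.root _ hU) (by rw [hy]; exact hBr.der _ hU)
  have h2 := (hOk.st_dw e hsup).2
  have first : |H.wd e - y| ≤ 2 * K * a₂ := by
    have h3 : |H.wd e - y| * |H.Pst.dw (Y.pos e) (H.wd e)| ≤ 2 * a₂ := h1.trans (by linarith [hfit e he])
    have h4 : 0 ≤ |H.wd e - y| := abs_nonneg _
    calc |H.wd e - y| = |H.wd e - y| * 1 := (mul_one _).symm
      _ ≤ |H.wd e - y| * (K * |H.Pst.dw (Y.pos e) (H.wd e)|) := mul_le_mul_of_nonneg_left h2 h4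
      _ = K * (|H.wd e - y| * |H.Pst.dw (Y.pos e) (H.wd e)|) := by ring
      _ ≤ K * (2 * a₂) := mul_le_mul_of_nonneg_left h3 (by linarith)
      _ = 2 * K * a₂ := by ring
  have hδ : |y - H.wd e| ≤ 2 * K * a₂ := by rw [abs_sub_comm]; exact first
  obtain ⟨k1, k2⟩ := k6b_v2c_real K a a₂ (H.Ps.ev (Y.pos e) (H.wd e)) (H.Ps.dw (Y.pos e) (H.wd e)) H.Ps.dww (y - H.wd e)
    hK ha₂ ha hδ (hOk.s_ev e hsup) (hOk.s_dw e hsup).1 hOk.s_dww
  have hR : R.val (k6b_disc H.Pst Φ) (Y.pos e) = H.Ps.ev (Y.pos e) y / a := by rw [hy]; exact hBr.Rv _ hU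
  have hq := k6b_v2c_quad H.Ps (Y.pos e) (H.wd e) y
  rw [← hy, hR, hq]
  refine ⟨first, k2, ?_⟩
  have e1 : (H.Ps.ev (Y.pos e) (H.wd e) + H.Ps.dw (Y.pos e) (H.wd e) * (y - H.wd e) + H.Ps.dww / 2 * (y - H.wd e) ^ 2) / a
      - H.Ps.ev (Y.pos e) (H.wd e) / a
      = (H.Ps.dw (Y.pos e) (H.wd e) * (y - H.wd e) + H.Ps.dww / 2 * (y - H.wd e) ^ 2) / a := by ring
  rw [e1]
  exact k1

/-! ## 6. M2c -/

theorem k6b_v2c_absorb (c0 : ℕ) (A M x : ℝ) (hA : 1 ≤ A) (hM : M ≤ 4 * A ^ 3) (hx : 0 ≤ x) :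
    (c0 : ℝ) * A ^ c0 * (M * x) ≤ ((4 * c0 + (c0 + 3) : ℕ) : ℝ) * A ^ (4 * c0 + (c0 + 3)) * x := by
  have hA0 : 0 < A := by linarith
  have h1 : (c0 : ℝ) * A ^ c0 * (M * x) ≤ (c0 : ℝ) * A ^ c0 * (4 * A ^ 3 * x) :=
    mul_le_mul_of_nonneg_left (mul_le_mul_of_nonneg_right hM hx) (by positivity)
  refine h1.trans ?_
  have e : (c0 : ℝ) * A ^ c0 * (4 * A ^ 3 * x) = (4 * c0 : ℝ) * A ^ (c0 + 3) * x := by
    rw [pow_add]
    ring
  rw [e]
  have h2 : A ^ (c0 + 3) ≤ A ^ (4 * c0 + (c0 + 3)) := pow_le_pow_right₀ hA (by omega)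
  have h3 : (4 * c0 : ℝ) ≤ ((4 * c0 + (c0 + 3) : ℕ) : ℝ) := by
    push_cast
    have : (0 : ℝ) ≤ c0 := Nat.cast_nonneg _
    linarith
  exact mul_le_mul_of_nonneg_right (mul_le_mul h3 h2 (by positivity) (by positivity)) hx

theorem k6b_v2c : k6b_v2c_stmt := by
  intro D'
  obtain ⟨c0, hc0⟩ := k6b_v2c_line (max D' 2)
  refine ⟨4 * c0 + (c0 + 3), ?_⟩
  intro Y H Φ G1 G4 uc r sg K A a a₂ h f R hK hKA ha₂ ha hWF hg hOk hG1 hfit hB hBr
  have hpt := k6b_v2c_pt H Φ G1 G4 uc r sg K A a a₂ h f R D' hK hKA ha₂ ha hOk hG1 hfit hB hBr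
  refine ⟨fun e he => ⟨(hpt e he).1, (hpt e he).2.1⟩, ?_⟩
  intro e he
  obtain ⟨Dl, hDl⟩ : ∃ Dl, Dl = k6b_disc H.Pst Φ := ⟨_, rfl⟩
  rw [← hDl] at hpt ⊢
  have hA : 1 ≤ A := hK.trans hKA
  have hA0 : 0 < A := by linarith
  have hK0 : 0 < K := by linarith
  have ha0 : 0 < a := lt_of_lt_of_le ha₂ ha
  obtain ⟨l, τ0⟩ := e
  have ht0 := hOk.time0 l
  obtain ⟨W, hW⟩ : ∃ W : Set ℝ, W = Set.Icc (0 : ℝ) 1 ∩ {τ | (l, τ) ∈ G1} := ⟨_, rfl⟩
  have hWm : MeasurableSet W := by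
    rw [hW]
    exact measurableSet_Icc.inter (measurable_prodMk_left hB.G1_meas)
  have hW01 : W ⊆ Set.Icc 0 1 := by
    rw [hW]
    exact Set.inter_subset_left
  have hWG : ∀ τ ∈ W, (l, τ) ∈ G1 := by
    intro τ hτ
    rw [hW] at hτ
    exact hτ.2
  have hτ0 : τ0 ∈ W := by
    rw [hW]
    exact ⟨(hG1 (hB.G41 he)).2, hB.G41 he⟩
  have hvol : ENNReal.ofReal (1 / A ^ 2) ≤ volume W := by
    have h1 := hB.wit _ he
    have h2 := k6b_v2c_dur G1 hB.G1_meas K hg l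
    rw [← hW] at h2
    have h3 : (1 : ℝ≥0∞) ≤ ENNReal.ofReal (A * K) * volume W := by
      rw [ENNReal.ofReal_mul hA0.le, mul_assoc]
      exact h1.trans (mul_le_mul' le_rfl h2)
    have h4 : ENNReal.ofReal (1 / (A * K)) ≤ volume W := by
      have hAK : 0 < A * K := by positivity
      calc ENNReal.ofReal (1 / (A * K)) = ENNReal.ofReal (1 / (A * K)) * 1 := (mul_one _).symm
        _ ≤ ENNReal.ofReal (1 / (A * K)) * (ENNReal.ofReal (A * K) * volume W) := mul_le_mul' le_rfl h3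
        _ = volume W := by
            rw [← mul_assoc, ← ENNReal.ofReal_mul (by positivity), one_div, inv_mul_cancel₀ hAK.ne', ENNReal.ofReal_one,
              one_mul]
    refine le_trans (ENNReal.ofReal_le_ofReal ?_) h4
    refine one_div_le_one_div_of_le (by positivity) ?_
    nlinarith
  have hU : ∀ τ ∈ W, Y.u0 l + τ • Y.vel l ∈ Metric.closedBall uc r := fun τ hτ => hB.inU _ (hWG τ hτ)
  have hdl : k6b_DlOk Dl uc r A 1 := by rw [hDl]; exact hB.dl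
  have hdf : f.Deg D' Dl := by rw [hDl]; exact hBr.degf
  have hdR : R.Deg D' Dl := by rw [hDl]; exact hBr.degR
  constructor
  · -- the branch
    have key := hc0 Dl (k6b_db_sub f (k6b_v2c_L H l)) (Y.u0 l) (Y.vel l) uc r A (2 * K * a₂) W
      (k6b_db_sub_deg hdf ((k6b_v2c_L_deg H l).trans (by norm_num))) hA hdl hWm hW01 hU hvol
      (by
        intro τ hτ
        rw [k6b_db_sub_val]
        have := (hpt _ (hWG τ hτ)).1
        rw [abs_sub_comm] at this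
        have e := k6b_v2c_L_eval H l ht0 τ
        unfold k6b_Sw.pos at e this
        simp only at e this
        rw [e]
        exact this) 2 (by norm_num) τ0 hτ0
    have e1 : ((k6b_Sheet.dv Dl (Y.vel l))^[2]) (k6b_db_sub f (k6b_v2c_L H l))
        = (f.dv Dl (Y.vel l)).dv Dl (Y.vel l) :=
      k6b_db_sub_foldr Dl f (k6b_v2c_L H l) [Y.vel l, Y.vel l] (lt_of_le_of_lt (k6b_v2c_L_deg H l) (by simp))
    rw [e1] at key
    refine key.trans ?_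
    refine k6b_v2c_absorb c0 A (2 * K) a₂ hA ?_ ha₂.le
    have : A ≤ A ^ 3 := by nlinarith [mul_pos hA0 hA0]
    linarith
  · -- the normalised packet test
    have key := hc0 Dl (k6b_db_sub R (k6b_v2c_Q H a l)) (Y.u0 l) (Y.vel l) uc r A ((2 * K ^ 2 + 2 * K ^ 3) * (a₂ / a)) W
      (k6b_db_sub_deg hdR (k6b_v2c_Q_deg H hOk.qs a l)) hA hdl hWm hW01 hU hvol
      (by
        intro τ hτ
        rw [k6b_db_sub_val]
        have := (hpt _ (hWG τ hτ)).2.2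
        have e := k6b_v2c_Q_eval H a l ht0 τ
        unfold k6b_Sw.pos at e this
        simp only at e this
        rw [e]
        exact this) 3 (by norm_num) τ0 hτ0
    have e1 : ((k6b_Sheet.dv Dl (Y.vel l))^[3]) (k6b_db_sub R (k6b_v2c_Q H a l))
        = ((k6b_Sheet.dv Dl (Y.vel l))^[3]) R :=
      k6b_db_sub_foldr Dl R (k6b_v2c_Q H a l) [Y.vel l, Y.vel l, Y.vel l]
        (lt_of_le_of_lt (k6b_v2c_Q_deg H hOk.qs a l) (by simp))
    rw [e1] at key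
    refine key.trans ?_
    refine k6b_v2c_absorb c0 A (2 * K ^ 2 + 2 * K ^ 3) (a₂ / a) hA ?_ (by positivity)
    have h1 : K ^ 3 ≤ A ^ 3 := pow_le_pow_left₀ hK0.le hKA 3
    have h2 : K ^ 2 ≤ K ^ 3 := by nlinarith [mul_pos hK0 hK0]
    linarith

end

end Claimed.Agent.R252
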