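import Claimed.Agent.R252.S6b.V2Defs
import Claimed.Agent.R252.S6b.SheetContract
import Claimed.Agent.R252.S6b.Jet

/-!
# Row252, unit S6b, part of M2d (step 11): transfer of a directional test to a nearby point and direction   (helper260; prefix `k6b_tr_`)

`k6b_tr_transfer j : ∃ c, .. |D_v^j F (u) - D_{v'}^j F (u')| ≤ c K^c M (‖v - v'‖ + ‖u - u'‖)` on a cube where `Δ > 0` and the derivatives of order `j`, `j + 1` in unit directions are `≤ M`.
-/

set_option autoImplicit false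

namespace Claimed.Agent.R252

open MeasureTheory MvPolynomial
open scoped ENNReal BigOperators

noncomputable section

theorem k6b_tr_prod_abs (j : ℕ) (a : Fin j → ℝ) (K : ℝ) (ha : ∀ k, |a k| ≤ K) :
    |∏ k, a k| ≤ K ^ j := by
  rw [Finset.abs_prod]
  calc ∏ k, |a k| ≤ ∏ _k : Fin j, K := Finset.prod_le_prod (fun k _ => abs_nonneg _) fun k _ => ha k
    _ = K ^ j := by simp

theorem k6b_tr_prod_sub (j : ℕ) (a b : Fin j → ℝ) (K δ : ℝ) (hK : 1 ≤ K) (ha : ∀ k, |a k| ≤ K)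
    (hb : ∀ k, |b k| ≤ K) (hab : ∀ k, |a k - b k| ≤ δ) :
    |∏ k, a k - ∏ k, b k| ≤ j * K ^ j * δ := by
  induction j with
  | zero => simp
  | succ j ih =>
    have hδ : 0 ≤ δ := (abs_nonneg _).trans (hab 0)
    have h1 := ih (fun k => a k.succ) (fun k => b k.succ) (fun k => ha _) (fun k => hb _)
      fun k => hab _
    have h2 := k6b_tr_prod_abs j (fun k => a k.succ) K fun k => ha _
    rw [Fin.prod_univ_succ, Fin.prod_univ_succ]
    have e : a 0 * ∏ k : Fin j, a k.succ - b 0 * ∏ k : Fin j, b k.succ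
        = (a 0 - b 0) * ∏ k : Fin j, a k.succ
          + b 0 * (∏ k : Fin j, a k.succ - ∏ k : Fin j, b k.succ) := by ring
    rw [e]
    have hKj : 0 ≤ K ^ j := by positivity
    calc |(a 0 - b 0) * ∏ k : Fin j, a k.succ
          + b 0 * (∏ k : Fin j, a k.succ - ∏ k : Fin j, b k.succ)|
        ≤ |a 0 - b 0| * |∏ k : Fin j, a k.succ|
          + |b 0| * |∏ k : Fin j, a k.succ - ∏ k : Fin j, b k.succ| := by
          rw [← abs_mul, ← abs_mul]
          exact abs_add_le _ _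
      _ ≤ δ * K ^ j + K * (j * K ^ j * δ) := by
          gcongr
          · exact hab 0
          · exact hb 0
      _ ≤ δ * K ^ (j + 1) + K * (j * K ^ j * δ) := by
          have : K ^ j ≤ K ^ (j + 1) := pow_le_pow_right₀ hK (by omega)
          gcongr
      _ = ((j + 1 : ℕ) : ℝ) * K ^ (j + 1) * δ := by push_cast; ring

theorem k6b_tr_single_norm (i : Fin 3) : ‖(Pi.single i (1 : ℝ) : Fin 3 → ℝ)‖ ≤ 1 := by
  rw [pi_norm_le_iff_of_nonneg zero_le_one]
  intro k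
  by_cases h : k = i
  · subst h
    simp
  · simp [Pi.single_eq_of_ne h]

theorem k6b_tr_seg {uc u u' : Fin 3 → ℝ} {r s : ℝ} (hu : u ∈ Metric.closedBall uc r)
    (hu' : u' ∈ Metric.closedBall uc r) (hs : s ∈ Set.Icc (0 : ℝ) 1) :
    u' + s • (u - u') ∈ Metric.closedBall uc r := by
  have h := (convex_closedBall uc r).add_smul_sub_mem hu' hu hs
  exact h

/-- mean value theorem for a sheet on a cube -/
theorem k6b_tr_mv (Dl : MvPolynomial (Fin 3) ℝ) (G : k6b_Sheet 3) (uc u u' : Fin 3 → ℝ) (r M : ℝ)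
    (hpos : ∀ x ∈ Metric.closedBall uc r, 0 < eval x Dl)
    (hM : ∀ i, ∀ x ∈ Metric.closedBall uc r, |(G.dv Dl (Pi.single i 1)).val Dl x| ≤ M)
    (hu : u ∈ Metric.closedBall uc r) (hu' : u' ∈ Metric.closedBall uc r) :
    |G.val Dl u - G.val Dl u'| ≤ 3 * M * ‖u - u'‖ := by
  have h1 : ∀ s ∈ Set.Icc (0 : ℝ) 1, HasDerivWithinAt (fun t : ℝ => G.val Dl (u' + t • (u - u')))
      ((G.dv Dl (u - u')).val Dl (u' + s • (u - u'))) (Set.Icc (0 : ℝ) 1) s := fun s hs =>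
    (k6b_Sheet.hasDerivAt_line Dl G u' (u - u') s (hpos _ (k6b_tr_seg hu hu' hs))).hasDerivWithinAt
  have h2 : ∀ s ∈ Set.Ico (0 : ℝ) 1, ‖(G.dv Dl (u - u')).val Dl (u' + s • (u - u'))‖
      ≤ 3 * M * ‖u - u'‖ := by
    intro s hs
    have hs' : s ∈ Set.Icc (0 : ℝ) 1 := ⟨hs.1, hs.2.le⟩
    rw [Real.norm_eq_abs, k6b_Sheet.val_dv_sum]
    calc |∑ i, (u - u') i * (G.dv Dl (Pi.single i 1)).val Dl (u' + s • (u - u'))|
        ≤ ∑ i, |(u - u') i * (G.dv Dl (Pi.single i 1)).val Dl (u' + s • (u - u'))| :=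
          Finset.abs_sum_le_sum_abs _ _
      _ ≤ ∑ _i : Fin 3, ‖u - u'‖ * M := by
          refine Finset.sum_le_sum fun i _ => ?_
          rw [abs_mul]
          exact mul_le_mul (norm_le_pi_norm (u - u') i) (hM i _ (k6b_tr_seg hu hu' hs'))
            (abs_nonneg _) (norm_nonneg _)
      _ = 3 * M * ‖u - u'‖ := by
          simp
          ring
  have h3 := norm_image_sub_le_of_norm_deriv_le_segment_01' h1 h2
  simpa using h3

/-- the partial derivatives of order `j` as a `foldr` over unit vectors -/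
theorem k6b_tr_pd_le (Dl : MvPolynomial (Fin 3) ℝ) (F : k6b_Sheet 3) (uc : Fin 3 → ℝ) (r M : ℝ)
    (j : ℕ)
    (hM : ∀ vs : List (Fin 3 → ℝ), j ≤ vs.length → vs.length ≤ j + 1 → (∀ x ∈ vs, ‖x‖ ≤ 1) →
      ∀ x ∈ Metric.closedBall uc r, |(vs.foldr (k6b_Sheet.dv Dl) F).val Dl x| ≤ M)
    (I : Fin j → Fin 3) :
    (∀ x ∈ Metric.closedBall uc r, |(k6b_pd Dl F I).val Dl x| ≤ M) ∧
    ∀ i, ∀ x ∈ Metric.closedBall uc r, |((k6b_pd Dl F I).dv Dl (Pi.single i 1)).val Dl x| ≤ M := by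
  have hunit : ∀ x ∈ List.ofFn fun k => (Pi.single (I k) (1 : ℝ) : Fin 3 → ℝ), ‖x‖ ≤ 1 := by
    intro x hx
    rw [List.mem_ofFn] at hx
    obtain ⟨k, rfl⟩ := hx
    exact k6b_tr_single_norm _
  constructor
  · intro x hx
    exact hM (List.ofFn fun k => (Pi.single (I k) (1 : ℝ) : Fin 3 → ℝ)) (by simp) (by simp) hunit x hx
  · intro i x hx
    have := hM ((Pi.single i (1 : ℝ) : Fin 3 → ℝ) :: List.ofFn fun k => (Pi.single (I k) (1 : ℝ) : Fin 3 → ℝ))
      (by simp) (by simp) (by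
        intro y hy
        rcases List.mem_cons.1 hy with rfl | hy
        · exact k6b_tr_single_norm _
        · exact hunit y hy) x hx
    exact this

/-- **TRANSFER** -/
theorem k6b_tr_transfer (j : ℕ) : ∃ c : ℕ, ∀ (Dl : MvPolynomial (Fin 3) ℝ) (F : k6b_Sheet 3)
    (uc u u' v v' : Fin 3 → ℝ) (r K M : ℝ),
    (∀ x ∈ Metric.closedBall uc r, 0 < eval x Dl) → 1 ≤ K →
    (∀ vs : List (Fin 3 → ℝ), j ≤ vs.length → vs.length ≤ j + 1 → (∀ x ∈ vs, ‖x‖ ≤ 1) →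
      ∀ x ∈ Metric.closedBall uc r, |(vs.foldr (k6b_Sheet.dv Dl) F).val Dl x| ≤ M) →
    u ∈ Metric.closedBall uc r → u' ∈ Metric.closedBall uc r → ‖v‖ ≤ K → ‖v'‖ ≤ K →
    |(((k6b_Sheet.dv Dl v)^[j]) F).val Dl u - (((k6b_Sheet.dv Dl v')^[j]) F).val Dl u'|
      ≤ c * K ^ c * M * (‖v - v'‖ + ‖u - u'‖) := by
  obtain ⟨c, hc⟩ : ∃ c : ℕ, c = 3 ^ j * (j + 3) + j := ⟨_, rfl⟩
  refine ⟨c, ?_⟩
  intro Dl F uc u u' v v' r K M hpos hK hM hu hu' hv hv'
  have hM0 : 0 ≤ M := (abs_nonneg _).trans ((k6b_tr_pd_le Dl F uc r M j hM fun _ => 0).1 u hu)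
  rw [← k6b_jet_eval, ← k6b_jet_eval]
  unfold k6b_jet
  simp only [map_sum, map_mul, eval_C, map_prod, eval_X]
  rw [← Finset.sum_sub_distrib]
  have hterm : ∀ I : Fin j → Fin 3,
      |(k6b_pd Dl F I).val Dl u * ∏ k, v (I k) - (k6b_pd Dl F I).val Dl u' * ∏ k, v' (I k)|
        ≤ ((j + 3 : ℕ) : ℝ) * K ^ j * M * (‖v - v'‖ + ‖u - u'‖) := by
    intro I
    obtain ⟨hp, hd⟩ := k6b_tr_pd_le Dl F uc r M j hM I
    have h1 := k6b_tr_prod_sub j (fun k => v (I k)) (fun k => v' (I k)) K ‖v - v'‖ hK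
      (fun k => (norm_le_pi_norm v _).trans hv) (fun k => (norm_le_pi_norm v' _).trans hv')
      (fun k => norm_le_pi_norm (v - v') _)
    have h2 := k6b_tr_prod_abs j (fun k => v' (I k)) K fun k => (norm_le_pi_norm v' _).trans hv'
    have h3 := k6b_tr_mv Dl (k6b_pd Dl F I) uc u u' r M hpos hd hu hu'
    have e : (k6b_pd Dl F I).val Dl u * ∏ k, v (I k) - (k6b_pd Dl F I).val Dl u' * ∏ k, v' (I k)
        = (k6b_pd Dl F I).val Dl u * (∏ k, v (I k) - ∏ k, v' (I k))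
          + ((k6b_pd Dl F I).val Dl u - (k6b_pd Dl F I).val Dl u') * ∏ k, v' (I k) := by ring
    rw [e]
    have hKj : 0 ≤ K ^ j := by positivity
    have n1 := norm_nonneg (v - v')
    have n2 := norm_nonneg (u - u')
    calc |(k6b_pd Dl F I).val Dl u * (∏ k, v (I k) - ∏ k, v' (I k))
          + ((k6b_pd Dl F I).val Dl u - (k6b_pd Dl F I).val Dl u') * ∏ k, v' (I k)|
        ≤ |(k6b_pd Dl F I).val Dl u| * |∏ k, v (I k) - ∏ k, v' (I k)|
          + |(k6b_pd Dl F I).val Dl u - (k6b_pd Dl F I).val Dl u'| * |∏ k, v' (I k)| := by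
          rw [← abs_mul, ← abs_mul]
          exact abs_add_le _ _
      _ ≤ M * (j * K ^ j * ‖v - v'‖) + 3 * M * ‖u - u'‖ * K ^ j := by
          gcongr
          exact hp u hu
      _ ≤ ((j + 3 : ℕ) : ℝ) * K ^ j * M * (‖v - v'‖ + ‖u - u'‖) := by
          push_cast
          have p1 : 0 ≤ K ^ j * M * ‖v - v'‖ := by positivity
          have p2 : 0 ≤ K ^ j * M * ‖u - u'‖ := by positivity
          have hj : (0 : ℝ) ≤ j := Nat.cast_nonneg j
          nlinarith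
  calc |∑ I : Fin j → Fin 3,
        ((k6b_pd Dl F I).val Dl u * ∏ k, v (I k) - (k6b_pd Dl F I).val Dl u' * ∏ k, v' (I k))|
      ≤ ∑ I : Fin j → Fin 3,
        |(k6b_pd Dl F I).val Dl u * ∏ k, v (I k) - (k6b_pd Dl F I).val Dl u' * ∏ k, v' (I k)| :=
        Finset.abs_sum_le_sum_abs _ _
    _ ≤ ∑ _I : Fin j → Fin 3, ((j + 3 : ℕ) : ℝ) * K ^ j * M * (‖v - v'‖ + ‖u - u'‖) :=
        Finset.sum_le_sum fun I _ => hterm I
    _ = ((3 ^ j * (j + 3) : ℕ) : ℝ) * K ^ j * M * (‖v - v'‖ + ‖u - u'‖) := by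
        simp
        ring
    _ ≤ (c : ℝ) * K ^ c * M * (‖v - v'‖ + ‖u - u'‖) := by
        have h1 : ((3 ^ j * (j + 3) : ℕ) : ℝ) * K ^ j ≤ (c : ℝ) * K ^ c :=
          mul_le_mul (by exact_mod_cast (by omega : 3 ^ j * (j + 3) ≤ c))
            (pow_le_pow_right₀ hK (by omega)) (by positivity) (by positivity)
        have n1 := norm_nonneg (v - v')
        have n2 := norm_nonneg (u - u')
        gcongr

end

end Claimed.Agent.R252
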