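import Claimed.Agent.R252.S6b.V2Defs

/-!
# Row252, unit S6b, part of M2d (step 10): seven bins whose centres are in general position   (helper260; prefix `k6b_t7_`)

`k6b_t7_of : k6b_gp7_stmt → k6b_common_tuple_stmt → ∃ c, ..`
-/

set_option autoImplicit false

namespace Claimed.Agent.R252

open MeasureTheory MvPolynomial
open scoped ENNReal BigOperators

noncomputable section

theorem k6b_t7_ofReal_pow30 : ENNReal.ofReal (1 / 2 ^ 30) = 1 / 2 ^ 30 := by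
  rw [ENNReal.ofReal_div_of_pos (by positivity), ENNReal.ofReal_one, ENNReal.ofReal_pow (by norm_num)]
  norm_num

theorem k6b_t7_ofReal_pow13 : ENNReal.ofReal (2 ^ 13) = 2 ^ 13 := by
  rw [ENNReal.ofReal_pow (by norm_num)]
  norm_num

/-- **TUPLE7** -/
theorem k6b_t7_of (h5 : k6b_gp7_stmt) (h3 : k6b_common_tuple_stmt) : ∃ c : ℕ, 2 ≤ c ∧
    ∀ (Y : k6b_Sw 3) (G : Set (Y.Lam × ℝ)) (K pv : ℝ), 1 ≤ K → 0 ≤ pv → 6 * K * pv ≤ 1 → Y.WF →
      Y.Chain (ENNReal.ofReal K) (1 / 2 ^ 30) (1 / 64) (1 / K) → ∑ J, Y.pal J ≤ ENNReal.ofReal K →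
      (∀ l, ‖Y.vel l‖ ≤ K) → (∀ l, ‖Y.vel l - Y.cen (Y.bin l)‖ ≤ pv) → MeasurableSet G →
      0 < Y.mu G → (∀ e ∈ G, Y.mu (Y.stE (Y.st e)) ≤ 2 ^ 13 * Y.mu (G ∩ Y.stE (Y.st e))) →
      ∃ J : Fin 7 → Y.Bn, k6b_GP 7 (c * K ^ c) (fun i => Y.cen (J i)) ∧
        Y.mu G ≤ ENNReal.ofReal (c * K ^ c) *
          Y.mu (G ∩ {e | ∀ i, ∃ e' ∈ G, Y.st e' = Y.st e ∧ Y.bin e'.1 = J i}) := by
  obtain ⟨c5, a, ha1, ha2, hgp⟩ := h5
  obtain ⟨n1, hn1⟩ : ∃ n : ℕ, n = c5 * 4 ^ c5 := ⟨_, rfl⟩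
  obtain ⟨n2, hn2⟩ : ∃ n : ℕ, n = 2 * (2 ^ 13) ^ 7 := ⟨_, rfl⟩
  obtain ⟨c, hc⟩ : ∃ c : ℕ, c = n1 + 2 * c5 + n2 + 14 := ⟨_, rfl⟩
  refine ⟨c, by omega, ?_⟩
  intro Y G K pv hK hpv h6 hWF hCh hpal hvel hbin hG hμ hfat
  have hK0 : 0 < K := by linarith
  have hpb : ∀ m e : ℕ, m ≤ c → e ≤ c → (m : ℝ) * K ^ e ≤ (c : ℝ) * K ^ c := fun m e hm he =>
    mul_le_mul (by exact_mod_cast hm) (pow_le_pow_right₀ hK he) (by positivity) (by positivity)
  have hpv1 : pv ≤ K := by nlinarith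
  obtain ⟨J, hJ1, hJ2⟩ := h3 3 7 22 Y G K (2 ^ 13) (1 / K) pv (1 / 2 ^ 30) (1 / 64) a hK (by norm_num)
    (by positivity) (by positivity) hWF hG hμ ha1 ha2 (by rw [k6b_t7_ofReal_pow30]; exact hCh) hpal
    (by rw [k6b_t7_ofReal_pow13]; exact hfat) hbin (by
      rw [div_div, le_div_iff₀ (by positivity)]
      push_cast
      nlinarith) (by norm_num)
  -- positive measure gives a witness
  have hwit : ∀ e : Y.Lam × ℝ,
      (∀ i, 0 < Y.mu (G ∩ Y.stE (Y.st e) ∩ {e' | Y.bin e'.1 = J i})) →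
      ∀ i, ∃ e' ∈ G, Y.st e' = Y.st e ∧ Y.bin e'.1 = J i := by
    intro e he i
    obtain ⟨e', he'⟩ := nonempty_of_measure_ne_zero (he i).ne'
    exact ⟨e', he'.1.1, he'.1.2, he'.2⟩
  -- the good set is nonempty
  have hne : (G ∩ {e | ∀ i, 0 < Y.mu (G ∩ Y.stE (Y.st e) ∩ {e' | Y.bin e'.1 = J i})}).Nonempty := by
    apply nonempty_of_measure_ne_zero (μ := Y.mu)
    intro h0
    rw [h0, mul_zero] at hJ2
    exact absurd hJ2 (not_le.2 hμ)
  obtain ⟨e0, -, he0⟩ := hne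
  have hcen : ∀ i, ‖Y.cen (J i)‖ ≤ 2 * K := by
    intro i
    obtain ⟨e', -, -, hb⟩ := hwit e0 he0 i
    have h1 := hbin e'.1
    rw [hb] at h1
    have h2 : ‖Y.cen (J i)‖ ≤ ‖Y.vel e'.1‖ + ‖Y.vel e'.1 - Y.cen (J i)‖ := by
      have := norm_sub_le (Y.vel e'.1) (Y.vel e'.1 - Y.cen (J i))
      simpa using this
    have h3 := hvel e'.1
    linarith
  have hw : (1 / K / 2 : ℝ) = 1 / (2 * K) := by
    field_simp
  have hgp1 := hgp (fun i => Y.cen (J i)) (2 * K) (1 / (2 * K)) (by linarith) (by positivity)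
    (by rw [div_le_one (by positivity)]; linarith) hcen (fun k j => by rw [← hw]; exact hJ1 k j)
  have e1 : (c5 : ℝ) * (2 * K / (1 / (2 * K))) ^ c5 = (n1 : ℝ) * K ^ (2 * c5) := by
    have : 2 * K / (1 / (2 * K)) = 4 * K ^ 2 := by
      field_simp
      ring
    rw [this, hn1, mul_pow, ← pow_mul]
    push_cast
    ring
  rw [e1] at hgp1
  have hc5 : 0 < c5 := by
    rcases Nat.eq_zero_or_pos c5 with h0 | h0
    · exfalso
      have hz : ∀ j, Y.cen (J 0) j = 0 := by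
        intro j
        have := hgp1.bd 0 j
        rw [hn1, h0] at this
        simpa using this
      have hz' : Y.cen (J 0) = 0 := funext hz
      have := hJ1 0 0
      rw [hz', dotProduct_zero, abs_zero] at this
      have : (0 : ℝ) < 1 / K / 2 := by positivity
      linarith
    · exact h0
  have hn1pos : 0 < (n1 : ℝ) * K ^ (2 * c5) := by
    have : 0 < n1 := by rw [hn1]; positivity
    have : (0 : ℝ) < n1 := by exact_mod_cast this
    positivity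
  have hle1 := hpb n1 (2 * c5) (by omega) (by omega)
  refine ⟨J, ⟨fun i j => (hgp1.bd i j).trans hle1, fun i j k h1 h2 h3 =>
    (inv_anti₀ hn1pos hle1).trans (hgp1.det i j k h1 h2 h3)⟩, hJ2.trans ?_⟩
  refine mul_le_mul' (ENNReal.ofReal_le_ofReal ?_) (measure_mono ?_)
  · refine le_trans (le_of_eq ?_) (hpb n2 14 (by omega) (by omega))
    rw [hn2]
    push_cast
    ring
  · exact fun e he => ⟨he.1, hwit e he.2⟩

end

end Claimed.Agent.R252
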