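import Claimed.Agent.R252.S6b.V2Cut
import Claimed.Agent.R252.S6b.SheetContract
import Claimed.Agent.R252.S6b.DevBound
import Claimed.Agent.R252.S6b.Gp7
import Claimed.Agent.R252.S6b.CommonTuple
import Claimed.Agent.R252.S6b.AvoidSum
import Claimed.Agent.R252.S6b.Tuple
import Claimed.Agent.R252.S6b.V2DTransfer
import Claimed.Agent.R252.S6b.V2DTuple

/-!
# Row252, unit S6b, M2d (steps 9-11): the hypotheses of the deterministic core   (helper260; prefix `k6b_vd_`)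

`k6b_vd_main : k6b_v2d_stmt`.
-/

set_option autoImplicit false

namespace Claimed.Agent.R252

open MeasureTheory MvPolynomial
open scoped ENNReal BigOperators

noncomputable section

theorem k6b_vd_pb {m e c : ℕ} (hm : m ≤ c) (he : e ≤ c) {K : ℝ} (hK : 1 ≤ K) :
    (m : ℝ) * K ^ e ≤ (c : ℝ) * K ^ c :=
  mul_le_mul (by exact_mod_cast hm) (pow_le_pow_right₀ hK he) (by positivity) (by positivity)

theorem k6b_vd_vol {K X : ℝ} (hK : 0 < K) {V : ℝ≥0∞}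
    (h : ENNReal.ofReal X ≤ ENNReal.ofReal K * V) : ENNReal.ofReal (K⁻¹ * X) ≤ V := by
  rw [ENNReal.ofReal_mul (inv_pos.2 hK).le]
  calc ENNReal.ofReal K⁻¹ * ENNReal.ofReal X ≤ ENNReal.ofReal K⁻¹ * (ENNReal.ofReal K * V) := by
        gcongr
    _ = V := by
        rw [← mul_assoc, ← ENNReal.ofReal_mul (inv_pos.2 hK).le, inv_mul_cancel₀ hK.ne',
          ENNReal.ofReal_one, one_mul]

/-- a cap turns mass into volume -/
theorem k6b_vd_cap {κ A A' : ℝ} {m V : ℝ≥0∞} (hκ : 0 < κ) (hA : 0 ≤ A) (hA' : 0 ≤ A')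
    (hm : ENNReal.ofReal κ ≤ ENNReal.ofReal A * m) (hcap : m ≤ ENNReal.ofReal (A' * κ) * V) :
    1 ≤ ENNReal.ofReal (A * A') * V := by
  have h1 : ENNReal.ofReal κ * 1 ≤ ENNReal.ofReal κ * (ENNReal.ofReal (A * A') * V) := by
    rw [mul_one]
    calc ENNReal.ofReal κ ≤ ENNReal.ofReal A * m := hm
      _ ≤ ENNReal.ofReal A * (ENNReal.ofReal (A' * κ) * V) := by gcongr
      _ = ENNReal.ofReal κ * (ENNReal.ofReal (A * A') * V) := by
          rw [ENNReal.ofReal_mul hA', ENNReal.ofReal_mul hA]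
          ring
  exact (ENNReal.mul_le_mul_iff_right (by simpa using hκ) ENNReal.ofReal_ne_top).1 h1

theorem k6b_vd_vol8 {r X : ℝ} {V : ℝ≥0∞} (h2r : (2 * r) ^ 3 ≤ 8)
    (h : 1 ≤ ENNReal.ofReal X * V) : ENNReal.ofReal ((2 * r) ^ 3) ≤ ENNReal.ofReal (8 * X) * V := by
  rw [ENNReal.ofReal_mul (by norm_num), mul_assoc]
  calc ENNReal.ofReal ((2 * r) ^ 3) ≤ ENNReal.ofReal 8 * 1 := by
        rw [mul_one]
        exact ENNReal.ofReal_le_ofReal h2r
    _ ≤ _ := by gcongr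

theorem k6b_vd_unscale {X B K r : ℝ} {l q : ℕ} (hX : 0 ≤ X) (hK : 1 ≤ K) (hr : 0 < r)
    (hKr : 1 ≤ K * r) (hl : l ≤ q) (h : X * r ^ l ≤ B) : X ≤ B * K ^ q := by
  have hB : 0 ≤ B := (by positivity : 0 ≤ X * r ^ l).trans h
  have h1 : 1 ≤ (K * r) ^ l := one_le_pow₀ hKr
  calc X ≤ X * (K * r) ^ l := le_mul_of_one_le_right hX h1
    _ = X * r ^ l * K ^ l := by rw [mul_pow]; ring
    _ ≤ B * K ^ q := mul_le_mul h (pow_le_pow_right₀ hK hl) (by positivity) hB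

theorem k6b_vd_gp_mono {n : ℕ} {A B : ℝ} {p : Fin n → Fin 3 → ℝ} (h : k6b_GP n A p) (hA : 0 < A)
    (hAB : A ≤ B) : k6b_GP n B p :=
  ⟨fun i j => (h.bd i j).trans hAB, fun i j k h1 h2 h3 =>
    (inv_anti₀ hA hAB).trans (h.det i j k h1 h2 h3)⟩

theorem k6b_vd_gp_norm {n : ℕ} {A : ℝ} {p : Fin n → Fin 3 → ℝ} (h : k6b_GP n A p) (hA : 0 ≤ A)
    (i : Fin n) : ‖p i‖ ≤ A :=
  (pi_norm_le_iff_of_nonneg hA).2 fun j => by rw [Real.norm_eq_abs]; exact h.bd i j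

theorem k6b_vd_meas_le (Dl : MvPolynomial (Fin 3) ℝ) (F : k6b_Sheet 3) (M : ℝ) :
    MeasurableSet {u : Fin 3 → ℝ | |F.val Dl u| ≤ M} :=
  measurableSet_le (continuous_abs.measurable.comp (k6b_Sheet.measurable_val Dl F)) measurable_const

/-- **M2d** -/
theorem k6b_vd_main : k6b_v2d_stmt := by
  intro D'
  obtain ⟨c7, hc72, hT7⟩ := k6b_t7_of k6b_gp7 (k6b_common_tuple_of k6b_avoid_sum k6b_tuple)
  obtain ⟨c1, hc1⟩ := k6b_dev_bound D' 3
  obtain ⟨cq, hcq⟩ := k6b_sq_box 3 D' 4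
  obtain ⟨t2, ht2⟩ := k6b_tr_transfer 2
  obtain ⟨t3, ht3⟩ := k6b_tr_transfer 3
  obtain ⟨mq, hmq⟩ : ∃ m : ℕ, m = cq * 8 ^ cq := ⟨_, rfl⟩
  obtain ⟨mf, hmf⟩ : ∃ m : ℕ, m = t2 * c7 ^ t2 * c1 := ⟨_, rfl⟩
  obtain ⟨ef, hef⟩ : ∃ m : ℕ, m = c7 * t2 + (c1 + 3) := ⟨_, rfl⟩
  obtain ⟨mR, hmR⟩ : ∃ m : ℕ, m = t3 * c7 ^ t3 * mq := ⟨_, rfl⟩
  obtain ⟨eR, heR⟩ : ∃ m : ℕ, m = c7 * t3 + (3 * cq + 5) := ⟨_, rfl⟩
  obtain ⟨c, hc⟩ : ∃ c : ℕ, c = mf + ef + mR + eR + 8 * c7 + 10 := ⟨_, rfl⟩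
  refine ⟨c, ?_⟩
  intro Y H T Φ G1 G4 uc r sg K A β pv εT κ a a₂ h S f R hK hKA hκ ha₂ haa hh hβ hpv hWF hCh hGeo
    hpal hH hsup hvol hmass hB hfdeg hRdeg hS hRA hb hm1 hha
  have hA1 : 1 ≤ A := hK.trans hKA
  have hA0 : 0 < A := by linarith
  have hK0 : 0 < K := by linarith
  have ha : 0 < a := by linarith
  have hr := hB.r_pos
  have hr1 := hB.r_le
  have hAr := hB.r_lo
  have hpb : ∀ m e : ℕ, m ≤ c → e ≤ c → (m : ℝ) * A ^ e ≤ (c : ℝ) * A ^ c := fun m e hm he =>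
    k6b_vd_pb hm he hA1
  have hdl := hB.dl
  generalize k6b_disc H.Pst Φ = Dl at hdl hfdeg hRdeg hS hRA hb ⊢
  obtain ⟨Kc, hKc⟩ : ∃ Kc : ℝ, Kc = (c : ℝ) * A ^ c := ⟨_, rfl⟩
  rw [← hKc] at hm1 hpb ⊢
  have hKc1 : 1 ≤ Kc := by
    have := hpb 1 0 (by omega) (by omega)
    simpa using this
  have hKc0 : 0 < Kc := by linarith
  have hAKc : A ≤ Kc := by
    have := hpb 1 1 (by omega) (by omega)
    simpa using this
  have hposU : ∀ u ∈ Metric.closedBall uc r, 0 < eval u Dl := fun u hu =>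
    lt_of_lt_of_le (by positivity) (hdl u hu).1
  have hucU : uc ∈ Metric.closedBall uc r := Metric.mem_closedBall_self hr.le
  have hS0 : 0 ≤ S := (abs_nonneg _).trans (hS.1 uc hucU)
  -- smallness
  have hbp0 : 0 ≤ β + pv := by positivity
  have hbp : β + pv ≤ h := by
    have : 1 * (β + pv) ≤ Kc * (β + pv) := mul_le_mul_of_nonneg_right hKc1 hbp0
    linarith
  have haa1 : a₂ / a ≤ 1 := by rw [div_le_one ha]; exact haa
  have h2r : (2 * r) ^ 3 ≤ 8 := by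
    have : (2 * r) ^ 3 ≤ 2 ^ 3 := pow_le_pow_left₀ (by positivity) (by linarith) 3
    linarith
  -- the set `ER`
  obtain ⟨ER, hER⟩ : ∃ ER : Set (Fin 3 → ℝ),
      ER = Metric.closedBall uc r ∩ {u | |R.val Dl u| ≤ A} := ⟨_, rfl⟩
  have hERm : MeasurableSet ER := by
    rw [hER]
    exact measurableSet_closedBall.inter (k6b_vd_meas_le Dl R _)
  have hERsub : ER ⊆ Metric.closedBall uc r := by
    rw [hER]
    exact Set.inter_subset_left
  have hERv1 : 1 ≤ ENNReal.ofReal (A * A) * volume ER :=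
    k6b_vd_cap hκ hA0.le hA0.le hmass (hvol ER G4 hERm hB.G41 fun e he => by
      rw [hER]
      exact ⟨hB.inU e (hB.G41 he), hRA e (hB.G41 he)⟩)
  have hERv2 := k6b_vd_vol8 h2r hERv1
  -- derivatives of `R`
  have hRder : ∀ vs : List (Fin 3 → ℝ), vs.length ≤ 4 → (∀ x ∈ vs, ‖x‖ ≤ 1) →
      ∀ u ∈ Metric.closedBall uc r,
        |(vs.foldr (k6b_Sheet.dv Dl) R).val Dl u| ≤ (mq : ℝ) * A ^ (3 * cq + 5) := by
    intro vs hl hv u hu
    have h1 := hcq Dl R uc r A (8 * (A * A))⁻¹ A 1 ER hRdeg hr hA1 (by positivity)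
      (inv_le_one_of_one_le₀ (by nlinarith)) one_pos hdl hERm hERsub
      (k6b_vd_vol (by positivity) hERv2) (fun u hu => by rw [hER] at hu; exact hu.2) vs hl hv u hu
    have e1 : A / (8 * (A * A))⁻¹ = 8 * A ^ 3 := by
      field_simp
    rw [e1, mul_pow, ← pow_mul] at h1
    refine (k6b_vd_unscale (abs_nonneg _) hA1 hr hAr hl h1).trans (le_of_eq ?_)
    rw [hmq]
    push_cast
    ring
  -- derivatives of `f`
  have hfder : ∀ vs : List (Fin 3 → ℝ), 2 ≤ vs.length → vs.length ≤ 3 → (∀ x ∈ vs, ‖x‖ ≤ 1) →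
      ∀ u ∈ Metric.closedBall uc r,
        |(vs.foldr (k6b_Sheet.dv Dl) f).val Dl u| ≤ (c1 : ℝ) * A ^ (c1 + 3) * S := by
    intro vs hl2 hl hv u hu
    have h1 := hc1 Dl f uc r A 1 S hfdeg hr hA1 one_pos hdl hS.1 vs hl2 hl hv u hu
    refine (k6b_vd_unscale (abs_nonneg _) hA1 hr hAr hl h1).trans (le_of_eq ?_)
    ring
  -- seven bins
  have h6 : 6 * K * pv ≤ 1 := by
    have h1 : 6 * K ≤ Kc := by
      have := hpb 6 1 (by omega) (by omega)
      rw [pow_one] at this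
      push_cast at this
      nlinarith
    have h2 : 6 * K * pv ≤ Kc * (β + pv) :=
      mul_le_mul h1 (by linarith) hpv hKc0.le
    linarith
  have hμ4 : 0 < Y.mu G4 := by
    rw [pos_iff_ne_zero]
    intro h0
    have := hmass
    rw [h0, mul_zero, nonpos_iff_eq_zero, ENNReal.ofReal_eq_zero] at this
    linarith
  obtain ⟨J, hGP, hgood⟩ := hT7 Y G4 K pv hK hpv h6 hWF hCh hpal hGeo.velb hGeo.bins hB.G4_meas hμ4
    hB.fat
  obtain ⟨v, hv⟩ : ∃ v : Fin 7 → Fin 3 → ℝ, v = fun i => Y.cen (J i) := ⟨_, rfl⟩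
  rw [← hv] at hGP
  obtain ⟨B7, hB7⟩ : ∃ B7 : ℝ, B7 = (c7 : ℝ) * A ^ c7 := ⟨_, rfl⟩
  have hc7K : (c7 : ℝ) * K ^ c7 ≤ B7 := by
    rw [hB7]
    have : K ^ c7 ≤ A ^ c7 := pow_le_pow_left₀ hK0.le hKA c7
    gcongr
  have hc7pos : 0 < (c7 : ℝ) * K ^ c7 := by
    have : (0 : ℝ) < c7 := by exact_mod_cast (by omega : 0 < c7)
    positivity
  have hAB7 : A ≤ B7 := by
    rw [hB7]
    have := k6b_vd_pb (m := 1) (e := 1) (c := c7) (by omega) (by omega) hA1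
    simpa using this
  have hB71 : 1 ≤ B7 := hA1.trans hAB7
  have hGP7 : k6b_GP 7 B7 v := k6b_vd_gp_mono hGP hc7pos hc7K
  have hB7Kc : B7 ≤ Kc := by
    rw [hB7]
    exact hpb c7 c7 (by omega) (by omega)
  have hvn : ∀ i, ‖v i‖ ≤ B7 := k6b_vd_gp_norm hGP7 (by linarith)
  have hveln : ∀ l, ‖Y.vel l‖ ≤ B7 := fun l => (hGeo.velb l).trans (hKA.trans hAB7)
  -- transfer
  have hkey : ∀ e ∈ G4, (∀ i, ∃ e' ∈ G4, Y.st e' = Y.st e ∧ Y.bin e'.1 = J i) → ∀ i,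
      |((f.dv Dl (v i)).dv Dl (v i)).val Dl (Y.pos e)| ≤ Kc * (a₂ + S * h) ∧
      |(((k6b_Sheet.dv Dl (v i))^[3]) R).val Dl (Y.pos e)| ≤ Kc * (a₂ / a) := by
    intro e he hgd i
    obtain ⟨e', he', hst, hbin⟩ := hgd i
    have hs := hsup (hB.G41 he)
    have hs' := hsup (hB.G41 he')
    have hcl := (hGeo.close e hs e' hs' hst.symm).1
    have hbn : ‖v i - Y.vel e'.1‖ ≤ pv := by
      rw [norm_sub_rev, hv]
      have := hGeo.bins e'.1
      rwa [hbin] at this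
    have hsum : ‖v i - Y.vel e'.1‖ + ‖Y.pos e - Y.pos e'‖ ≤ h := by linarith
    have hU := hB.inU e (hB.G41 he)
    have hU' := hB.inU e' (hB.G41 he')
    constructor
    · have T2 := ht2 Dl f uc (Y.pos e) (Y.pos e') (v i) (Y.vel e'.1) r B7 ((c1 : ℝ) * A ^ (c1 + 3) * S)
        hposU hB71 (fun vs h1 h2 hv x hx => hfder vs h1 h2 hv x hx) hU hU' (hvn i) (hveln _)
      have T2' : |(((k6b_Sheet.dv Dl (v i))^[2]) f).val Dl (Y.pos e)|
          ≤ A * a₂ + (t2 : ℝ) * B7 ^ t2 * ((c1 : ℝ) * A ^ (c1 + 3) * S) * h := by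
        have h1 : |(((k6b_Sheet.dv Dl (Y.vel e'.1))^[2]) f).val Dl (Y.pos e')| ≤ A * a₂ :=
          (hb e' he').1
        have h2 := abs_sub_abs_le_abs_sub ((((k6b_Sheet.dv Dl (v i))^[2]) f).val Dl (Y.pos e))
          ((((k6b_Sheet.dv Dl (Y.vel e'.1))^[2]) f).val Dl (Y.pos e'))
        have h3 : (t2 : ℝ) * B7 ^ t2 * ((c1 : ℝ) * A ^ (c1 + 3) * S)
              * (‖v i - Y.vel e'.1‖ + ‖Y.pos e - Y.pos e'‖)
            ≤ (t2 : ℝ) * B7 ^ t2 * ((c1 : ℝ) * A ^ (c1 + 3) * S) * h :=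
          mul_le_mul_of_nonneg_left hsum (by positivity)
        linarith
      refine T2'.trans ?_
      have e1 : (t2 : ℝ) * B7 ^ t2 * ((c1 : ℝ) * A ^ (c1 + 3) * S) * h
          = (mf : ℝ) * A ^ ef * (S * h) := by
        rw [hB7, hmf, hef, mul_pow, ← pow_mul, pow_add]
        push_cast
        ring
      rw [e1, mul_add]
      exact add_le_add (mul_le_mul_of_nonneg_right hAKc ha₂.le)
        (mul_le_mul_of_nonneg_right (hpb mf ef (by omega) (by omega)) (by positivity))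
    · have T3 := ht3 Dl R uc (Y.pos e) (Y.pos e') (v i) (Y.vel e'.1) r B7
        ((mq : ℝ) * A ^ (3 * cq + 5))
        hposU hB71 (fun vs _ h2 hv x hx => hRder vs h2 hv x hx) hU hU' (hvn i) (hveln _)
      have haa0 : 0 ≤ a₂ / a := by positivity
      have T3' : |(((k6b_Sheet.dv Dl (v i))^[3]) R).val Dl (Y.pos e)|
          ≤ A * (a₂ / a) + (t3 : ℝ) * B7 ^ t3 * ((mq : ℝ) * A ^ (3 * cq + 5)) * (a₂ / a) := by
        have h1 := (hb e' he').2
        have h2 := abs_sub_abs_le_abs_sub ((((k6b_Sheet.dv Dl (v i))^[3]) R).val Dl (Y.pos e))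
          ((((k6b_Sheet.dv Dl (Y.vel e'.1))^[3]) R).val Dl (Y.pos e'))
        have h3 : (t3 : ℝ) * B7 ^ t3 * ((mq : ℝ) * A ^ (3 * cq + 5))
              * (‖v i - Y.vel e'.1‖ + ‖Y.pos e - Y.pos e'‖)
            ≤ (t3 : ℝ) * B7 ^ t3 * ((mq : ℝ) * A ^ (3 * cq + 5)) * (a₂ / a) :=
          mul_le_mul_of_nonneg_left (hsum.trans hha) (by positivity)
        linarith
      refine T3'.trans ?_
      have e1 : (t3 : ℝ) * B7 ^ t3 * ((mq : ℝ) * A ^ (3 * cq + 5)) = (mR : ℝ) * A ^ eR := by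
        rw [hB7, hmR, heR, mul_pow, ← pow_mul, pow_add]
        push_cast
        ring
      rw [e1, ← add_mul]
      refine mul_le_mul_of_nonneg_right ?_ haa0
      have h1 : A ≤ A ^ (1 + eR) := by
        calc A = A ^ 1 := (pow_one A).symm
          _ ≤ A ^ (1 + eR) := pow_le_pow_right₀ hA1 (by omega)
      have h2 : (mR : ℝ) * A ^ eR ≤ (mR : ℝ) * A ^ (1 + eR) := by
        have : A ^ eR ≤ A ^ (1 + eR) := pow_le_pow_right₀ hA1 (by omega)
        gcongr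
      have h3 := hpb (1 + mR) (1 + eR) (by omega) (by omega)
      push_cast at h3
      linarith
  -- the set `E7`
  obtain ⟨E7, hE7⟩ : ∃ E7 : Set (Fin 3 → ℝ), E7 = Metric.closedBall uc r ∩
      {u | ∀ i, |((f.dv Dl (v i)).dv Dl (v i)).val Dl u| ≤ Kc * (a₂ + S * h) ∧
        |(((k6b_Sheet.dv Dl (v i))^[3]) R).val Dl u| ≤ Kc * (a₂ / a)} := ⟨_, rfl⟩
  have hE7m : MeasurableSet E7 := by
    rw [hE7]
    refine measurableSet_closedBall.inter ?_
    have : {u : Fin 3 → ℝ | ∀ i, |((f.dv Dl (v i)).dv Dl (v i)).val Dl u| ≤ Kc * (a₂ + S * h) ∧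
        |(((k6b_Sheet.dv Dl (v i))^[3]) R).val Dl u| ≤ Kc * (a₂ / a)}
        = ⋂ i, ({u | |((f.dv Dl (v i)).dv Dl (v i)).val Dl u| ≤ Kc * (a₂ + S * h)} ∩
          {u | |(((k6b_Sheet.dv Dl (v i))^[3]) R).val Dl u| ≤ Kc * (a₂ / a)}) := by
      ext u
      simp only [Set.mem_iInter, Set.mem_inter_iff]
      rfl
    rw [this]
    exact MeasurableSet.iInter fun i => (k6b_vd_meas_le Dl _ _).inter (k6b_vd_meas_le Dl _ _)
  have hE7sub : E7 ⊆ Metric.closedBall uc r := by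
    rw [hE7]
    exact Set.inter_subset_left
  have hmass7 : ENNReal.ofReal κ ≤ ENNReal.ofReal (A * ((c7 : ℝ) * K ^ c7)) *
      Y.mu (G4 ∩ {e | ∀ i, ∃ e' ∈ G4, Y.st e' = Y.st e ∧ Y.bin e'.1 = J i}) := by
    rw [ENNReal.ofReal_mul hA0.le, mul_assoc]
    exact hmass.trans (mul_le_mul' le_rfl hgood)
  have hE7v1 : 1 ≤ ENNReal.ofReal (A * ((c7 : ℝ) * K ^ c7) * A) * volume E7 :=
    k6b_vd_cap hκ (by positivity) hA0.le hmass7 (hvol E7 _ hE7m
      (Set.inter_subset_left.trans hB.G41) fun e he => by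
        rw [hE7]
        exact ⟨hB.inU e (hB.G41 he.1), hkey e he.1 he.2⟩)
  have h7Kc : 8 * (A * ((c7 : ℝ) * K ^ c7) * A) ≤ Kc := by
    have h1 := hpb (8 * c7) (c7 + 2) (by omega) (by omega)
    have h2 : A * ((c7 : ℝ) * K ^ c7) * A ≤ A * B7 * A := by gcongr
    refine le_trans (mul_le_mul_of_nonneg_left h2 (by norm_num)) (le_trans (le_of_eq ?_) h1)
    rw [hB7]
    push_cast
    ring
  have h8Kc : 8 * (A * A) ≤ Kc := by
    have h1 := hpb 8 2 (by omega) (by omega)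
    push_cast at h1
    nlinarith
  refine ⟨v, ER, E7, ?_⟩
  exact
    { degf := hfdeg
      degR := hRdeg
      pos := ⟨hr, hr1, hAr.trans (mul_le_mul_of_nonneg_right hAKc hr.le), one_pos, by
        have := hpb 2 0 (by omega) (by omega)
        simpa using this, ha₂, haa, hh⟩
      dl := fun u hu => ⟨(div_le_div_of_nonneg_left zero_le_one hA0 hAKc).trans (hdl u hu).1,
        (hdl u hu).2.trans (mul_le_mul_of_nonneg_right hAKc zero_le_one)⟩
      gp := k6b_vd_gp_mono hGP7 (by linarith) hB7Kc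
      one := fun i => by rw [hv]; exact hH.cen0 (J i)
      dev := hS
      ER_meas := hERm
      ER_sub := hERsub
      ER_vol := hERv2.trans (mul_le_mul' (ENNReal.ofReal_le_ofReal h8Kc) le_rfl)
      ER_bd := fun u hu => by
        rw [hER] at hu
        exact hu.2.trans hAKc
      E7_meas := hE7m
      E7_sub := hE7sub
      E7_vol := (k6b_vd_vol8 h2r hE7v1).trans (mul_le_mul' (ENNReal.ofReal_le_ofReal h7Kc) le_rfl)
      E7_f := fun u hu i => by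
        rw [hE7] at hu
        exact (hu.2 i).1
      E7_R := fun u hu i => by
        rw [hE7] at hu
        exact (hu.2 i).2 }

end

end Claimed.Agent.R252
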