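import Claimed.Agent.R252.S6b.V2Cut
import Claimed.Agent.R252.S6b.V2C
import Claimed.Agent.R252.S6b.Closed

/-!
# Row252, unit S6b, part G, leaf M2e (steps 12-15 of `k6b_main_v2`)      (helper42; prefix `k6b_v2e_`)

`k6b_v2e : k6b_v2e_stmt`: the deterministic core `k6b_core`, the new test (two cases), `k6b_Pnew_bounds` at the events of `G1`, `k6b_time_ext` along the block.
Constants: `B = c₁ A^c₁ + 1` (core), `T = c₂ (A²)^c₂` (time extension), `N`, `M` polynomials in `A`, `B`; the class `k6b_consPB` of `Conservative.lean`.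
-/

set_option autoImplicit false

namespace Claimed.Agent.R252

open MeasureTheory MvPolynomial
open scoped ENNReal BigOperators

noncomputable section

/-! ## 1. The real inequalities of case B -/

theorem k6b_v2e_real (K B N a a₂ h S : ℝ) (hK : 1 ≤ K) (hB : 1 ≤ B) (hN1 : 1 ≤ N)
    (hN : 2 * K * (B + 2 * B * (2 * B + 2 * K)) ≤ N) (ha₂ : 0 < a₂) (ha : a₂ ≤ a) (hh : 0 < h) (hh1 : h ≤ 1)
    (hS : a₂ < S * h) (hsm : N * h ≤ a₂ / a) :
    0 < S ∧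
    K * (2 * K * a₂) + K / a * (2 * K * a₂) ^ 2 + a * (B * (a₂ / a + h))
        + a * B * (B * h + 2 * K * a₂ / S) * (1 + 2 * B + B * h + 2 * K * a₂ / S)
      ≤ (2 * K ^ 2 + 4 * K ^ 3 + 2 * B + B * (B + 2 * K) * (1 + 3 * B + 2 * K)) * a₂ ∧
    a / S * (B + 2 * B * (B + B * h + 2 * K * a₂ / S)) ≤ 1 / (2 * K) ∧
    K / a + 2 * a * B / S ^ 2 ≤ (K + 2 * B) / a₂ := by
  have ha0 : 0 < a := lt_of_lt_of_le ha₂ ha
  have hK0 : 0 < K := by linarith
  have hB0 : 0 < B := by linarith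
  have hN0 : 0 < N := by linarith
  have hS0 : 0 < S := by
    by_contra hneg
    have : S * h ≤ 0 := mul_nonpos_of_nonpos_of_nonneg (not_lt.1 hneg) hh.le
    linarith
  obtain ⟨t, ht⟩ : ∃ t, t = a₂ / S := ⟨_, rfl⟩
  obtain ⟨p, hp⟩ : ∃ p, p = a / S := ⟨_, rfl⟩
  have ht0 : 0 < t := by rw [ht]; positivity
  have hp0 : 0 < p := by rw [hp]; positivity
  have hth : t ≤ h := by
    rw [ht, div_le_iff₀ hS0]
    linarith
  have hah : N * (a * h) ≤ a₂ := by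
    rw [le_div_iff₀ ha0] at hsm
    linarith
  have hah0 : 0 ≤ a * h := by positivity
  have hah1 : a * h ≤ a₂ := by nlinarith
  have hpt : p * a₂ = a * t := by
    rw [hp, ht]
    field_simp
  have hNp : N * p ≤ 1 := by
    have h1 : N * p * a₂ ≤ 1 * a₂ := by
      have h2 : a * t ≤ a * h := mul_le_mul_of_nonneg_left hth ha0.le
      have h3 : N * (a * t) ≤ N * (a * h) := mul_le_mul_of_nonneg_left h2 hN0.le
      calc N * p * a₂ = N * (a * t) := by rw [mul_assoc, hpt]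
        _ ≤ a₂ := h3.trans hah
        _ = 1 * a₂ := (one_mul _).symm
    exact le_of_mul_le_mul_right h1 ha₂
  have hp1 : p ≤ 1 := by nlinarith
  have e1 : 2 * K * a₂ / S = 2 * K * t := by rw [ht, mul_div_assoc]
  obtain ⟨X, hX⟩ : ∃ X, X = B * h + 2 * K * t := ⟨_, rfl⟩
  have hX0 : 0 ≤ X := by rw [hX]; positivity
  have hXh : X ≤ (B + 2 * K) * h := by
    rw [hX]
    have : 2 * K * t ≤ 2 * K * h := mul_le_mul_of_nonneg_left hth (by positivity)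
    linarith
  have hX1 : X ≤ B + 2 * K := by
    refine hXh.trans ?_
    have : (B + 2 * K) * h ≤ (B + 2 * K) * 1 := mul_le_mul_of_nonneg_left hh1 (by positivity)
    linarith
  refine ⟨hS0, ?_, ?_, ?_⟩
  · rw [e1]
    have hx2 : 1 + 2 * B + B * h + 2 * K * t = 1 + 2 * B + X := by rw [hX]; ring
    rw [hx2, ← hX]
    have T2 : K / a * (2 * K * a₂) ^ 2 ≤ 4 * K ^ 3 * a₂ := by
      have h1 : a₂ / a ≤ 1 := (div_le_one ha0).2 ha
      have e : K / a * (2 * K * a₂) ^ 2 = 4 * K ^ 3 * a₂ * (a₂ / a) := by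
        field_simp
        ring
      rw [e]
      have : 4 * K ^ 3 * a₂ * (a₂ / a) ≤ 4 * K ^ 3 * a₂ * 1 := mul_le_mul_of_nonneg_left h1 (by positivity)
      linarith
    have T3 : a * (B * (a₂ / a + h)) ≤ 2 * B * a₂ := by
      have e : a * (B * (a₂ / a + h)) = B * (a₂ + a * h) := by
        field_simp
      rw [e]
      have : B * (a₂ + a * h) ≤ B * (a₂ + a₂) := mul_le_mul_of_nonneg_left (by linarith) hB0.le
      linarith
    have T4 : a * B * X * (1 + 2 * B + X) ≤ B * (B + 2 * K) * (1 + 3 * B + 2 * K) * a₂ := by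
      have h1 : a * B * X ≤ a * B * ((B + 2 * K) * h) := mul_le_mul_of_nonneg_left hXh (by positivity)
      have h2 : 1 + 2 * B + X ≤ 1 + 3 * B + 2 * K := by linarith
      have h3 : a * B * X * (1 + 2 * B + X) ≤ a * B * ((B + 2 * K) * h) * (1 + 3 * B + 2 * K) :=
        mul_le_mul h1 h2 (by positivity) (by positivity)
      have h4 : a * B * ((B + 2 * K) * h) * (1 + 3 * B + 2 * K) = B * (B + 2 * K) * (1 + 3 * B + 2 * K) * (a * h) := by ring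
      have h5 : B * (B + 2 * K) * (1 + 3 * B + 2 * K) * (a * h) ≤ B * (B + 2 * K) * (1 + 3 * B + 2 * K) * a₂ :=
        mul_le_mul_of_nonneg_left hah1 (by positivity)
      linarith
    have T1 : K * (2 * K * a₂) = 2 * K ^ 2 * a₂ := by ring
    have e : (2 * K ^ 2 + 4 * K ^ 3 + 2 * B + B * (B + 2 * K) * (1 + 3 * B + 2 * K)) * a₂
        = 2 * K ^ 2 * a₂ + 4 * K ^ 3 * a₂ + 2 * B * a₂ + B * (B + 2 * K) * (1 + 3 * B + 2 * K) * a₂ := by ring
    rw [e, T1]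
    linarith
  · rw [e1, ← hp]
    have hx2 : B + B * h + 2 * K * t = B + X := by rw [hX]; ring
    rw [hx2]
    obtain ⟨G, hG⟩ : ∃ G, G = B + 2 * B * (2 * B + 2 * K) := ⟨_, rfl⟩
    have hG0 : 0 < G := by rw [hG]; positivity
    have h1 : B + 2 * B * (B + X) ≤ G := by
      rw [hG]
      have : 2 * B * (B + X) ≤ 2 * B * (2 * B + 2 * K) := mul_le_mul_of_nonneg_left (by linarith) (by positivity)
      linarith
    have h2 : p * (B + 2 * B * (B + X)) ≤ p * G := mul_le_mul_of_nonneg_left h1 hp0.le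
    refine h2.trans ?_
    rw [le_div_iff₀ (by positivity)]
    rw [← hG] at hN
    have h3 : 2 * K * G * p ≤ N * p := mul_le_mul_of_nonneg_right hN hp0.le
    calc p * G * (2 * K) = 2 * K * G * p := by ring
      _ ≤ 1 := h3.trans hNp
  · have h1 : K / a ≤ K / a₂ := div_le_div_of_nonneg_left hK0.le ha₂ ha
    have h2 : 2 * a * B / S ^ 2 ≤ 2 * B / a₂ := by
      rw [le_div_iff₀ ha₂]
      have e : 2 * a * B / S ^ 2 * a₂ = 2 * B * (p * t) := by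
        rw [hp, ht]
        field_simp
      rw [e]
      have h3 : p * t ≤ 1 * 1 := mul_le_mul hp1 (hth.trans hh1) ht0.le zero_le_one
      have : 2 * B * (p * t) ≤ 2 * B * (1 * 1) := mul_le_mul_of_nonneg_left h3 (by positivity)
      linarith
    rw [add_div]
    linarith

/-! ## 2. The whole block -/

/-- N2 from the witness times of a line of `G4` -/
theorem k6b_v2e_ext (c2 : ℕ)
    (hc2 : ∀ (Q : k6b_QW) (u0 v : Fin 3 → ℝ) (w0 w1 θ M M' : ℝ) (W : Set ℝ), Q.Quad → 0 < θ →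
      θ ≤ 1 → W ⊆ Set.Icc (0 : ℝ) 1 → ENNReal.ofReal θ ≤ volume W →
      (∀ τ ∈ W, |Q.ev (u0 + τ • v) (w0 + τ * w1)| ≤ M) →
      (∀ τ ∈ W, |Q.dw (u0 + τ • v) (w0 + τ * w1)| ≤ M') →
      ∀ τ ∈ Set.Icc (0 : ℝ) 1, |Q.ev (u0 + τ • v) (w0 + τ * w1)| ≤ c2 * (1 / θ) ^ c2 * M ∧
        |Q.dw (u0 + τ • v) (w0 + τ * w1)| ≤ c2 * (1 / θ) ^ c2 * M')
    {Y : k6b_Sw 3} (H : k6b_Hid Y) (G1 G4 : Set (Y.Lam × ℝ)) (K A M M' : ℝ) (hK : 1 ≤ K) (hKA : K ≤ A)
    (hg : ∀ e, Y.g e ≤ ENNReal.ofReal K) (hG1m : MeasurableSet G1)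
    (hwit : ∀ e ∈ G4, 1 ≤ ENNReal.ofReal A * Y.durF G1 e.1)
    (Pn : k6b_QW) (hq : Pn.Quad)
    (hev : ∀ e ∈ G1, |Pn.ev (Y.pos e) (H.wd e)| ≤ M) (hdw : ∀ e ∈ G1, |Pn.dw (Y.pos e) (H.wd e)| ≤ M') :
    ∀ e ∈ G4, ∀ τ ∈ Set.Icc (0 : ℝ) 1,
      |Pn.ev (Y.pos (e.1, τ)) (H.wd (e.1, τ))| ≤ c2 * (A ^ 2) ^ c2 * M ∧
      |Pn.dw (Y.pos (e.1, τ)) (H.wd (e.1, τ))| ≤ c2 * (A ^ 2) ^ c2 * M' := by
  intro e he
  have hA : 1 ≤ A := hK.trans hKA
  have hA0 : 0 < A := by linarith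
  have hK0 : 0 < K := by linarith
  obtain ⟨l, τ0⟩ := e
  obtain ⟨W, hW⟩ : ∃ W : Set ℝ, W = Set.Icc (0 : ℝ) 1 ∩ {τ | (l, τ) ∈ G1} := ⟨_, rfl⟩
  have hW01 : W ⊆ Set.Icc 0 1 := by
    rw [hW]
    exact Set.inter_subset_left
  have hWG : ∀ τ ∈ W, (l, τ) ∈ G1 := by
    intro τ hτ
    rw [hW] at hτ
    exact hτ.2
  have hvol : ENNReal.ofReal (1 / A ^ 2) ≤ volume W := by
    have h1 := hwit _ he
    have h2 := k6b_v2c_dur G1 hG1m K hg l
    rw [← hW] at h2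
    have h3 : (1 : ℝ≥0∞) ≤ ENNReal.ofReal (A * K) * volume W := by
      rw [ENNReal.ofReal_mul hA0.le, mul_assoc]
      exact h1.trans (mul_le_mul' le_rfl h2)
    have h4 : ENNReal.ofReal (1 / (A * K)) ≤ volume W := by
      have hAK : 0 < A * K := by positivity
      calc ENNReal.ofReal (1 / (A * K)) = ENNReal.ofReal (1 / (A * K)) * 1 := (mul_one _).symm
        _ ≤ ENNReal.ofReal (1 / (A * K)) * (ENNReal.ofReal (A * K) * volume W) := mul_le_mul' le_rfl h3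
        _ = volume W := by
            rw [← mul_assoc, ← ENNReal.ofReal_mul (by positivity), one_div, inv_mul_cancel₀ hAK.ne', ENNReal.ofReal_one,
              one_mul]
    refine le_trans (ENNReal.ofReal_le_ofReal ?_) h4
    refine one_div_le_one_div_of_le (by positivity) ?_
    nlinarith
  have hθ1 : 1 / A ^ 2 ≤ 1 := by
    rw [div_le_one (by positivity)]
    exact one_le_pow₀ hA
  have e1 : ∀ τ, Y.pos (l, τ) = Y.u0 l + τ • Y.vel l := fun τ => rfl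
  have e2 : ∀ τ, H.wd (l, τ) = H.w0 l + τ * H.w1 l := fun τ => rfl
  have k1 : ∀ τ ∈ W, |Pn.ev (Y.u0 l + τ • Y.vel l) (H.w0 l + τ * H.w1 l)| ≤ M := by
    intro τ hτ
    have := hev _ (hWG τ hτ)
    rwa [e1, e2] at this
  have k2 : ∀ τ ∈ W, |Pn.dw (Y.u0 l + τ • Y.vel l) (H.w0 l + τ * H.w1 l)| ≤ M' := by
    intro τ hτ
    have := hdw _ (hWG τ hτ)
    rwa [e1, e2] at this
  have hθ0 : 0 < 1 / A ^ 2 := by positivity
  have key := hc2 Pn (Y.u0 l) (Y.vel l) (H.w0 l) (H.w1 l) (1 / A ^ 2) M M' W hq hθ0 hθ1 hW01 hvol k1 k2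
  rw [one_div_one_div] at key
  intro τ hτ
  simp only [e1, e2]
  exact key τ hτ

/-! ## 3. The two cases at the events of `G1` -/

/-- the test of case A -/
def k6b_v2eP (f2 : MvPolynomial (Fin 3) ℝ) : k6b_QW := ⟨-f2, 1, 0⟩

theorem k6b_v2eP_cite : True := by
  have := @k6b_v2eP.eq_1
  trivial

theorem k6b_v2eP_quad {f2 : MvPolynomial (Fin 3) ℝ} (h : f2.totalDegree ≤ 2) : (k6b_v2eP f2).Quad :=
  ⟨by
    show (-f2).totalDegree ≤ 2
    rwa [totalDegree_neg], by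
    show (1 : MvPolynomial (Fin 3) ℝ).totalDegree ≤ 1
    simp⟩

theorem k6b_v2eP_ev (f2 : MvPolynomial (Fin 3) ℝ) (u : Fin 3 → ℝ) (w : ℝ) : (k6b_v2eP f2).ev u w = w - eval u f2 := by
  unfold k6b_QW.ev k6b_v2eP
  simp
  ring

theorem k6b_v2eP_dw (f2 : MvPolynomial (Fin 3) ℝ) (u : Fin 3 → ℝ) (w : ℝ) : (k6b_v2eP f2).dw u w = 1 := by
  unfold k6b_QW.dw k6b_v2eP
  simp

theorem k6b_v2eP_dww (f2 : MvPolynomial (Fin 3) ℝ) : (k6b_v2eP f2).dww = 0 := by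
  unfold k6b_QW.dww k6b_v2eP
  simp

/-! ## 4. The constants -/

/-- slack of the core -/
def k6b_v2eB (c1 : ℕ) (A : ℝ) : ℝ := c1 * A ^ c1 + 1

/-- slack of the time extension -/
def k6b_v2eT (c2 : ℕ) (A : ℝ) : ℝ := c2 * (A ^ 2) ^ c2

/-- the margin -/
def k6b_v2eN (c1 : ℕ) (A : ℝ) : ℝ :=
  2 * A * (k6b_v2eB c1 A + 2 * k6b_v2eB c1 A * (2 * k6b_v2eB c1 A + 2 * A)) + k6b_v2eB c1 A

/-- the value bound -/
def k6b_v2eM (c1 : ℕ) (A : ℝ) : ℝ :=
  2 * A ^ 2 + 4 * A ^ 3 + 2 * k6b_v2eB c1 A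
    + k6b_v2eB c1 A * (k6b_v2eB c1 A + 2 * A) * (1 + 3 * k6b_v2eB c1 A + 2 * A)

theorem k6b_v2e_defs_cite : True := by
  have := @k6b_v2eB.eq_1
  have := @k6b_v2eT.eq_1
  have := @k6b_v2eN.eq_1
  have := @k6b_v2eM.eq_1
  trivial

theorem k6b_v2e_PB_B (c1 : ℕ) : k6b_consPB (k6b_v2eB c1) :=
  ((k6b_PB_const c1).mul (k6b_PB_id.pow c1)).add (k6b_PB_const 1) |>.congr fun A => by
    unfold k6b_v2eB
    push_cast
    ring

theorem k6b_v2e_PB_T (c2 : ℕ) : k6b_consPB (k6b_v2eT c2) :=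
  (k6b_PB_const c2).mul ((k6b_PB_id.pow 2).pow c2)

theorem k6b_v2e_PB_N (c1 : ℕ) : k6b_consPB (k6b_v2eN c1) :=
  ((((k6b_PB_const 2).mul k6b_PB_id).mul ((k6b_v2e_PB_B c1).add (((k6b_PB_const 2).mul (k6b_v2e_PB_B c1)).mul
    (((k6b_PB_const 2).mul (k6b_v2e_PB_B c1)).add ((k6b_PB_const 2).mul k6b_PB_id))))).add (k6b_v2e_PB_B c1)).congr fun A => by
    unfold k6b_v2eN
    push_cast
    ring

theorem k6b_v2e_PB_M (c1 : ℕ) : k6b_consPB (k6b_v2eM c1) :=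
  (((((k6b_PB_const 2).mul (k6b_PB_id.pow 2)).add ((k6b_PB_const 4).mul (k6b_PB_id.pow 3))).add
    ((k6b_PB_const 2).mul (k6b_v2e_PB_B c1))).add
    (((k6b_v2e_PB_B c1).mul ((k6b_v2e_PB_B c1).add ((k6b_PB_const 2).mul k6b_PB_id))).mul
      (((k6b_PB_const 1).add ((k6b_PB_const 3).mul (k6b_v2e_PB_B c1))).add ((k6b_PB_const 2).mul k6b_PB_id)))).congr fun A => by
    unfold k6b_v2eM
    push_cast
    ring

/-- monotonicity in `K ≤ A` of the two polynomial expressions -/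
theorem k6b_v2e_mono (K A B : ℝ) (hK : 1 ≤ K) (hKA : K ≤ A) (hB : 1 ≤ B) :
    2 * K * (B + 2 * B * (2 * B + 2 * K)) ≤ 2 * A * (B + 2 * B * (2 * B + 2 * A)) ∧
    2 * K ^ 2 + 4 * K ^ 3 + 2 * B + B * (B + 2 * K) * (1 + 3 * B + 2 * K)
      ≤ 2 * A ^ 2 + 4 * A ^ 3 + 2 * B + B * (B + 2 * A) * (1 + 3 * B + 2 * A) := by
  have hK0 : 0 ≤ K := by linarith
  have hA0 : 0 ≤ A := by linarith
  have hB0 : 0 ≤ B := by linarith
  constructor
  · gcongr
  · gcongr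

/-! ## 5. The statement -/

theorem k6b_v2e_of (hcore : k6b_core_stmt) : k6b_v2e_stmt := by
  intro D'
  obtain ⟨c1, hc1⟩ := hcore D'
  obtain ⟨c2, hc2⟩ := k6b_time_ext
  obtain ⟨c, hc⟩ := (((((k6b_v2e_PB_N c1).add (k6b_PB_id.add ((k6b_PB_const 2).mul (k6b_v2e_PB_B c1)))).add
    ((k6b_PB_const 2).mul k6b_PB_id)).add ((k6b_v2e_PB_T c2).mul (k6b_v2e_PB_M c1))).add
    ((k6b_v2e_PB_T c2).mul (k6b_PB_id.add (k6b_PB_const 1)))).exists_c
  refine ⟨c, ?_⟩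
  intro Y H Φ G1 G4 uc r sg K A a a₂ h S f R v ER E7 hK hKA hh1 hWF hg hOk hG1 hB hBr hnear hCore hsm
  obtain ⟨Dl, hDl⟩ : ∃ Dl, Dl = k6b_disc H.Pst Φ := ⟨_, rfl⟩
  rw [← hDl] at hnear hCore
  have hA : 1 ≤ A := hK.trans hKA
  have hA0 : 0 < A := by linarith
  have hK0 : 0 < K := by linarith
  obtain ⟨hr0, hr1, hAr, -, hA2, ha₂, ha, hh⟩ := hCore.pos
  have ha0 : 0 < a := lt_of_lt_of_le ha₂ ha
  -- the constants
  have hcA := hc A hA
  push_cast at hcA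
  obtain ⟨C, hC⟩ : ∃ C : ℝ, C = c * A ^ c := ⟨_, rfl⟩
  rw [← hC] at hcA hsm ⊢
  obtain ⟨B, hBdef⟩ : ∃ B, B = k6b_v2eB c1 A := ⟨_, rfl⟩
  obtain ⟨T, hTdef⟩ : ∃ T, T = k6b_v2eT c2 A := ⟨_, rfl⟩
  obtain ⟨N, hNdef⟩ : ∃ N, N = k6b_v2eN c1 A := ⟨_, rfl⟩
  obtain ⟨M, hMdef⟩ : ∃ M, M = k6b_v2eM c1 A := ⟨_, rfl⟩
  have hT0 : 0 ≤ T := by rw [hTdef]; exact (k6b_v2e_PB_T c2).nonneg hA
  have hM0 : 0 ≤ M := by rw [hMdef]; exact (k6b_v2e_PB_M c1).nonneg hA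
  have hcB : (c1 : ℝ) * A ^ c1 ≤ B := by rw [hBdef]; unfold k6b_v2eB; linarith
  have hcB0 : 0 ≤ (c1 : ℝ) * A ^ c1 := by positivity
  have hB1 : 1 ≤ B := by rw [hBdef]; unfold k6b_v2eB; linarith
  have hNe : N = 2 * A * (B + 2 * B * (2 * B + 2 * A)) + B := by rw [hNdef, hBdef]; rfl
  have hMe : M = 2 * A ^ 2 + 4 * A ^ 3 + 2 * B + B * (B + 2 * A) * (1 + 3 * B + 2 * A) := by rw [hMdef, hBdef]; rfl
  rw [← hBdef, ← hTdef, ← hNdef, ← hMdef] at hcA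
  have hmono := k6b_v2e_mono K A B hK hKA hB1
  have hNB : B ≤ N := by
    rw [hNe]
    have : 0 ≤ 2 * A * (B + 2 * B * (2 * B + 2 * A)) := by positivity
    linarith
  have hN0 : 0 ≤ N := by linarith
  have hTM0 : 0 ≤ T * M := mul_nonneg hT0 hM0
  have hTA0 : 0 ≤ T * (A + 1) := mul_nonneg hT0 (by linarith)
  have hCN : N ≤ C := by linarith
  have hC2 : A + 2 * B ≤ C := by linarith
  have hC3 : 2 * A ≤ C := by linarith
  have hC4 : T * M ≤ C := by linarith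
  have hC5 : T * (A + 1) ≤ C := by linarith
  have hC1 : 1 ≤ C := by linarith
  have hC0 : 0 < C := by linarith
  have hNh : N * h ≤ a₂ / a := (mul_le_mul_of_nonneg_right hCN hh.le).trans hsm
  have ha1 : a₂ / a ≤ 1 := (div_le_one ha0).2 ha
  have hcore1 : (c1 : ℝ) * A ^ c1 * h ≤ 1 :=
    ((mul_le_mul_of_nonneg_right (hcB.trans hNB) hh.le).trans hNh).trans ha1
  obtain ⟨hcA', hcB'⟩ := hc1 Dl f R uc r 1 A a a₂ h S v ER E7 hCore hcore1
  have hinU : ∀ e ∈ G1, Y.pos e ∈ Metric.closedBall uc r := hB.inU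
  -- common end: from bounds on `G1` to the conclusion
  have fin : ∀ Pn : k6b_QW, Pn.Quad → |Pn.dww| ≤ C / a₂ → (∀ e ∈ G4, 1 ≤ C * |Pn.dw (Y.pos e) (H.wd e)|) →
      (∀ e ∈ G1, |Pn.ev (Y.pos e) (H.wd e)| ≤ M * a₂) → (∀ e ∈ G1, |Pn.dw (Y.pos e) (H.wd e)| ≤ A + 1) →
      ∃ Pn : k6b_QW, Pn.Quad ∧ |Pn.dww| ≤ C / a₂ ∧ (∀ e ∈ G4, 1 ≤ C * |Pn.dw (Y.pos e) (H.wd e)|) ∧
        ∀ e ∈ G4, ∀ τ ∈ Set.Icc (0 : ℝ) 1,
          |Pn.ev (Y.pos (e.1, τ)) (H.wd (e.1, τ))| ≤ C * a₂ ∧ |Pn.dw (Y.pos (e.1, τ)) (H.wd (e.1, τ))| ≤ C := by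
    intro Pn hq h1 h2 h3 h4
    refine ⟨Pn, hq, h1, h2, fun e he τ hτ => ?_⟩
    have key := k6b_v2e_ext c2 hc2 H G1 G4 K A (M * a₂) (A + 1) hK hKA hg hB.G1_meas hB.wit Pn hq h3 h4 e he τ hτ
    have eT : (c2 : ℝ) * (A ^ 2) ^ c2 = T := by rw [hTdef]; rfl
    rw [eT] at key
    refine ⟨key.1.trans ?_, key.2.trans hC5⟩
    rw [← mul_assoc]
    exact mul_le_mul_of_nonneg_right hC4 ha₂.le
  by_cases hcase : S * h ≤ a₂
  · -- case A
    obtain ⟨f2, hf2, hf2b⟩ := hcA' hcase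
    refine fin (k6b_v2eP f2) (k6b_v2eP_quad hf2) ?_ ?_ ?_ ?_
    · rw [k6b_v2eP_dww, abs_zero]
      positivity
    · intro e _
      rw [k6b_v2eP_dw, abs_one, mul_one]
      exact hC1
    · intro e he
      rw [k6b_v2eP_ev]
      have h1 := hnear e he
      have h2 := hf2b _ (hinU e he)
      have h3 : |H.wd e - eval (Y.pos e) f2| ≤ 2 * K * a₂ + c1 * A ^ c1 * a₂ := by
        have e1 : H.wd e - eval (Y.pos e) f2
            = (H.wd e - f.val Dl (Y.pos e)) + (f.val Dl (Y.pos e) - eval (Y.pos e) f2) := by ring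
        rw [e1]
        exact (abs_add_le _ _).trans (add_le_add h1 h2)
      refine h3.trans ?_
      rw [← add_mul]
      refine mul_le_mul_of_nonneg_right ?_ ha₂.le
      rw [hMe]
      have h4 : 0 ≤ B * (B + 2 * A) * (1 + 3 * B + 2 * A) := by positivity
      have h5 : A ≤ A ^ 2 := by nlinarith
      have h6 : 0 ≤ 4 * A ^ 3 := by positivity
      linarith
    · intro e _
      rw [k6b_v2eP_dw, abs_one]
      linarith
  · -- case B
    have hcase := not_le.1 hcase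
    obtain ⟨Q, R2, L1, lam0, hR2, hL1, hlam, hall⟩ := hcB' hcase
    obtain ⟨hS0, hr1', hr2', hr3'⟩ := k6b_v2e_real K B N a a₂ h S hK hB1 (hB1.trans hNB)
      (by rw [hNe]; linarith [hmono.1]) ha₂ ha hh hh1 hcase hNh
    obtain ⟨Lp, hLp⟩ : ∃ Lp, Lp = k6b_tay Dl f 1 uc := ⟨_, rfl⟩
    have hLpd : Lp.totalDegree ≤ 1 := by
      rw [hLp]
      exact ((k6b_jet_calc 3 Dl f 0 uc).2.2.2.2.2 1).1
    rw [← hLp] at hall
    have hpt : ∀ e ∈ G1,
        (k6b_Pnew H.Ps Lp R2 L1 lam0 a S).Quad ∧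
        |(k6b_Pnew H.Ps Lp R2 L1 lam0 a S).ev (Y.pos e) (H.wd e)| ≤ M * a₂ ∧
        |(k6b_Pnew H.Ps Lp R2 L1 lam0 a S).dw (Y.pos e) (H.wd e) - H.Ps.dw (Y.pos e) (H.wd e)| ≤ 1 / (2 * K) ∧
        |(k6b_Pnew H.Ps Lp R2 L1 lam0 a S).dww| ≤ C / a₂ := by
      intro e he
      have hu := hinU e he
      obtain ⟨g1, g2, g3, g4⟩ := hall _ hu
      have hRv : R.val Dl (Y.pos e) = H.Ps.ev (Y.pos e) (f.val Dl (Y.pos e)) / a := by
        rw [hDl]
        exact hBr.Rv _ hu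
      rw [hRv] at g4
      have key := k6b_Pnew_bounds H.Ps Lp R2 L1 lam0 a S K B (2 * K * a₂) (B * h) (B * (a₂ / a + h))
        (eval (Y.pos e - uc) (k6b_qf Q)) (f.val Dl (Y.pos e)) (H.wd e) (Y.pos e) hOk.qs hLpd hR2 hL1 ha0 hS0 hK0.le hB1
        (by positivity) (by positivity) (hnear e he) (hOk.s_dw e (hG1 he)).1 hOk.s_dww (hlam.trans hcB) (g1.trans hcB)
        (g2.trans hcB) (g3.trans (mul_le_mul_of_nonneg_right hcB hh.le))
        (g4.trans (mul_le_mul_of_nonneg_right hcB (by positivity)))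
      obtain ⟨k1, k2, k3, k4⟩ := key
      refine ⟨k1, ?_, k3.trans hr2', ?_⟩
      · refine (k2.trans hr1').trans (mul_le_mul_of_nonneg_right ?_ ha₂.le)
        rw [hMe]
        exact hmono.2
      · refine (k4.trans hr3').trans (div_le_div_of_nonneg_right ?_ ha₂.le)
        linarith
    by_cases hne : G1.Nonempty
    · obtain ⟨e0, he0⟩ := hne
      refine fin (k6b_Pnew H.Ps Lp R2 L1 lam0 a S) (hpt e0 he0).1 (hpt e0 he0).2.2.2 ?_ (fun e he => (hpt e he).2.1) ?_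
      · intro e he
        have he1 := hB.G41 he
        have h1 := (hpt e he1).2.2.1
        have h2 := (hOk.s_dw e (hG1 he1)).2
        obtain ⟨x, hx⟩ : ∃ x, x = (k6b_Pnew H.Ps Lp R2 L1 lam0 a S).dw (Y.pos e) (H.wd e) := ⟨_, rfl⟩
        obtain ⟨y, hy⟩ : ∃ y, y = H.Ps.dw (Y.pos e) (H.wd e) := ⟨_, rfl⟩
        rw [← hx, ← hy] at h1
        rw [← hy] at h2
        rw [← hx]
        have h3 : |y| ≤ |x| + 1 / (2 * K) := by
          have e1 : y = x - (x - y) := by ring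
          calc |y| = |x - (x - y)| := by rw [← e1]
            _ ≤ |x| + |x - y| := abs_sub _ _
            _ ≤ |x| + 1 / (2 * K) := by linarith
        have h4 : 1 ≤ K * |x| + 1 / 2 := by
          have h5 : K * |y| ≤ K * (|x| + 1 / (2 * K)) := mul_le_mul_of_nonneg_left h3 hK0.le
          have e2 : K * (|x| + 1 / (2 * K)) = K * |x| + 1 / 2 := by
            field_simp
          linarith
        have h6 : 2 * K * |x| ≤ C * |x| := mul_le_mul_of_nonneg_right (by linarith) (abs_nonneg x)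
        linarith
      · intro e he
        have h1 := (hpt e he).2.2.1
        have h2 := (hOk.s_dw e (hG1 he)).1
        obtain ⟨x, hx⟩ : ∃ x, x = (k6b_Pnew H.Ps Lp R2 L1 lam0 a S).dw (Y.pos e) (H.wd e) := ⟨_, rfl⟩
        obtain ⟨y, hy⟩ : ∃ y, y = H.Ps.dw (Y.pos e) (H.wd e) := ⟨_, rfl⟩
        rw [← hx, ← hy] at h1
        rw [← hy] at h2
        rw [← hx]
        have h3 : |x| ≤ |y| + 1 / (2 * K) := by
          have e1 : x = y + (x - y) := by ring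
          calc |x| = |y + (x - y)| := by rw [← e1]
            _ ≤ |y| + |x - y| := abs_add_le _ _
            _ ≤ |y| + 1 / (2 * K) := by linarith
        have h4 : 1 / (2 * K) ≤ 1 := by
          rw [div_le_one (by positivity)]
          linarith
        linarith
    · -- no events: any test
      rw [Set.not_nonempty_iff_eq_empty] at hne
      have hG4 : ∀ e, e ∉ G4 := fun e he => by
        have := hB.G41 he
        rw [hne] at this
        exact this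
      refine ⟨k6b_v2eP 0, k6b_v2eP_quad (by simp), ?_, fun e he => absurd he (hG4 e), fun e he => absurd he (hG4 e)⟩
      rw [k6b_v2eP_dww, abs_zero]
      positivity

theorem k6b_v2e : k6b_v2e_stmt := k6b_v2e_of k6b_core

end

end Claimed.Agent.R252
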