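import Claimed.Agent.R252.S6b.Closed
import Claimed.Agent.R252.S6b.MainV1
import Claimed.Agent.R252.S6b.MainV2
import Claimed.Agent.R252.S6b.V2A
import Claimed.Agent.R252.S6b.V2B
import Claimed.Agent.R252.S6b.V2C
import Claimed.Agent.R252.S6b.V2DGlue
import Claimed.Agent.R252.S6b.V2E
import Claimed.Agent.R252.S6b.Entry
import Claimed.Agent.R252.S6b.EntryWf
import Claimed.Agent.R252.S6b.EntryChain
import Claimed.Agent.R252.S6b.EntryGeo
import Claimed.Agent.R252.S6b.EntrySupp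
import Claimed.Agent.R252.S6b.QuadConv
import Claimed.Agent.R252.S6b.Hid
import Claimed.Agent.R252.S6b.Exit1
import Claimed.Agent.R252.S6b.Exit2
import Claimed.Agent.R252.S6b.Hub

/-!
# Row252, unit S6b: THE EXIT OF THE UNIT, closed.      `k6b_hub : k6b_hub_stmt`  (06-isotropic.tex l.1113-1900 at one scale).
-/

set_option autoImplicit false

namespace Claimed.Agent.R252

theorem k6b_main_v1 : k6b_main_v1_stmt :=
  k6b_main_v1_of k6b_conservative k6b_potential k6b_line_var k6b_heavy_group k6b_v1_line k6b_common_tuple k6b_gp4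
    k6b_v1_core

theorem k6b_v2a : k6b_v2a_stmt := k6b_v2a_of k6b_conservative k6b_potential k6b_line_var k6b_heavy_group

theorem k6b_main_v2 : k6b_main_v2_stmt :=
  k6b_main_v2_of k6b_v2a k6b_v2b k6b_v2c k6b_vd_main k6b_v2e k6b_branch k6b_dev_exists

theorem k6b_entry : k6b_entry_stmt :=
  k6b_entry_of (k6b_entry_wf_of k6b_sw_cov) (k6b_entry_chain_of k6b_sw_cov) (k6b_entry_geo_of k6b_sw_cov)
    (k6b_entry_supp_of k6b_sw_cov)

theorem k6b_hid : k6b_hid_stmt := k6b_hid_of k6b_bridge k6b_sw_cov k6b_qw_of_quad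

theorem k6b_exit1 : k6b_exit1_stmt := k6b_exit1_of k6b_bridge k6b_sw_cov k6b_quad_of_p2

theorem k6b_exit2 : k6b_exit2_stmt := k6b_exit2_of k6b_bridge k6b_sw_cov k6b_quad_of_qw

/-- **THE HUB OF S6b** -/
theorem k6b_hub : k6b_hub_stmt :=
  k6b_hub_of k6b_entry k6b_cap2_of_ref k6b_hid k6b_main_v1 k6b_main_v2 k6b_exit1 k6b_exit2

end Claimed.Agent.R252
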