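import Claimed.Agent.R252.S6b.SwitchDefs

/-!
# Row252, unit S6b, part D: the potential and the concentrated intercept groups.
# DEFINITIONS AND STATEMENTS (every statement is a `def ... : Prop`; no `sorry`).

Paper: 06-isotropic.tex l.1270-1353.  ONE scale, explicit slack `K ≥ 1`, normalised units of `SwitchDefs.lean`
(`x = X/h`, `ρ₂ = a₂/h`).  The multilinear Kakeya estimate is used with an `ε`-loss (`R252/Mlk/Main.lean`, `mlk_cells`), so the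
heavy-group floor loses a factor `ξ^ε`, `ε > 0` arbitrary.
-/

set_option autoImplicit false

namespace Claimed.Agent.R252

open MeasureTheory MvPolynomial
open scoped ENNReal BigOperators

noncomputable section

/-- **P1** the potential (l.1272-1283), in coefficient norm.
PLAN.  `P = ∑_i ∑_{μ ∈ supp T_i} monomial (μ + e_i) (coeff / (|μ| + 1))`  (`= ∫_0^1 T(tu)·u dt`).  On the part of degree `k`:
`∂_j P = (k+1)⁻¹ (T_j + ∑_i x_i ∂_j T_i) = (k+1)⁻¹ ((k+1) T_j + ∑_i x_i (∂_j T_i - ∂_i T_j))` by Euler. -/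
def k6b_potential_stmt : Prop :=
  ∀ (m D : ℕ) (T : Fin m → MvPolynomial (Fin m) ℝ) (σ : ℝ), (∀ i, (T i).totalDegree ≤ D) →
    (∀ i j, rmzNm (k6b_curlP T i j) ≤ σ) →
    ∃ P : MvPolynomial (Fin m) ℝ, P.totalDegree ≤ D + 1 ∧ rmzNm P ≤ ∑ i, rmzNm (T i) ∧
      ∀ i, rmzNm (pderiv i P - T i) ≤ m * σ

/-- **P2** variation of `x - P(u)` along a long line (l.1284-1288).
PLAN. `P(pos τ₂) - P(pos τ₁) = ∫ ∇P(pos)·vel` (FTC along the line), `Geo.fit`, `|(∇P - T)(u)| ≤ σ K^D` on `‖u‖ ≤ K`. -/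
def k6b_line_var_stmt : Prop :=
  ∀ (m D : ℕ), ∃ c : ℕ, ∀ (Y : k6b_Sw m) (T : Fin m → MvPolynomial (Fin m) ℝ)
    (P : MvPolynomial (Fin m) ℝ) (K β pv εT σ : ℝ), 1 ≤ K → 0 ≤ σ →
    (∀ i, (T i).totalDegree ≤ D) → P.totalDegree ≤ D + 1 →
    (∀ i, rmzNm (pderiv i P - T i) ≤ σ) → Y.Geo T K β pv εT →
    ∀ l ∈ Y.Lg, ∀ τ₁ ∈ Set.Icc (0 : ℝ) 1, ∀ τ₂ ∈ Set.Icc (0 : ℝ) 1,
      |(Y.x (l, τ₂) - eval (Y.pos (l, τ₂)) P) - (Y.x (l, τ₁) - eval (Y.pos (l, τ₁)) P)|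
        ≤ εT + c * K ^ c * σ

namespace k6b_Sw

variable {m : ℕ} (Y : k6b_Sw m)

/-- weighted duration of the line `l` inside the family `F` -/
def durF (F : Set (Y.Lam × ℝ)) (l : Y.Lam) : ℝ≥0∞ :=
  ∫⁻ τ in Set.Icc (0 : ℝ) 1, F.indicator Y.g (l, τ)

end k6b_Sw

/-- **PR0** first pruning: keep the long lines, then the states that keep half of their mass. -/
def k6b_prune0_stmt : Prop :=
  ∀ (m : ℕ) (Y : k6b_Sw m) (η : ℝ≥0∞), Y.WF → Y.mu {e | e.1 ∉ Y.Lg} ≤ η →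
    ∃ F0 : Set (Y.Lam × ℝ), MeasurableSet F0 ∧ F0 ⊆ Y.sup ∧ (∀ e ∈ F0, e.1 ∈ Y.Lg) ∧
      1 ≤ Y.mu F0 + 3 * η ∧ ∀ e ∈ F0, Y.mu (Y.stE (Y.st e)) ≤ 2 * Y.mu (F0 ∩ Y.stE (Y.st e))

/-- **PR** THE PRUNING LEMMA (l.1303-1322 and l.1640-1655): append a label `lab` with `≤ ns` options per state and `≤ nl`
options per line.
`F1` = delete in every state the labels of fraction `< φ`;
`F2` = delete the line/label portions of weighted duration `< 1/K1` inside `F1`;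
`F3` = delete the (state,label) entries which lost more than half from `F1` to `F2`;
`F4` = delete the labels which lost more than half from `F1` to `F3`.
Losses: `ns φ μ(F0)`, then `L₂ ≤ nl ν(Lam)/K1` (Fubini), `L₃ ≤ L₂`, `L₄ ≤ L₂ + L₃`.  Only the labels of the finitely many lists occur. -/
def k6b_prune_stmt : Prop :=
  ∀ (m : ℕ) (Y : k6b_Sw m) (Lb : Type) (lab : Y.Lam × ℝ → Lb) (F0 : Set (Y.Lam × ℝ))
    (ns nl : ℕ) (φ K1 : ℝ≥0∞), Y.WF → MeasurableSet F0 → (∀ b, MeasurableSet (lab ⁻¹' {b})) →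
    (∀ s, ∃ L : Finset Lb, L.card ≤ ns ∧ ∀ e ∈ F0, Y.st e = s → lab e ∈ L) →
    (∀ l, ∃ L : Finset Lb, L.card ≤ nl ∧ ∀ τ, (l, τ) ∈ F0 → lab (l, τ) ∈ L) →
    ∃ F1 F4 : Set (Y.Lam × ℝ), MeasurableSet F1 ∧ MeasurableSet F4 ∧ F4 ⊆ F1 ∧ F1 ⊆ F0 ∧
      Y.mu F0 ≤ Y.mu F4 + ns * φ * Y.mu F0 + 4 * nl * Y.nu Set.univ / K1 ∧
      (∀ e ∈ F4, φ * Y.mu (F0 ∩ Y.stE (Y.st e))
        ≤ 2 * Y.mu (F4 ∩ Y.stE (Y.st e) ∩ lab ⁻¹' {lab e})) ∧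
      (∀ e ∈ F4, 1 ≤ K1 * Y.durF (F1 ∩ lab ⁻¹' {lab e}) e.1) ∧
      (∀ e ∈ F4, Y.mu (F1 ∩ lab ⁻¹' {lab e}) ≤ 2 * Y.mu (F4 ∩ lab ⁻¹' {lab e}))

/-- **PRf** the pruning lemma with the FINE loss term: only the prior weight of the lines that meet `F0` with positive duration is paid.
(Needed in version 2, where `F0` is ONE heavy group of tiny mass `~ κ` whose lines have prior weight `≤ 128 K μ(F0)`.)
PLAN: the proof of `k6b_prune` (`Prune.lean`); in `k6b_pr_short` the integrand vanishes on the lines with `durF F l = 0`. -/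
def k6b_prune_fine_stmt : Prop :=
  ∀ (m : ℕ) (Y : k6b_Sw m) (Lb : Type) (lab : Y.Lam × ℝ → Lb) (F0 : Set (Y.Lam × ℝ))
    (ns nl : ℕ) (φ K1 : ℝ≥0∞), Y.WF → MeasurableSet F0 → (∀ b, MeasurableSet (lab ⁻¹' {b})) →
    (∀ s, ∃ L : Finset Lb, L.card ≤ ns ∧ ∀ e ∈ F0, Y.st e = s → lab e ∈ L) →
    (∀ l, ∃ L : Finset Lb, L.card ≤ nl ∧ ∀ τ, (l, τ) ∈ F0 → lab (l, τ) ∈ L) →
    ∃ F1 F4 : Set (Y.Lam × ℝ), MeasurableSet F1 ∧ MeasurableSet F4 ∧ F4 ⊆ F1 ∧ F1 ⊆ F0 ∧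
      Y.mu F0 ≤ Y.mu F4 + ns * φ * Y.mu F0 + 4 * nl * Y.nu {l | 0 < Y.durF F0 l} / K1 ∧
      (∀ e ∈ F4, φ * Y.mu (F0 ∩ Y.stE (Y.st e))
        ≤ 2 * Y.mu (F4 ∩ Y.stE (Y.st e) ∩ lab ⁻¹' {lab e})) ∧
      (∀ e ∈ F4, 1 ≤ K1 * Y.durF (F1 ∩ lab ⁻¹' {lab e}) e.1) ∧
      (∀ e ∈ F4, Y.mu (F1 ∩ lab ⁻¹' {lab e}) ≤ 2 * Y.mu (F4 ∩ lab ⁻¹' {lab e}))

/-- **G1** A BROAD FAMILY OF LINES FILLS THE BASE (l.1324-1337): multilinear Kakeya for a line MEASURE + power mean.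
PLAN.  Cell of a state := cell of one of its events; a line spends time `≤ 2ξ` in the events assigned to one cell (`vel l i0 = 1`), so
`d(l,E) ≤ 2Kξ`.  The velocity law of a cell is a mixture of state laws: every strip has conditional mass `≤ 1/(4m)`; `m` independent
draws have `|det| ≥ θ = (w/K)^c` with probability `≥ 1/2` (sequential avoidance, cofactor functionals).  Round `(u0 l, vel l / K)` to a mesh
`≪ ξ θ`: finitely many classes, weights `ν(class ∩ {durF > 0})`; `m_E^m ≤ 2 (2Kξ)^m mlkCount`; `mlk_cells` with `ε/(m-1)`. -/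
def k6b_cells_stmt : Prop :=
  ∀ (m : ℕ) (ε : ℝ), 2 ≤ m → 0 < ε → ∃ (c : ℝ) (k : ℕ), 0 < c ∧ ∀ (Y : k6b_Sw m)
    (F : Set (Y.Lam × ℝ)) (K ξ w : ℝ) (cells : Finset (Fin m → ℤ)),
    1 ≤ K → 0 < ξ → ξ ≤ 1 → 0 < w → w ≤ 1 → Y.WF → MeasurableSet F → F ⊆ Y.sup → 0 < Y.mu F →
    (∀ e ∈ F, Y.g e ≤ ENNReal.ofReal K) → (∀ e ∈ F, ‖Y.pos e‖ ≤ K) → (∀ l, ‖Y.vel l‖ ≤ K) →
    (∃ i0, ∀ l, Y.vel l i0 = 1) →
    (∀ e ∈ F, ∀ e' ∈ F, Y.st e = Y.st e' → ‖Y.pos e - Y.pos e'‖ ≤ ξ) →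
    (∀ (s : Y.St) (a : Fin m → ℝ), (∃ i, 1 ≤ |a i|) →
      Y.mu (F ∩ Y.stE s ∩ {e | |a ⬝ᵥ Y.vel e.1| ≤ w})
        ≤ ENNReal.ofReal (1 / (4 * m)) * Y.mu (F ∩ Y.stE s)) →
    Y.nu {l | 0 < Y.durF F l} ≤ ENNReal.ofReal K * Y.mu F →
    (∀ e ∈ F, (fun i => ⌊Y.pos e i / ξ⌋) ∈ cells) →
    ξ ^ (-(m : ℝ) + ε) ≤ c * (K / w) ^ k * cells.card

/-- hypotheses for the grouping: bounded prior and density, potential fit with intercept `ic l` on the long lines, joint support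
count `Nc2` at the mesh `(ξ, ρ₂)` -/
structure k6b_Sw.Grp {m : ℕ} (Y : k6b_Sw m) (P : MvPolynomial (Fin m) ℝ) (ic : Y.Lam → ℝ)
    (K ξ ρ₂ εP : ℝ) (Nc2 : ℕ) : Prop where
  nu_le : Y.nu Set.univ ≤ ENNReal.ofReal K
  g_le : ∀ e, Y.g e ≤ ENNReal.ofReal K
  time : ∃ i0, ∀ l, Y.vel l i0 = 1
  ic_meas : Measurable ic
  fit : ∀ l ∈ Y.Lg, ∀ τ ∈ Set.Icc (0 : ℝ) 1, |Y.x (l, τ) - eval (Y.pos (l, τ)) P - ic l| ≤ εP
  cells : ∃ S : Finset ((Fin m → ℤ) × ℤ), S.card ≤ Nc2 ∧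
    ∀ e ∈ Y.sup, ((fun i => ⌊Y.pos e i / ξ⌋), ⌊Y.x e / ρ₂⌋) ∈ S

/-- **G = the heavy intercept group** (l.1289-1353), one scale.  Output: a group `C` (bin of the intercept at width `ρ₂`), its final
family `F4`, the immediately preceding family `F1`:  heavy mass, fat states (fraction `1/64` of the ORIGINAL state), long witnesses.
PLAN.  PR0 (`η = 1/64`), PR with `lab e = ⌊ic e.1 / ρ₂⌋`, `ns = 2` (`close`, `fit`: intercepts in one state differ by `≤ 2εP + (cK^c+1)β ≤ ρ₂`),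
`nl = 1`, `φ = 1/8`, `K1 = 64 K`.  So `μ(F4) ≥ 1/2`.  For each occurring group `C`: G1 for `F4 ∩ {lab = C}` (strips: `c0 * 64 ≤ 1/(4m)`; prior weight
`≤ K1 μ(F1 ∩ C) ≤ 2 K1 μ(F4 ∩ C)`): `≥ N₀ = ξ^{-m+ε}/(c K^k)` base cells.  A joint cell pays for `≤ c K^c` groups
(`|ic - (x - P(u))| ≤ εP`, `P` varies by `≤ c K^c ξ ≤ ρ₂` on a base cell).  `#groups * N₀ ≤ c K^c Nc2`.  Pigeonhole. -/
def k6b_heavy_group_stmt : Prop :=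
  ∀ (m D : ℕ) (ε : ℝ), (m = 2 ∨ m = 3) → 0 < ε → ∃ (c : ℝ) (k : ℕ), 0 < c ∧ ∀ (Y : k6b_Sw m)
    (T : Fin m → MvPolynomial (Fin m) ℝ) (P : MvPolynomial (Fin m) ℝ) (ic : Y.Lam → ℝ)
    (K β pv εT ξ ρ₂ εP : ℝ) (c0 : ℝ≥0∞) (Nc2 : ℕ),
    1 ≤ K → 0 < ξ → ξ ≤ 1 → 0 < ρ₂ → 0 ≤ β → 0 ≤ εP → P.totalDegree ≤ D → rmzNm P ≤ K →
    Y.WF → Y.Chain (ENNReal.ofReal K) c0 (1 / 64) (1 / K) → c0 ≤ 1 / 1024 →
    Y.Geo T K β pv εT → Y.Grp P ic K ξ ρ₂ εP Nc2 →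
    β ≤ ξ → c * K ^ k * (εP + β + ξ) ≤ ρ₂ →
    ∃ (C : ℤ) (F1 F4 : Set (Y.Lam × ℝ)), MeasurableSet F1 ∧ MeasurableSet F4 ∧ F4 ⊆ F1 ∧
      F1 ⊆ Y.sup ∧ (∀ e ∈ F1, e.1 ∈ Y.Lg ∧ ⌊ic e.1 / ρ₂⌋ = C) ∧
      1 ≤ ENNReal.ofReal (c * K ^ k * (Nc2 * ξ ^ ((m : ℝ) - ε))) * Y.mu F4 ∧
      (∀ e ∈ F4, Y.mu (Y.stE (Y.st e)) ≤ 64 * Y.mu (F4 ∩ Y.stE (Y.st e))) ∧
      (∀ e ∈ F4, 1 ≤ ENNReal.ofReal (64 * K) * Y.durF F1 e.1) ∧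
      Y.nu {l | 0 < Y.durF F4 l} ≤ ENNReal.ofReal (128 * K) * Y.mu F4

end

end Claimed.Agent.R252
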