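import Claimed.Agent.R252.S6b.FormContract

/-!
# Row252, unit S6b, leaf L-252-S6b-T6: auxiliary lemmas for the real conic (`k6b_real_conic`)
-/

set_option autoImplicit false

namespace Claimed.Agent.R252

open MvPolynomial

theorem k6b_rc_frame_det (a b c : Fin 3 → ℝ) :
    (k6b_frame a b c).det = a 0 * b 1 * c 2 - a 0 * c 1 * b 2 - b 0 * a 1 * c 2
      + b 0 * c 1 * a 2 + c 0 * a 1 * b 2 - c 0 * b 1 * a 2 := by
  simp [k6b_frame, Matrix.det_fin_three]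
  ring

theorem k6b_rc_qf_expl (Q : Matrix (Fin 3) (Fin 3) ℝ) (hQ : Q.IsSymm) (x : Fin 3 → ℝ) :
    eval x (k6b_qf Q) = Q 0 0 * x 0 ^ 2 + Q 1 1 * x 1 ^ 2 + Q 2 2 * x 2 ^ 2
      + 2 * (Q 1 2 * (x 1 * x 2) + Q 0 2 * (x 0 * x 2) + Q 0 1 * (x 0 * x 1)) := by
  simp only [k6b_qf, Fin.sum_univ_three, map_add, map_mul, eval_C, eval_X]
  rw [hQ.apply 0 1, hQ.apply 0 2, hQ.apply 1 2]
  ring

theorem k6b_rc_det_symm (Q : Matrix (Fin 3) (Fin 3) ℝ) (hQ : Q.IsSymm) :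
    Q.det = Q 0 0 * Q 1 1 * Q 2 2 + 2 * (Q 1 2 * Q 0 2 * Q 0 1)
      - Q 0 0 * Q 1 2 ^ 2 - Q 1 1 * Q 0 2 ^ 2 - Q 2 2 * Q 0 1 ^ 2 := by
  rw [Matrix.det_fin_three, hQ.apply 0 1, hQ.apply 0 2, hQ.apply 1 2]
  ring

theorem k6b_rc_prod3 {a b c a' b' c' A η : ℝ} (ha : |a| ≤ A) (hb : |b| ≤ A) (hc : |c| ≤ A)
    (ha' : |a' - a| ≤ η) (hb' : |b' - b| ≤ η) (hc' : |c' - c| ≤ η) (hη : η ≤ A) :
    |a' * b' * c' - a * b * c| ≤ 7 * A ^ 2 * η := by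
  have hA : 0 ≤ A := le_trans (abs_nonneg _) ha
  have hη0 : 0 ≤ η := le_trans (abs_nonneg _) ha'
  have hb2 : |b'| ≤ 2 * A := by
    have : |b'| ≤ |b' - b| + |b| := by
      have := abs_add_le (b' - b) b
      simpa using this
    linarith
  have hc2 : |c'| ≤ 2 * A := by
    have : |c'| ≤ |c' - c| + |c| := by
      have := abs_add_le (c' - c) c
      simpa using this
    linarith
  have e : a' * b' * c' - a * b * c = (a' - a) * b' * c' + a * (b' - b) * c' + a * b * (c' - c) := by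
    ring
  rw [e]
  have t1 : |(a' - a) * b' * c'| ≤ η * (2 * A) * (2 * A) := by
    rw [abs_mul, abs_mul]
    exact mul_le_mul (mul_le_mul ha' hb2 (abs_nonneg _) hη0) hc2 (abs_nonneg _) (by positivity)
  have t2 : |a * (b' - b) * c'| ≤ A * η * (2 * A) := by
    rw [abs_mul, abs_mul]
    exact mul_le_mul (mul_le_mul ha hb' (abs_nonneg _) hA) hc2 (abs_nonneg _) (by positivity)
  have t3 : |a * b * (c' - c)| ≤ A * A * η := by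
    rw [abs_mul, abs_mul]
    exact mul_le_mul (mul_le_mul ha hb (abs_nonneg _) hA) hc' (abs_nonneg _) (by positivity)
  have := abs_add_three ((a' - a) * b' * c') (a * (b' - b) * c') (a * b * (c' - c))
  nlinarith

theorem k6b_rc_det_pert {a b c a' b' c' : Fin 3 → ℝ} {A η : ℝ} (ha : ∀ j, |a j| ≤ A)
    (hb : ∀ j, |b j| ≤ A) (hc : ∀ j, |c j| ≤ A) (ha' : ∀ j, |a' j - a j| ≤ η)
    (hb' : ∀ j, |b' j - b j| ≤ η) (hc' : ∀ j, |c' j - c j| ≤ η) (hη : η ≤ A) :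
    |(k6b_frame a' b' c').det - (k6b_frame a b c).det| ≤ 42 * A ^ 2 * η := by
  rw [k6b_rc_frame_det, k6b_rc_frame_det]
  have h1 := k6b_rc_prod3 (ha 0) (hb 1) (hc 2) (ha' 0) (hb' 1) (hc' 2) hη
  have h2 := k6b_rc_prod3 (ha 0) (hc 1) (hb 2) (ha' 0) (hc' 1) (hb' 2) hη
  have h3 := k6b_rc_prod3 (hb 0) (ha 1) (hc 2) (hb' 0) (ha' 1) (hc' 2) hη
  have h4 := k6b_rc_prod3 (hb 0) (hc 1) (ha 2) (hb' 0) (hc' 1) (ha' 2) hη
  have h5 := k6b_rc_prod3 (hc 0) (ha 1) (hb 2) (hc' 0) (ha' 1) (hb' 2) hη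
  have h6 := k6b_rc_prod3 (hc 0) (hb 1) (ha 2) (hc' 0) (hb' 1) (ha' 2) hη
  rw [abs_le] at h1 h2 h3 h4 h5 h6 ⊢
  constructor <;> linarith [h1.1, h1.2, h2.1, h2.2, h3.1, h3.2, h4.1, h4.2, h5.1, h5.2, h6.1, h6.2]

theorem k6b_rc_GP_pert {n : ℕ} {A η : ℝ} {p p' : Fin n → Fin 3 → ℝ} (hA : 2 ≤ A)
    (h : k6b_GP n A p) (hp : ∀ i j, |p' i j - p i j| ≤ η) (hη0 : 0 ≤ η) (hη : 84 * A ^ 3 * η ≤ 1) :
    k6b_GP n (2 * A) p' := by
  have hA0 : (0 : ℝ) < A := by linarith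
  have hA3 : (1 : ℝ) ≤ A ^ 3 := one_le_pow₀ (by linarith)
  have hηA : η ≤ A := by nlinarith
  constructor
  · intro i j
    have : |p' i j| ≤ |p' i j - p i j| + |p i j| := by
      have := abs_add_le (p' i j - p i j) (p i j)
      simpa using this
    have := hp i j
    have := h.bd i j
    linarith
  · intro i j k hij hjk hik
    have h1 := h.det i j k hij hjk hik
    have h2 := k6b_rc_det_pert (h.bd i) (h.bd j) (h.bd k) (hp i) (hp j) (hp k) hηA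
    have h3 : 42 * A ^ 2 * η ≤ (2 * A)⁻¹ := by
      rw [← one_div, le_div_iff₀ (by positivity)]
      linarith
    have h4 : A⁻¹ = (2 * A)⁻¹ + (2 * A)⁻¹ := by
      field_simp
      norm_num
    have h5 : |(k6b_frame (p i) (p j) (p k)).det| ≤ |(k6b_frame (p' i) (p' j) (p' k)).det|
        + |(k6b_frame (p' i) (p' j) (p' k)).det - (k6b_frame (p i) (p j) (p k)).det| := by
      have := abs_sub_abs_le_abs_sub (k6b_frame (p i) (p j) (p k)).det (k6b_frame (p' i) (p' j) (p' k)).det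
      rw [abs_sub_comm] at this
      linarith
    linarith

/-- a real root of `q0 + g t + a t²` near `0`. -/
theorem k6b_rc_ivt (q0 g a : ℝ) (hg : g ≠ 0) (h : 4 * |a| * |q0| ≤ g ^ 2) :
    ∃ t : ℝ, |t| ≤ 2 * |q0| / |g| ∧ q0 + g * t + a * t ^ 2 = 0 := by
  set T : ℝ := -2 * q0 / g with hT
  have hc : ContinuousOn (fun t : ℝ => q0 + g * t + a * t ^ 2) (Set.uIcc 0 T) := by fun_prop
  have hiv := intermediate_value_uIcc hc
  have hg2 : 0 < g ^ 2 := by positivity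
  have hfT : q0 + g * T + a * T ^ 2 = -q0 * (1 - 4 * a * q0 / g ^ 2) := by
    rw [hT]; field_simp; ring
  have h1 : 0 ≤ 1 - 4 * a * q0 / g ^ 2 := by
    rw [sub_nonneg, div_le_one hg2]
    calc 4 * a * q0 ≤ |4 * a * q0| := le_abs_self _
      _ = 4 * |a| * |q0| := by rw [abs_mul, abs_mul]; norm_num
      _ ≤ g ^ 2 := h
  have hmem : (0 : ℝ) ∈ Set.uIcc ((fun t : ℝ => q0 + g * t + a * t ^ 2) 0)
      ((fun t : ℝ => q0 + g * t + a * t ^ 2) T) := by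
    simp only [hfT]
    rw [Set.mem_uIcc]
    rcases le_total 0 q0 with hq | hq
    · right
      constructor
      · nlinarith
      · simpa using hq
    · left
      constructor
      · simpa using hq
      · nlinarith
  obtain ⟨t, ht, hft⟩ := hiv hmem
  refine ⟨t, ?_, hft⟩
  have := Set.abs_sub_left_of_mem_uIcc ht
  simp only [sub_zero] at this
  refine le_trans this (le_of_eq ?_)
  rw [hT, abs_div, abs_mul]
  norm_num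

theorem k6b_rc_move (Q : Matrix (Fin 3) (Fin 3) ℝ) (hQ : Q.IsSymm) (x : Fin 3 → ℝ) (j : Fin 3)
    (t : ℝ) : eval (Function.update x j (x j + t)) (k6b_qf Q)
      = eval x (k6b_qf Q) + 2 * Q.mulVec x j * t + Q j j * t ^ 2 := by
  rw [k6b_rc_qf_expl Q hQ, k6b_rc_qf_expl Q hQ]
  fin_cases j
  · simp [Matrix.mulVec, dotProduct, Fin.sum_univ_three]
    ring
  · simp [Matrix.mulVec, dotProduct, Fin.sum_univ_three, hQ.apply 0 1]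
    ring
  · simp [Matrix.mulVec, dotProduct, Fin.sum_univ_three, hQ.apply 0 2, hQ.apply 1 2]
    ring

theorem k6b_rc_grad {A ε : ℝ} (Q : Matrix (Fin 3) (Fin 3) ℝ) (x : Fin 3 → ℝ)
    (hA : 2 ≤ A) (hQb : ∀ i j, |Q i j| ≤ A) (hd : 1 ≤ A ^ 225 * |Q.det|) (hx0 : x 0 = 1)
    (hx : ∀ j, |x j| ≤ A) (hq : |eval x (k6b_qf Q)| ≤ ε) (hε : A ^ 229 * ε ≤ 1) :
    ∃ j : Fin 3, j ≠ 0 ∧ 1 ≤ A ^ 232 * |Q.mulVec x j| := by
  have hA0 : (0 : ℝ) < A := by linarith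
  have hε0 : 0 ≤ ε := le_trans (abs_nonneg _) hq
  have hδ : (0 : ℝ) < (A ^ 225)⁻¹ := by positivity
  have hd' : (A ^ 225)⁻¹ ≤ |Q.det| := by
    rw [inv_le_iff_one_le_mul₀' (by positivity)]
    exact hd
  have hinv : ∀ i j, |Q⁻¹ i j| ≤ 2 * A ^ 227 := by
    intro i j
    refine le_trans (k6b_inv_entry Q A _ hδ hQb hd' i j) (le_of_eq ?_)
    rw [div_inv_eq_mul]
    ring
  have hdet : IsUnit Q.det := by
    rw [isUnit_iff_ne_zero]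
    intro h0
    rw [h0] at hd
    norm_num at hd
  set h := Q.mulVec x with hh
  have hx' : x = Q⁻¹.mulVec h := by
    rw [hh, Matrix.mulVec_mulVec, Matrix.nonsing_inv_mul _ hdet, Matrix.one_mulVec]
  have h1 : (1 : ℝ) = Q⁻¹ 0 0 * h 0 + Q⁻¹ 0 1 * h 1 + Q⁻¹ 0 2 * h 2 := by
    have : x 0 = Q⁻¹.mulVec h 0 := congrFun hx' 0
    rw [hx0] at this
    rw [this]
    simp [Matrix.mulVec, dotProduct, Fin.sum_univ_three]
  set P : ℝ := A ^ 227 with hP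
  have hP0 : 0 < P := by positivity
  have e229 : A ^ 229 = P * A ^ 2 := by rw [hP]; ring
  have e232 : A ^ 232 = P * A ^ 5 := by rw [hP]; ring
  clear_value P
  have h2 : (1 : ℝ) ≤ 2 * P * (|h 0| + |h 1| + |h 2|) := by
    have t : ∀ j, |Q⁻¹ 0 j * h j| ≤ 2 * P * |h j| := by
      intro j
      rw [abs_mul]
      exact mul_le_mul_of_nonneg_right (hinv 0 j) (abs_nonneg _)
    have := abs_add_three (Q⁻¹ 0 0 * h 0) (Q⁻¹ 0 1 * h 1) (Q⁻¹ 0 2 * h 2)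
    rw [← h1] at this
    have t0 := t 0
    have t1 := t 1
    have t2 := t 2
    have : |(1 : ℝ)| = 1 := abs_one
    nlinarith
  have h3 : eval x (k6b_qf Q) = h 0 + x 1 * h 1 + x 2 * h 2 := by
    rw [k6b_qf_eval, ← hh]
    simp [dotProduct, Fin.sum_univ_three, hx0]
  have h4 : |h 0| ≤ ε + A * (|h 1| + |h 2|) := by
    have e : h 0 = eval x (k6b_qf Q) - x 1 * h 1 - x 2 * h 2 := by rw [h3]; ring
    have t1 : |x 1 * h 1| ≤ A * |h 1| := by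
      rw [abs_mul]; exact mul_le_mul_of_nonneg_right (hx 1) (abs_nonneg _)
    have t2 : |x 2 * h 2| ≤ A * |h 2| := by
      rw [abs_mul]; exact mul_le_mul_of_nonneg_right (hx 2) (abs_nonneg _)
    have t3 : |h 0| ≤ |eval x (k6b_qf Q)| + |x 1 * h 1| + |x 2 * h 2| := by
      conv_lhs => rw [e]
      refine le_trans (abs_sub _ _) ?_
      gcongr
      exact abs_sub _ _
    linarith
  by_contra hcon
  push Not at hcon
  have c1 := hcon 1 (by decide)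
  have c2 := hcon 2 (by decide)
  set s := |h 1| + |h 2| with hs
  have hs0 : 0 ≤ s := by positivity
  rw [e232] at c1 c2
  rw [e229] at hε
  have c3 : A ^ 5 * (P * s) < 2 := by
    rw [hs]; nlinarith
  have hX : 4 * (P * ε) ≤ 1 := by
    have : (4 : ℝ) ≤ A ^ 2 := by nlinarith
    have hPe : 0 ≤ P * ε := by positivity
    nlinarith
  have h8 : 8 * (A + 1) ≤ A ^ 5 := by
    have a3 : (8 : ℝ) ≤ A ^ 3 := by
      have := pow_le_pow_left₀ (by norm_num : (0 : ℝ) ≤ 2) hA 3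
      norm_num at this
      exact this
    have a2 : A + 1 ≤ A ^ 2 := by nlinarith
    calc 8 * (A + 1) ≤ A ^ 3 * A ^ 2 := mul_le_mul a3 a2 (by linarith) (by positivity)
      _ = A ^ 5 := by ring
  have hY : 8 * (A + 1) * (P * s) < 2 := by
    have hPs : 0 ≤ P * s := by positivity
    have := mul_le_mul_of_nonneg_right h8 hPs
    linarith
  have h5 : (1 : ℝ) ≤ 2 * (P * ε) + 2 * (A + 1) * (P * s) := by
    have : |h 0| + |h 1| + |h 2| ≤ ε + (A + 1) * s := by rw [hs] at h4 ⊢; linarith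
    have := mul_le_mul_of_nonneg_left this (by positivity : 0 ≤ 2 * P)
    nlinarith
  linarith

theorem k6b_rc_transfer {A ε ki kj ni nj : ℝ} (hA : 2 ≤ A) (hε0 : 0 ≤ ε)
    (hS : |ki * nj - kj * ni| ≤ A ^ 34 * ε) (hki : 1 ≤ A ^ 13 * |ki|) (hnj : 1 ≤ A ^ 24 * |nj|)
    (hni : |ni| ≤ A ^ 33) (hε : A ^ 72 * ε ≤ 1) : 1 ≤ A ^ 71 * |kj| := by
  have hA0 : (0 : ℝ) < A := by linarith
  have h1 : 1 ≤ (A ^ 13 * |ki|) * (A ^ 24 * |nj|) := one_le_mul_of_one_le_of_one_le hki hnj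
  have h2 : |ki| * |nj| ≤ |kj| * |ni| + A ^ 34 * ε := by
    rw [← abs_mul, ← abs_mul]
    have := abs_sub_abs_le_abs_sub (ki * nj) (kj * ni)
    linarith
  have h3 : |kj| * |ni| ≤ |kj| * A ^ 33 := mul_le_mul_of_nonneg_left hni (abs_nonneg _)
  have h4 : A ^ 37 * (|ki| * |nj|) ≤ A ^ 37 * (|kj| * A ^ 33 + A ^ 34 * ε) :=
    mul_le_mul_of_nonneg_left (by linarith) (by positivity)
  have h5 : 2 * (A ^ 71 * ε) ≤ A ^ 72 * ε := by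
    have : A ^ 72 * ε = A * (A ^ 71 * ε) := by ring
    rw [this]
    exact mul_le_mul_of_nonneg_right hA (mul_nonneg (pow_nonneg hA0.le _) hε0)
  have h6 : 2 * (A ^ 70 * |kj|) ≤ A ^ 71 * |kj| := by
    have : A ^ 71 * |kj| = A * (A ^ 70 * |kj|) := by ring
    rw [this]
    exact mul_le_mul_of_nonneg_right hA (mul_nonneg (pow_nonneg hA0.le _) (abs_nonneg _))
  have e1 : (A ^ 13 * |ki|) * (A ^ 24 * |nj|) = A ^ 37 * (|ki| * |nj|) := by ring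
  have e2 : A ^ 37 * (|kj| * A ^ 33 + A ^ 34 * ε) = A ^ 70 * |kj| + A ^ 71 * ε := by ring
  linarith

theorem k6b_rc_kw {B ε d0 d1 d2 k0 k1 k2 u0 u1 u2 : ℝ} (hB : 1 ≤ B) (hd0 : |d0| ≤ ε)
    (hd1 : |d1| ≤ ε) (hd2 : |d2| ≤ ε) (hu0 : |u0| ≤ B) (hu1 : |u1| ≤ B) (hu2 : |u2| ≤ B)
    (hq : |d0 * u0 ^ 2 + d1 * u1 ^ 2 + d2 * u2 ^ 2
      + 2 * (k0 * (u1 * u2) + k1 * (u0 * u2) + k2 * (u0 * u1))| ≤ ε) :
    |k0 * (u1 * u2) + k1 * (u0 * u2) + k2 * (u0 * u1)| ≤ 2 * B ^ 2 * ε := by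
  have hε0 : 0 ≤ ε := le_trans (abs_nonneg _) hd0
  have t : ∀ d u : ℝ, |d| ≤ ε → |u| ≤ B → |d * u ^ 2| ≤ ε * B ^ 2 := by
    intro d u hd hu
    rw [abs_mul, abs_pow]
    exact mul_le_mul hd (pow_le_pow_left₀ (abs_nonneg _) hu 2) (by positivity) hε0
  have t0 := t d0 u0 hd0 hu0
  have t1 := t d1 u1 hd1 hu1
  have t2 := t d2 u2 hd2 hu2
  have hB2 : 1 ≤ B ^ 2 := one_le_pow₀ hB
  have hεB : ε ≤ ε * B ^ 2 := le_mul_of_one_le_right hε0 hB2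
  rw [abs_le] at hq t0 t1 t2 ⊢
  constructor <;> linarith [hq.1, hq.2, t0.1, t0.2, t1.1, t1.2, t2.1, t2.2]

theorem k6b_rc_cross {B R a1 a2 b1 b2 r s : ℝ} (ha1 : |a1| ≤ B) (ha2 : |a2| ≤ B) (hb1 : |b1| ≤ B)
    (hb2 : |b2| ≤ B) (hr : |r| ≤ R) (hs : |s| ≤ R) :
    |a1 * a2 * s - b1 * b2 * r| ≤ 2 * B ^ 2 * R := by
  have hB : 0 ≤ B := le_trans (abs_nonneg _) ha1
  have hR : 0 ≤ R := le_trans (abs_nonneg _) hr
  have t1 : |a1 * a2 * s| ≤ B * B * R := by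
    rw [abs_mul, abs_mul]
    exact mul_le_mul (mul_le_mul ha1 ha2 (abs_nonneg _) hB) hs (abs_nonneg _) (by positivity)
  have t2 : |b1 * b2 * r| ≤ B * B * R := by
    rw [abs_mul, abs_mul]
    exact mul_le_mul (mul_le_mul hb1 hb2 (abs_nonneg _) hB) hr (abs_nonneg _) (by positivity)
  have := abs_sub (a1 * a2 * s) (b1 * b2 * r)
  nlinarith

theorem k6b_rc_N_low {A u v m : ℝ} (hu : 1 ≤ A ^ 8 * |u|) (hv : 1 ≤ A ^ 8 * |v|)
    (hm : 1 ≤ A ^ 8 * |m|) : 1 ≤ A ^ 24 * |u * v * m| := by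
  have := one_le_mul_of_one_le_of_one_le (one_le_mul_of_one_le_of_one_le hu hv) hm
  rw [abs_mul, abs_mul]
  calc (1 : ℝ) ≤ A ^ 8 * |u| * (A ^ 8 * |v|) * (A ^ 8 * |m|) := this
    _ = A ^ 24 * (|u| * |v| * |m|) := by ring

theorem k6b_rc_N_up {A u v a b c d : ℝ} (hA : 2 ≤ A) (hu : |u| ≤ A ^ 8) (hv : |v| ≤ A ^ 8)
    (ha : |a| ≤ A ^ 8) (hb : |b| ≤ A ^ 8) (hc : |c| ≤ A ^ 8) (hd : |d| ≤ A ^ 8) :
    |u * v * (a * b - c * d)| ≤ A ^ 33 := by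
  have hA0 : (0 : ℝ) < A := by linarith
  have hB : (0 : ℝ) ≤ A ^ 8 := by positivity
  have t1 : |a * b| ≤ A ^ 8 * A ^ 8 := by
    rw [abs_mul]; exact mul_le_mul ha hb (abs_nonneg _) hB
  have t2 : |c * d| ≤ A ^ 8 * A ^ 8 := by
    rw [abs_mul]; exact mul_le_mul hc hd (abs_nonneg _) hB
  have t3 : |a * b - c * d| ≤ 2 * (A ^ 8 * A ^ 8) := by
    have := abs_sub (a * b) (c * d)
    linarith
  rw [abs_mul, abs_mul]
  calc |u| * |v| * |a * b - c * d| ≤ A ^ 8 * A ^ 8 * (2 * (A ^ 8 * A ^ 8)) :=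
        mul_le_mul (mul_le_mul hu hv (abs_nonneg _) hB) t3 (abs_nonneg _) (by positivity)
    _ = 2 * A ^ 32 := by ring
    _ ≤ A * A ^ 32 := mul_le_mul_of_nonneg_right hA (by positivity)
    _ = A ^ 33 := by ring

theorem k6b_rc_core {A ε d0 d1 d2 k0 k1 k2 u0 u1 u2 v0 v1 v2 : ℝ} (hA : 2 ≤ A)
    (hd0 : |d0| ≤ ε) (hd1 : |d1| ≤ ε) (hd2 : |d2| ≤ ε)
    (hu0 : |u0| ≤ A ^ 8) (hu1 : |u1| ≤ A ^ 8) (hu2 : |u2| ≤ A ^ 8)
    (hv0 : |v0| ≤ A ^ 8) (hv1 : |v1| ≤ A ^ 8) (hv2 : |v2| ≤ A ^ 8)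
    (lu0 : 1 ≤ A ^ 8 * |u0|) (lu1 : 1 ≤ A ^ 8 * |u1|) (lu2 : 1 ≤ A ^ 8 * |u2|)
    (lv0 : 1 ≤ A ^ 8 * |v0|) (lv1 : 1 ≤ A ^ 8 * |v1|) (lv2 : 1 ≤ A ^ 8 * |v2|)
    (m0 : 1 ≤ A ^ 8 * |u2 * v1 - u1 * v2|) (m1 : 1 ≤ A ^ 8 * |u0 * v2 - u2 * v0|)
    (m2 : 1 ≤ A ^ 8 * |u1 * v0 - u0 * v1|)
    (hqu : |d0 * u0 ^ 2 + d1 * u1 ^ 2 + d2 * u2 ^ 2
      + 2 * (k0 * (u1 * u2) + k1 * (u0 * u2) + k2 * (u0 * u1))| ≤ ε)
    (hqv : |d0 * v0 ^ 2 + d1 * v1 ^ 2 + d2 * v2 ^ 2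
      + 2 * (k0 * (v1 * v2) + k1 * (v0 * v2) + k2 * (v0 * v1))| ≤ ε)
    (hk : 1 ≤ A ^ 13 * |k0| ∨ 1 ≤ A ^ 13 * |k1| ∨ 1 ≤ A ^ 13 * |k2|) (hε : A ^ 72 * ε ≤ 1) :
    1 ≤ A ^ 71 * |k0| ∧ 1 ≤ A ^ 71 * |k1| ∧ 1 ≤ A ^ 71 * |k2| := by
  have hA0 : (0 : ℝ) < A := by linarith
  have hA1 : (1 : ℝ) ≤ A := by linarith
  have hε0 : 0 ≤ ε := le_trans (abs_nonneg _) hd0
  have hB : (1 : ℝ) ≤ A ^ 8 := one_le_pow₀ hA1
  have hr := k6b_rc_kw hB hd0 hd1 hd2 hu0 hu1 hu2 hqu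
  have hs := k6b_rc_kw hB hd0 hd1 hd2 hv0 hv1 hv2 hqv
  set r := k0 * (u1 * u2) + k1 * (u0 * u2) + k2 * (u0 * u1) with hrdef
  set s := k0 * (v1 * v2) + k1 * (v0 * v2) + k2 * (v0 * v1) with hsdef
  set N0 := u0 * v0 * (u2 * v1 - u1 * v2) with hN0
  set N1 := u1 * v1 * (u0 * v2 - u2 * v0) with hN1
  set N2 := u2 * v2 * (u1 * v0 - u0 * v1) with hN2
  have hS : 2 * (A ^ 8) ^ 2 * (2 * (A ^ 8) ^ 2 * ε) ≤ A ^ 34 * ε := by
    have : 2 * (A ^ 8) ^ 2 * (2 * (A ^ 8) ^ 2 * ε) = 4 * (A ^ 32 * ε) := by ring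
    rw [this]
    have : A ^ 34 * ε = A ^ 2 * (A ^ 32 * ε) := by ring
    rw [this]
    exact mul_le_mul_of_nonneg_right (by nlinarith) (by positivity)
  have c0 : |k1 * N2 - k2 * N1| ≤ A ^ 34 * ε := by
    have e : k1 * N2 - k2 * N1 = u1 * u2 * s - v1 * v2 * r := by
      rw [hN1, hN2, hrdef, hsdef]; ring
    rw [e]
    exact le_trans (k6b_rc_cross hu1 hu2 hv1 hv2 hr hs) hS
  have c1 : |k2 * N0 - k0 * N2| ≤ A ^ 34 * ε := by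
    have e : k2 * N0 - k0 * N2 = u0 * u2 * s - v0 * v2 * r := by
      rw [hN0, hN2, hrdef, hsdef]; ring
    rw [e]
    exact le_trans (k6b_rc_cross hu0 hu2 hv0 hv2 hr hs) hS
  have c2 : |k0 * N1 - k1 * N0| ≤ A ^ 34 * ε := by
    have e : k0 * N1 - k1 * N0 = u0 * u1 * s - v0 * v1 * r := by
      rw [hN0, hN1, hrdef, hsdef]; ring
    rw [e]
    exact le_trans (k6b_rc_cross hu0 hu1 hv0 hv1 hr hs) hS
  have c0' : |k2 * N1 - k1 * N2| ≤ A ^ 34 * ε := by rw [abs_sub_comm]; exact c0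
  have c1' : |k0 * N2 - k2 * N0| ≤ A ^ 34 * ε := by rw [abs_sub_comm]; exact c1
  have c2' : |k1 * N0 - k0 * N1| ≤ A ^ 34 * ε := by rw [abs_sub_comm]; exact c2
  have l0 : 1 ≤ A ^ 24 * |N0| := k6b_rc_N_low lu0 lv0 m0
  have l1 : 1 ≤ A ^ 24 * |N1| := k6b_rc_N_low lu1 lv1 m1
  have l2 : 1 ≤ A ^ 24 * |N2| := k6b_rc_N_low lu2 lv2 m2
  have b0 : |N0| ≤ A ^ 33 := k6b_rc_N_up hA hu0 hv0 hu2 hv1 hu1 hv2
  have b1 : |N1| ≤ A ^ 33 := k6b_rc_N_up hA hu1 hv1 hu0 hv2 hu2 hv0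
  have b2 : |N2| ≤ A ^ 33 := k6b_rc_N_up hA hu2 hv2 hu1 hv0 hu0 hv1
  have mono : ∀ k : ℝ, 1 ≤ A ^ 13 * |k| → 1 ≤ A ^ 71 * |k| := by
    intro k hk
    refine le_trans hk ?_
    exact mul_le_mul_of_nonneg_right (pow_le_pow_right₀ hA1 (by norm_num)) (abs_nonneg _)
  rcases hk with hk | hk | hk
  · exact ⟨mono _ hk, k6b_rc_transfer hA hε0 c2 hk l1 b0 hε, k6b_rc_transfer hA hε0 c1' hk l2 b0 hε⟩
  · exact ⟨k6b_rc_transfer hA hε0 c2' hk l0 b1 hε, mono _ hk, k6b_rc_transfer hA hε0 c0 hk l2 b1 hε⟩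
  · exact ⟨k6b_rc_transfer hA hε0 c1 hk l0 b2 hε, k6b_rc_transfer hA hε0 c0' hk l1 b2 hε, mono _ hk⟩

end Claimed.Agent.R252
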