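import Mathlib

/-!
# ROW 252, unit S6b, the square-root sheet kit: DEFINITIONS      (statements: helper295, `SheetContract.lean`; architect of the proofs: helper112)

The definitions of `SheetContract.lean` (moved here VERBATIM so that the files of the proof can import them) and the directional derivative `k6b_dP` of a polynomial.
-/

namespace Claimed.Agent.R252

open MvPolynomial MeasureTheory

/-- The formal sheet `A + B * Δ ^ (1/2 - k)`. -/
structure k6b_Sheet (n : ℕ) where
  A : MvPolynomial (Fin n) ℝ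
  B : MvPolynomial (Fin n) ℝ
  k : ℕ

/-- Value of a sheet at a real point (meaningful where `Δ > 0`). -/
noncomputable def k6b_Sheet.val {n : ℕ} (Dl : MvPolynomial (Fin n) ℝ) (F : k6b_Sheet n)
    (u : Fin n → ℝ) : ℝ :=
  eval u F.A + eval u F.B * (√(eval u Dl) / eval u Dl ^ F.k)

/-- Formal derivative of a sheet in the direction `v`. -/
noncomputable def k6b_Sheet.dv {n : ℕ} (Dl : MvPolynomial (Fin n) ℝ) (v : Fin n → ℝ)
    (F : k6b_Sheet n) : k6b_Sheet n where
  A := ∑ j, C (v j) * pderiv j F.A
  B := ∑ j, C (v j) * (pderiv j F.B * Dl + C (1 / 2 - (F.k : ℝ)) * F.B * pderiv j Dl)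
  k := F.k + 1

/-- All polynomial data of degree at most `D`. -/
structure k6b_Sheet.Deg {n : ℕ} (D : ℕ) (Dl : MvPolynomial (Fin n) ℝ) (F : k6b_Sheet n) :
    Prop where
  dl : Dl.totalDegree ≤ D
  a : F.A.totalDegree ≤ D
  b : F.B.totalDegree ≤ D
  k : F.k ≤ D

/-- the derivative of a polynomial in the direction `v` -/
noncomputable def k6b_dP {n : ℕ} (v : Fin n → ℝ) (P : MvPolynomial (Fin n) ℝ) : MvPolynomial (Fin n) ℝ :=
  ∑ j, C (v j) * pderiv j P

/-- the degree bound after `l` formal derivatives -/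
def k6b_dg (l D : ℕ) : ℕ := (fun d => 2 * d + 1)^[l] D

end Claimed.Agent.R252
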