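import Claimed.Agent.R252.Remez.Mv

/-!
# Row252, unit S6b, part A: seven-direction tensor tests and the real conic.  DEFINITIONS AND
# STATEMENTS (no proofs, no `sorry`: every statement is a `def ... : Prop`).

Paper: 06-isotropic.tex l.1355-1568 (lem:tensor-kernels, a05:real-conic), with the conditioning
`c * A ^ c` made explicit (no quantifier elimination, no compactness).

Forms on `ℝ³` are homogeneous `MvPolynomial (Fin 3) ℝ`; the norm is `rmzNm` (`ℓ¹` norm of the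
coefficients, unit REMEZ).  A symmetric tensor `T` of rank `r` corresponds to `F(x) = T(x,..,x)`;
`T(p,p,p,·,..,·)` corresponds (up to the factor `r!/3!`) to the partial derivatives of order
`r - 3` of `F` at `p`, and `T(p,p,·)` for `r = 3` to the gradient of `F` at `p`.

Leaf `L-252-S6b-Tk` proves `k6b_..._stmt` in its own file `R252/S6b/<Name>.lean`.
-/

set_option autoImplicit false

namespace Claimed.Agent.R252

open MvPolynomial

/-- The quadratic form `x ↦ xᵀ Q x` as a polynomial. -/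
noncomputable def k6b_qf (Q : Matrix (Fin 3) (Fin 3) ℝ) : MvPolynomial (Fin 3) ℝ :=
  ∑ i, ∑ j, C (Q i j) * X i * X j

/-- The linear substitution `x = G y`. -/
noncomputable def k6b_sub (G : Matrix (Fin 3) (Fin 3) ℝ) :
    MvPolynomial (Fin 3) ℝ →ₐ[ℝ] MvPolynomial (Fin 3) ℝ :=
  bind₁ (fun i => ∑ j, C (G i j) * X j)

/-- The matrix with COLUMNS `a, b, c`. -/
def k6b_frame (a b c : Fin 3 → ℝ) : Matrix (Fin 3) (Fin 3) ℝ := (Matrix.of ![a, b, c]).transpose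

/-- `n` points of `ℝ³` in general position with parameter `A`:
coordinates at most `A`, all triple determinants at least `A⁻¹`. -/
structure k6b_GP (n : ℕ) (A : ℝ) (p : Fin n → Fin 3 → ℝ) : Prop where
  bd : ∀ i j, |p i j| ≤ A
  det : ∀ i j k, i ≠ j → j ≠ k → i ≠ k → A⁻¹ ≤ |(k6b_frame (p i) (p j) (p k)).det|

/-- The exact-conic family with parameter `A`. -/
structure k6b_Conic (n : ℕ) (A : ℝ) (Q : Matrix (Fin 3) (Fin 3) ℝ) (p : Fin n → Fin 3 → ℝ) :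
    Prop where
  symm : Q.IsSymm
  bd : ∀ i j, |Q i j| ≤ A
  det : A⁻¹ ≤ |Q.det|
  zero : ∀ i, eval (p i) (k6b_qf Q) = 0

theorem k6b_tensor_defs_cite : True := by
  have := @k6b_qf.eq_1
  have := @k6b_sub.eq_1
  have := @k6b_frame.eq_1
  trivial

/-- **T1** (part 2 of lem:tensor-kernels, with conditioning).  The cubic two-copy test is
injective already for FOUR points in general position. -/
def k6b_two_copy_stmt : Prop :=
  ∃ c : ℕ, ∀ (A ε : ℝ) (p : Fin 4 → Fin 3 → ℝ) (F : MvPolynomial (Fin 3) ℝ),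
    2 ≤ A → k6b_GP 4 A p → F.IsHomogeneous 3 →
    (∀ i j, |eval (p i) (pderiv j F)| ≤ ε) → rmzNm F ≤ c * A ^ c * ε

/-- **T2** a quadratic form which is small at FIVE points of the exact conic is close to a
multiple of the conic. -/
def k6b_rank2_stmt : Prop :=
  ∃ c : ℕ, ∀ (A ε : ℝ) (p : Fin 5 → Fin 3 → ℝ) (Q : Matrix (Fin 3) (Fin 3) ℝ)
    (F : MvPolynomial (Fin 3) ℝ), 2 ≤ A → k6b_GP 5 A p → k6b_Conic 5 A Q p →
    F.IsHomogeneous 2 → (∀ i, |eval (p i) F| ≤ ε) →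
    ∃ lam : ℝ, rmzNm (F - C lam * k6b_qf Q) ≤ c * A ^ c * ε ∧ |lam| ≤ c * A ^ c * rmzNm F

/-- **T3** rank three: kernel `q * (linear forms)`. -/
def k6b_rank3_stmt : Prop :=
  ∃ c : ℕ, ∀ (A ε : ℝ) (p : Fin 7 → Fin 3 → ℝ) (Q : Matrix (Fin 3) (Fin 3) ℝ)
    (F : MvPolynomial (Fin 3) ℝ), 2 ≤ A → k6b_GP 7 A p → k6b_Conic 7 A Q p →
    F.IsHomogeneous 3 → (∀ i, |eval (p i) F| ≤ ε) →
    ∃ L : MvPolynomial (Fin 3) ℝ, L.IsHomogeneous 1 ∧
      rmzNm (F - k6b_qf Q * L) ≤ c * A ^ c * ε ∧ rmzNm L ≤ c * A ^ c * rmzNm F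

/-- **T4** rank four: kernel `ℝ q²`. -/
def k6b_rank4_stmt : Prop :=
  ∃ c : ℕ, ∀ (A ε : ℝ) (p : Fin 7 → Fin 3 → ℝ) (Q : Matrix (Fin 3) (Fin 3) ℝ)
    (F : MvPolynomial (Fin 3) ℝ), 2 ≤ A → k6b_GP 7 A p → k6b_Conic 7 A Q p →
    F.IsHomogeneous 4 → (∀ i j, |eval (p i) (pderiv j F)| ≤ ε) →
    ∃ lam : ℝ, rmzNm (F - C lam * k6b_qf Q ^ 2) ≤ c * A ^ c * ε ∧ |lam| ≤ c * A ^ c * rmzNm F

/-- **T5** rank five: trivial kernel. -/
def k6b_rank5_stmt : Prop :=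
  ∃ c : ℕ, ∀ (A ε : ℝ) (p : Fin 7 → Fin 3 → ℝ) (Q : Matrix (Fin 3) (Fin 3) ℝ)
    (F : MvPolynomial (Fin 3) ℝ), 2 ≤ A → k6b_GP 7 A p → k6b_Conic 7 A Q p →
    F.IsHomogeneous 5 → (∀ i j k, |eval (p i) (pderiv j (pderiv k F))| ≤ ε) →
    rmzNm F ≤ c * A ^ c * ε

/-- **T6** (a05:real-conic).  An approximate real conic through seven points `(1, v_i)` in
general position is nonsingular with a polynomial bound, and the points can be moved to exact
real zeros, keeping the first coordinate `1` and general position. -/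
def k6b_real_conic_stmt : Prop :=
  ∃ c : ℕ, ∀ (A ε : ℝ) (p : Fin 7 → Fin 3 → ℝ) (Q : Matrix (Fin 3) (Fin 3) ℝ),
    2 ≤ A → k6b_GP 7 A p → (∀ i, p i 0 = 1) → Q.IsSymm →
    (∀ i j, |Q i j| ≤ A) → (∃ i j, A⁻¹ ≤ |Q i j|) → (∀ i, |eval (p i) (k6b_qf Q)| ≤ ε) →
    c * A ^ c * ε ≤ 1 →
    ((c : ℝ) * A ^ c)⁻¹ ≤ |Q.det| ∧
    ∃ p' : Fin 7 → Fin 3 → ℝ, (∀ i, p' i 0 = 1) ∧ (∀ i, eval (p' i) (k6b_qf Q) = 0) ∧
      (∀ i j, |p' i j - p i j| ≤ c * A ^ c * ε) ∧ k6b_GP 7 (2 * A) p'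

/-!
## PROOF PLANS (paper-free).  Toolbox: `R252/S6b/FormContract.lean` (T0), `R252/Remez/*`.

NORMAL FORM.  With `G = k6b_frame (p 0) (p 1) (p 2)` replace `F` by `k6b_sub G F`, `Q` by `Gᵀ Q G`,
`p i` by `y i = G⁻¹ p i` (`k6b_GP_frame`, `k6b_Conic_frame`, `k6b_sub_eval`, `k6b_sub_pderiv`,
`k6b_sub_norm`, `k6b_sub_comp`); all parameters stay `≤ 9 A⁴`, and `y 0, y 1, y 2` is the standard
basis.  For `k ≥ 3` every coordinate of `y k` is a triple determinant of the new family, e.g.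
`y k 0 = det (y k, e1, e2)`, so `(9A⁴)⁻¹ ≤ |y k j| ≤ 9A⁴`; the `2 x 2` minors of two such points are
`det (y k, y l, e_j)`.  A homogeneous form is the sum of its monomials: write the 6 / 10
coefficients explicitly (`MvPolynomial.coeff`, `Finsupp` on `Fin 3`), or avoid coefficients: a form
is determined by finitely many values / derivatives at `e_j` (`pderiv`, `eval`).

T1 (two copy).  Normal form.  `∂_j F (e_i)` = `3 c(y_i³)` for `j = i` and `c(y_i² y_j)` for `j ≠ i`: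
nine of the ten coefficients are `≤ ε'`.  The last one, `c₀ = c(y_0 y_1 y_2)`:
`∂_0 F (y 3) = c₀ * y_1 y_2 + (terms with the nine small coefficients)`, `|y_1 y_2| ≥ (9A⁴)⁻²`.

T2 (rank 2).  Normal form: `F(e_i) = c(y_i²)` small, `q(e_i) = 0` so `Q' ` has zero diagonal.
Put `w(y) = (y_1 y_2, y_0 y_2, y_0 y_1)`, `x =` the three mixed coefficients of `F`, `κ =` those of `q`.
`x · w(y 3), x · w(y 4)` small, `κ · w(y 3) = κ · w(y 4) = 0`.  `n = w(y 3) × w(y 4)` has the components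
`y_j(3) y_j(4) * (2 x 2 minor)`, all `≥ A^{-c}`.  Identity
`|n|² x = (x·n) n + (x·w₃) (w₄ × n) + (x·w₄) (n × w₃)`, the same for `κ` gives `|n|² κ = (κ·n) n`, and
`κ ≠ 0` quantitatively (`det Q' = 2 κ-product / 8`).  Take `lam = (x·n)/(κ·n)`.

T3 (rank 3).  Normal form; then the diagonal substitution `y_0 = α y_0', y_1 = β y_1', y_2 = γ y_2'`
with `q = α y_1 y_2 + β y_0 y_2 + γ y_0 y_1` turns `q` into `αβγ * e₂`, `e₂ = y_1 y_2 + y_0 y_2 + y_0 y_1`
(`|α|,|β|,|γ| ≥ A^{-c}` from `det`).  `F(e_i) = c(y_i³)` small.  Subtract `e₂ * L` with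
`L = c(y_0² y_1) y_0 + c(y_1² y_2) y_1 + c(y_2² y_0) y_2`: the remainder is
`R = a₁ y_0² y_2 + a₂ y_1² y_0 + a₃ y_2² y_1 + a₄ y_0 y_1 y_2 + (small cubes)`.  On `e₂ = 0`, all `y_j ≠ 0`, with
`τ = y_0 / y_1` one has `y_2 / y_1 = -τ/(1+τ)` and
`R * τ(1+τ) / (y_0 y_1 y_2) = a₁τ²(1+τ)·(-1)... ` : a CUBIC polynomial `P(τ)` whose four coefficients are a
unimodular triangular image of `(a₁,a₂,a₃,a₄)` (compute it once with `field_simp; ring`).  The four
nodes `τ_k = y_0/y_1 (y k)`, `k = 3..6`, are separated: `τ_k - τ_l = minor / (y_1(k) y_1(l))`.  Lagrange at four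
separated nodes: `rmz_nodes_coeff` / `rmz_lagrange_eval`.

T4 (rank 4) FROM T2, T3; no normal form.  `∂_j F` is a cubic, small at the 7 points: `∂_j F = q L_j + E_j`.
Euler (`k6b_euler`): `4 F = q H + E`, `H = ∑ x_j L_j`, `E = ∑ x_j E_j`.  Differentiate, evaluate at `p i`
(`q(p i) = 0`): `∂_j q(p i) H(p i) = 4 ∂_j F(p i) - ∂_j E(p i)`; choose `j` by `k6b_conic_grad_low`: `H(p i)` small.
T2 for five of the points: `H = lam q + E'`.  So `4 F = lam q² + q E' + E`.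

T5 (rank 5) FROM T4.  `∂_k F = lam_k q² + E_k`; Euler: `5 F = q² L + E`, `L = ∑ lam_k x_k`.
`∂_j ∂_j (q² L)(p i) = 2 (∂_j q(p i))² L(p i)`; `k6b_conic_grad_low`, then `k6b_lin_of_vals` for `p 0, p 1, p 2`.

T6 (real conic).  (a) determinant: normal form; the diagonal of `Q'` is `q(p_i)`, `≤ ε`; mixed entries
`κ`: `κ·w(y 3), κ·w(y 4)` are `≤ c A^c ε`; identity of T2: `|n|² κ = (κ·n) n + small`; `|κ| ≥ A^{-c}` because
`‖Q‖ ≥ A⁻¹`; every component of `n` is `≥ A^{-c}`; so all three `κ_j ≥ A^{-c}`, `det Q' = 2 κ₀κ₁κ₂ + O(ε A^c)`.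
(b) `g = ∇_v q(p_i)` (last two components of `2 Q p_i`): `|2 Q p_i| ≥ A^{-c}` (inverse bound) and Euler
`∂_0 q + v·g = 2 q(p_i)` give `|g| ≥ A^{-c}`.  Move along the coordinate `j ∈ {1,2}` with the larger `|g_j|`:
`φ(t) = q(p_i + t e_j) = q(p_i) + g_j t + Q_jj t²`; `φ(0)` and `φ(-2 q(p_i)/g_j)` have opposite signs (or `φ(0) = 0`);
`intermediate_value_Icc`.  (c) `k6b_GP` for the moved points: multilinearity of `det`.
-/

end Claimed.Agent.R252
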