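import Claimed.Agent.R252.S6b.GroupDefs
import Claimed.Agent.R252.S6b.SqDefs
import Claimed.Agent.R252.S6b.TensorDefs

/-!
# Row252, unit S6b, part E: common tuples of velocity bins, and degree restoration in version 1.
# DEFINITIONS AND STATEMENTS (every statement is a `def ... : Prop`; no `sorry`).

Paper: 06-isotropic.tex l.1578-1603 (version 1), l.1729-1741 (seven velocities); the same selection is used at l.960-968.
-/

set_option autoImplicit false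

namespace Claimed.Agent.R252

open MeasureTheory MvPolynomial
open scoped ENNReal BigOperators

noncomputable section

/-! ## 1. Finite selection lemmas -/

open Classical in
/-- **S1** sequential avoidance for `r` independent draws from a finite weighted set: at step `k` the draw avoids `q` strips
which depend on the earlier draws only, each of relative weight `≤ c1`.   PLAN: induction on `r` (peel off the LAST draw). -/
def k6b_avoid_sum_stmt : Prop :=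
  ∀ (m r q : ℕ) (B : Type) [Fintype B] (p : B → ℝ) (cen : B → Fin m → ℝ) (w c1 : ℝ)
    (a : Fin r → Fin q → (Fin r → B) → Fin m → ℝ), (∀ b, 0 ≤ p b) → 0 ≤ c1 →
    (∀ k j J J', (∀ i, i < k → J i = J' i) → a k j J = a k j J') →
    (∀ k j J, ∑ b ∈ Finset.univ.filter (fun b => |a k j J ⬝ᵥ cen b| ≤ w), p b ≤ c1 * ∑ b, p b) →
    (1 - r * q * c1) * (∑ b, p b) ^ r ≤
      ∑ J ∈ (Finset.univ : Finset (Fin r → B)).filter
        (fun J => ∀ k j, w < |a k j J ⬝ᵥ cen (J k)|), ∏ i, p (J i)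

open Classical in
/-- **S2** palette averaging fixes one tuple (l.963-966, 1584-1587, 1733-1736).
PLAN: for `M s > 0`: `1 ≤ 2 K^r ∑_{J ∈ GP} ∏ pal (J i) 1{all p s (J i) > 0}`; multiply by `M s`, sum over `s`, exchange the sums, take the best `J`. -/
def k6b_tuple_stmt : Prop :=
  ∀ (S B : Type) [Fintype S] [Fintype B] (r : ℕ) (M : S → ℝ) (p : S → B → ℝ) (pal : B → ℝ)
    (K : ℝ) (GP : (Fin r → B) → Prop), (∀ s, 0 ≤ M s) → (∀ s b, 0 ≤ p s b) → (∀ b, 0 ≤ pal b) →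
    0 ≤ K → 0 < ∑ s, M s → (∀ s b, p s b ≤ K * pal b * M s) →
    (∀ s, M s ^ r ≤ 2 * ∑ J ∈ (Finset.univ : Finset (Fin r → B)).filter GP, ∏ i, p s (J i)) →
    ∃ J, GP J ∧ ∑ s, M s ≤ 2 * K ^ r * (∑ b, pal b) ^ r *
      ∑ s ∈ Finset.univ.filter (fun s => ∀ i, 0 < p s (J i)), M s

/-- **S3** the common tuple, for a family `F` with fat states (`μ(state) ≤ Φ μ(F ∩ state)`).
PLAN: S1, S2 with `p s b = μ(F ∩ s ∩ {bin = b})`, `M s = μ(F ∩ s)` (`toReal`);  `|a·vel - a·cen| ≤ m pv ≤ w/2` because `|a|_∞ ≤ 1`. -/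
def k6b_common_tuple_stmt : Prop :=
  ∀ (m r q : ℕ) (Y : k6b_Sw m) (F : Set (Y.Lam × ℝ)) (K Φ w pv c0 : ℝ) (η : ℝ≥0∞)
    (a : Fin r → Fin q → (Fin r → Fin m → ℝ) → Fin m → ℝ),
    1 ≤ K → 1 ≤ Φ → 0 < w → 0 ≤ c0 → Y.WF → MeasurableSet F → 0 < Y.mu F →
    (∀ k j V V', (∀ i, i < k → V i = V' i) → a k j V = a k j V') →
    (∀ k j V, (∃ i, 1 ≤ |a k j V i|) ∧ ∀ i, |a k j V i| ≤ 1) →
    Y.Chain (ENNReal.ofReal K) (ENNReal.ofReal c0) η w → ∑ J, Y.pal J ≤ ENNReal.ofReal K →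
    (∀ e ∈ F, Y.mu (Y.stE (Y.st e)) ≤ ENNReal.ofReal Φ * Y.mu (F ∩ Y.stE (Y.st e))) →
    (∀ l, ‖Y.vel l - Y.cen (Y.bin l)‖ ≤ pv) → m * pv ≤ w / 2 → 2 * (r * q * (c0 * Φ)) ≤ 1 →
    ∃ J : Fin r → Y.Bn,
      (∀ k j, w / 2 < |a k j (fun i => Y.cen (J i)) ⬝ᵥ Y.cen (J k)|) ∧
      Y.mu F ≤ ENNReal.ofReal (2 * (Φ * K * K) ^ r) *
        Y.mu (F ∩ {e | ∀ i, 0 < Y.mu (F ∩ Y.stE (Y.st e) ∩ {e' | Y.bin e'.1 = J i})})

/-- **S4** four pairwise independent directions in the plane from avoidance (`q = 4`).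
PLAN: `a k j V = (V j)^⊥ / |V j|_∞` for `j < k` (default `e_0` for `j ≥ k` or `V j = 0`), and `a 0 j = e_0` gives `|V 0|_∞ > w`, etc. -/
def k6b_gp4_stmt : Prop :=
  ∃ (c : ℕ) (a : Fin 4 → Fin 4 → (Fin 4 → Fin 2 → ℝ) → Fin 2 → ℝ),
    (∀ k j V V', (∀ i, i < k → V i = V' i) → a k j V = a k j V') ∧
    (∀ k j V, (∃ i, 1 ≤ |a k j V i|) ∧ ∀ i, |a k j V i| ≤ 1) ∧
    ∀ (V : Fin 4 → Fin 2 → ℝ) (K w : ℝ), 1 ≤ K → 0 < w → w ≤ 1 → (∀ i, ‖V i‖ ≤ K) →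
      (∀ k j, w < |a k j V ⬝ᵥ V k|) →
      ∀ i j, i ≠ j → 1 ≤ c * (K / w) ^ c * |V i 0 * V j 1 - V i 1 * V j 0|

/-- **S5** seven directions of `ℝ³` in general position from avoidance (`q = 22`: `e_0`, the 6 earlier points, the 15 joining planes).
PLAN: for an earlier `V i`: the row of `x ↦ V i × x` with the largest entry, normalised (gives `|V i × V k|_∞ > w |V i|_∞`); for an earlier pair:
`(V i × V j)/|.|_∞` (gives `|det| > w |V i × V j|_∞`); `e_0` gives `|V k|_∞ > w`.  Default `e_0`. -/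
def k6b_gp7_stmt : Prop :=
  ∃ (c : ℕ) (a : Fin 7 → Fin 22 → (Fin 7 → Fin 3 → ℝ) → Fin 3 → ℝ),
    (∀ k j V V', (∀ i, i < k → V i = V' i) → a k j V = a k j V') ∧
    (∀ k j V, (∃ i, 1 ≤ |a k j V i|) ∧ ∀ i, |a k j V i| ≤ 1) ∧
    ∀ (V : Fin 7 → Fin 3 → ℝ) (K w : ℝ), 1 ≤ K → 0 < w → w ≤ 1 → (∀ i, ‖V i‖ ≤ K) →
      (∀ k j, w < |a k j V ⬝ᵥ V k|) → k6b_GP 7 (c * (K / w) ^ c) V

/-! ## 2. Version 1 -/

/-- **V1a** along a line: a polynomial which is `ε`-close to a quadratic in block time has third directional derivative `≤ c ε`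
on the whole block.   PLAN: `rmz_line`, `rmz_one` (`θ = 1`), `rmz_N_iter_derivative`, `rmz_eval_le`. -/
def k6b_v1_line_stmt : Prop :=
  ∀ (n D : ℕ), ∃ c : ℕ, ∀ (P : MvPolynomial (Fin n) ℝ) (u0 v : Fin n → ℝ) (x0 x1 x2 ε : ℝ),
    P.totalDegree ≤ D →
    (∀ τ ∈ Set.Icc (0 : ℝ) 1, |x0 + x1 * τ + x2 * τ ^ 2 - eval (u0 + τ • v) P| ≤ ε) →
    ∀ τ ∈ Set.Icc (0 : ℝ) 1, |eval (u0 + τ • v) (k6b_dP v (k6b_dP v (k6b_dP v P)))| ≤ c * ε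

/-- **V1b** four directions determine a binary cubic (l.1592-1599).
PLAN: `rmz_box` for the four polynomials `D_{v_i}³ P` on `[-K,K]²`; `D_v³ = ∑ binom * v_0^{3-k} v_1^k ∂_0^{3-k} ∂_1^k`: a `4 x 4` Vandermonde-type system
(solve by Lagrange / Cramer, loss `c K^c`): the four third partials have small coefficient norm; `P2` = the part of `P` of degree `≤ 2`;
a coefficient of a monomial of degree `≥ 3` is bounded by a coefficient of a third partial. -/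
def k6b_v1_core_stmt : Prop :=
  ∀ D : ℕ, ∃ c : ℕ, ∀ (P : MvPolynomial (Fin 2) ℝ) (v : Fin 4 → Fin 2 → ℝ) (K θ ε : ℝ)
    (E : Set (Fin 2 → ℝ)), 1 ≤ K → 0 < θ → θ ≤ 1 → 0 ≤ ε → P.totalDegree ≤ D →
    (∀ i, ‖v i‖ ≤ K) → (∀ i j, i ≠ j → 1 ≤ K * |v i 0 * v j 1 - v i 1 * v j 0|) →
    MeasurableSet E → E ⊆ Metric.closedBall 0 K → ENNReal.ofReal θ ≤ volume E →
    (∀ u ∈ E, ∀ i, |eval u (k6b_dP (v i) (k6b_dP (v i) (k6b_dP (v i) P)))| ≤ ε) →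
    ∃ P2 : MvPolynomial (Fin 2) ℝ, P2.totalDegree ≤ 2 ∧
      ∀ u ∈ Metric.closedBall (0 : Fin 2 → ℝ) K, |eval u P - eval u P2| ≤ c * (K / θ) ^ c * ε

/-- the hypotheses common to both versions (everything that is alive at 06 l.1112), one scale -/
structure k6b_Sw.Ctx {m : ℕ} (Y : k6b_Sw m) (T : Fin m → MvPolynomial (Fin m) ℝ) (D : ℕ)
    (K β pv εT ξ ρ₁ ρ₂ κ : ℝ) (Nc1 Nc2 : ℕ) : Prop where
  degT : ∀ i, (T i).totalDegree ≤ D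
  nmT : ∀ i, rmzNm (T i) ≤ K
  wf : Y.WF
  chain : Y.Chain (ENNReal.ofReal K) (1 / 2 ^ 30) (1 / 64) (1 / K)
  geo : Y.Geo T K β pv εT
  supp : Y.Supp K ξ ρ₁ Nc1
  nu_le : Y.nu Set.univ ≤ ENNReal.ofReal K
  g_le : ∀ e, Y.g e ≤ ENNReal.ofReal K
  time : ∃ i0, ∀ l, Y.vel l i0 = 1
  cells2 : ∃ S : Finset ((Fin m → ℤ) × ℤ), S.card ≤ Nc2 ∧
    ∀ e ∈ Y.sup, ((fun i => ⌊Y.pos e i / ξ⌋), ⌊Y.x e / ρ₂⌋) ∈ S
  /-- `X` is a quadratic polynomial along each trajectory -/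
  quad : ∀ l, ∃ x0 x1 x2 : ℝ, ∀ τ, Y.x (l, τ) = x0 + x1 * τ + x2 * τ ^ 2
  /-- the exact-base `X`-cap at width `ρ₂` with a moving polynomial centre; `κ = (a₂/a)^d` -/
  cap2 : ∀ (φ : MvPolynomial (Fin m) ℝ) (B : Set (Fin m → ℝ)), MeasurableSet B →
    Y.mu {e | Y.pos e ∈ B ∧ |Y.x e - eval (Y.pos e) φ| ≤ ρ₂} ≤ ENNReal.ofReal (K * κ) * volume B
  /-- the count of `a05:joint-support` with `i = 2` matches the cap -/
  count2 : (Nc2 : ℝ) * ξ ^ m * κ ≤ K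

/-- the scale inequalities (all are fixed power margins in the paper) with the constant `A = c * K^k * ξ^{-ε}` of the theorem -/
structure k6b_Margins (m : ℕ) (A β pv εT ξ ρ₁ ρ₂ : ℝ) (Nc1 : ℕ) : Prop where
  pos : 0 < ξ ∧ ξ ≤ 1 ∧ 0 < ρ₁ ∧ 0 < ρ₂ ∧ ρ₂ ≤ 1 ∧ 0 ≤ β ∧ 0 ≤ pv ∧ 0 ≤ εT
  sim_u : β + pv ≤ ξ
  sim_x : β + pv + εT ≤ ρ₁
  main : A * (εT + Nc1 * ξ ^ m * ρ₁ + β + pv + ξ) ≤ ρ₂

/-- **MAIN, VERSION 1** (= l.1113-1603 for `j = 1`): the quadratic candidate.  `x - P2(u)` is the test `w - F(t,y)` in normalised units.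
SLACK `A = c K^k ξ^{-ε}`: the exponent of `ξ` is EXACTLY `ε` (`c, k` may depend on `ε`): use G with `ε / c₁(D)`, where `c₁(D)` = the power by which V1b amplifies the loss of G.
PLAN: C5 → P1 → P2 (`ic l = x - P` at `τ = 1/2`) → G → V1a on every line of `F4` → S4 + S3 (`r = 4`, `Φ = 64`) → transfer to the bin centres and to the
positions of the good states (derivatives of `P` cost `c K^c`, errors `β + pv`) → `E = {u : ‖u‖ ≤ K, |D³_{v_i} P u| ≤ c K^c ρ₂ ∀ i}` has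
`volume ≥ μ(good)/(c K^c κ)` by `cap2` (cover the width `c K^c ρ₂` by translates of `φ = P + const`) → V1b.  `Fam = F4`. -/
def k6b_main_v1_stmt : Prop :=
  ∀ (D : ℕ) (ε : ℝ), 0 < ε → ∃ (c : ℝ) (k : ℕ), 0 < c ∧ ∀ (Y : k6b_Sw 2)
    (T : Fin 2 → MvPolynomial (Fin 2) ℝ) (K β pv εT ξ ρ₁ ρ₂ κ : ℝ) (Nc1 Nc2 : ℕ),
    1 ≤ K → 0 < κ → Y.Ctx T D K β pv εT ξ ρ₁ ρ₂ κ Nc1 Nc2 →
    k6b_Margins 2 (c * K ^ k * ξ ^ (-ε)) β pv εT ξ ρ₁ ρ₂ Nc1 →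
    ∃ (P2 : MvPolynomial (Fin 2) ℝ) (Fam : Set (Y.Lam × ℝ)), P2.totalDegree ≤ 2 ∧
      MeasurableSet Fam ∧ Fam ⊆ Y.sup ∧
      ENNReal.ofReal κ ≤ ENNReal.ofReal (c * K ^ k * ξ ^ (-ε)) * Y.mu Fam ∧
      ∀ e ∈ Fam, ∀ τ ∈ Set.Icc (0 : ℝ) 1,
        |Y.x (e.1, τ) - eval (Y.pos (e.1, τ)) P2| ≤ c * K ^ k * ξ ^ (-ε) * ρ₂

end

end Claimed.Agent.R252
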