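import Claimed.Agent.R252.S6b.V2Defs

/-!
# Row252, unit S6b, part G: THE CUT OF `k6b_main_v2` INTO FIVE PARTS (M2a .. M2e) AND THE GLUE (M2).
# DEFINITIONS AND STATEMENTS (every statement is a `def ... : Prop`; no `sorry`).

The 16 steps are those of the plan at the end of `V2Defs.lean`.   CONSTANTS: every part after the first reads `∀ D ∃ c : ℕ, ∀ .. (A : ℝ) ..`: incoming slack `A ≥ K ≥ 1`, smallness hypotheses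
`c * A ^ c * small ≤ ..`, outgoing slack `c * A ^ c`; `c` depends on the degree only.  So the loss `ξ^{-ε₀}` of part A is raised to a power `M(D)` which is known BEFORE `ε₀ = ε / M` is chosen.
All the leaves cited in the plans are PROVED on main: import their files (`PruneFine`, `Branch`, `RootNear`, `Jet`, `DevBound`, `Third`, `RestoreR`, `Core`, `CommonTuple`, `AvoidSum`, `Tuple`, `Gp7`, `SheetContract`, `HeavyGroup`, `Cells`,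
`Conservative`, `Potential`, `LineVar`, ..) or take the `_stmt` as a hypothesis.   `Dl` always denotes `k6b_disc H.Pst Φ`, `U = Metric.closedBall uc r`.
-/

set_option autoImplicit false

namespace Claimed.Agent.R252

open MeasureTheory MvPolynomial
open scoped ENNReal BigOperators

noncomputable section

/-- **output of part A** (step 1): the heavy intercept group in physical units.  `Φ = h (P + (C + 1/2) ρ₂)`. -/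
structure k6b_V2A {Y : k6b_Sw 3} (H : k6b_Hid Y) (Φ : MvPolynomial (Fin 3) ℝ)
    (F1 F4 : Set (Y.Lam × ℝ)) (D : ℕ) (A κ a₂ : ℝ) : Prop where
  deg : Φ.totalDegree ≤ D + 1
  F1_meas : MeasurableSet F1
  F4_meas : MeasurableSet F4
  F41 : F4 ⊆ F1
  F1_sup : F1 ⊆ Y.sup
  fit : ∀ e ∈ F1, |H.Pst.ev (Y.pos e) (H.wd e) - eval (Y.pos e) Φ| ≤ a₂
  /-- the volume lemma (`Ctx.cap2` with `φ = Φ / h`) -/
  vol : ∀ (B : Set (Fin 3 → ℝ)) (G : Set (Y.Lam × ℝ)), MeasurableSet B → G ⊆ F1 →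
    (∀ e ∈ G, Y.pos e ∈ B) → Y.mu G ≤ ENNReal.ofReal (A * κ) * volume B
  mass : ENNReal.ofReal κ ≤ ENNReal.ofReal A * Y.mu F4
  fat : ∀ e ∈ F4, Y.mu (Y.stE (Y.st e)) ≤ 64 * Y.mu (F4 ∩ Y.stE (Y.st e))
  prior : Y.nu {l | 0 < Y.durF F4 l} ≤ ENNReal.ofReal A * Y.mu F4

/-- **M2a** (step 1).  PLAN: `k6b_m1_partI` of `MainV1.lean` (helper147) with `m = 3`, without V1a, keeping `F1` and the last conjunct of G.  C5 → P1 → P2 (`ic l = x - P` at `τ = 1/2`) → G at `ε`.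
`|x - P(u) - (C + 1/2) ρ₂| ≤ εP + ρ₂/2 ≤ ρ₂` on `F1`; multiply by `h`, `native`.  `mass`: G and `count2` (`Nc2 ξ³ ≤ K/κ`, `ξ^{3-ε} = ξ³ ξ^{-ε}`).  `vol`: `cap2` with `φ = C h⁻¹ * Φ`, monotonicity of `mu`. -/
def k6b_v2a_stmt : Prop :=
  ∀ (D : ℕ) (ε : ℝ), 0 < ε → ∃ (c : ℝ) (k : ℕ), 1 ≤ c ∧ 1 ≤ k ∧ ∀ (Y : k6b_Sw 3) (H : k6b_Hid Y)
    (T : Fin 3 → MvPolynomial (Fin 3) ℝ) (K β pv εT ξ ρ₁ κ a a₂ h : ℝ) (Nc1 Nc2 : ℕ),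
    1 ≤ K → 0 < κ → 0 < h → h ≤ 1 → 0 < a₂ → a₂ ≤ a →
    Y.Ctx T D K β pv εT ξ ρ₁ (a₂ / h) κ Nc1 Nc2 → H.Ok K a h →
    k6b_Margins 3 (c * K ^ k) β pv εT ξ ρ₁ (a₂ / h) Nc1 →
    ∃ (Φ : MvPolynomial (Fin 3) ℝ) (F1 F4 : Set (Y.Lam × ℝ)),
      k6b_V2A H Φ F1 F4 D (c * K ^ k * ξ ^ (-ε)) κ a₂

/-- **output of part B** (steps 2-5): one lattice cube `U`, one sign of the native hidden derivative. -/
structure k6b_V2B {Y : k6b_Sw 3} (H : k6b_Hid Y) (Φ : MvPolynomial (Fin 3) ℝ)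
    (G1 G4 : Set (Y.Lam × ℝ)) (uc : Fin 3 → ℝ) (r sg A : ℝ) : Prop where
  r_pos : 0 < r
  r_le : r ≤ 1
  r_lo : 1 ≤ A * r
  sg1 : sg = 1 ∨ sg = -1
  dl : k6b_DlOk (k6b_disc H.Pst Φ) uc r A 1
  lin : H.Pst.c2 = 0 → ∀ u ∈ Metric.closedBall uc r, 0 < sg * eval u H.Pst.c1
  G1_meas : MeasurableSet G1
  G4_meas : MeasurableSet G4
  G41 : G4 ⊆ G1
  inU : ∀ e ∈ G1, Y.pos e ∈ Metric.closedBall uc r
  sign : ∀ e ∈ G1, 0 < sg * H.Pst.dw (Y.pos e) (H.wd e)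
  fat : ∀ e ∈ G4, Y.mu (Y.stE (Y.st e)) ≤ 2 ^ 13 * Y.mu (G4 ∩ Y.stE (Y.st e))
  wit : ∀ e ∈ G4, 1 ≤ ENNReal.ofReal A * Y.durF G1 e.1

/-- **M2b** (steps 2-5).
PLAN.  (2) W2 first half: at `e ∈ F1`, `Dl(pos e) = dw² - 2 dww (P_* - Φ) ∈ [1/(2K²), 2K²]` (`st_dw`, `st_dww`, `fit`, `4 K³ a₂ ≤ 1`).
(3) `B = {u : ‖u‖ ≤ K, |Dl u| ≤ 2K²}` contains `pos '' F4`: `vol`, `mass` give `volume B ≥ 1/A²`.  `rmz_box` on `[-(K+1), K+1]³` (+ `rmz_box_pderiv`, `rmz_box_eval`, or `k6b_hg_eval_sub` of `HeavyGroup.lean`):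
`|Dl u - Dl u'| ≤ Λ ‖u - u'‖` on that box, `Λ = c A^c`.   (4) `r₁ = 1/(4 K² Λ)` (`≤ 1`), `lab e = (fun i => ⌊pos e i / r₁⌋, decide (0 < P_*.dw))`.
`k6b_prune_fine` with `F0 = F4`, `ns = 16` (`close`: `β ≤ r₁`, so each index takes `≤ 2` values in a state), `nl = ` the number `Nt ≤ 2 (2K/r₁ + 2)³` of all labels, `φ = 1/64`, `K1 = 16 Nt A`: `μ(F4') ≥ μ(F4)/2`.
Heaviest label `b` (pigeonhole over `≤ Nt` labels).  `G4 = F4' ∩ lab⁻¹ b`, `G1 = F1' ∩ lab⁻¹ b`, `r = r₁/2`, `uc = (b + 1/2) r₁`.  `fat`: `64 * 64 * 2`.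
(5) a point of `pos '' G4` lies in `U`; Lipschitz: `Dl ∈ [1/(4K²), 4K²]` on `U`.  `lin`: if `c2 = 0`, `Dl = c1²`, `c1` has no zero on the convex set `U`: IVT along the segment to `pos e`. -/
def k6b_v2b_stmt : Prop :=
  ∀ D : ℕ, ∃ c : ℕ, ∀ (Y : k6b_Sw 3) (H : k6b_Hid Y) (T : Fin 3 → MvPolynomial (Fin 3) ℝ)
    (Φ : MvPolynomial (Fin 3) ℝ) (F1 F4 : Set (Y.Lam × ℝ)) (K A β pv εT κ a a₂ h : ℝ),
    1 ≤ K → K ≤ A → 0 < κ → 0 < a₂ → 0 ≤ β → Y.WF → Y.Geo T K β pv εT → H.Ok K a h →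
    k6b_V2A H Φ F1 F4 D A κ a₂ → c * A ^ c * a₂ ≤ 1 → c * A ^ c * β ≤ 1 →
    ∃ (G1 G4 : Set (Y.Lam × ℝ)) (uc : Fin 3 → ℝ) (r sg : ℝ), G1 ⊆ F4 ∧
      k6b_V2B H Φ G1 G4 uc r sg (c * A ^ c) ∧ Y.mu F4 ≤ ENNReal.ofReal (c * A ^ c) * Y.mu G4

/-- `f`, `R` are the branch and the normalised packet test of W1 on `U` -/
structure k6b_IsBranch (Pst Ps : k6b_QW) (Φ : MvPolynomial (Fin 3) ℝ) (sg a : ℝ) (f R : k6b_Sheet 3)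
    (D' : ℕ) (U : Set (Fin 3 → ℝ)) : Prop where
  degf : f.Deg D' (k6b_disc Pst Φ)
  degR : R.Deg D' (k6b_disc Pst Φ)
  root : ∀ u ∈ U, Pst.ev u (f.val (k6b_disc Pst Φ) u) = eval u Φ
  der : ∀ u ∈ U, Pst.dw u (f.val (k6b_disc Pst Φ) u) = sg * √(eval u (k6b_disc Pst Φ))
  Rv : ∀ u ∈ U, R.val (k6b_disc Pst Φ) u = Ps.ev u (f.val (k6b_disc Pst Φ) u) / a

/-- **M2c** (steps 6-8): the observed `w` is near the branch, `R` is bounded at the events, and the tests along the lines.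
PLAN.  (6) W2 second half + `st_dw`.   (7) `P_s(u,f) = P_s(u,w) + dw (f - w) + (dww/2)(f - w)²`, `s_ev`, `s_dw`, `s_dww`, `a₂ ≤ a`.
(8) `e ∈ G4`, `l = e.1`, `v = vel l`, `W = {τ ∈ [0,1] : (l,τ) ∈ G1}` (measurable section); `wit`, `g ≤ K`: `volume W ≥ 1/(A K)`.  `I = {τ ∈ [0,1] : pos (l,τ) ∈ U}` is a compact interval `[τa, τb] ⊇ W` (convexity; take `sInf W`, `sSup W`).
`L_l = C (w0 l) + C (w1 l) * (X 0 - C (u0 l 0))`: `L_l (pos (l,τ)) = wd (l,τ)` (`time0`).   `k6b_sq_line` (`u = u0 l`, `E = W`, `θ = volume W`, `κ = A`, `Δ0 = 1`):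
for the sheet `f - L_l` (`k6b_db_sub` of `DevBound.lean`), `ε = 2K a₂`, `j = 2`; for `R - (Ps.c0 + Ps.c1 L_l + C Ps.c2 L_l²)/a`, `ε = (2K² + 2K³) a₂/a`, `j = 3`.  Derivatives of order `> deg` do not see the polynomial (`k6b_db_foldr_sub`). -/
def k6b_v2c_stmt : Prop :=
  ∀ D' : ℕ, ∃ c : ℕ, ∀ (Y : k6b_Sw 3) (H : k6b_Hid Y) (Φ : MvPolynomial (Fin 3) ℝ)
    (G1 G4 : Set (Y.Lam × ℝ)) (uc : Fin 3 → ℝ) (r sg K A a a₂ h : ℝ) (f R : k6b_Sheet 3),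
    1 ≤ K → K ≤ A → 0 < a₂ → a₂ ≤ a → Y.WF → (∀ e, Y.g e ≤ ENNReal.ofReal K) → H.Ok K a h →
    G1 ⊆ Y.sup → (∀ e ∈ G1, |H.Pst.ev (Y.pos e) (H.wd e) - eval (Y.pos e) Φ| ≤ a₂) →
    k6b_V2B H Φ G1 G4 uc r sg A →
    k6b_IsBranch H.Pst H.Ps Φ sg a f R D' (Metric.closedBall uc r) →
    (∀ e ∈ G1, |H.wd e - f.val (k6b_disc H.Pst Φ) (Y.pos e)| ≤ 2 * K * a₂ ∧
      |R.val (k6b_disc H.Pst Φ) (Y.pos e)| ≤ 5 * K ^ 3) ∧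
    ∀ e ∈ G4,
      |((f.dv (k6b_disc H.Pst Φ) (Y.vel e.1)).dv (k6b_disc H.Pst Φ) (Y.vel e.1)).val
          (k6b_disc H.Pst Φ) (Y.pos e)| ≤ c * A ^ c * a₂ ∧
      |(((k6b_Sheet.dv (k6b_disc H.Pst Φ) (Y.vel e.1))^[3]) R).val (k6b_disc H.Pst Φ) (Y.pos e)|
        ≤ c * A ^ c * (a₂ / a)

/-- **M2d** (steps 9-11): seven common directions, transfer to the bin centres and to all events of the good states, volumes: the hypotheses of the deterministic core.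
PLAN.  (9) R1 `k6b_dev_bound`: derivatives of `f` of order 2, 3 in unit directions are `≤ c A^c S / r³`.  `ER = {u ∈ U : |R u| ≤ A}` (`k6b_Sheet.measurable_val`), `volume ER ≥ μ(G4)/(A κ) ≥ 1/A²` by `hvol`, `hmass`.
`k6b_sq_box` from `ER`: derivatives of `R` of order `≤ 4` are `≤ c A^c`.   (10) `k6b_gp7` + `k6b_common_tuple` (`m = 3`, `r = 7`, `q = 22`, `F = G4`, `Φ = 2^13`, `c0 = 1/2^30`, `w = 1/K`; `3 pv ≤ 1/(2K)`): bins `J`, `v i = cen (J i)`,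
`k6b_GP 7 (c K^c) v`, `v i 0 = 1` (`cen0`), good events `Gd ⊆ G4` with `μ(G4) ≤ 2 (2^13 K²)^7 μ(Gd)`.   (11) for `e ∈ Gd` and `i`: some `e' ∈ G4` in the state of `e` with `bin e'.1 = J i` (positive measure ⟹ nonempty).
Direction error (`bins`, multilinearity of `dv`, `k6b_co_unscale` of `Core.lean`) `≤ c A^c S pv`, position error (`close`; mean value along the segment `[pos e', pos e] ⊆ U`, `k6b_Sheet.hasDerivAt_line`) `≤ c A^c S β`; the same for `D³ R` with `S` replaced by `1`.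
`E7 = {u ∈ U : ∀ i, |D²_{v i} f u| ≤ c A^c (a₂ + S h) ∧ |D³_{v i} R u| ≤ c A^c a₂/a} ⊇ pos '' Gd`; volume by `hvol`. -/
def k6b_v2d_stmt : Prop :=
  ∀ D' : ℕ, ∃ c : ℕ, ∀ (Y : k6b_Sw 3) (H : k6b_Hid Y) (T : Fin 3 → MvPolynomial (Fin 3) ℝ)
    (Φ : MvPolynomial (Fin 3) ℝ) (G1 G4 : Set (Y.Lam × ℝ)) (uc : Fin 3 → ℝ)
    (r sg K A β pv εT κ a a₂ h S : ℝ) (f R : k6b_Sheet 3),
    1 ≤ K → K ≤ A → 0 < κ → 0 < a₂ → a₂ ≤ a → 0 < h → 0 ≤ β → 0 ≤ pv → Y.WF →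
    Y.Chain (ENNReal.ofReal K) (1 / 2 ^ 30) (1 / 64) (1 / K) → Y.Geo T K β pv εT →
    ∑ J, Y.pal J ≤ ENNReal.ofReal K → H.Ok K a h → G1 ⊆ Y.sup →
    (∀ (B : Set (Fin 3 → ℝ)) (G : Set (Y.Lam × ℝ)), MeasurableSet B → G ⊆ G1 →
      (∀ e ∈ G, Y.pos e ∈ B) → Y.mu G ≤ ENNReal.ofReal (A * κ) * volume B) →
    ENNReal.ofReal κ ≤ ENNReal.ofReal A * Y.mu G4 →
    k6b_V2B H Φ G1 G4 uc r sg A → f.Deg D' (k6b_disc H.Pst Φ) → R.Deg D' (k6b_disc H.Pst Φ) →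
    k6b_IsDev (k6b_disc H.Pst Φ) f uc r S →
    (∀ e ∈ G1, |R.val (k6b_disc H.Pst Φ) (Y.pos e)| ≤ A) →
    (∀ e ∈ G4,
      |((f.dv (k6b_disc H.Pst Φ) (Y.vel e.1)).dv (k6b_disc H.Pst Φ) (Y.vel e.1)).val
          (k6b_disc H.Pst Φ) (Y.pos e)| ≤ A * a₂ ∧
      |(((k6b_Sheet.dv (k6b_disc H.Pst Φ) (Y.vel e.1))^[3]) R).val (k6b_disc H.Pst Φ) (Y.pos e)|
        ≤ A * (a₂ / a)) →
    c * A ^ c * (β + pv) ≤ h → h ≤ a₂ / a →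
    ∃ (v : Fin 7 → Fin 3 → ℝ) (ER E7 : Set (Fin 3 → ℝ)),
      k6b_CoreHyp D' (k6b_disc H.Pst Φ) f R uc r 1 (c * A ^ c) a a₂ h S v ER E7

/-- **M2e** (steps 12-15): the core, the new test, the whole block.
PLAN.  `k6b_core` (`c K^c h ≤ 1` from the margin, `a₂/a ≤ 1`).   Case `S h ≤ a₂`: `Pn = ⟨-f2, 1, 0⟩`.   Case `a₂ < S h`: `Pn = k6b_Pnew Ps L' R2 L1 lam0 a S`, `L' = k6b_tay Dl f 1 uc`; N1 `k6b_Pnew_bounds` at every `e ∈ G1` with `y = f(pos e)`,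
`δw = 2K a₂`, `εH = A' h`, `εR = A' (a₂/a + h)`; `δw/S < 2K h`, `a/S < a h/a₂ ≤ 1/(margin)`, `a h ≤ a₂/(margin)`, `a/S² ≤ 1/a₂`:  `|Pn| ≤ A'' a₂`, `|Pn.dw - Ps.dw| ≤ 1/(2K)`, `|Pn.dww| ≤ A''/a₂`.
(14) N2 `k6b_time_ext` from `W = {τ ∈ [0,1] : (e.1,τ) ∈ G1}`, `volume W ≥ 1/(A K)` (`wit`, `g ≤ K`).   (15) `s_dw` at `e ∈ G4 ⊆ sup`. -/
def k6b_v2e_stmt : Prop :=
  ∀ D' : ℕ, ∃ c : ℕ, ∀ (Y : k6b_Sw 3) (H : k6b_Hid Y) (Φ : MvPolynomial (Fin 3) ℝ)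
    (G1 G4 : Set (Y.Lam × ℝ)) (uc : Fin 3 → ℝ) (r sg K A a a₂ h S : ℝ) (f R : k6b_Sheet 3)
    (v : Fin 7 → Fin 3 → ℝ) (ER E7 : Set (Fin 3 → ℝ)),
    1 ≤ K → K ≤ A → h ≤ 1 → Y.WF → (∀ e, Y.g e ≤ ENNReal.ofReal K) → H.Ok K a h → G1 ⊆ Y.sup →
    k6b_V2B H Φ G1 G4 uc r sg A →
    k6b_IsBranch H.Pst H.Ps Φ sg a f R D' (Metric.closedBall uc r) →
    (∀ e ∈ G1, |H.wd e - f.val (k6b_disc H.Pst Φ) (Y.pos e)| ≤ 2 * K * a₂) →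
    k6b_CoreHyp D' (k6b_disc H.Pst Φ) f R uc r 1 A a a₂ h S v ER E7 →
    c * A ^ c * h ≤ a₂ / a →
    ∃ Pn : k6b_QW, Pn.Quad ∧ |Pn.dww| ≤ c * A ^ c / a₂ ∧
      (∀ e ∈ G4, 1 ≤ c * A ^ c * |Pn.dw (Y.pos e) (H.wd e)|) ∧
      ∀ e ∈ G4, ∀ τ ∈ Set.Icc (0 : ℝ) 1,
        |Pn.ev (Y.pos (e.1, τ)) (H.wd (e.1, τ))| ≤ c * A ^ c * a₂ ∧
        |Pn.dw (Y.pos (e.1, τ)) (H.wd (e.1, τ))| ≤ c * A ^ c

/-!
## M2 = THE GLUE      `k6b_main_v2_of : k6b_v2a_stmt → k6b_v2b_stmt → k6b_v2c_stmt → k6b_v2d_stmt → k6b_v2e_stmt → k6b_branch_stmt → k6b_dev_exists_stmt → k6b_main_v2_stmt`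
`D'` from W1 at `D + 1`; `cB = c(D)`, `cC, cD, cE = c(D')`.  With `A₀` the slack of part A: `A₁ = cB A₀^cB`, `A₂ = max (cC A₁^cC) (5 A₁³)`, `A₃ = cD A₂^cD`, `A₄ = cE A₃^cE`, all `≤ C A₀^M`, `M = M(cB, cC, cD, cE)`.
`ε₀ = ε / M`; `(cA, kA)` from part A at `ε₀`; `A₀ = cA K^kA ξ^{-ε₀}`; final `c = C cA^M` (times the constant of the mass), `k = kA M`, `(ξ^{-ε₀})^M = ξ^{-ε}` (`Real.rpow_natCast`, `Real.rpow_mul`).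
All smallness hypotheses of the parts follow from the margins of `k6b_main_v2_stmt` with the FINAL constant (monotonicity; `ξ^{-ε} ≥ 1`).   W1 on `U`: `0 < Dl` by `V2B.dl`, `V2B.lin`.   R0 gives `S`.   `Fam = G4`;
mass: `κ ≤ A₀ μ(F4) ≤ A₀ A₁ μ(G4)`.   `V2A.vol`, `V2A.fit` restrict from `F1` to `G1 ⊆ F4 ⊆ F1`.
-/

end

end Claimed.Agent.R252
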